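import Crest.Agent.R051.AP5

/-! Row 51: the ratios cannot cluster. -/

set_option autoImplicit false

open Finset
open scoped Classical Pointwise

namespace Crest.Agent.R051

namespace AD

lemma clus_pack {A : AD} {k : ℝ} (hk : 0 < k) {ψ : ℝ → ℝ} {i : ℕ} {s e0 D : ℝ} (hs : s ≠ 0)
    (he : 0 < e0) (hD : 1 ≤ D) (Z Y : Finset Ln) (hZ : ∀ δ ∈ Z, A.Cmp1 k ψ i (e0 / |s|) δ)
    (hY : ∀ δ ∈ Z, ∀ δ' ∈ A.ty i, |A.U i δ' - A.U i δ| ≤ D * (e0 / |s|) / 2 → δ' ∈ Y) :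
    A.m * ψ D * #(Z.image fun δ => ⌊s / e0 * A.U i δ / D⌋) ≤ 2 * k * #Y := by
  have e : |s / e0|⁻¹ = e0 / |s| := by rw [abs_div, abs_of_pos he, inv_div]
  have h := pack (A := A) i (c := s / e0) (div_ne_zero hs he.ne') 0 D (A.m * ψ D / k)
    (by linarith) Z Y (fun δ hδ => by
      rw [e, div_le_iff₀' hk]; exact (hZ δ hδ D hD).2) (by rw [e]; exact hY)
  simp only [add_zero] at h
  rw [div_mul_eq_mul_div, div_le_iff₀ hk] at h
  linarith

lemma clus_floor {x y D : ℝ} (hD : 0 < D) (h : ⌊x / D⌋ = ⌊y / D⌋) : |x - y| ≤ D := by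
  have h1 := (Int.abs_sub_lt_one_of_floor_eq_floor h).le
  rwa [← sub_div, abs_div, abs_of_pos hD, div_le_one hD] at h1

lemma clus_unscale {s e0 u v ρ : ℝ} (hs : s ≠ 0) (he : 0 < e0)
    (h : |s / e0 * u - s / e0 * v| ≤ ρ) : |u - v| ≤ ρ * (e0 / |s|) := by
  have hs' : 0 < |s| := abs_pos.2 hs
  rw [← mul_sub, abs_mul, abs_div, abs_of_pos he, div_mul_eq_mul_div, div_le_iff₀ he] at h
  rw [← mul_div_assoc, le_div_iff₀ hs']
  linarith

/-- a column which sees many incidences -/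
lemma clus_deg {C : Finset ℕ} {Γ : Finset Ln} {Gi : ℕ → Finset Ln} (hC : C.Nonempty)
    (hG : ∀ i ∈ C, Gi i ⊆ Γ) {k μ : ℝ} (hk : 0 < k) (hμ : 0 < μ) (h1 : (#Γ : ℝ) ≤ k * μ)
    (h2 : ∀ i ∈ C, μ ≤ k * #(Gi i)) :
    ∃ i1 ∈ C, #C * μ ≤ k ^ 3 * ∑ δ ∈ Gi i1, (#{i ∈ C | δ ∈ Gi i} : ℝ) := by
  have sw : ∀ f : Ln → ℝ, ∑ δ ∈ Γ, (#{i ∈ C | δ ∈ Gi i} : ℝ) * f δ = ∑ i ∈ C, ∑ δ ∈ Gi i, f δ := by
    intro f
    simp only [card_filter, Nat.cast_sum, sum_mul]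
    rw [sum_comm]
    refine sum_congr rfl fun i hi => ?_
    rw [← sum_subset (hG i hi) (fun δ _ hδ => by rw [if_neg hδ, Nat.cast_zero, zero_mul])]
    exact sum_congr rfl fun δ hδ => by rw [if_pos hδ, Nat.cast_one, one_mul]
  obtain ⟨i1, hi1, hmax⟩ := exists_max_image C
    (fun i1 => ∑ δ ∈ Gi i1, (#{i ∈ C | δ ∈ Gi i} : ℝ)) hC
  refine ⟨i1, hi1, ?_⟩
  have hw : (0 : ℝ) < #C := by exact_mod_cast hC.card_pos
  have e1 := sw fun _ => 1
  have e2 := sw fun δ => (#{i ∈ C | δ ∈ Gi i} : ℝ)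
  simp only [mul_one, sum_const, nsmul_eq_mul] at e1
  have h3 : #C * μ ≤ k * ∑ δ ∈ Γ, (#{i ∈ C | δ ∈ Gi i} : ℝ) := by
    rw [e1, mul_sum, ← nsmul_eq_mul]
    exact card_nsmul_le_sum _ _ _ h2
  have h4 := sq_sum_le_card_mul_sum_sq (s := Γ) (f := fun δ => (#{i ∈ C | δ ∈ Gi i} : ℝ))
  have h5 : ∑ δ ∈ Γ, (#{i ∈ C | δ ∈ Gi i} : ℝ) ^ 2 ≤
      #C * ∑ δ ∈ Gi i1, (#{i ∈ C | δ ∈ Gi i} : ℝ) := by
    simp only [sq]
    rw [e2, ← nsmul_eq_mul]
    exact sum_le_card_nsmul _ _ _ hmax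
  have h0 : 0 ≤ ∑ δ ∈ Γ, (#{i ∈ C | δ ∈ Gi i} : ℝ) ^ 2 := sum_nonneg fun _ _ => sq_nonneg _
  have h6 : (#C * μ) ^ 2 ≤ k ^ 2 * (k * μ * (#C * ∑ δ ∈ Gi i1, (#{i ∈ C | δ ∈ Gi i} : ℝ))) := by
    refine (pow_le_pow_left₀ (mul_pos hw hμ).le h3 2).trans ?_
    rw [mul_pow]
    refine mul_le_mul_of_nonneg_left (h4.trans ?_) (sq_nonneg k)
    exact mul_le_mul h1 h5 h0 (mul_pos hk hμ).le
  refine le_of_mul_le_mul_left ?_ (mul_pos hw hμ)
  linarith

/-- a class which is both large and rich -/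
lemma clus_class {β : Type} [DecidableEq β] (Z : Finset Ln) (hZ : Z.Nonempty) (κ : Ln → β) (d : Ln → ℝ) {θ : ℝ}
    (h : 2 * θ * #Z ≤ ∑ δ ∈ Z, d δ) :
    ∃ c ∈ Z.image κ, θ * #{δ ∈ Z | κ δ = c} + (∑ δ ∈ Z, d δ) / (2 * #(Z.image κ)) ≤
      ∑ δ ∈ Z with κ δ = c, d δ := by
  have hM : (0 : ℝ) < #(Z.image κ) := by exact_mod_cast (hZ.image κ).card_pos
  refine exists_le_of_sum_le (hZ.image κ) ?_
  rw [sum_fiberwise_of_maps_to fun δ hδ => mem_image_of_mem κ hδ, sum_add_distrib, ← mul_sum,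
    ← Nat.cast_sum, ← card_eq_sum_card_image, sum_const, nsmul_eq_mul]
  have : (#(Z.image κ) : ℝ) * ((∑ δ ∈ Z, d δ) / (2 * #(Z.image κ))) = (∑ δ ∈ Z, d δ) / 2 := by
    field_simp
  rw [this]
  linarith

lemma clus_card3 (Z : Finset Ln) (α β γ : Ln → ℤ) {t B : ℝ} (ht : 0 ≤ t) (hB : 0 ≤ B)
    (h : ∀ δ0 ∈ Z, t * #(({δ ∈ Z | α δ = α δ0 ∧ β δ = β δ0} : Finset Ln).image γ) ≤ B) :
    t * #(Z.image fun δ => (α δ, β δ, γ δ)) ≤ #(Z.image α) * #(Z.image β) * B := by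
  have hsub : (Z.image fun δ => (α δ, β δ, γ δ)) ⊆ (Z.image α ×ˢ Z.image β).biUnion fun p =>
      (({δ ∈ Z | α δ = p.1 ∧ β δ = p.2} : Finset Ln).image γ).image fun g => (p.1, p.2, g) := by
    intro x hx
    obtain ⟨δ, hδ, rfl⟩ := mem_image.1 hx
    refine mem_biUnion.2 ⟨(α δ, β δ), mem_product.2 ⟨mem_image_of_mem _ hδ, mem_image_of_mem _ hδ⟩,
      mem_image.2 ⟨γ δ, mem_image_of_mem _ (mem_filter.2 ⟨hδ, rfl, rfl⟩), rfl⟩⟩
  have h1 : (#(Z.image fun δ => (α δ, β δ, γ δ)) : ℝ) ≤ ∑ p ∈ Z.image α ×ˢ Z.image β,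
      (#(({δ ∈ Z | α δ = p.1 ∧ β δ = p.2} : Finset Ln).image γ) : ℝ) := by
    have := (card_le_card hsub).trans (card_biUnion_le.trans
      (sum_le_sum fun p _ => card_image_le))
    exact_mod_cast this
  refine (mul_le_mul_of_nonneg_left h1 ht).trans ?_
  rw [mul_sum, ← Nat.cast_mul, ← card_product, ← nsmul_eq_mul]
  refine sum_le_card_nsmul _ _ _ fun p _ => ?_
  rcases ({δ ∈ Z | α δ = p.1 ∧ β δ = p.2} : Finset Ln).eq_empty_or_nonempty with h0 | ⟨δ0, h0⟩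
  · rw [h0]; simpa using hB
  · obtain ⟨h2, h3, h4⟩ := mem_filter.1 h0
    rw [← h3, ← h4]
    exact h δ0 h2

lemma clus_num {k w G M S N m L a d r : ℝ} (hk : 2 ≤ k) (hw : 0 < w) (hG : 0 ≤ G) (hM : 0 < M)
    (hm : 0 < m) (hL : 0 < L) (ha : 0 ≤ a) (hd : 1 ≤ d) (hr : 1 ≤ r)
    (h1 : w * (m * L) ≤ k ^ 3 * S) (h2 : w / (2 * k ^ 4) * G + S / (2 * M) ≤ N) (h3 : N ≤ w * G)
    (h4 : M * d * r ≤ 40 * k ^ 7 * L ^ 2) (h5 : a ≤ 8 * k ^ 2 * d)
    (h6 : N ^ 3 ≤ 4 * w ^ 2 * (k * a ^ 2 * G * (G + m / L) * m)) : w * r ≤ k ^ 61 * L * d := by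
  have hk0 : 0 < k := by linarith
  have hk1 : 1 ≤ k := by linarith
  have hS : 0 ≤ S := by
    have : 0 < k ^ 3 * S := lt_of_lt_of_le (by positivity) h1
    exact ((mul_pos_iff_of_pos_left (by positivity)).1 this).le
  have g1 : w / (2 * k ^ 4) * G ≤ N := by
    have : 0 ≤ S / (2 * M) := by positivity
    linarith
  have g2 : S ≤ w * G * (2 * M) := by
    rw [← div_le_iff₀ (by positivity)]
    have : 0 ≤ w / (2 * k ^ 4) * G := by positivity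
    linarith
  have g3 : m * L ≤ 2 * k ^ 3 * M * G := by
    refine le_of_mul_le_mul_left ?_ hw
    calc w * (m * L) ≤ k ^ 3 * S := h1
      _ ≤ k ^ 3 * (w * G * (2 * M)) := by gcongr
      _ = _ := by ring
  have hG0 : 0 < G := by
    have : 0 < 2 * k ^ 3 * M * G := lt_of_lt_of_le (by positivity) g3
    exact (mul_pos_iff_of_pos_left (by positivity)).1 this
  have g4 : m * d * r ≤ 80 * k ^ 10 * G * L := by
    refine le_of_mul_le_mul_left ?_ hL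
    calc L * (m * d * r) = m * L * (d * r) := by ring
      _ ≤ 2 * k ^ 3 * M * G * (d * r) := by gcongr
      _ = 2 * k ^ 3 * G * (M * d * r) := by ring
      _ ≤ 2 * k ^ 3 * G * (40 * k ^ 7 * L ^ 2) := by gcongr
      _ = _ := by ring
  have g5 : G + m / L ≤ 81 * k ^ 10 * G := by
    have e1 : m / L ≤ 80 * k ^ 10 * G := by
      rw [div_le_iff₀ hL]
      refine le_trans ?_ g4
      calc m = m * 1 * 1 := by ring
        _ ≤ m * d * r := by gcongr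
    have e2 : 1 * G ≤ k ^ 10 * G := mul_le_mul_of_nonneg_right (one_le_pow₀ hk1) hG
    linarith
  have g6 : w * G ≤ 165888 * k ^ 27 * d ^ 2 * m := by
    have e1 : (w / (2 * k ^ 4) * G) ^ 3 ≤
        4 * w ^ 2 * (k * (8 * k ^ 2 * d) ^ 2 * G * (81 * k ^ 10 * G) * m) := by
      refine (pow_le_pow_left₀ (by positivity) g1 3).trans (h6.trans ?_)
      gcongr
    rw [div_mul_eq_mul_div, div_pow, div_le_iff₀ (by positivity)] at e1
    refine le_of_mul_le_mul_left ?_ (show 0 < (w * G) ^ 2 by positivity)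
    calc (w * G) ^ 2 * (w * G) = (w * G) ^ 3 := by ring
      _ ≤ _ := e1
      _ = _ := by ring
  have g7 : (13271040 : ℝ) ≤ k ^ 24 :=
    le_trans (by norm_num) (pow_le_pow_left₀ (by norm_num : (0 : ℝ) ≤ 2) hk 24)
  refine le_of_mul_le_mul_left ?_ (show 0 < m * d by positivity)
  calc m * d * (w * r) = w * (m * d * r) := by ring
    _ ≤ w * (80 * k ^ 10 * G * L) := by gcongr
    _ = 80 * k ^ 10 * L * (w * G) := by ring
    _ ≤ 80 * k ^ 10 * L * (165888 * k ^ 27 * d ^ 2 * m) := by gcongr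
    _ = 13271040 * (k ^ 37 * L * d ^ 2 * m) := by ring
    _ ≤ k ^ 24 * (k ^ 37 * L * d ^ 2 * m) := by gcongr
    _ = _ := by ring

/-- Let `𝒞` be the cluster, `w = #𝒞 > 0` (so `|x0| ≤ 2`), `R = D / ω ≥ 1`, `a = U j / e0`,
`b = q i0 U l / e0`.  Lines in `Gi i` for at least `w / (2 k²)` columns `i ∈ 𝒞` number
`≥ m L / (2 k)`.  By `pack` there are at most `2 k² L / ψ R` classes `⌊a / R⌋` and as many
`⌊b / R⌋`; take the fullest box, then a column `i1 ∈ 𝒞` with a share `1 / (2 k²)` of it in `Gi i1`,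
then the fullest class of `⌊r i1 U i1 / (e0 D)⌋` (on the box `r i1 U i1 / e0 = a + (q i1 / q i0) b ± 1`
varies by at most `2 R + 2`, so `pack` gives `≤ k ^ c ψ R / ψ D` classes).  This leaves `Γ'` with
`G ≥ m ψ R ψ D / (k ^ c L)` lines on which `a + x0 b` varies by at most `2 D + 2`; for every
`i ∈ 𝒞` the lines of `Γ' ∩ Gi i` have `r i U i / e0` within `3 D + 4 ≤ 7 D` of one of them.
`p5_int` with `a = ⌈k ψ (7 D)⌉`: `(G w / (2 k²))³ ≤ 4 w² k a² G (G + m / L) m`, and `m / L ≤ k ^ c G`. -/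
theorem clus : ∃ C : ℕ, ∀ (A : AD) (k : ℝ), A.OK k → ∀ j l A1 Gi e0 ψ,
    A.Prof k j l A1 Gi e0 ψ → ∀ i0 ∈ A1, ∀ ω D x0 : ℝ, 0 < ω → ω ≤ 1 → 1 ≤ D →
    (#{i ∈ A1 | |A.q j l i| ≤ |A.q j l i0| ∧ |A.q j l i / A.q j l i0 - x0| ≤ ω} : ℝ) * ψ (D / ω) ≤
      k ^ C * A.L * ψ D := by
  refine ⟨61, fun A k h j l A1 Gi e0 ψ hP i0 hi0 ω D x0 hω hω1 hD => ?_⟩
  set C : Finset ℕ := {i ∈ A1 | |A.q j l i| ≤ |A.q j l i0| ∧ |A.q j l i / A.q j l i0 - x0| ≤ ω}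
    with hC
  have hk0 : 0 < k := by linarith [h.k2]
  have hL : 0 < A.L := by linarith [h.L1]
  have hm : (0 : ℝ) < A.m := by exact_mod_cast (by linarith [h.m2] : 0 < A.m)
  have he := hP.e0pos
  have hψD := hP.psi.pos hD
  rcases C.eq_empty_or_nonempty with h0 | hne
  · rw [h0, card_empty, Nat.cast_zero, zero_mul]; positivity
  set R := D / ω with hR
  have hDR : D ≤ R := by
    rw [hR, le_div_iff₀ hω]; exact mul_le_of_le_one_right (by linarith) hω1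
  have hR1 : 1 ≤ R := hD.trans hDR
  have hωR : ω * R = D := by rw [hR]; field_simp
  have hψR := hP.psi.pos hR1
  have hCA : ∀ i ∈ C, i ∈ A1 := fun i hi => (mem_filter.1 hi).1
  have hty := hP.tri.ty
  have hGΓ : ∀ i ∈ C, Gi i ⊆ A.Γ := fun i hi δ hδ => (mem_ty.1 (hty i (hCA i hi) δ hδ).1).1
  have hq0 := (Tri.q_ne h hP.tri hi0).1
  obtain ⟨i1, hi1, hS⟩ := clus_deg hne hGΓ hk0 (mul_pos hm hL) (by linarith [h.Γ_card])
    fun i hi => hP.tri.Gbig i (hCA i hi)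
  have hr1 := (Tri.q_ne h hP.tri (hCA i1 hi1)).2
  -- the linear relation
  have lin : ∀ i ∈ C, ∀ δ ∈ Gi i, ∀ δ' ∈ Gi i,
      |A.r j l i / e0 * A.U i δ - A.r j l i / e0 * A.U i δ' -
        ((1 / e0 * A.U j δ - 1 / e0 * A.U j δ') + A.q j l i / A.q j l i0 *
          (A.q j l i0 / e0 * A.U l δ - A.q j l i0 / e0 * A.U l δ'))| ≤ 2 := by
    intro i hi δ hδ δ' hδ'
    have e : A.r j l i / e0 * A.U i δ - A.r j l i / e0 * A.U i δ' -
        ((1 / e0 * A.U j δ - 1 / e0 * A.U j δ') + A.q j l i / A.q j l i0 *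
          (A.q j l i0 / e0 * A.U l δ - A.q j l i0 / e0 * A.U l δ')) =
        (A.err j l i δ' - A.err j l i δ) / e0 := by
      unfold err; field_simp; ring
    rw [e, abs_div, abs_of_pos he, div_le_iff₀ he]
    have h1 := hP.err i (hCA i hi) δ hδ
    have h2 := hP.err i (hCA i hi) δ' hδ'
    have h3 := abs_sub (A.err j l i δ') (A.err j l i δ)
    linarith
  have hx1 : ∀ i ∈ C, |A.q j l i / A.q j l i0| ≤ 1 := fun i hi => by
    rw [abs_div, div_le_one (abs_pos.2 hq0)]; exact (mem_filter.1 hi).2.1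
  set Z := Gi i1 with hZ
  set α : Ln → ℤ := fun δ => ⌊1 / e0 * A.U j δ / R⌋ with hα
  set β : Ln → ℤ := fun δ => ⌊A.q j l i0 / e0 * A.U l δ / R⌋ with hβ
  set γ : Ln → ℤ := fun δ => ⌊A.r j l i1 / e0 * A.U i1 δ / D⌋ with hγ
  have hZne : Z.Nonempty := by
    have h1 := hP.tri.Gbig i1 (hCA i1 hi1)
    have : (0 : ℝ) < k * #Z := lt_of_lt_of_le (mul_pos hm hL) h1
    have : (0 : ℝ) < #Z := (mul_pos_iff_of_pos_left hk0).1 this
    exact card_pos.1 (by exact_mod_cast this)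
  have cα : ψ R * #(Z.image α) ≤ 2 * k ^ 2 * A.L := by
    have h1 := clus_pack hk0 (ψ := ψ) (i := j) one_ne_zero he hR1 Z (A.ty j)
      (fun δ hδ => by simpa using hP.cj i1 (hCA i1 hi1) δ hδ) fun _ _ _ h' _ => h'
    refine le_of_mul_le_mul_left ?_ hm
    rw [← mul_assoc]
    refine h1.trans ((mul_le_mul_of_nonneg_left (h.ty_card j) (by positivity)).trans_eq ?_)
    ring
  have cβ : ψ R * #(Z.image β) ≤ 2 * k ^ 2 * A.L := by
    have h1 := clus_pack hk0 (ψ := ψ) (i := l) hq0 he hR1 Z (A.ty l)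
      (fun δ hδ => hP.cl i1 (hCA i1 hi1) δ hδ i0 hi0) fun _ _ _ h' _ => h'
    refine le_of_mul_le_mul_left ?_ hm
    rw [← mul_assoc]
    refine h1.trans ((mul_le_mul_of_nonneg_left (h.ty_card l) (by positivity)).trans_eq ?_)
    ring
  have cγ : ∀ δ0 ∈ Z, ψ D * #(({δ ∈ Z | α δ = α δ0 ∧ β δ = β δ0} : Finset Ln).image γ) ≤
      10 * k ^ 3 * ψ R := by
    intro δ0 hδ0
    have h1 := clus_pack hk0 (ψ := ψ) (i := i1) hr1 he hD {δ ∈ Z | α δ = α δ0 ∧ β δ = β δ0}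
      {δ' ∈ A.ty i1 | |A.U i1 δ' - A.U i1 δ0| ≤ 5 * R * (e0 / |A.r j l i1|)}
      (fun δ hδ => hP.ci i1 (hCA i1 hi1) δ (mem_filter.1 hδ).1) (by
        intro δ hδ δ' hδ' hd
        obtain ⟨g1, g2, g3⟩ := mem_filter.1 hδ
        refine mem_filter.2 ⟨hδ', ?_⟩
        have f1 := clus_floor (by linarith) g2
        have f2 := clus_floor (by linarith) g3
        have f3 := lin i1 hi1 δ g1 δ0 hδ0
        have f4 : |A.q j l i1 / A.q j l i0 *
            (A.q j l i0 / e0 * A.U l δ - A.q j l i0 / e0 * A.U l δ0)| ≤ R := by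
          rw [abs_mul]
          exact (mul_le_mul (hx1 i1 hi1) f2 (abs_nonneg _) zero_le_one).trans_eq (one_mul _)
        have f5 : |A.r j l i1 / e0 * A.U i1 δ - A.r j l i1 / e0 * A.U i1 δ0| ≤ 4 * R := by
          rw [abs_le] at f1 f3 f4 ⊢
          constructor <;> linarith [f1.1, f1.2, f3.1, f3.2, f4.1, f4.2]
        have f6 := clus_unscale hr1 he f5
        have f7 : 0 < e0 / |A.r j l i1| := div_pos he (abs_pos.2 hr1)
        have f8 := abs_sub_le (A.U i1 δ') (A.U i1 δ) (A.U i1 δ0)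
        have f9 := mul_le_mul_of_nonneg_right hDR f7.le
        have f10 := mul_pos (show 0 < R by linarith) f7
        linarith)
    have h2 := (hP.ci i1 (hCA i1 hi1) δ0 hδ0 (5 * R) (by linarith)).1
    have h3 := hP.psi.lip 5 R (by norm_num) hR1
    unfold nu at h2
    refine le_of_mul_le_mul_left ?_ hm
    calc A.m * (ψ D * #(({δ ∈ Z | α δ = α δ0 ∧ β δ = β δ0} : Finset Ln).image γ)) ≤
          2 * k * (k * A.m * ψ (5 * R)) := by
          rw [← mul_assoc]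
          exact h1.trans (mul_le_mul_of_nonneg_left h2 (by positivity))
      _ ≤ 2 * k * (k * A.m * (k * 5 * ψ R)) := by gcongr
      _ = _ := by ring
  have cM : (#(Z.image fun δ => (α δ, β δ, γ δ)) : ℝ) * ψ D * ψ R ≤ 40 * k ^ 7 * A.L ^ 2 := by
    have h1 := clus_card3 Z α β γ (by linarith) (by positivity) cγ
    refine le_of_mul_le_mul_left ?_ (show 0 < ψ R by linarith)
    calc ψ R * (#(Z.image fun δ => (α δ, β δ, γ δ)) * ψ D * ψ R)
        = ψ R * ψ R * (ψ D * #(Z.image fun δ => (α δ, β δ, γ δ))) := by ring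
      _ ≤ ψ R * ψ R * (#(Z.image α) * #(Z.image β) * (10 * k ^ 3 * ψ R)) := by gcongr
      _ = (ψ R * #(Z.image α)) * (ψ R * #(Z.image β)) * (10 * k ^ 3 * ψ R) := by ring
      _ ≤ (2 * k ^ 2 * A.L) * (2 * k ^ 2 * A.L) * (10 * k ^ 3 * ψ R) := by gcongr
      _ = _ := by ring
  have hw : (0 : ℝ) < #C := by exact_mod_cast hne.card_pos
  obtain ⟨c, -, hc⟩ := clus_class Z hZne (fun δ => (α δ, β δ, γ δ))
    (fun δ => (#{i ∈ C | δ ∈ Gi i} : ℝ)) (θ := #C / (2 * k ^ 4)) (by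
      have h1 : (#Z : ℝ) ≤ k * A.m * A.L :=
        (Nat.cast_le.2 (card_le_card (hGΓ i1 hi1))).trans h.Γ_card
      refine le_of_mul_le_mul_left (le_trans ?_ hS) (show 0 < k ^ 3 by positivity)
      calc k ^ 3 * (2 * (#C / (2 * k ^ 4)) * #Z) ≤
            k ^ 3 * (2 * (#C / (2 * k ^ 4)) * (k * A.m * A.L)) := by gcongr
        _ = _ := by field_simp)
  set Γ' : Finset Ln := {δ ∈ Z | (α δ, β δ, γ δ) = c} with hΓ'
  set N : Finset (ℕ × Ln) := {x ∈ C ×ˢ Γ' | x.2 ∈ Gi x.1} with hN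
  have eN : (#N : ℝ) = ∑ δ ∈ Γ', (#{i ∈ C | δ ∈ Gi i} : ℝ) := by
    rw [hN, card_filter, sum_product_right]
    simp only [card_filter, Nat.cast_sum]
  have hNle : (#N : ℝ) ≤ #C * #Γ' := by
    have := card_filter_le (C ×ˢ Γ') fun x => x.2 ∈ Gi x.1
    rw [card_product] at this
    exact_mod_cast this
  set J : Finset ℕ := {i ∈ C | ∃ δ ∈ Γ', δ ∈ Gi i} with hJ
  have hg : ∀ i ∈ J, ∃ δ ∈ Γ', δ ∈ Gi i := fun i hi => (mem_filter.1 hi).2
  choose! g hg1 hg2 using hg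
  have h7 : 1 ≤ ψ (7 * D) := hP.psi.pos (by linarith)
  have ha1 : 1 ≤ ⌈k * ψ (7 * D)⌉₊ := Nat.one_le_ceil_iff.2 (by positivity)
  have p5 := h.p5_int ⌈k * ψ (7 * D)⌉₊ ha1 Γ' (fun δ hδ => hGΓ i1 hi1 (mem_filter.1 hδ).1) J
    (fun i => A.U i (g i)) (fun i => 7 * D * (e0 / |A.r j l i|)) (by
      intro i hi
      have h1 := (hP.ci i (hCA i (mem_filter.1 hi).1) (g i) (hg2 i hi) (7 * D) (by linarith)).1
      refine h1.trans ?_
      rw [mul_right_comm]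
      exact mul_le_mul_of_nonneg_right (Nat.le_ceil _) hm.le) N (by
      rintro ⟨i, δ⟩ hx
      obtain ⟨h1, h2⟩ := mem_filter.1 hx
      obtain ⟨hi, hδ⟩ := mem_product.1 h1
      simp only at h2 hi hδ ⊢
      have hiJ : i ∈ J := mem_filter.2 ⟨hi, δ, hδ, h2⟩
      refine ⟨(mem_ty.1 (hty i (hCA i hi) δ h2).1).2, hiJ, hδ, ?_⟩
      obtain ⟨z1, c1⟩ := mem_filter.1 hδ
      obtain ⟨z2, c2⟩ := mem_filter.1 (hg1 i hiJ)
      have e := c1.trans c2.symm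
      simp only [Prod.mk.injEq] at e
      have f2 := clus_floor (by linarith) e.2.1
      have f0 := clus_floor (by linarith) e.2.2
      have f3 := lin i1 hi1 δ z1 (g i) z2
      have f4 := lin i hi δ h2 (g i) (hg2 i hiJ)
      have f5 : |A.q j l i / A.q j l i0 - A.q j l i1 / A.q j l i0| ≤ 2 * ω := by
        have a1 := (mem_filter.1 hi).2.2
        have a2 := (mem_filter.1 hi1).2.2
        rw [abs_le] at a1 a2 ⊢
        constructor <;> linarith [a1.1, a1.2, a2.1, a2.2]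
      have f6 : |(A.q j l i / A.q j l i0 - A.q j l i1 / A.q j l i0) *
          (A.q j l i0 / e0 * A.U l δ - A.q j l i0 / e0 * A.U l (g i))| ≤ 2 * D := by
        rw [abs_mul]
        refine (mul_le_mul f5 f2 (abs_nonneg _) (by positivity)).trans_eq ?_
        rw [mul_assoc, hωR]
      refine clus_unscale (Tri.q_ne h hP.tri (hCA i hi)).2 he ?_
      rw [sub_mul] at f6
      rw [abs_le] at f0 f3 f4 f6 ⊢
      constructor <;> linarith [f0.1, f0.2, f3.1, f3.2, f4.1, f4.2, f6.1, f6.2])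
  have hJC : (#J : ℝ) ≤ #C := Nat.cast_le.2 (card_filter_le _ _)
  rw [← eN] at hc
  refine clus_num (a := ⌈k * ψ (7 * D)⌉₊) h.k2 hw (Nat.cast_nonneg _)
    (by exact_mod_cast (hZne.image _).card_pos) hm hL (Nat.cast_nonneg _) hψD hψR hS hc hNle cM ?_
    (p5.trans (by gcongr))
  have h1 := (Nat.ceil_lt_add_one (show 0 ≤ k * ψ (7 * D) by positivity)).le
  have h2 := hP.psi.lip 7 D (by norm_num) hD
  have h3 : 1 ≤ k ^ 2 * ψ D := one_le_mul_of_one_le_of_one_le (one_le_pow₀ (by linarith [h.k2])) hψD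
  linarith [mul_le_mul_of_nonneg_left h2 hk0.le]

end AD

end Crest.Agent.R051
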