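import Crest.Agent.R051.ADefs

/-! Row 51: ranks, cells and columns. -/

set_option autoImplicit false

open Finset
open scoped Classical Pointwise

namespace Crest.Agent.R051

lemma acol_intervals_aux (lo hi : ℕ → ℝ) (a s : ℝ) (J : Finset ℕ) :
    ∀ b : ℝ, a ≤ b → (∀ q ∈ J, ∀ q' ∈ J, q < q' → hi q ≤ lo q') →
      (∀ q ∈ J, s ≤ hi q - lo q ∧ a ≤ lo q ∧ hi q ≤ b) → s * #J ≤ b - a := by
  induction J using Finset.induction_on_max with
  | empty => intro b hab _ _; simp; linarith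
  | insert q J hq ih =>
    intro b hab hord h
    have hqJ : q ∉ J := fun hh => lt_irrefl _ (hq q hh)
    have h1 := h q (mem_insert_self _ _)
    have h2 := ih (lo q) h1.2.1
      (fun x hx y hy hxy => hord x (mem_insert_of_mem hx) y (mem_insert_of_mem hy) hxy)
      (fun x hx => ⟨(h x (mem_insert_of_mem hx)).1, (h x (mem_insert_of_mem hx)).2.1,
        hord x (mem_insert_of_mem hx) q (mem_insert_self _ _) (hq x hx)⟩)
    rw [card_insert_of_notMem hqJ]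
    push_cast
    linarith [h1.1, h1.2.2]

lemma acol_card_erase2 (J : Finset ℕ) (a b : ℕ) : (#J : ℝ) ≤ #((J.erase a).erase b) + 2 := by
  have h1 := Finset.pred_card_le_card_erase (s := J) (a := a)
  have h2 := Finset.pred_card_le_card_erase (s := J.erase a) (a := b)
  have : #J ≤ #((J.erase a).erase b) + 2 := by omega
  exact_mod_cast this

/-- disjoint ordered intervals of length `≥ s` meeting `[p - ρ, p + ρ]`: all but the first and
the last lie inside -/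
lemma card_intervals (J : Finset ℕ) (lo hi : ℕ → ℝ) (p ρ s : ℝ) (hs : 0 < s) (hρ : 0 ≤ ρ)
    (hord : ∀ q ∈ J, ∀ q' ∈ J, q < q' → hi q ≤ lo q')
    (h : ∀ q ∈ J, s ≤ hi q - lo q ∧ lo q ≤ p + ρ ∧ p - ρ ≤ hi q) : s * #J ≤ 2 * ρ + 2 * s := by
  rcases J.eq_empty_or_nonempty with rfl | hJ
  · simp; linarith
  have h0 := J.min'_mem hJ
  have h1 := J.max'_mem hJ
  have key := acol_intervals_aux lo hi (p - ρ) s ((J.erase (J.min' hJ)).erase (J.max' hJ)) (p + ρ)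
    (by linarith)
    (fun q hq q' hq' hqq => hord q (mem_of_mem_erase (mem_of_mem_erase hq)) q'
      (mem_of_mem_erase (mem_of_mem_erase hq')) hqq)
    (fun q hq => by
      simp only [mem_erase] at hq
      obtain ⟨hq1, hq0, hq⟩ := hq
      have a0 : J.min' hJ < q := lt_of_le_of_ne (J.min'_le q hq) (Ne.symm hq0)
      have a1 : q < J.max' hJ := lt_of_le_of_ne (J.le_max' q hq) hq1
      exact ⟨(h q hq).1, (h _ h0).2.2.trans (hord _ h0 q hq a0),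
        (hord q hq _ h1 a1).trans (h _ h1).2.1⟩)
  have h2 := acol_card_erase2 J (J.min' hJ) (J.max' hJ)
  nlinarith

/-- threshold of a monotone function (look at `a 2 ^ n`) -/
lemma exists_thr (f : ℝ → ℝ) {a b θ : ℝ} (ha : 0 < a) (hab : a ≤ b)
    (hf : ∀ x y, a ≤ x → x ≤ y → f x ≤ f y) (h1 : f a < θ) (h2 : θ ≤ f b) :
    ∃ ρ, a ≤ ρ ∧ ρ < b ∧ f ρ < θ ∧ θ ≤ f (2 * ρ) := by
  have hpow : ∀ n : ℕ, a ≤ a * 2 ^ n := fun n =>
    le_mul_of_one_le_right ha.le (one_le_pow₀ (by norm_num))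
  have hex : ∃ n : ℕ, θ ≤ f (a * 2 ^ (n + 1)) := by
    obtain ⟨n, hn⟩ := pow_unbounded_of_one_lt (b / a) (by norm_num : (1 : ℝ) < 2)
    refine ⟨n, h2.trans (hf b _ hab ?_)⟩
    rw [div_lt_iff₀ ha] at hn
    have : (0 : ℝ) < 2 ^ n := by positivity
    rw [pow_succ]; nlinarith
  have hlt : f (a * 2 ^ Nat.find hex) < θ := by
    rcases Nat.eq_zero_or_pos (Nat.find hex) with h0 | h0
    · rw [h0]; simpa using h1
    · have := Nat.find_min hex (Nat.sub_one_lt_of_lt h0)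
      rw [Nat.sub_add_cancel h0] at this
      exact not_le.1 this
  refine ⟨a * 2 ^ Nat.find hex, hpow _, ?_, hlt, ?_⟩
  · by_contra hb
    have := hf b _ hab (not_lt.1 hb)
    linarith
  · have := Nat.find_spec hex
    rwa [pow_succ, ← mul_assoc, mul_comm _ (2 : ℝ)] at this

namespace AD

variable {A : AD} {k : ℝ}

lemma OK.L1 (h : A.OK k) : 1 ≤ A.L := one_le_pow₀ h.lam1

lemma mem_ty {i : ℕ} {δ : Ln} : δ ∈ A.ty i ↔ δ ∈ A.Γ ∧ (i, δ) ∈ A.T := by simp [ty]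

lemma OK.mem_T (h : A.OK k) {x : ℕ × Ln} (hx : x ∈ A.T) : x.1 ∈ A.I ∧ x.2 ∈ A.ty x.1 := by
  have := mem_product.1 (h.T_sub hx)
  exact ⟨this.1, mem_ty.2 ⟨this.2, hx⟩⟩

lemma OK.ty_card (h : A.OK k) (i : ℕ) : (#(A.ty i) : ℝ) ≤ k * A.m * A.L := by
  refine le_trans ?_ h.Γ_card
  exact_mod_cast card_le_card (filter_subset _ _)

lemma rk_lt {i : ℕ} {δ δ' : Ln} (hδ : δ ∈ A.ty i) (h : A.U i δ < A.U i δ') :
    A.rk i δ < A.rk i δ' := by
  unfold rk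
  refine card_lt_card ⟨fun x hx => ?_, fun hx => ?_⟩
  · simp only [mem_filter] at hx ⊢
    exact ⟨hx.1, hx.2.trans h⟩
  · have := hx (mem_filter.2 ⟨hδ, h⟩)
    simp at this

lemma rk_le {i : ℕ} {δ δ' : Ln} (h : A.U i δ ≤ A.U i δ') : A.rk i δ ≤ A.rk i δ' := by
  unfold rk
  refine card_le_card fun x hx => ?_
  simp only [mem_filter] at hx ⊢
  exact ⟨hx.1, hx.2.trans_le h⟩

lemma rk_lt_card {i : ℕ} {δ : Ln} (hδ : δ ∈ A.ty i) : A.rk i δ < #(A.ty i) := by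
  unfold rk
  refine card_lt_card ⟨filter_subset _ _, fun hx => ?_⟩
  have := hx hδ
  simp at this

lemma OK.rk_inj (h : A.OK k) {i : ℕ} (hi : i ∈ A.I) {δ δ' : Ln} (hδ : δ ∈ A.ty i)
    (hδ' : δ' ∈ A.ty i) (hr : A.rk i δ = A.rk i δ') : δ = δ' := by
  refine h.U_inj i hi δ (mem_ty.1 hδ).1 δ' (mem_ty.1 hδ').1 ?_
  rcases lt_trichotomy (A.U i δ) (A.U i δ') with h1 | h1 | h1
  · exact absurd hr (rk_lt hδ h1).ne
  · exact h1
  · exact absurd hr (rk_lt hδ' h1).ne'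

/-- ranks take every value below `#ty` -/
lemma OK.rk_surj (h : A.OK k) {i : ℕ} (hi : i ∈ A.I) {n : ℕ} (hn : n < #(A.ty i)) :
    ∃ δ ∈ A.ty i, A.rk i δ = n := by
  have h1 : (A.ty i).image (A.rk i) = range #(A.ty i) := by
    refine eq_of_subset_of_card_le (fun x hx => ?_) ?_
    · obtain ⟨δ, hδ, rfl⟩ := mem_image.1 hx
      exact mem_range.2 (rk_lt_card hδ)
    · rw [card_range, card_image_of_injOn fun x hx y hy hxy => h.rk_inj hi hx hy hxy]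
  have : n ∈ (A.ty i).image (A.rk i) := by rw [h1]; exact mem_range.2 hn
  exact mem_image.1 this

/-- lines with rank in a set of integers -/
lemma OK.card_rk (h : A.OK k) {i : ℕ} (hi : i ∈ A.I) (N : Finset ℕ) :
    #{δ ∈ A.ty i | A.rk i δ ∈ N} ≤ #N := by
  refine card_le_card_of_injOn (A.rk i) (fun x hx => (mem_filter.1 hx).2) ?_
  intro x hx y hy hxy
  exact h.rk_inj hi (mem_filter.1 hx).1 (mem_filter.1 hy).1 hxy

/-- the rank difference counts the typical lines in between -/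
lemma rk_sub {i : ℕ} {δ δ' : Ln} (h : A.U i δ ≤ A.U i δ') :
    A.rk i δ' = A.rk i δ + #{δ'' ∈ A.ty i | A.U i δ ≤ A.U i δ'' ∧ A.U i δ'' < A.U i δ'} := by
  unfold rk
  rw [← card_union_of_disjoint]
  · congr 1
    ext x
    simp only [mem_filter, mem_union]
    constructor
    · rintro ⟨h1, h2⟩
      rcases lt_or_ge (A.U i x) (A.U i δ) with h3 | h3
      · exact Or.inl ⟨h1, h3⟩
      · exact Or.inr ⟨h1, h3, h2⟩
    · rintro (⟨h1, h2⟩ | ⟨h1, _, h2⟩)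
      · exact ⟨h1, h2.trans_le h⟩
      · exact ⟨h1, h2⟩
  · rw [disjoint_left]
    intro x hx hx'
    simp only [mem_filter] at hx hx'
    linarith [hx.2, hx'.2.1]

lemma acol_mem_cl {i : ℕ} {δ δ' : Ln} : δ' ∈ A.cl i δ ↔ δ' ∈ A.ty i ∧ A.cell i δ' = A.cell i δ := by
  simp [cl]

lemma acol_fin (i : ℕ) (δ : Ln) : (A.U i '' (A.cl i δ : Set Ln)).Finite :=
  (A.cl i δ).finite_toSet.image _

lemma acol_cell_le {i : ℕ} {δ δ' : Ln} (h : A.U i δ ≤ A.U i δ') : A.cell i δ ≤ A.cell i δ' :=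
  Nat.div_le_div_right (rk_le h)

lemma acol_U_lt {i : ℕ} {δ δ' : Ln} (h : A.cell i δ < A.cell i δ') : A.U i δ < A.U i δ' := by
  by_contra h1
  exact absurd (acol_cell_le (not_lt.1 h1)) (not_le.2 h)

lemma cmin_le {i : ℕ} {δ : Ln} (hδ : δ ∈ A.ty i) : A.cmin i δ ≤ A.U i δ ∧ A.U i δ ≤ A.cmax i δ := by
  have hm : A.U i δ ∈ A.U i '' (A.cl i δ : Set Ln) := ⟨δ, mem_coe.2 (acol_mem_cl.2 ⟨hδ, rfl⟩), rfl⟩
  exact ⟨csInf_le (acol_fin i δ).bddBelow hm, le_csSup (acol_fin i δ).bddAbove hm⟩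

lemma cmin_mem {i : ℕ} {δ : Ln} (hδ : δ ∈ A.ty i) :
    (∃ δ' ∈ A.cl i δ, A.U i δ' = A.cmin i δ) ∧ ∃ δ' ∈ A.cl i δ, A.U i δ' = A.cmax i δ := by
  have hm : (A.U i '' (A.cl i δ : Set Ln)).Nonempty :=
    ⟨_, δ, mem_coe.2 (acol_mem_cl.2 ⟨hδ, rfl⟩), rfl⟩
  obtain ⟨x, hx, hx'⟩ := hm.csInf_mem (acol_fin i δ)
  obtain ⟨y, hy, hy'⟩ := hm.csSup_mem (acol_fin i δ)
  exact ⟨⟨x, hx, hx'⟩, ⟨y, hy, hy'⟩⟩

lemma cell_congr {i : ℕ} {δ δ' : Ln} (h : A.cell i δ' = A.cell i δ) :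
    A.cmin i δ' = A.cmin i δ ∧ A.cmax i δ' = A.cmax i δ ∧ A.sz i δ' = A.sz i δ := by
  have : A.cl i δ' = A.cl i δ := by unfold cl; rw [h]
  simp only [sz, cmin, cmax, this, and_self]

lemma cell_ord {i : ℕ} {δ δ' : Ln} (hδ : δ ∈ A.ty i) (hδ' : δ' ∈ A.ty i)
    (h : A.cell i δ < A.cell i δ') : A.cmax i δ < A.cmin i δ' := by
  obtain ⟨x, hx, hx'⟩ := (cmin_mem hδ).2
  obtain ⟨y, hy, hy'⟩ := (cmin_mem hδ').1
  rw [← hx', ← hy']
  apply acol_U_lt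
  rw [(acol_mem_cl.1 hx).2, (acol_mem_cl.1 hy).2]
  exact h

lemma OK.cmin_pos (h : A.OK k) {i : ℕ} (hi : i ∈ A.I) {δ : Ln} (hδ : δ ∈ A.ty i) :
    0 < A.cmin i δ := by
  obtain ⟨y, hy, hy'⟩ := (cmin_mem hδ).1
  rw [← hy']
  exact h.U_pos i hi y (mem_ty.1 (acol_mem_cl.1 hy).1).1

lemma acol_div_iff {m n q : ℕ} (hm : 0 < m) : n / m = q ↔ n ∈ Ico (q * m) (q * m + m) := by
  rw [mem_Ico, Nat.div_eq_iff hm]
  omega

lemma OK.cl_card (h : A.OK k) {i : ℕ} (hi : i ∈ A.I) (δ : Ln) : #(A.cl i δ) ≤ A.m := by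
  have hm : 0 < A.m := by have := h.m2; omega
  have h1 := h.card_rk hi (Ico (A.cell i δ * A.m) (A.cell i δ * A.m + A.m))
  rw [Nat.card_Ico, Nat.add_sub_cancel_left] at h1
  refine le_trans (card_le_card fun x hx => ?_) h1
  exact mem_filter.2 ⟨(acol_mem_cl.1 hx).1, (acol_div_iff hm).1 (acol_mem_cl.1 hx).2⟩

/-- cells other than the last one are full -/
lemma OK.cl_full (h : A.OK k) {i : ℕ} (hi : i ∈ A.I) {δ δ' : Ln} (hδ' : δ' ∈ A.ty i)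
    (hc : A.cell i δ < A.cell i δ') : #(A.cl i δ) = A.m := by
  have hm : 0 < A.m := by have := h.m2; omega
  refine le_antisymm (h.cl_card hi δ) ?_
  have h1 : Ico (A.cell i δ * A.m) (A.cell i δ * A.m + A.m) ⊆ (A.cl i δ).image (A.rk i) := by
    intro n hn
    have h2 : n < #(A.ty i) := by
      have h3 := (mem_Ico.1 hn).2
      have h4 : (A.cell i δ + 1) * A.m ≤ A.cell i δ' * A.m := Nat.mul_le_mul_right _ hc
      have h5 : A.cell i δ' * A.m ≤ A.rk i δ' := Nat.div_mul_le_self _ _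
      have h6 := rk_lt_card hδ'
      rw [Nat.add_mul, one_mul] at h4
      omega
    obtain ⟨x, hx, rfl⟩ := h.rk_surj hi h2
    exact mem_image_of_mem _ (acol_mem_cl.2 ⟨hx, (acol_div_iff hm).2 hn⟩)
  have h2 := (card_le_card h1).trans card_image_le
  rwa [Nat.card_Ico, Nat.add_sub_cancel_left] at h2

lemma OK.cells_card (h : A.OK k) (i : ℕ) :
    (#((A.ty i).image (A.cell i)) : ℝ) ≤ 2 * k * A.L := by
  have hm : (0 : ℝ) < A.m := by have := h.m2; exact_mod_cast (by omega : 0 < A.m)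
  have h1 : (A.ty i).image (A.cell i) ⊆ range (#(A.ty i) / A.m + 1) := by
    intro q hq
    obtain ⟨x, hx, rfl⟩ := mem_image.1 hq
    exact mem_range.2 (Nat.lt_succ_of_le (Nat.div_le_div_right (rk_lt_card hx).le))
  have h2 := card_le_card h1
  rw [card_range] at h2
  have h3 : (#((A.ty i).image (A.cell i)) : ℝ) ≤ ((#(A.ty i) / A.m : ℕ) : ℝ) + 1 := by
    exact_mod_cast h2
  have h4 : ((#(A.ty i) / A.m : ℕ) : ℝ) ≤ (#(A.ty i) : ℝ) / A.m := Nat.cast_div_le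
  have h5 : (#(A.ty i) : ℝ) / A.m ≤ k * A.L := by
    rw [div_le_iff₀ hm]
    have := h.ty_card i
    linarith
  have h6 := h.k2
  have h7 := h.L1
  nlinarith

/-- cells met by an order-convex family -/
lemma OK.acol_cells (h : A.OK k) {i : ℕ} (hi : i ∈ A.I) (P : Ln → Prop)
    (hP : ∀ x y z, P x → P z → A.U i x ≤ A.U i y → A.U i y ≤ A.U i z → P y) (Z : Finset Ln)
    (hZ : ∀ δ ∈ Z, δ ∈ A.ty i ∧ P δ) :
    A.m * (#(Z.image (A.cell i)) : ℝ) ≤ #{δ ∈ A.ty i | P δ} + 3 * A.m := by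
  have hm : (0 : ℝ) ≤ A.m := Nat.cast_nonneg _
  have hN : (0 : ℝ) ≤ #{δ ∈ A.ty i | P δ} := Nat.cast_nonneg _
  rcases (Z.image (A.cell i)).eq_empty_or_nonempty with h0 | hJ
  · rw [h0]; simp only [card_empty, Nat.cast_zero, mul_zero]; linarith
  generalize hJdef : Z.image (A.cell i) = J at hJ
  obtain ⟨x0, hx0, e0⟩ : ∃ x ∈ Z, A.cell i x = J.min' hJ :=
    mem_image.1 (hJdef ▸ J.min'_mem hJ)
  obtain ⟨x1, hx1, e1⟩ : ∃ x ∈ Z, A.cell i x = J.max' hJ :=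
    mem_image.1 (hJdef ▸ J.max'_mem hJ)
  have h2 := acol_card_erase2 J (J.min' hJ) (J.max' hJ)
  have hJ' : ∀ q ∈ (J.erase (J.min' hJ)).erase (J.max' hJ),
      q ∈ J ∧ J.min' hJ < q ∧ q < J.max' hJ := by
    intro q hq
    simp only [mem_erase] at hq
    obtain ⟨hq1, hq0, hq⟩ := hq
    exact ⟨hq, lt_of_le_of_ne (J.min'_le q hq) (Ne.symm hq0),
      lt_of_le_of_ne (J.le_max' q hq) hq1⟩
  generalize (J.erase (J.min' hJ)).erase (J.max' hJ) = J' at h2 hJ'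
  have h3 : ∑ q ∈ J', #{δ ∈ A.ty i | A.cell i δ = q} = #{δ ∈ A.ty i | A.cell i δ ∈ J'} :=
    sum_card_fiberwise_eq_card_filter _ _ _
  have h4 : ∑ q ∈ J', #{δ ∈ A.ty i | A.cell i δ = q} = #J' * A.m := by
    rw [← smul_eq_mul, ← sum_const]
    refine sum_congr rfl fun q hq => ?_
    obtain ⟨y, hy, rfl⟩ := mem_image.1 (hJdef ▸ (hJ' q hq).1)
    exact h.cl_full hi (hZ x1 hx1).1 (e1 ▸ (hJ' _ hq).2.2)
  have h5 : #{δ ∈ A.ty i | A.cell i δ ∈ J'} ≤ #{δ ∈ A.ty i | P δ} := by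
    refine card_le_card fun y hy => ?_
    simp only [mem_filter] at hy ⊢
    refine ⟨hy.1, hP x0 y x1 (hZ x0 hx0).2 (hZ x1 hx1).2 (acol_U_lt ?_).le (acol_U_lt ?_).le⟩
    · rw [e0]; exact (hJ' _ hy.2).2.1
    · rw [e1]; exact (hJ' _ hy.2).2.2
  have h6 : (#J' : ℝ) * A.m ≤ #{δ ∈ A.ty i | P δ} := by
    rw [← h3, h4] at h5
    exact_mod_cast h5
  nlinarith

/-- `cnt`: cells strictly between the extreme cells of `Z` are full and lie in the interval;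
`big`: `card_intervals` for the unscaled hulls with radius `ρ / |c|` -/
lemma OK.col_ok (h : A.OK k) {i : ℕ} (hi : i ∈ A.I) {c : ℝ} (hc : c ≠ 0) :
    (A.col i c).OK A.m (k * A.m * A.L) := by
  have hc0 : 0 < |c| := abs_pos.2 hc
  refine ⟨?_, ?_, ?_, h.ty_card i⟩
  · intro δ hδ δ' hδ' hcell
    simp only [col] at hδ hδ' hcell ⊢
    have h1 := cell_congr hcell
    have h2 := cmin_le hδ
    have h3 := cmin_le hδ'
    rw [h1.1, h1.2.1] at h3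
    refine ⟨by rw [h1.2.2], ?_⟩
    rw [← mul_sub, abs_mul]
    refine mul_le_mul_of_nonneg_left ?_ hc0.le
    unfold sz
    rw [abs_le]; constructor <;> linarith [h2.1, h2.2, h3.1, h3.2]
  · intro p ρ Z hZ hZ'
    simp only [col, Col.nu] at hZ hZ' ⊢
    refine h.acol_cells hi (fun δ => |c * A.U i δ - p| ≤ ρ) ?_ Z fun δ hδ => ⟨hZ hδ, hZ' δ hδ⟩
    intro x y z hx hz hxy hyz
    rw [abs_le] at hx hz ⊢
    rcases le_total 0 c with hc' | hc'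
    · have a1 := mul_le_mul_of_nonneg_left hxy hc'
      have a2 := mul_le_mul_of_nonneg_left hyz hc'
      constructor <;> linarith [hx.1, hz.2]
    · have a1 := mul_le_mul_of_nonpos_left hxy hc'
      have a2 := mul_le_mul_of_nonpos_left hyz hc'
      constructor <;> linarith [hx.2, hz.1]
  · intro p ρ s hs hρ Z hZ hZ'
    simp only [col] at hZ hZ' ⊢
    obtain ⟨p', hp'⟩ : ∃ p' : ℝ, ∀ u : ℝ, |(|c| * u - p')| = |c * u - p| := by
      rcases le_total 0 c with hc' | hc'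
      · exact ⟨p, fun u => by rw [abs_of_nonneg hc']⟩
      · refine ⟨-p, fun u => ?_⟩
        rw [abs_of_nonpos hc', ← abs_neg]; congr 1; ring
    refine card_intervals _
      (fun q => |c| * sInf (A.U i '' (({δ' ∈ A.ty i | A.cell i δ' = q} : Finset Ln) : Set Ln)))
      (fun q => |c| * sSup (A.U i '' (({δ' ∈ A.ty i | A.cell i δ' = q} : Finset Ln) : Set Ln)))
      p' ρ s hs hρ ?_ ?_
    · intro q hq q' hq' hqq
      obtain ⟨x, hx, rfl⟩ := mem_image.1 hq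
      obtain ⟨y, hy, rfl⟩ := mem_image.1 hq'
      exact mul_le_mul_of_nonneg_left (cell_ord (hZ hx) (hZ hy) hqq).le hc0.le
    · intro q hq
      obtain ⟨x, hx, rfl⟩ := mem_image.1 hq
      have h1 := hZ' x hx
      have h2 := cmin_le (hZ hx)
      have h3 := mul_le_mul_of_nonneg_left h2.1 hc0.le
      have h4 := mul_le_mul_of_nonneg_left h2.2 hc0.le
      have h5 := h1.1
      rw [← hp', abs_le] at h5
      change s ≤ |c| * A.cmax i x - |c| * A.cmin i x ∧ |c| * A.cmin i x ≤ p' + ρ ∧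
        p' - ρ ≤ |c| * A.cmax i x
      refine ⟨?_, by linarith [h5.2], by linarith [h5.1]⟩
      have h6 := h1.2
      unfold sz at h6
      linarith

lemma col_nu (i : ℕ) {c : ℝ} (hc : c ≠ 0) (δ : Ln) (ρ : ℝ) :
    (A.col i c).nu (c * A.U i δ) ρ = A.nu i δ (ρ * |c|⁻¹) := by
  have hc0 : 0 < |c| := abs_pos.2 hc
  unfold Col.nu nu
  congr 2
  ext x
  rw [mem_filter, mem_filter]
  change x ∈ A.ty i ∧ |c * A.U i x - c * A.U i δ| ≤ ρ ↔ _
  rw [← mul_sub, abs_mul, ← div_eq_mul_inv, le_div_iff₀ hc0, mul_comm]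

lemma nu_mono (i : ℕ) (δ : Ln) {R R' : ℝ} (h : R ≤ R') : A.nu i δ R ≤ A.nu i δ R' := by
  unfold nu
  refine Nat.cast_le.2 (card_le_card fun x hx => ?_)
  simp only [mem_filter] at hx ⊢
  exact ⟨hx.1, hx.2.trans h⟩

/-- number of cells met by lines within height `R` of `δ` -/
lemma OK.cells_near (h : A.OK k) {i : ℕ} (hi : i ∈ A.I) (δ : Ln) (R : ℝ) (Z : Finset Ln)
    (hZ : ∀ δ' ∈ Z, δ' ∈ A.ty i ∧ |A.U i δ' - A.U i δ| ≤ R) :
    A.m * (#(Z.image (A.cell i)) : ℝ) ≤ A.nu i δ R + 3 * A.m := by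
  unfold nu
  refine h.acol_cells hi (fun δ' => |A.U i δ' - A.U i δ| ≤ R) ?_ Z hZ
  intro x y z hx hz hxy hyz
  rw [abs_le] at hx hz ⊢
  constructor <;> linarith [hx.1, hz.2]

lemma acol_pack (i : ℕ) {c : ℝ} (hc : c ≠ 0) (o D μ : ℝ) (hD : 0 < D) (Z Y : Finset Ln)
    (hZ : ∀ δ ∈ Z, μ ≤ A.nu i δ (D * |c|⁻¹ / 2))
    (hY : ∀ δ ∈ Z, ∀ δ' ∈ A.ty i, |A.U i δ' - A.U i δ| ≤ D * |c|⁻¹ / 2 → δ' ∈ Y)
    (K : Finset ℤ) (hK : K ⊆ Z.image fun δ => ⌊(c * A.U i δ + o) / D⌋)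
    (hK2 : ∀ z ∈ K, ∀ z' ∈ K, z < z' → z + 2 ≤ z') : μ * #K ≤ #Y := by
  have hc0 : 0 < |c| := abs_pos.2 hc
  have hrep : ∀ z : ℤ, ∃ δ : Ln, z ∈ K → δ ∈ Z ∧ ⌊(c * A.U i δ + o) / D⌋ = z := by
    intro z
    by_cases hz : z ∈ K
    · obtain ⟨δ, h1, h2⟩ := mem_image.1 (hK hz)
      exact ⟨δ, fun _ => ⟨h1, h2⟩⟩
    · exact ⟨(0, 0), fun h => absurd h hz⟩
  choose rep hrep using hrep
  have hsep : ∀ z ∈ K, ∀ z' ∈ K, z < z' → ∀ x : Ln,
      |A.U i x - A.U i (rep z)| ≤ D * |c|⁻¹ / 2 → |A.U i x - A.U i (rep z')| ≤ D * |c|⁻¹ / 2 →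
      False := by
    intro z hz z' hz' hzz x h1 h2
    have h3 : |A.U i (rep z') - A.U i (rep z)| ≤ D * |c|⁻¹ := by
      rw [abs_le] at h1 h2 ⊢
      constructor <;> linarith [h1.1, h1.2, h2.1, h2.2]
    rw [← div_eq_mul_inv, le_div_iff₀ hc0, ← abs_mul] at h3
    have h4 := (abs_le.1 h3).2
    have h5 := Int.lt_floor_add_one ((c * A.U i (rep z) + o) / D)
    have h6 := Int.floor_le ((c * A.U i (rep z') + o) / D)
    rw [(hrep z hz).2, div_lt_iff₀ hD] at h5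
    rw [(hrep z' hz').2, le_div_iff₀ hD] at h6
    have h7 : (z : ℝ) + 2 ≤ z' := by exact_mod_cast hK2 z hz z' hz' hzz
    have h8 := mul_le_mul_of_nonneg_right h7 hD.le
    nlinarith
  have h1 : #(K.biUnion fun z => {δ' ∈ A.ty i | |A.U i δ' - A.U i (rep z)| ≤ D * |c|⁻¹ / 2}) =
      ∑ z ∈ K, #{δ' ∈ A.ty i | |A.U i δ' - A.U i (rep z)| ≤ D * |c|⁻¹ / 2} := by
    refine card_biUnion fun z hz z' hz' hne => ?_
    refine disjoint_left.2 fun x hx hx' => ?_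
    rcases lt_or_gt_of_ne hne with hlt | hlt
    · exact hsep z hz z' hz' hlt x (mem_filter.1 hx).2 (mem_filter.1 hx').2
    · exact hsep z' hz' z hz hlt x (mem_filter.1 hx').2 (mem_filter.1 hx).2
  have h2 : #(K.biUnion fun z => {δ' ∈ A.ty i | |A.U i δ' - A.U i (rep z)| ≤ D * |c|⁻¹ / 2}) ≤
      #Y := by
    refine card_le_card fun x hx => ?_
    obtain ⟨z, hz, hx⟩ := mem_biUnion.1 hx
    exact hY _ (hrep z hz).1 x (mem_filter.1 hx).1 (mem_filter.1 hx).2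
  rw [h1] at h2
  have h3 : ((∑ z ∈ K, #{δ' ∈ A.ty i | |A.U i δ' - A.U i (rep z)| ≤ D * |c|⁻¹ / 2} : ℕ) : ℝ) ≤
      #Y := by exact_mod_cast h2
  refine le_trans ?_ h3
  rw [Nat.cast_sum, mul_comm, ← nsmul_eq_mul, ← sum_const]
  exact sum_le_sum fun z hz => hZ _ (hrep z hz).1

/-- packing: representatives of classes of the same parity are more than `D / |c|` apart, so the
intervals of radius `D / (2 |c|)` around them are disjoint -/
lemma pack (i : ℕ) {c : ℝ} (hc : c ≠ 0) (o D μ : ℝ) (hD : 0 < D) (Z Y : Finset Ln)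
    (hZ : ∀ δ ∈ Z, μ ≤ A.nu i δ (D * |c|⁻¹ / 2))
    (hY : ∀ δ ∈ Z, ∀ δ' ∈ A.ty i, |A.U i δ' - A.U i δ| ≤ D * |c|⁻¹ / 2 → δ' ∈ Y) :
    μ * #(Z.image fun δ => ⌊(c * A.U i δ + o) / D⌋) ≤ 2 * #Y := by
  have h1 := acol_pack i hc o D μ hD Z Y hZ hY
    {z ∈ Z.image fun δ => ⌊(c * A.U i δ + o) / D⌋ | z % 2 = 0} (filter_subset _ _)
    (fun z hz z' hz' hzz => by
      have := (mem_filter.1 hz).2
      have := (mem_filter.1 hz').2
      omega)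
  have h2 := acol_pack i hc o D μ hD Z Y hZ hY
    {z ∈ Z.image fun δ => ⌊(c * A.U i δ + o) / D⌋ | ¬ z % 2 = 0} (filter_subset _ _)
    (fun z hz z' hz' hzz => by
      have := (mem_filter.1 hz).2
      have := (mem_filter.1 hz').2
      omega)
  have h3 := card_filter_add_card_filter_not (s := Z.image fun δ => ⌊(c * A.U i δ + o) / D⌋)
    (fun z : ℤ => z % 2 = 0)
  rw [← h3]
  push_cast
  linarith

lemma acol_L_nonneg : 0 ≤ A.L := by unfold L; positivity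

/-- counting lines by pairs of cells -/
lemma Rk2.card_le {Z Z' : Finset Ln} {a b : ℕ} (h : A.Rk2 k Z a b) (hZ : Z' ⊆ Z)
    (hk : 0 ≤ k) : (#Z' : ℝ) * A.L ≤ #(Z'.image (A.cell a)) * #(Z'.image (A.cell b)) * (k * A.m) := by
  have hL : 0 ≤ A.L := acol_L_nonneg
  have hm : (0 : ℝ) ≤ A.m := Nat.cast_nonneg _
  have h1 : #Z' = ∑ y ∈ Z'.image (A.cell a) ×ˢ Z'.image (A.cell b),
      #{δ ∈ Z' | (A.cell a δ, A.cell b δ) = y} :=
    card_eq_sum_card_fiberwise fun δ hδ =>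
      mem_coe.2 (mem_product.2 ⟨mem_image_of_mem _ hδ, mem_image_of_mem _ hδ⟩)
  rw [h1, Nat.cast_sum, sum_mul, ← Nat.cast_mul, ← card_product, ← nsmul_eq_mul, ← sum_const]
  refine sum_le_sum fun y _ => ?_
  rcases ({δ ∈ Z' | (A.cell a δ, A.cell b δ) = y} : Finset Ln).eq_empty_or_nonempty with h0 | h0
  · rw [h0]; simp only [card_empty, Nat.cast_zero, zero_mul]; exact mul_nonneg hk hm
  · obtain ⟨x, hx⟩ := h0
    refine le_trans (mul_le_mul_of_nonneg_right (Nat.cast_le.2 (card_le_card fun z hz => ?_)) hL)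
      (h x (hZ (mem_filter.1 hx).1))
    have e := (mem_filter.1 hz).2.trans (mem_filter.1 hx).2.symm
    exact mem_filter.2 ⟨hZ (mem_filter.1 hz).1, (Prod.ext_iff.1 e).1, (Prod.ext_iff.1 e).2⟩

lemma Tri.q_ne {j l : ℕ} {A0 : Finset ℕ} {Gi : ℕ → Finset Ln} (h : A.OK k) {k' : ℝ}
    (ht : A.Tri k' j l A0 Gi) {i : ℕ} (hi : i ∈ A0) : A.q j l i ≠ 0 ∧ A.r j l i ≠ 0 := by
  have h1 : A.X i ≠ A.X j := fun e => ht.nj (h.X_inj i (ht.sub hi) j ht.hj e ▸ hi)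
  have h2 : A.X i ≠ A.X l := fun e => ht.nl (h.X_inj i (ht.sub hi) l ht.hl e ▸ hi)
  exact ⟨div_ne_zero (sub_ne_zero.2 h1) (sub_ne_zero.2 h2.symm),
    div_ne_zero (sub_ne_zero.2 ht.jl.ne') (sub_ne_zero.2 h2.symm)⟩

lemma Rk2.acol_mono {Z Z' : Finset Ln} {a b : ℕ} {k' : ℝ} (h : A.Rk2 k Z a b) (hZ : Z' ⊆ Z)
    (hk : k ≤ k') : A.Rk2 k' Z' a b := by
  intro δ hδ
  refine le_trans ?_ ((h δ (hZ hδ)).trans (mul_le_mul_of_nonneg_right hk (Nat.cast_nonneg _)))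
  exact mul_le_mul_of_nonneg_right (Nat.cast_le.2 (card_le_card (filter_subset_filter _ hZ)))
    acol_L_nonneg

lemma Tri.mono {j l : ℕ} {A0 : Finset ℕ} {Gi : ℕ → Finset Ln} {k' : ℝ} (ht : A.Tri k j l A0 Gi)
    (hk : k ≤ k') : A.Tri k' j l A0 Gi := by
  exact ⟨ht.hj, ht.hl, ht.jl, ht.sub, ht.nj, ht.nl,
    ht.big.trans (mul_le_mul_of_nonneg_right hk (Nat.cast_nonneg _)), ht.farj, ht.farl, ht.ty,
    fun i hi => (ht.Gbig i hi).trans (mul_le_mul_of_nonneg_right hk (Nat.cast_nonneg _)), ht.pos,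
    fun i hi => ⟨(ht.rk2 i hi).1.acol_mono Subset.rfl hk, (ht.rk2 i hi).2.1.acol_mono Subset.rfl hk,
      (ht.rk2 i hi).2.2.acol_mono Subset.rfl hk⟩, ht.lin⟩

/-- passing to subfamilies -/
lemma Tri.subset {j l : ℕ} {A0 A1 : Finset ℕ} {Gi Gi' : ℕ → Finset Ln} {k' : ℝ}
    (ht : A.Tri k j l A0 Gi) (hk : k ≤ k') (h1 : A1 ⊆ A0) (h2 : ∀ i ∈ A1, Gi' i ⊆ Gi i)
    (h3 : A.L ≤ k' * #A1) (h4 : ∀ i ∈ A1, A.m * A.L ≤ k' * #(Gi' i)) : A.Tri k' j l A1 Gi' := by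
  exact ⟨ht.hj, ht.hl, ht.jl, h1.trans ht.sub, fun h => ht.nj (h1 h), fun h => ht.nl (h1 h),
    h3, ht.farj, ht.farl, fun i hi δ hδ => ht.ty i (h1 hi) δ (h2 i hi hδ), h4,
    fun i hi δ hδ => ht.pos i (h1 hi) δ (h2 i hi hδ),
    fun i hi => ⟨(ht.rk2 i (h1 hi)).1.acol_mono (h2 i hi) hk,
      (ht.rk2 i (h1 hi)).2.1.acol_mono (h2 i hi) hk,
      (ht.rk2 i (h1 hi)).2.2.acol_mono (h2 i hi) hk⟩,
    fun i hi δ hδ => ht.lin i (h1 hi) δ (h2 i hi hδ)⟩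

lemma Cmp1.acol_mono {ψ : ℝ → ℝ} {a : ℕ} {e k' : ℝ} {δ : Ln} (h : A.Cmp1 k ψ a e δ)
    (hψ : Psi k ψ) (hk : k ≤ k') : A.Cmp1 k' ψ a e δ := by
  intro D hD
  have h1 : 0 ≤ ψ D := zero_le_one.trans (hψ.pos hD)
  refine ⟨(h D hD).1.trans ?_, (h D hD).2.trans ?_⟩
  · exact mul_le_mul_of_nonneg_right (mul_le_mul_of_nonneg_right hk (Nat.cast_nonneg _)) h1
  · exact mul_le_mul_of_nonneg_right hk (Nat.cast_nonneg _)

lemma Prof.mono {j l : ℕ} {A1 : Finset ℕ} {Gi : ℕ → Finset Ln} {e0 k' : ℝ} {ψ : ℝ → ℝ}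
    (h : A.Prof k j l A1 Gi e0 ψ) (hk : k ≤ k') : A.Prof k' j l A1 Gi e0 ψ := by
  exact ⟨h.tri.mono hk, h.e0pos, h.psi.mono_k hk,
    fun i hi δ hδ => (h.cj i hi δ hδ).acol_mono h.psi hk,
    fun i hi δ hδ i' hi' => (h.cl i hi δ hδ i' hi').acol_mono h.psi hk,
    fun i hi δ hδ => (h.ci i hi δ hδ).acol_mono h.psi hk, h.err⟩

end AD

end Crest.Agent.R051
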