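import Crest.Agent.R051.ARing
import Crest.Agent.R051.ACol

/-! Row 51: counting separated ring elements. -/

set_option autoImplicit false

open Finset
open scoped Classical Pointwise

namespace Crest.Agent.R051

lemma acnt_up (S : Finset ℤ) (p D : ℝ) :
    #(S.filter fun a : ℤ => |(a : ℝ) - p| ≤ D) = #{a ∈ S | |(a : ℝ) - p| ≤ D} := by
  refine card_bij (fun a _ => (a : ℝ)) ?_ ?_ ?_
  · intro a ha
    simp only [mem_filter] at ha ⊢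
    exact ⟨by simpa using ha.1, ha.2⟩
  · intro a _ b _ h
    exact_mod_cast h
  · intro b hb
    obtain ⟨h1, h2⟩ := mem_filter.1 hb
    obtain ⟨a, ha, rfl⟩ : ∃ a ∈ S, (a : ℝ) = b := by simpa using h1
    exact ⟨a, mem_filter.2 ⟨ha, h2⟩, rfl⟩

lemma acnt_q {S : Finset ℤ} {M D : ℝ} (up : ∀ p : ℝ, (#{a ∈ S | |(a : ℝ) - p| ≤ D} : ℝ) ≤ M) (x : ℝ)
    (T : Finset (ℤ × ℤ)) :
    (#{s ∈ (S ×ˢ S) ×ˢ T | |(s.1.1 : ℝ) - s.1.2 - x * (s.2.1 - s.2.2)| ≤ D} : ℝ) ≤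
      #T * (#S * M) := by
  rw [card_filter, sum_product_right, Nat.cast_sum, ← nsmul_eq_mul]
  refine sum_le_card_nsmul _ _ _ fun t _ => ?_
  rw [sum_product, Nat.cast_sum, ← nsmul_eq_mul]
  refine sum_le_card_nsmul _ _ _ fun a _ => ?_
  rw [← card_filter]
  refine le_trans (le_of_eq ?_) (up (a - x * (t.1 - t.2)))
  rw [← acnt_up]
  congr 2
  ext b
  rw [mem_filter, mem_filter, abs_sub_comm (b : ℝ), sub_right_comm]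

lemma acnt_near {S : Finset ℤ} {M D : ℝ} (up : ∀ p : ℝ, (#{a ∈ S | |(a : ℝ) - p| ≤ D} : ℝ) ≤ M) :
    (#{t ∈ S ×ˢ S | |(t.2 : ℝ) - t.1| ≤ D} : ℝ) ≤ #S * M := by
  rw [card_filter, sum_product, Nat.cast_sum, ← nsmul_eq_mul]
  refine sum_le_card_nsmul _ _ _ fun a _ => ?_
  rw [← card_filter]
  exact (Nat.cast_le.2 (acnt_up S a D).le).trans (up a)

lemma acnt_core {k κ L ρs ω : ℝ} {ψ : ℝ → ℝ} {S : Finset ℤ} (hψ : Psi k ψ)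
    (hκ : 0 ≤ κ * L) (up : ∀ p D : ℝ, 1 ≤ D → (#{a ∈ S | |(a : ℝ) - p| ≤ D} : ℝ) ≤ k * ψ D)
    (h1 : 1 ≤ ρs) (h2 : 2 * k ^ 2 * κ * L * ψ ρs ≤ (#S : ℝ) ^ 2) (h3 : 4 ≤ ω * ρs)
    (Xs : Finset ℝ) (hE : ∀ x ∈ Xs, (#S : ℝ) ^ 4 * ψ (ω * ρs / 4) ≤ κ * L * En S x (ω * ρs / 4))
    (hsep : ∀ y ∈ Xs, ∀ y' ∈ Xs, y ≠ y' → ω < |y - y'|) (Q : Finset ((ℤ × ℤ) × (ℤ × ℤ)))
    (hQ : ∀ x ∈ Xs, ∀ s ∈ (S ×ˢ S) ×ˢ (S ×ˢ S),
      |(s.1.1 : ℝ) - s.1.2 - x * (s.2.1 - s.2.2)| ≤ ω * ρs / 4 → s ∈ Q) :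
    #Xs * ((#S : ℝ) ^ 4 * ψ (ω * ρs / 4)) ≤ 2 * (κ * L) * #Q := by
  set D := ω * ρs / 4 with hD
  have hD1 : 1 ≤ D := by linarith
  have hψD := hψ.pos hD1
  have hk : 0 ≤ k := by linarith [hψ.one, hψ.one']
  let Far : ℝ → Finset ((ℤ × ℤ) × (ℤ × ℤ)) := fun x =>
    {s ∈ Q | |(s.1.1 : ℝ) - s.1.2 - x * (s.2.1 - s.2.2)| ≤ D ∧ ρs < |(s.2.2 : ℝ) - s.2.1|}
  have e1 : ∀ x ∈ Xs, (#S : ℝ) ^ 4 * ψ D ≤ 2 * (κ * L) * #(Far x) := fun x hx => by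
    have a1 := acnt_q (fun p => up p D hD1) x {t ∈ S ×ˢ S | |(t.2 : ℝ) - t.1| ≤ ρs}
    have a2 := mul_le_mul_of_nonneg_right (acnt_near fun p => up p ρs h1)
      (by positivity : (0 : ℝ) ≤ #S * (k * ψ D))
    have a3 : En S x D ≤ #{s ∈ (S ×ˢ S) ×ˢ {t ∈ S ×ˢ S | |(t.2 : ℝ) - t.1| ≤ ρs} |
        |(s.1.1 : ℝ) - s.1.2 - x * (s.2.1 - s.2.2)| ≤ D} + #(Far x) := by
      unfold En
      rw [← Nat.cast_add, Nat.cast_le]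
      refine (card_le_card fun s hs => ?_).trans (card_union_le _ _)
      obtain ⟨hs1, hs2⟩ := mem_filter.1 hs
      rcases le_or_gt |(s.2.2 : ℝ) - s.2.1| ρs with h | h
      · exact mem_union_left _ (mem_filter.2 ⟨mem_product.2 ⟨(mem_product.1 hs1).1,
          mem_filter.2 ⟨(mem_product.1 hs1).2, h⟩⟩, hs2⟩)
      · exact mem_union_right _ (mem_filter.2 ⟨hQ x hx s hs1 hs2, hs2, h⟩)
    have a4 := mul_le_mul_of_nonneg_left (a3.trans (add_le_add (a1.trans a2) le_rfl)) hκ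
    have a5 := mul_le_mul_of_nonneg_right h2 (by positivity : (0 : ℝ) ≤ #S ^ 2 * ψ D)
    nlinarith [hE x hx]
  have e2 : ∑ x ∈ Xs, #(Far x) ≤ #Q := by
    rw [← card_biUnion]
    · exact card_le_card (biUnion_subset.2 fun x _ => filter_subset _ _)
    · intro x hx y hy hxy
      refine disjoint_left.2 fun s hs hs' => ?_
      obtain ⟨-, b1, b2⟩ := mem_filter.1 hs
      obtain ⟨-, b3, -⟩ := mem_filter.1 hs'
      have b4 := hsep x hx y hy hxy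
      have b5 : |x - y| * |(s.2.2 : ℝ) - s.2.1| ≤ D + D := by
        rw [← abs_mul]
        refine le_trans (le_of_eq ?_) ((abs_sub _ _).trans (add_le_add b1 b3))
        congr 1; ring
      have hω : 0 < ω := by by_contra h; nlinarith
      have := mul_lt_mul'' b4 b2 hω.le (by linarith)
      linarith
  calc (#Xs : ℝ) * ((#S : ℝ) ^ 4 * ψ D) = ∑ _x ∈ Xs, (#S : ℝ) ^ 4 * ψ D := by simp
    _ ≤ ∑ x ∈ Xs, 2 * (κ * L) * #(Far x) := sum_le_sum e1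
    _ = 2 * (κ * L) * ((∑ x ∈ Xs, #(Far x) : ℕ) : ℝ) := by rw [← mul_sum, Nat.cast_sum]
    _ ≤ _ := by gcongr

/-- Quadruples with `|s3 - s4| < ρs` are at most half of each energy; a quadruple with
`|s3 - s4| ≥ ρs` is counted for at most one `x`. -/
theorem cnt_global {k κ L ρs ω : ℝ} {ψ : ℝ → ℝ} {S : Finset ℤ} (hψ : Psi k ψ) (hS : S.Nonempty)
    (hκ : 0 ≤ κ * L) (up : ∀ p D : ℝ, 1 ≤ D → (#{a ∈ S | |(a : ℝ) - p| ≤ D} : ℝ) ≤ k * ψ D)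
    (h1 : 1 ≤ ρs) (h2 : 2 * k ^ 2 * κ * L * ψ ρs ≤ (#S : ℝ) ^ 2) (h3 : 4 ≤ ω * ρs)
    (Xs : Finset ℝ) (hE : ∀ x ∈ Xs, (#S : ℝ) ^ 4 * ψ (ω * ρs / 4) ≤ κ * L * En S x (ω * ρs / 4))
    (hsep : ∀ y ∈ Xs, ∀ y' ∈ Xs, y ≠ y' → ω < |y - y'|) :
    #Xs * ψ (ω * ρs / 4) ≤ 2 * κ * L := by

  have h := acnt_core hψ hκ up h1 h2 h3 Xs hE hsep ((S ×ˢ S) ×ˢ (S ×ˢ S)) fun _ _ s hs _ => hs
  have hN : (0 : ℝ) < #S := Nat.cast_pos.2 hS.card_pos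
  simp only [card_product, Nat.cast_mul] at h
  refine le_of_mul_le_mul_left ?_ (by positivity : (0 : ℝ) < #S ^ 4)
  linarith

/-- local version: `s2` is within `2 ρ R0` of `s1 - c (s3 - s4)` -/
theorem cnt_local {k κ L ρs ω ρ R0 c : ℝ} {ψ : ℝ → ℝ} {S : Finset ℤ} (hψ : Psi k ψ)
    (hS : S.Nonempty) (hκ : 0 ≤ κ * L)
    (up : ∀ p D : ℝ, 1 ≤ D → (#{a ∈ S | |(a : ℝ) - p| ≤ D} : ℝ) ≤ k * ψ D)
    (h1 : 1 ≤ ρs) (h2 : 2 * k ^ 2 * κ * L * ψ ρs ≤ (#S : ℝ) ^ 2) (h3 : 4 ≤ ω * ρs)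
    (Xs : Finset ℝ) (hE : ∀ x ∈ Xs, (#S : ℝ) ^ 4 * ψ (ω * ρs / 4) ≤ κ * L * En S x (ω * ρs / 4))
    (hsep : ∀ y ∈ Xs, ∀ y' ∈ Xs, y ≠ y' → ω < |y - y'|)
    (hd : ∀ a ∈ S, ∀ a' ∈ S, |(a : ℝ) - a'| ≤ R0) (hc : ∀ y ∈ Xs, |y - c| ≤ ρ)
    (h4 : ω * ρs / 4 ≤ ρ * R0) :
    #Xs * #S * ψ (ω * ρs / 4) ≤ 2 * κ * L * (k * ψ (2 * ρ * R0)) := by

  have h := acnt_core hψ hκ up h1 h2 h3 Xs hE hsep
    {s ∈ (S ×ˢ S) ×ˢ (S ×ˢ S) | |(s.1.1 : ℝ) - s.1.2 - c * (s.2.1 - s.2.2)| ≤ 2 * ρ * R0}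
    fun x hx s hs hs' => mem_filter.2 ⟨hs, by
      obtain ⟨b1, b2⟩ := mem_product.1 (mem_product.1 hs).2
      have b3 := mul_le_mul (hc x hx) (hd _ b1 _ b2) (abs_nonneg _) ((abs_nonneg _).trans (hc x hx))
      rw [← abs_mul] at b3
      refine le_trans (le_of_eq ?_) ((abs_add_le _ _).trans ((add_le_add hs' b3).trans (by linarith)))
      congr 1; ring⟩
  have hN : (0 : ℝ) < #S := Nat.cast_pos.2 hS.card_pos
  have a1 := mul_le_mul_of_nonneg_left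
    (acnt_q (fun p => up p (2 * ρ * R0) (by linarith)) c (S ×ˢ S)) hκ
  simp only [card_product, Nat.cast_mul] at a1
  refine le_of_mul_le_mul_left ?_ (by positivity : (0 : ℝ) < #S ^ 3)
  linarith

/-- a set of reals has a subset with gaps `> ω` meeting at least half of the classes `⌊y / ω⌋` -/
lemma exists_sep (Y : Finset ℝ) {ω : ℝ} (hω : 0 < ω) :
    ∃ Xs ⊆ Y, (∀ y ∈ Xs, ∀ y' ∈ Xs, y ≠ y' → ω < |y - y'|) ∧
      #(Y.image fun y => ⌊y / ω⌋) ≤ 2 * #Xs := by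

  have key : ∀ r : ℤ, ∃ Xs ⊆ Y, (∀ y ∈ Xs, ∀ y' ∈ Xs, y ≠ y' → ω < |y - y'|) ∧
      #{j ∈ Y.image fun y => ⌊y / ω⌋ | j % 2 = r} = #Xs := fun r => by
    obtain ⟨u, hu1, hu2, hu3⟩ := exists_subset_injOn_image_eq_of_surjOn (f := fun y : ℝ => ⌊y / ω⌋)
      (Y : Set ℝ) {j ∈ Y.image fun y => ⌊y / ω⌋ | j % 2 = r} fun j hj => by
        simpa using (mem_filter.1 (mem_coe.1 hj)).1
    refine ⟨u, coe_subset.1 hu1, fun y hy y' hy' hne => ?_, by rw [← hu3, card_image_of_injOn hu2]⟩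
    have h0 : ∀ y ∈ u, ⌊y / ω⌋ % 2 = r := fun y hy => by
      have := mem_image_of_mem (fun y : ℝ => ⌊y / ω⌋) hy
      rw [hu3] at this
      exact (mem_filter.1 this).2
    have h1 := h0 y hy
    have h2 := h0 y' hy'
    have h3 : ⌊y / ω⌋ ≠ ⌊y' / ω⌋ := fun h => hne (hu2 hy hy' h)
    have gap : ∀ a b : ℝ, ⌊a / ω⌋ + 2 ≤ ⌊b / ω⌋ → ω < b - a := fun a b h => by
      have h4 : ((⌊a / ω⌋ + 2 : ℤ) : ℝ) ≤ ⌊b / ω⌋ := Int.cast_le.2 h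
      push_cast at h4
      have h5 := Int.floor_le (b / ω)
      have h6 := Int.lt_floor_add_one (a / ω)
      have h7 : 1 < (b - a) / ω := by rw [sub_div]; linarith
      rwa [one_lt_div hω] at h7
    rcases lt_or_gt_of_ne h3 with h | h
    · exact lt_abs.2 (Or.inr (by linarith [gap y y' (by omega)]))
    · exact lt_abs.2 (Or.inl (gap y' y (by omega)))
  obtain ⟨X0, a1, a2, a3⟩ := key 0
  obtain ⟨X1, b1, b2, b3⟩ := key 1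
  have h := card_filter_add_card_filter_not (s := Y.image fun y => ⌊y / ω⌋) fun j => j % 2 = 0
  have e : {j ∈ Y.image fun y => ⌊y / ω⌋ | ¬j % 2 = 0} = {j ∈ Y.image fun y => ⌊y / ω⌋ | j % 2 = 1} :=
    filter_congr fun j _ => by omega
  rw [e, a3, b3] at h
  rcases le_total #X0 #X1 with h' | h'
  · exact ⟨X1, b1, b2, by omega⟩
  · exact ⟨X0, a1, a2, by omega⟩

end Crest.Agent.R051
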