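import Crest.Agent.R051.Defs

/-!
Row 51: definitions for the additive part.  `Γ` is a finite family of almost-lines `δ`, `U i δ > 0`
is the height of `δ` over the column `X i`; the chord of `δ` between two columns meets the axis
`U = 0` inside the window `(lo (w δ), hi (w δ))`.  `T` is the set of typical incidences; at column
`i` the typical lines are ranked by height and cut into cells of `m` lines.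
-/

set_option autoImplicit false

open Finset
open scoped Classical Pointwise

namespace Crest.Agent.R051

abbrev Ln := ℕ × ℕ

structure AD where
  I : Finset ℕ
  Γ : Finset Ln
  T : Finset (ℕ × Ln)
  X : ℕ → ℝ
  U : ℕ → Ln → ℝ
  w : Ln → ℕ
  blk : Ln → ℕ
  lo : ℕ → ℝ
  hi : ℕ → ℝ
  Xs : ℝ
  m : ℕ
  lam : ℝ

namespace AD

variable (A : AD)

def L : ℝ := A.lam ^ 16

/-- typical lines at column `i` -/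
noncomputable def ty (i : ℕ) : Finset Ln := {δ ∈ A.Γ | (i, δ) ∈ A.T}

noncomputable def rk (i : ℕ) (δ : Ln) : ℕ := #{δ' ∈ A.ty i | A.U i δ' < A.U i δ}

noncomputable def cell (i : ℕ) (δ : Ln) : ℕ := A.rk i δ / A.m

noncomputable def cl (i : ℕ) (δ : Ln) : Finset Ln := {δ' ∈ A.ty i | A.cell i δ' = A.cell i δ}

noncomputable def cmin (i : ℕ) (δ : Ln) : ℝ := sInf (A.U i '' (A.cl i δ : Set Ln))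

noncomputable def cmax (i : ℕ) (δ : Ln) : ℝ := sSup (A.U i '' (A.cl i δ : Set Ln))

noncomputable def sz (i : ℕ) (δ : Ln) : ℝ := A.cmax i δ - A.cmin i δ

/-- typical lines within height `R` of `δ` at column `i` -/
noncomputable def nu (i : ℕ) (δ : Ln) (R : ℝ) : ℝ := #{δ' ∈ A.ty i | |A.U i δ' - A.U i δ| ≤ R}

/-- pairs of one block that are far apart in rank at column `i` -/
noncomputable def far (i : ℕ) : ℝ :=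
  #{x ∈ A.ty i ×ˢ A.ty i | A.blk x.1 = A.blk x.2 ∧
    (A.rk i x.1 : ℝ) + A.lam ^ 14 * A.m ≤ A.rk i x.2}

structure OK (k : ℝ) : Prop where
  k2 : 2 ≤ k
  m2 : 2 ≤ A.m
  lam1 : 1 ≤ A.lam
  T_sub : A.T ⊆ A.I ×ˢ A.Γ
  I_card : (#A.I : ℝ) ≤ A.L
  Γ_card : (#A.Γ : ℝ) ≤ k * A.m * A.L
  T_big : A.m * A.L ^ 2 ≤ k * #A.T
  X_inj : ∀ i ∈ A.I, ∀ j ∈ A.I, A.X i = A.X j → i = j
  U_pos : ∀ i ∈ A.I, ∀ δ ∈ A.Γ, 0 < A.U i δ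
  U_inj : ∀ i ∈ A.I, ∀ δ ∈ A.Γ, ∀ δ' ∈ A.Γ, A.U i δ = A.U i δ' → δ = δ'
  X_lt : ∀ i ∈ A.I, A.X i < A.Xs
  Xs_le : ∀ δ ∈ A.Γ, A.Xs ≤ A.lo (A.w δ)
  ord : ∀ δ ∈ A.Γ, ∀ δ' ∈ A.Γ, A.w δ < A.w δ' → A.hi (A.w δ) ≤ A.lo (A.w δ')
  rel : ∀ δ ∈ A.Γ, ∀ i ∈ A.I, ∀ j ∈ A.I, ∃ c, A.lo (A.w δ) < c ∧ c < A.hi (A.w δ) ∧
    A.U j δ * (c - A.X i) = A.U i δ * (c - A.X j)
  w_card : ∀ x, (#{δ ∈ A.Γ | A.w δ = x} : ℝ) * A.lam ^ 24 ≤ k * A.m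
  p5 : ∀ h : ℕ, 1 ≤ h → ∀ Γ' ⊆ A.Γ,
    ∑ i ∈ A.I, ∑ q ∈ range (#A.Γ + 1),
      (#{δ ∈ Γ' | (i, δ) ∈ A.T ∧ A.rk i δ / (h * A.m) = q} : ℝ) ^ 3 ≤
      k * h ^ 2 * #Γ' * (#Γ' + A.m / A.L) * A.m
  blk_mono : ∀ δ ∈ A.Γ, ∀ δ' ∈ A.Γ, A.w δ ≤ A.w δ' → A.blk δ ≤ A.blk δ'
  blk_card : (#(A.Γ.image A.blk) : ℝ) ≤ k * A.L
  far_sum : ∑ i ∈ A.I, A.far i ≤ k * A.m ^ 2 * A.lam ^ 30

/-- the incidences kept after the first cleaning -/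
structure Clean (k : ℝ) (T' : Finset (ℕ × Ln)) : Prop where
  sub : T' ⊆ A.T
  big : A.m * A.L ^ 2 ≤ k * #T'
  pos : ∀ x ∈ T', 0 < A.sz x.1 x.2
  narrow : ∀ x ∈ T', A.cmax x.1 x.2 ≤ 2 * A.cmin x.1 x.2
  far : ∀ x ∈ T', A.far x.1 ≤ A.m ^ 2 * A.lam ^ 15

/-- the window of `δ` is not extreme among the typical lines through its cells at `b` and `c` -/
def Reg (b c : ℕ) (δ : Ln) : Prop :=
  (∃ δ' ∈ A.ty b, δ' ∈ A.ty c ∧ A.cell b δ' = A.cell b δ ∧ A.cell c δ' = A.cell c δ ∧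
    A.w δ' < A.w δ) ∧
  (∃ δ' ∈ A.ty b, δ' ∈ A.ty c ∧ A.cell b δ' = A.cell b δ ∧ A.cell c δ' = A.cell c δ ∧
    A.w δ < A.w δ')

/-- the weighted cell size at `a` is the largest in the triple `a, b, c` -/
def Dom (a b c : ℕ) (δ : Ln) : Prop :=
  |A.X c - A.X a| * A.sz b δ ≤ |A.X c - A.X b| * A.sz a δ ∧
    |A.X a - A.X b| * A.sz c δ ≤ |A.X c - A.X b| * A.sz a δ

def Good (T' : Finset (ℕ × Ln)) (η : ℝ) (b c : ℕ) (δ : Ln) : Prop :=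
  (b, δ) ∈ T' ∧ (c, δ) ∈ T' ∧ b ≠ c ∧ A.Reg b c δ ∧
    η * A.L ≤ #{a ∈ A.I | (a, δ) ∈ T' ∧ a ≠ b ∧ a ≠ c ∧ A.Dom a b c δ}

noncomputable def q (j l i : ℕ) : ℝ := (A.X i - A.X j) / (A.X l - A.X i)

noncomputable def r (j l i : ℕ) : ℝ := (A.X l - A.X j) / (A.X l - A.X i)

/-- defect of the three-column linear relation -/
noncomputable def err (j l i : ℕ) (δ : Ln) : ℝ :=
  A.U j δ + A.q j l i * A.U l δ - A.r j l i * A.U i δ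

/-- at most `k m / L` lines of `Z` go through any pair of cells at `a`, `b` -/
def Rk2 (k : ℝ) (Z : Finset Ln) (a b : ℕ) : Prop :=
  ∀ δ ∈ Z, (#{δ' ∈ Z | A.cell a δ' = A.cell a δ ∧ A.cell b δ' = A.cell b δ} : ℝ) * A.L ≤ k * A.m

/-- two fixed columns `j, l` and many third columns -/
structure Tri (k : ℝ) (j l : ℕ) (A0 : Finset ℕ) (Gi : ℕ → Finset Ln) : Prop where
  hj : j ∈ A.I
  hl : l ∈ A.I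
  jl : A.X j < A.X l
  sub : A0 ⊆ A.I
  nj : j ∉ A0
  nl : l ∉ A0
  big : A.L ≤ k * #A0
  farj : A.far j ≤ A.m ^ 2 * A.lam ^ 15
  farl : A.far l ≤ A.m ^ 2 * A.lam ^ 15
  ty : ∀ i ∈ A0, ∀ δ ∈ Gi i, δ ∈ A.ty i ∧ δ ∈ A.ty j ∧ δ ∈ A.ty l
  Gbig : ∀ i ∈ A0, A.m * A.L ≤ k * #(Gi i)
  pos : ∀ i ∈ A0, ∀ δ ∈ Gi i, 0 < A.sz i δ ∧ 0 < A.sz j δ ∧ 0 < A.sz l δ
  rk2 : ∀ i ∈ A0, A.Rk2 k (Gi i) j l ∧ A.Rk2 k (Gi i) j i ∧ A.Rk2 k (Gi i) l i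
  lin : ∀ i ∈ A0, ∀ δ ∈ Gi i,
    |A.err j l i δ| ≤ 3 * max (A.sz j δ) (|A.q j l i| * A.sz l δ) ∧
    |A.err j l i δ| ≤ 3 * max (A.sz j δ) (|A.r j l i| * A.sz i δ) ∧
    |A.err j l i δ| ≤ 3 * max (|A.q j l i| * A.sz l δ) (|A.r j l i| * A.sz i δ)

/-- the mass profile of `δ` at column `a` in the unit `e` is comparable with `φ` -/
def Cmp (k : ℝ) (φ : ℝ → ℝ) (a : ℕ) (e : ℝ) (δ : Ln) : Prop :=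
  ∀ ρ : ℝ, 0 < ρ → A.nu a δ (ρ * e) ≤ k * φ (k * ρ) ∧ φ ρ ≤ k * (A.nu a δ (k * ρ * e) + A.m)

/-- common profile, before the choice of the scale -/
structure Prof0 (k : ℝ) (j l : ℕ) (A1 : Finset ℕ) (Gi : ℕ → Finset Ln) (φ : ℝ → ℝ) : Prop where
  tri : A.Tri k j l A1 Gi
  mono : Monotone φ
  lower : ∀ ρ, (A.m : ℝ) ≤ φ ρ
  upper : ∀ ρ, φ ρ ≤ k * A.m * A.L
  small : ∃ a, 0 < a ∧ φ a ≤ 2 * A.m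
  large : ∃ b, 0 < b ∧ A.m * A.L ≤ k * φ b
  cj : ∀ i ∈ A1, ∀ δ ∈ Gi i, A.Cmp k φ j 1 δ
  cl : ∀ i ∈ A1, ∀ δ ∈ Gi i, ∀ i' ∈ A1, A.Cmp k φ l |A.q j l i'|⁻¹ δ
  ci : ∀ i ∈ A1, ∀ δ ∈ Gi i, A.Cmp k φ i |A.r j l i|⁻¹ δ
  err : ∀ i ∈ A1, ∀ δ ∈ Gi i, φ (|A.err j l i δ| / k) ≤ k * A.m

/-- two-sided profile at column `a` in the unit `e` -/
def Cmp1 (k : ℝ) (ψ : ℝ → ℝ) (a : ℕ) (e : ℝ) (δ : Ln) : Prop :=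
  ∀ D : ℝ, 1 ≤ D → A.nu a δ (D * e) ≤ k * A.m * ψ D ∧ A.m * ψ D ≤ k * A.nu a δ (D * e / 2)

end AD

/-- a quasi-Lipschitz profile on `[1, ∞)` -/
structure Psi (k : ℝ) (ψ : ℝ → ℝ) : Prop where
  mono : ∀ D D', 1 ≤ D → D ≤ D' → ψ D ≤ ψ D'
  one : 1 ≤ ψ 1
  one' : ψ 1 ≤ k
  lip : ∀ s D, 1 ≤ s → 1 ≤ D → ψ (s * D) ≤ k * s * ψ D

/-- common profile at the scale `e0` -/
structure AD.Prof (A : AD) (k : ℝ) (j l : ℕ) (A1 : Finset ℕ) (Gi : ℕ → Finset Ln) (e0 : ℝ)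
    (ψ : ℝ → ℝ) : Prop where
  tri : A.Tri k j l A1 Gi
  e0pos : 0 < e0
  psi : Psi k ψ
  cj : ∀ i ∈ A1, ∀ δ ∈ Gi i, A.Cmp1 k ψ j e0 δ
  cl : ∀ i ∈ A1, ∀ δ ∈ Gi i, ∀ i' ∈ A1, A.Cmp1 k ψ l (e0 / |A.q j l i'|) δ
  ci : ∀ i ∈ A1, ∀ δ ∈ Gi i, A.Cmp1 k ψ i (e0 / |A.r j l i|) δ
  err : ∀ i ∈ A1, ∀ δ ∈ Gi i, |A.err j l i δ| ≤ e0

/-- an abstract column: lines, positions, cells and cell sizes -/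
structure Col where
  Ty : Finset Ln
  x : Ln → ℝ
  cell : Ln → ℕ
  sz : Ln → ℝ

noncomputable def Col.nu (C : Col) (p ρ : ℝ) : ℝ := #{δ ∈ C.Ty | |C.x δ - p| ≤ ρ}

structure Col.OK (C : Col) (m N : ℝ) : Prop where
  same : ∀ δ ∈ C.Ty, ∀ δ' ∈ C.Ty, C.cell δ' = C.cell δ →
    C.sz δ' = C.sz δ ∧ |C.x δ' - C.x δ| ≤ C.sz δ
  cnt : ∀ p ρ : ℝ, ∀ Z ⊆ C.Ty, (∀ δ ∈ Z, |C.x δ - p| ≤ ρ) →
    m * #(Z.image C.cell) ≤ C.nu p ρ + 3 * m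
  big : ∀ p ρ s : ℝ, 0 < s → 0 ≤ ρ → ∀ Z ⊆ C.Ty, (∀ δ ∈ Z, |C.x δ - p| ≤ ρ ∧ s ≤ C.sz δ) →
    s * #(Z.image C.cell) ≤ 2 * ρ + 2 * s
  card : (#C.Ty : ℝ) ≤ N

/-- column `i` scaled by `c` -/
noncomputable def AD.col (A : AD) (i : ℕ) (c : ℝ) : Col :=
  ⟨A.ty i, fun δ => c * A.U i δ, A.cell i, fun δ => |c| * A.sz i δ⟩

/-- `s H` is covered by `k` translates of the `k`-neighbourhood of `H` -/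
def Cov (k s : ℝ) (H : Finset ℤ) : Prop :=
  ∃ T : Finset ℝ, (#T : ℝ) ≤ k ∧ ∀ h ∈ H, ∃ t ∈ T, ∃ h' ∈ H, |s * h - t - h'| ≤ k

/-- energy of `S` and `x S` at scale `D` -/
noncomputable def En (S : Finset ℤ) (x D : ℝ) : ℝ :=
  #{s ∈ (S ×ˢ S) ×ˢ (S ×ˢ S) | |(s.1.1 : ℝ) - s.1.2 - x * (s.2.1 - s.2.2)| ≤ D}

/-- hypotheses of the ring lemma -/
structure RH (k L : ℝ) (ψ : ℝ → ℝ) (A : Finset ℤ) (I : Finset ℕ) (x : ℕ → ℝ) : Prop where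
  psi : Psi k ψ
  big : L ≤ k * #A
  dbl : (#(A - A) : ℝ) ≤ k * #A
  up : ∀ p D : ℝ, 1 ≤ D → (#{a ∈ A | |(a : ℝ) - p| ≤ D} : ℝ) ≤ k * ψ D
  pack : ∀ D : ℝ, 1 ≤ D → (#(A.image fun a : ℤ => ⌊(a : ℝ) / D⌋) : ℝ) * ψ D ≤ k * L
  Ibig : L ≤ k * #I
  x1 : ∀ i ∈ I, |x i| ≤ 1
  cov : ∀ i ∈ I, Cov k (x i) (A - A)
  clus : ∀ ω D p : ℝ, 0 < ω → ω ≤ 1 → 1 ≤ D →
    (#{i ∈ I | |x i - p| ≤ ω} : ℝ) * ψ (D / ω) ≤ k * L * ψ D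

/-- the ring elements used in the dichotomy -/
def RP (I : Finset ℕ) (x : ℕ → ℝ) (y : ℝ) : Prop :=
  ∃ i1 ∈ I, ∃ i2 ∈ I, ∃ i3 ∈ I, ∃ i4 ∈ I, ∃ i5 ∈ I, ∃ i6 ∈ I, ∃ ε μ : ℝ, (ε = 0 ∨ ε = 1) ∧
    (μ = 1 ∨ μ = 2) ∧ y = μ * (x i3 - x i4) * x i5 - (x i1 - x i2 + ε * (x i3 - x i4)) * x i6

/-- output of the counting step -/
structure RL2 (k L : ℝ) (ψ : ℝ → ℝ) (I : Finset ℕ) (x : ℕ → ℝ) (ρ0 ω1 : ℝ) : Prop where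
  psi : Psi k ψ
  Ibig : L ≤ k * #I
  x1 : ∀ i ∈ I, |x i| ≤ 1
  r1 : 1 ≤ ρ0
  top : L ≤ k * ψ ρ0
  sm : ∀ ω D : ℝ, 4 ≤ ω * ρ0 → ω ≤ 1 → 1 ≤ D → ψ (ω * ρ0) * ψ (D / ω) ≤ k * L * ψ D
  conc : ∀ ω p : ℝ, 1 ≤ ω * ρ0 → ω ≤ 1 → (#{i ∈ I | |x i - p| ≤ ω} : ℝ) ≤ k * ψ (ω * ρ0)
  w1 : 16 ≤ ω1 * ρ0
  w1' : ψ (ω1 * ρ0) ≤ k
  loc : ∀ (ω ρ c : ℝ) (Xs : Finset ℝ), ω1 ≤ ω → ω ≤ ρ → (∀ y ∈ Xs, RP I x y ∧ |y - c| ≤ ρ) →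
    (∀ y ∈ Xs, ∀ y' ∈ Xs, y ≠ y' → ω < |y - y'|) → #Xs * ψ (ω * ρ0) ≤ k * ψ (ρ * ρ0)

lemma AD.OK.mono {A : AD} {k k' : ℝ} (h : A.OK k) (hk : k ≤ k') : A.OK k' := by
  have hk0 : 0 ≤ k := by linarith [h.k2]
  have hl : 0 ≤ A.lam := by linarith [h.lam1]
  have hL : 0 ≤ A.L := by unfold AD.L; positivity
  exact ⟨h.k2.trans hk, h.m2, h.lam1, h.T_sub, h.I_card, h.Γ_card.trans (by gcongr),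
    h.T_big.trans (by gcongr), h.X_inj, h.U_pos, h.U_inj, h.X_lt, h.Xs_le, h.ord, h.rel,
    fun x => (h.w_card x).trans (by gcongr),
    fun a ha Γ' hΓ' => (h.p5 a ha Γ' hΓ').trans (by gcongr), h.blk_mono,
    h.blk_card.trans (by gcongr), h.far_sum.trans (by gcongr)⟩

lemma Psi.pos {k : ℝ} {ψ : ℝ → ℝ} (h : Psi k ψ) {D : ℝ} (hD : 1 ≤ D) : 1 ≤ ψ D :=
  h.one.trans (h.mono 1 D le_rfl hD)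

lemma Psi.mono_k {k k' : ℝ} {ψ : ℝ → ℝ} (h : Psi k ψ) (hk : k ≤ k') : Psi k' ψ :=
  ⟨h.mono, h.one, h.one'.trans hk, fun s D hs hD => (h.lip s D hs hD).trans (by
    have := h.pos hD
    gcongr)⟩

lemma Cov.mono {k k' s : ℝ} {H : Finset ℤ} (h : Cov k s H) (hk : k ≤ k') : Cov k' s H := by
  obtain ⟨T, h1, h2⟩ := h
  refine ⟨T, h1.trans hk, fun a ha => ?_⟩
  obtain ⟨t, ht, h', hh', h3⟩ := h2 a ha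
  exact ⟨t, ht, h', hh', h3.trans hk⟩

end Crest.Agent.R051
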