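import Crest.Agent.R051.AFCAux

/-! Row 51: a Lebesgue-like profile contradicts the localisation of the blocks. -/

set_option autoImplicit false

open Finset
open scoped Classical Pointwise

namespace Crest.Agent.R051

namespace AD

/-- One half.  Put `a = U j / ej`, `b = U l / el`, `τ = b / a ≤ 1`.
(1) In each block choose the centre with the fewest far mates in `Z` at column `j`; with
`F_min ≤ η m + F_block / (η m)`, `η = 1 / (4 k²)`, at least half of `Z` is within rank `lam ^ 14 m`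
of its centre.  (2) These near lines of a block use at most `k ^ c lam ^ 14` values of `⌊a⌋`
(`pack` with `Y` = lines of rank between the extreme ones and the two end neighbourhoods).
(3) For one value, `b` varies by at most `min R Dβ`, `Dβ = (τmax β - τmin β) a_max + 1`, so the lines
meet `≤ k² + 3` cells at `j` and `≤ k² (1 + L Dβ / R) + 3` cells at `l` (`cells_near`, `Rk2.card_le`).
(4) The intervals `[τmin β, τmax β]` are disjoint and `(τmax - τmin) a_max ≤ 2 R`, so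
`∑ Dβ ≤ 2 R + k L`; also `L ≤ k³ R` by `lip`.  Total `≤ k ^ c lam ^ 14 m < m L / (2 k)`. -/
theorem fc_half : ∃ C : ℕ, ∀ (A : AD) (k : ℝ), A.OK k → k ^ C ≤ A.lam →
    ∀ (j l : ℕ) (ej el R : ℝ) (ψ : ℝ → ℝ) (Z : Finset Ln), j ∈ A.I → l ∈ A.I → 0 < ej → 0 < el →
    1 ≤ R → Psi k ψ → A.L ≤ k * ψ R → (∀ D, 1 ≤ D → D ≤ R → ψ D * R ≤ k * (R + A.L * D)) →
    A.far j ≤ A.m ^ 2 * A.lam ^ 15 → A.m * A.L ≤ k * #Z → A.Rk2 k Z j l →
    (∀ δ ∈ Z, δ ∈ A.ty j ∧ δ ∈ A.ty l ∧ A.Cmp1 k ψ j ej δ ∧ A.Cmp1 k ψ l el δ ∧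
      A.U l δ / el ≤ A.U j δ / ej) →
    (∀ δ ∈ Z, ∀ δ' ∈ Z, |A.U j δ - A.U j δ'| ≤ R * ej ∧ |A.U l δ - A.U l δ'| ≤ R * el) →
    ((∀ δ ∈ Z, ∀ δ' ∈ Z, A.blk δ < A.blk δ' → A.U l δ / A.U j δ < A.U l δ' / A.U j δ') ∨
      (∀ δ ∈ Z, ∀ δ' ∈ Z, A.blk δ < A.blk δ' → A.U l δ' / A.U j δ' < A.U l δ / A.U j δ)) →
    False := by
  refine ⟨10, fun A k h hlam j l ej el R ψ Z hj hl hej hel hR hψ hLR hψD hfar hZ hr hN hd hord => ?_⟩
  have hZne : Z.Nonempty := by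
    rw [nonempty_iff_ne_empty]
    rintro rfl
    rw [card_empty, Nat.cast_zero, mul_zero] at hZ
    have hm : (2 : ℝ) ≤ A.m := by exact_mod_cast h.m2
    nlinarith [h.L1]
  obtain ⟨δ₀, hδ₀, hmax⟩ := exists_max_image Z (A.U j) hZne
  let a : Ln → ℝ := fun δ => A.U j δ / ej
  let b : Ln → ℝ := fun δ => A.U l δ / el
  let τ : Ln → ℝ := fun δ => b δ / a δ
  have hUj : ∀ δ ∈ Z, 0 < A.U j δ := fun δ hδ => h.U_pos j hj δ (mem_ty.mp (hN δ hδ).1).1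
  have hUl : ∀ δ ∈ Z, 0 < A.U l δ := fun δ hδ => h.U_pos l hl δ (mem_ty.mp (hN δ hδ).1).1
  have ha : ∀ δ ∈ Z, 0 < a δ := fun δ hδ => div_pos (hUj δ hδ) hej
  have hτ0 : ∀ δ ∈ Z, 0 < τ δ := fun δ hδ => div_pos (div_pos (hUl δ hδ) hel) (ha δ hδ)
  have hτ1 : ∀ δ ∈ Z, τ δ ≤ 1 := fun δ hδ => (div_le_one (ha δ hδ)).mpr (hN δ hδ).2.2.2.2
  have hτb : ∀ δ ∈ Z, b δ = τ δ * a δ := fun δ hδ => (div_mul_cancel₀ _ (ha δ hδ).ne').symm
  have ham : ∀ δ ∈ Z, a δ ≤ a δ₀ := fun δ hδ => div_le_div_of_nonneg_right (hmax δ hδ) hej.le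
  have haR : ∀ δ ∈ Z, a δ₀ - a δ ≤ R := fun δ hδ => by
    simp only [a]
    rw [← sub_div, div_le_iff₀ hej]
    exact (le_abs_self _).trans (hd δ₀ hδ₀ δ hδ).1
  have hbR : ∀ δ ∈ Z, ∀ δ' ∈ Z, b δ - b δ' ≤ R := fun δ hδ δ' hδ' => by
    simp only [b]
    rw [← sub_div, div_le_iff₀ hel]
    exact (le_abs_self _).trans (hd δ hδ δ' hδ').2
  have T2 : ∀ δ ∈ Z, ∀ δ' ∈ Z, τ δ * a δ₀ - τ δ' * a δ₀ ≤ 2 * R := by
    intro δ hδ δ' hδ'
    have e1 := mul_le_mul (hτ1 δ hδ) (haR δ hδ) (sub_nonneg.mpr (ham δ hδ)) zero_le_one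
    have e2 := mul_le_mul_of_nonneg_left (ham δ' hδ') (hτ0 δ' hδ').le
    have e3 := hbR δ hδ δ' hδ'
    rw [hτb δ hδ, hτb δ' hδ'] at e3
    nlinarith
  have T3 : ∀ δ ∈ Z, ∀ δ' ∈ Z, |A.U j δ - A.U j δ'| ≤ ej →
      |A.U l δ - A.U l δ'| ≤ (|τ δ * a δ₀ - τ δ' * a δ₀| + 1) * el := by
    intro δ hδ δ' hδ' h1
    have e1 : |a δ - a δ'| ≤ 1 := by
      simp only [a]
      rw [← sub_div, abs_div, abs_of_pos hej, div_le_one hej]
      exact h1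
    have e2 : |b δ - b δ'| ≤ |τ δ * a δ₀ - τ δ' * a δ₀| + 1 := by
      have e3 : b δ - b δ' = (τ δ - τ δ') * a δ + τ δ' * (a δ - a δ') := by
        rw [hτb δ hδ, hτb δ' hδ']; ring
      rw [e3, ← sub_mul]
      refine (abs_add_le _ _).trans (add_le_add ?_ ?_)
      · rw [abs_mul, abs_mul, abs_of_pos (ha δ hδ), abs_of_pos (ha δ₀ hδ₀)]
        exact mul_le_mul_of_nonneg_left (ham δ hδ) (abs_nonneg _)
      · rw [abs_mul, abs_of_pos (hτ0 δ' hδ')]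
        exact mul_le_one₀ (hτ1 δ' hδ') (abs_nonneg _) e1
    simp only [b] at e2
    rwa [← sub_div, abs_div, abs_of_pos hel, div_le_iff₀ hel] at e2
  have T1 : ∀ δ ∈ Z, ∀ δ' ∈ Z, A.U l δ / A.U j δ < A.U l δ' / A.U j δ' →
      τ δ * a δ₀ ≤ τ δ' * a δ₀ := by
    intro δ hδ δ' hδ' hlt
    have e : ∀ δ ∈ Z, τ δ = A.U l δ / A.U j δ * (ej / el) := fun δ hδ => by
      have := (hUj δ hδ).ne'
      simp only [τ, a, b]
      field_simp
    rw [e δ hδ, e δ' hδ']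
    have := ha δ₀ hδ₀
    gcongr
  have hN' : ∀ δ ∈ Z, δ ∈ A.ty j ∧ δ ∈ A.ty l ∧ A.Cmp1 k ψ j ej δ ∧ A.Cmp1 k ψ l el δ :=
    fun δ hδ => ⟨(hN δ hδ).1, (hN δ hδ).2.1, (hN δ hδ).2.2.1, (hN δ hδ).2.2.2.1⟩
  rcases hord with ho | ho
  · exact afc_main h hlam hψ hj hl hej hel hR hLR hψD hfar hZ hr hN'
      (fun δ hδ δ' hδ' => (hd δ hδ δ' hδ').2) (fun δ => τ δ * a δ₀)
      (fun δ hδ δ' hδ' hb => T1 δ hδ δ' hδ' (ho δ hδ δ' hδ' hb)) T2 T3
  · refine afc_main h hlam hψ hj hl hej hel hR hLR hψD hfar hZ hr hN'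
      (fun δ hδ δ' hδ' => (hd δ hδ δ' hδ').2) (fun δ => -(τ δ * a δ₀))
      (fun δ hδ δ' hδ' hb => neg_le_neg (T1 δ' hδ' δ hδ (ho δ hδ δ' hδ' hb)))
      (fun δ hδ δ' hδ' => by linarith [T2 δ' hδ' δ hδ]) fun δ hδ δ' hδ' h1 => ?_
    rw [neg_sub_neg, abs_sub_comm (τ δ' * a δ₀)]
    exact T3 δ hδ δ' hδ' h1

/-- Take the fullest box `(⌊U j / (R ej)⌋, ⌊U l / (R el)⌋)` of `Gi i0`, `ej = e0`,
`el = e0 / |q i0|` (`pack`: at most `2 k³` classes each), and the larger of the halves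
`U l / el ≤ U j / ej`, `U j / ej ≤ U l / el`; apply `fc_half` to `(j, l)` or `(l, j)`.  A larger block
means a larger window (`blk_mono`), a larger axis point `c` and a larger ratio
`U l / U j = (c - X l) / (c - X j)`. -/
theorem fc : ∃ C : ℕ, ∀ (A : AD) (k : ℝ), A.OK k → k ^ C ≤ A.lam → ∀ j l A1 Gi e0 ψ,
    A.Prof k j l A1 Gi e0 ψ → ∀ i0 ∈ A1, ∀ R : ℝ, 1 ≤ R → A.L ≤ k * ψ R →
    (∀ D, 1 ≤ D → D ≤ R → ψ D * R ≤ k * (R + A.L * D)) → False := by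
  obtain ⟨C, hC⟩ := fc_half
  refine ⟨10 * C, fun A k h hlam j l A1 Gi e0 ψ hP i0 hi0 R hR hLR hψD => ?_⟩
  have hk := h.k2
  have hk0 : 0 < k := by linarith
  have hk1 : 1 ≤ k := by linarith
  have hkk : k ≤ k ^ 10 := le_self_pow₀ hk1 (by norm_num)
  have hm : (2 : ℝ) ≤ A.m := by exact_mod_cast h.m2
  have hL := h.L1
  have hR0 : 0 < R := by linarith
  have ht := hP.tri
  have hej := hP.e0pos
  have hel : 0 < e0 / |A.q j l i0| := div_pos hej (abs_pos.mpr (Tri.q_ne h ht hi0).1)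
  have hcl := fun δ hδ => hP.cl i0 hi0 δ hδ i0 hi0
  generalize e0 / |A.q j l i0| = el at hel hcl
  have hcj := hP.cj i0 hi0
  have hty := ht.ty i0 hi0
  have hbig := ht.Gbig i0 hi0
  have hrk := (ht.rk2 i0 hi0).1
  generalize Gi i0 = G at *
  have hcls : ∀ (a : ℕ) (e : ℝ), 0 < e → (∀ δ ∈ G, A.Cmp1 k ψ a e δ) →
      (#(G.image fun δ => ⌊A.U a δ / (R * e)⌋) : ℝ) ≤ 2 * k ^ 3 := by
    intro a e he hc
    have e1 : R * |e⁻¹|⁻¹ / 2 = R * e / 2 := by rw [abs_of_pos (inv_pos.mpr he), inv_inv]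
    have hp := pack (A := A) a (inv_ne_zero he.ne') 0 R (A.m * A.L / k ^ 2) hR0 G (A.ty a) (by
      intro δ hδ
      rw [e1, div_le_iff₀ (by positivity)]
      have a1 := (hc δ hδ R hR).2
      have a2 := mul_le_mul_of_nonneg_left hLR (show (0 : ℝ) ≤ A.m by linarith)
      have a3 := mul_le_mul_of_nonneg_left a1 hk0.le
      nlinarith) fun _ _ _ h _ => h
    have e2 : (fun δ => ⌊(e⁻¹ * A.U a δ + 0) / R⌋) = fun δ => ⌊A.U a δ / (R * e)⌋ := by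
      funext δ
      congr 1
      field_simp
      ring
    rw [e2, div_mul_eq_mul_div, div_le_iff₀ (by positivity)] at hp
    have a4 := mul_le_mul_of_nonneg_right (h.ty_card a) (show 0 ≤ 2 * k ^ 2 by positivity)
    refine le_of_mul_le_mul_left ?_ (show (0 : ℝ) < A.m * A.L by positivity)
    nlinarith
  let f : Ln → (ℤ × ℤ) × Bool := fun δ =>
    ((⌊A.U j δ / (R * e0)⌋, ⌊A.U l δ / (R * el)⌋), decide (A.U l δ / el ≤ A.U j δ / e0))
  have him : (#(G.image f) : ℝ) ≤ 8 * k ^ 6 := by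
    have s1 : G.image f ⊆ ((G.image fun δ => ⌊A.U j δ / (R * e0)⌋) ×ˢ
        (G.image fun δ => ⌊A.U l δ / (R * el)⌋)) ×ˢ (univ : Finset Bool) := by
      intro x hx
      obtain ⟨δ, hδ, rfl⟩ := mem_image.mp hx
      exact mem_product.mpr ⟨mem_product.mpr ⟨mem_image_of_mem _ hδ, mem_image_of_mem _ hδ⟩,
        mem_univ _⟩
    have s2 := card_le_card s1
    rw [card_product, card_product, card_univ, Fintype.card_bool] at s2
    have s3 : (#(G.image f) : ℝ) ≤ (#(G.image fun δ => ⌊A.U j δ / (R * e0)⌋) : ℝ) *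
        #(G.image fun δ => ⌊A.U l δ / (R * el)⌋) * 2 := by exact_mod_cast s2
    have s4 := mul_le_mul (hcls j e0 hej hcj) (hcls l el hel hcl) (Nat.cast_nonneg _)
      (by positivity)
    nlinarith
  have hGne : G.Nonempty := by
    rw [nonempty_iff_ne_empty]
    rintro rfl
    rw [card_empty, Nat.cast_zero, mul_zero] at hbig
    nlinarith
  obtain ⟨v, -, hv⟩ := exists_max_image (G.image f) (fun v => #{δ ∈ G | f δ = v}) (hGne.image f)
  set Z := {δ ∈ G | f δ = v} with hZdef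
  have hZG : Z ⊆ G := filter_subset _ _
  have hZ : A.m * A.L ≤ k ^ 10 * #Z := by
    have a1 := afc_fiber (L := 1) G f (K := #Z) (Nat.cast_nonneg _) him fun w hw => by
      rw [mul_one]
      exact_mod_cast hv w hw
    have a2 : 8 * k ^ 7 ≤ k ^ 10 := by
      have b2 : 8 ≤ k ^ 3 := by
        have := pow_le_pow_left₀ (by norm_num) hk 3
        linarith
      calc 8 * k ^ 7 ≤ k ^ 3 * k ^ 7 := by gcongr
        _ = k ^ 10 := by ring
    have a3 := mul_le_mul_of_nonneg_right a2 (show (0 : ℝ) ≤ #Z from Nat.cast_nonneg _)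
    have a4 := mul_le_mul_of_nonneg_left a1 hk0.le
    nlinarith
  have hf : ∀ δ ∈ Z, f δ = v := fun δ hδ => (mem_filter.mp hδ).2
  have hfl : ∀ {x y e : ℝ}, 0 < e → ⌊x / (R * e)⌋ = ⌊y / (R * e)⌋ → |x - y| ≤ R * e := by
    intro x y e he hxy
    have e1 := afc_floor hxy
    rwa [← sub_div, abs_div, abs_of_pos (mul_pos hR0 he), div_le_one (mul_pos hR0 he)] at e1
  have hd : ∀ δ ∈ Z, ∀ δ' ∈ Z,
      |A.U j δ - A.U j δ'| ≤ R * e0 ∧ |A.U l δ - A.U l δ'| ≤ R * el := by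
    intro δ hδ δ' hδ'
    have e := (hf δ hδ).trans (hf δ' hδ').symm
    exact ⟨hfl hej (congrArg (fun x => x.1.1) e), hfl hel (congrArg (fun x => x.1.2) e)⟩
  have hcm : ∀ {a : ℕ} {e : ℝ} {δ : Ln}, A.Cmp1 k ψ a e δ → A.Cmp1 (k ^ 10) ψ a e δ := by
    intro a e δ hc D hD
    have p1 := hP.psi.pos hD
    have p2 : 0 ≤ A.nu a δ (D * e / 2) := Nat.cast_nonneg _
    exact ⟨(hc D hD).1.trans (by gcongr), (hc D hD).2.trans (by gcongr)⟩
  have hr1 : A.Rk2 (k ^ 10) Z j l := by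
    intro δ hδ
    refine le_trans ?_ ((hrk δ (hZG hδ)).trans (by gcongr))
    gcongr
  have hr2 : A.Rk2 (k ^ 10) Z l j := by
    intro δ hδ
    simpa only [and_comm] using hr1 δ hδ
  have hord : ∀ δ ∈ Z, ∀ δ' ∈ Z, A.blk δ < A.blk δ' →
      A.U l δ / A.U j δ < A.U l δ' / A.U j δ' := by
    intro δ hδ δ' hδ' hb
    have g1 := (mem_ty.mp (hty δ (hZG hδ)).1).1
    have g2 := (mem_ty.mp (hty δ' (hZG hδ')).1).1
    have hw : A.w δ < A.w δ' := by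
      by_contra hn
      exact absurd (h.blk_mono δ' g2 δ g1 (not_lt.mp hn)) (not_le.mpr hb)
    obtain ⟨c, c1, c2, c3⟩ := h.rel δ g1 j ht.hj l ht.hl
    obtain ⟨c', c1', -, c3'⟩ := h.rel δ' g2 j ht.hj l ht.hl
    have hcc : c < c' := c2.trans_le ((h.ord δ g1 δ' g2 hw).trans c1'.le)
    have hx : A.X j < c := (h.X_lt j ht.hj).trans ((h.Xs_le δ g1).trans_lt c1)
    have u1 := h.U_pos j ht.hj δ g1
    have u2 := h.U_pos j ht.hj δ' g2
    have q1 : A.U l δ / A.U j δ = (c - A.X l) / (c - A.X j) := by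
      rw [div_eq_div_iff u1.ne' (by linarith)]; linarith
    have q2 : A.U l δ' / A.U j δ' = (c' - A.X l) / (c' - A.X j) := by
      rw [div_eq_div_iff u2.ne' (by linarith)]; linarith
    rw [q1, q2, div_lt_div_iff₀ (by linarith) (by linarith)]
    nlinarith [mul_pos (sub_pos.mpr hcc) (sub_pos.mpr ht.jl)]
  have hOK := h.mono hkk
  have hlam' : (k ^ 10) ^ C ≤ A.lam := by rwa [← pow_mul]
  have hψ' := hP.psi.mono_k hkk
  have hLR' : A.L ≤ k ^ 10 * ψ R := by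
    have := hP.psi.pos hR
    exact hLR.trans (by gcongr)
  have hψD' : ∀ D, 1 ≤ D → D ≤ R → ψ D * R ≤ k ^ 10 * (R + A.L * D) := fun D h1 h2 =>
    (hψD D h1 h2).trans (by gcongr)
  have hdec : ∀ δ ∈ Z, decide (A.U l δ / el ≤ A.U j δ / e0) = v.2 := fun δ hδ =>
    congrArg Prod.snd (hf δ hδ)
  cases hv2 : v.2
  · refine hC A (k ^ 10) hOK hlam' l j el e0 R ψ Z ht.hl ht.hj hel hej hR hψ' hLR' hψD' ht.farl hZ
      hr2 (fun δ hδ => ⟨(hty δ (hZG hδ)).2.2, (hty δ (hZG hδ)).2.1, hcm (hcl δ (hZG hδ)),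
        hcm (hcj δ (hZG hδ)), ?_⟩) (fun δ hδ δ' hδ' => (hd δ hδ δ' hδ').symm)
      (Or.inr fun δ hδ δ' hδ' hb => ?_)
    · exact (not_le.mp (of_decide_eq_false ((hdec δ hδ).trans hv2))).le
    · have g1 := (mem_ty.mp (hty δ (hZG hδ)).1).1
      have g2 := (mem_ty.mp (hty δ' (hZG hδ')).1).1
      have := hord δ hδ δ' hδ' hb
      rw [div_lt_div_iff₀ (h.U_pos j ht.hj δ g1) (h.U_pos j ht.hj δ' g2)] at this
      rw [div_lt_div_iff₀ (h.U_pos l ht.hl δ' g2) (h.U_pos l ht.hl δ g1)]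
      linarith
  · exact hC A (k ^ 10) hOK hlam' j l e0 el R ψ Z ht.hj ht.hl hej hel hR hψ' hLR' hψD' ht.farj hZ
      hr1 (fun δ hδ => ⟨(hty δ (hZG hδ)).2.1, (hty δ (hZG hδ)).2.2, hcm (hcj δ (hZG hδ)),
        hcm (hcl δ (hZG hδ)), of_decide_eq_true ((hdec δ hδ).trans hv2)⟩) hd (Or.inl hord)

end AD

end Crest.Agent.R051
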