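import Crest.Agent.R051.ACol

/-! Row 51: auxiliary counting lemmas for `AFC`. -/

set_option autoImplicit false

open Finset
open scoped Classical Pointwise

namespace Crest.Agent.R051

lemma afc_intervals (B : Finset ℕ) (lo hi : ℕ → ℝ) (p q : ℝ) (hpq : p ≤ q)
    (h1 : ∀ β ∈ B, p ≤ lo β ∧ hi β ≤ q) (hord : ∀ β ∈ B, ∀ β' ∈ B, β < β' → hi β ≤ lo β') :
    ∑ β ∈ B, (hi β - lo β) ≤ q - p := by
  induction B using Finset.induction_on_max generalizing q with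
  | empty => simpa using hpq
  | insert a s ha ih =>
    have hna : a ∉ s := fun h => lt_irrefl _ (ha a h)
    rw [sum_insert hna]
    have h2 := h1 a (mem_insert_self _ _)
    have h3 := ih (lo a) h2.1 (fun β hβ => ⟨(h1 β (mem_insert_of_mem hβ)).1,
      hord β (mem_insert_of_mem hβ) a (mem_insert_self _ _) (ha β hβ)⟩)
      fun β hβ β' hβ' => hord β (mem_insert_of_mem hβ) β' (mem_insert_of_mem hβ')
    linarith [h2.2]

lemma afc_centre (Z : Finset Ln) (hZ : Z.Nonempty) (r : Ln → Ln → Prop) {t : ℝ} (ht : 0 < t) :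
    ∃ c ∈ Z, (#{δ ∈ Z | r c δ} : ℝ) ≤ t + #{x ∈ Z ×ˢ Z | r x.1 x.2} / t := by
  obtain ⟨c, hc, hmin⟩ := exists_min_image Z (fun c => #{δ ∈ Z | r c δ}) hZ
  refine ⟨c, hc, ?_⟩
  have h1 : #{x ∈ Z ×ˢ Z | r x.1 x.2} = ∑ c ∈ Z, #{δ ∈ Z | r c δ} := by
    simp only [card_filter]
    rw [sum_product]
  have h2 : #Z * #{δ ∈ Z | r c δ} ≤ #{x ∈ Z ×ˢ Z | r x.1 x.2} := by
    rw [h1, ← smul_eq_mul]
    exact card_nsmul_le_sum _ _ _ hmin
  have h3 : #{δ ∈ Z | r c δ} ≤ #Z := card_filter_le _ _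
  have h4 : (#{δ ∈ Z | r c δ} : ℝ) * #{δ ∈ Z | r c δ} ≤ #{x ∈ Z ×ˢ Z | r x.1 x.2} := by
    exact_mod_cast (Nat.mul_le_mul_right _ h3).trans h2
  have h5 : (0 : ℝ) ≤ #{x ∈ Z ×ˢ Z | r x.1 x.2} / t := by positivity
  by_cases h : (#{δ ∈ Z | r c δ} : ℝ) ≤ t
  · linarith
  · have : (#{δ ∈ Z | r c δ} : ℝ) ≤ #{x ∈ Z ×ˢ Z | r x.1 x.2} / t := by
      rw [le_div_iff₀ ht]
      nlinarith [not_le.mp h]
    linarith

lemma afc_fiber {α β : Type} [DecidableEq β] (N : Finset α) (f : α → β) {L V K : ℝ} (hK : 0 ≤ K)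
    (hV : (#(N.image f) : ℝ) ≤ V) (h : ∀ v ∈ N.image f, (#{a ∈ N | f a = v} : ℝ) * L ≤ K) :
    (#N : ℝ) * L ≤ V * K := by
  rw [card_eq_sum_card_image f N]
  push_cast
  rw [sum_mul]
  refine (sum_le_card_nsmul _ _ K h).trans ?_
  rw [nsmul_eq_mul]
  exact mul_le_mul_of_nonneg_right hV hK

lemma afc_floor {x y : ℝ} (h : ⌊x⌋ = ⌊y⌋) : |x - y| ≤ 1 := (Int.abs_sub_lt_one_of_floor_eq_floor h).le

namespace AD

variable {A : AD} {k : ℝ}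

/-- far apart in rank -/
def afcFar (A : AD) (j : ℕ) (δ δ' : Ln) : Prop :=
  (A.rk j δ : ℝ) + A.lam ^ 14 * A.m ≤ A.rk j δ' ∨ (A.rk j δ' : ℝ) + A.lam ^ 14 * A.m ≤ A.rk j δ

lemma afc_far (j : ℕ) (Z : Finset Ln) (hZ : ∀ δ ∈ Z, δ ∈ A.ty j) (B : Finset ℕ) :
    ∑ β ∈ B, (#{x ∈ {δ ∈ Z | A.blk δ = β} ×ˢ {δ ∈ Z | A.blk δ = β} | A.afcFar j x.1 x.2} : ℝ) ≤
      2 * A.far j := by
  set P := {x ∈ A.ty j ×ˢ A.ty j | A.blk x.1 = A.blk x.2 ∧
    (A.rk j x.1 : ℝ) + A.lam ^ 14 * A.m ≤ A.rk j x.2} with hP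
  have h1 : ∀ β ∈ B, #{x ∈ {δ ∈ Z | A.blk δ = β} ×ˢ {δ ∈ Z | A.blk δ = β} | A.afcFar j x.1 x.2} ≤
      #{x ∈ P ∪ P.image Prod.swap | A.blk x.1 = β} := by
    intro β _
    refine card_le_card fun x hx => ?_
    simp only [mem_filter, mem_product] at hx
    obtain ⟨⟨⟨a1, a2⟩, a3, a4⟩, a5⟩ := hx
    refine mem_filter.mpr ⟨mem_union.mpr ?_, a2⟩
    rcases a5 with a5 | a5
    · exact Or.inl (mem_filter.mpr ⟨mem_product.mpr ⟨hZ _ a1, hZ _ a3⟩, a2.trans a4.symm, a5⟩)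
    · exact Or.inr (mem_image.mpr ⟨x.swap,
        mem_filter.mpr ⟨mem_product.mpr ⟨hZ _ a3, hZ _ a1⟩, a4.trans a2.symm, a5⟩, by simp⟩)
  have h2 := sum_le_sum h1
  rw [sum_card_fiberwise_eq_card_filter] at h2
  have h3 : #(P ∪ P.image Prod.swap) ≤ 2 * #P := by
    have := card_union_le P (P.image Prod.swap)
    have := card_image_le (s := P) (f := Prod.swap)
    omega
  have h4 := h2.trans ((card_filter_le _ _).trans h3)
  unfold far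
  exact_mod_cast h4

lemma afc_rk_near {j : ℕ} {δ δ' : Ln} {ρ : ℝ} (h : |A.U j δ' - A.U j δ| ≤ ρ) :
    (A.rk j δ' : ℝ) ≤ A.rk j δ + A.nu j δ ρ ∧ (A.rk j δ : ℝ) ≤ A.rk j δ' + A.nu j δ ρ := by
  have h0 : 0 ≤ A.nu j δ ρ := Nat.cast_nonneg _
  rw [abs_le] at h
  rcases le_total (A.U j δ) (A.U j δ') with h1 | h1
  · have e := rk_sub h1
    have e1 : #{δ'' ∈ A.ty j | A.U j δ ≤ A.U j δ'' ∧ A.U j δ'' < A.U j δ'} ≤
        #{δ'' ∈ A.ty j | |A.U j δ'' - A.U j δ| ≤ ρ} := by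
      refine card_le_card fun x hx => ?_
      rw [mem_filter] at hx ⊢
      exact ⟨hx.1, abs_le.mpr ⟨by linarith [hx.2.1], by linarith [hx.2.2]⟩⟩
    have e2 : (A.rk j δ : ℝ) ≤ A.rk j δ' := by exact_mod_cast rk_le h1
    refine ⟨?_, by linarith⟩
    unfold nu
    rw [e]
    exact_mod_cast Nat.add_le_add_left e1 _
  · have e := rk_sub h1
    have e1 : #{δ'' ∈ A.ty j | A.U j δ' ≤ A.U j δ'' ∧ A.U j δ'' < A.U j δ} ≤
        #{δ'' ∈ A.ty j | |A.U j δ'' - A.U j δ| ≤ ρ} := by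
      refine card_le_card fun x hx => ?_
      rw [mem_filter] at hx ⊢
      exact ⟨hx.1, abs_le.mpr ⟨by linarith [hx.2.1], by linarith [hx.2.2]⟩⟩
    have e2 : (A.rk j δ' : ℝ) ≤ A.rk j δ := by exact_mod_cast rk_le h1
    refine ⟨by linarith, ?_⟩
    unfold nu
    rw [e]
    exact_mod_cast Nat.add_le_add_left e1 _

lemma afc_nu {ψ : ℝ → ℝ} (hk : 0 ≤ k) (hψ : Psi k ψ) {j : ℕ} {e : ℝ} {δ : Ln}
    (h : A.Cmp1 k ψ j e δ) :
    A.nu j δ e ≤ k ^ 2 * A.m ∧ (A.m : ℝ) ≤ k * A.nu j δ (e / 2) := by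
  obtain ⟨h1, h2⟩ := h 1 le_rfl
  rw [one_mul] at h1 h2
  have hm : (0 : ℝ) ≤ A.m := Nat.cast_nonneg _
  constructor
  · have := mul_le_mul_of_nonneg_left hψ.one' (mul_nonneg hk hm)
    nlinarith
  · have := mul_le_mul_of_nonneg_left hψ.one hm
    linarith

/-- step (2) -/
lemma afc_vals (h : A.OK k) (hl : k ^ 2 ≤ A.lam) {ψ : ℝ → ℝ} (hψ : Psi k ψ) {j : ℕ} (hj : j ∈ A.I)
    {e : ℝ} (he : 0 < e) (c : Ln) (N : Finset Ln)
    (hN : ∀ δ ∈ N, A.Cmp1 k ψ j e δ ∧ ¬ A.afcFar j c δ) :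
    (#(N.image fun δ => ⌊A.U j δ / e⌋) : ℝ) ≤ 10 * k * A.lam ^ 14 := by
  have hk0 : 0 < k := by linarith [h.k2]
  have hm : (2 : ℝ) ≤ A.m := by exact_mod_cast h.m2
  have hl14 : A.lam ≤ A.lam ^ 14 := le_self_pow₀ h.lam1 (by norm_num)
  have hl1 := h.lam1
  set W : ℝ := 2 * A.lam ^ 14 * A.m with hW
  have hW0 : 0 ≤ W := by positivity
  have e1 : 1 * |e⁻¹|⁻¹ / 2 = e / 2 := by rw [abs_of_pos (inv_pos.mpr he), inv_inv, one_mul]
  have hp := pack (A := A) j (inv_ne_zero he.ne') 0 1 (A.m / k) one_pos N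
    {δ ∈ A.ty j | A.rk j δ ∈ Icc (A.rk j c - ⌊W⌋₊) (A.rk j c + ⌊W⌋₊)} (by
      intro δ hδ
      rw [e1, div_le_iff₀ hk0, mul_comm]
      exact (afc_nu hk0.le hψ (hN δ hδ).1).2) (by
      intro δ hδ δ' hδ' hd
      rw [e1] at hd
      obtain ⟨a1, a2⟩ := afc_rk_near (hd.trans (by linarith : e / 2 ≤ e))
      have a3 := (afc_nu hk0.le hψ (hN δ hδ).1).1
      have a4 := (hN δ hδ).2
      unfold afcFar at a4
      push Not at a4
      have a5 : k ^ 2 * A.m ≤ A.lam ^ 14 * A.m :=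
        mul_le_mul_of_nonneg_right (hl.trans hl14) (by linarith)
      have b1 : (A.rk j δ' : ℝ) - A.rk j c ≤ W := by linarith [a4.1]
      have b2 : (A.rk j c : ℝ) - A.rk j δ' ≤ W := by linarith [a4.2]
      have c1 : A.rk j δ' - A.rk j c ≤ ⌊W⌋₊ := by
        refine Nat.le_floor ?_
        rcases le_total (A.rk j c) (A.rk j δ') with hh | hh
        · rw [Nat.cast_sub hh]; exact b1
        · rw [Nat.sub_eq_zero_of_le hh]; simpa using hW0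
      have c2 : A.rk j c - A.rk j δ' ≤ ⌊W⌋₊ := by
        refine Nat.le_floor ?_
        rcases le_total (A.rk j δ') (A.rk j c) with hh | hh
        · rw [Nat.cast_sub hh]; exact b2
        · rw [Nat.sub_eq_zero_of_le hh]; simpa using hW0
      exact mem_filter.mpr ⟨hδ', mem_Icc.mpr ⟨by omega, by omega⟩⟩)
  have e2 : (fun δ => ⌊(e⁻¹ * A.U j δ + 0) / 1⌋) = fun δ => ⌊A.U j δ / e⌋ := by
    funext δ
    rw [add_zero, div_one, mul_comm, div_eq_mul_inv]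
  rw [e2] at hp
  have hc := h.card_rk hj (Icc (A.rk j c - ⌊W⌋₊) (A.rk j c + ⌊W⌋₊))
  rw [Nat.card_Icc] at hc
  have hc' : (#{δ ∈ A.ty j | A.rk j δ ∈ Icc (A.rk j c - ⌊W⌋₊) (A.rk j c + ⌊W⌋₊)} : ℝ) ≤
      2 * (⌊W⌋₊ : ℝ) + 1 := by
    exact_mod_cast hc.trans (by omega)
  have hf := Nat.floor_le hW0
  have h1 : (1 : ℝ) ≤ A.lam ^ 14 * A.m := by nlinarith
  have h2 : A.m / k * (#(N.image fun δ => ⌊A.U j δ / e⌋) : ℝ) ≤ 10 * (A.lam ^ 14 * A.m) := by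
    linarith
  rw [div_mul_eq_mul_div, div_le_iff₀ hk0] at h2
  refine le_of_mul_le_mul_left ?_ (show (0 : ℝ) < A.m by linarith)
  linarith

/-- step (3) -/
lemma afc_val (h : A.OK k) {ψ : ℝ → ℝ} (hψ : Psi k ψ) {j l : ℕ} (hj : j ∈ A.I) (hl : l ∈ A.I)
    {ej el R D : ℝ} (hD : 1 ≤ D) (hDR : D ≤ R) (hψD : ψ D * R ≤ k * (R + A.L * D))
    {Z N : Finset Ln} (hr : A.Rk2 k Z j l) (hNZ : N ⊆ Z)
    (hN : ∀ δ ∈ N, δ ∈ A.ty j ∧ δ ∈ A.ty l ∧ A.Cmp1 k ψ j ej δ ∧ A.Cmp1 k ψ l el δ)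
    (hd : ∀ δ ∈ N, ∀ δ' ∈ N, |A.U j δ - A.U j δ'| ≤ ej ∧ |A.U l δ - A.U l δ'| ≤ D * el) :
    (#N : ℝ) * A.L ≤ 2 * k ^ 2 * (2 * k ^ 2 + k ^ 2 * (A.L * D / R)) * (k * A.m) := by
  have hk0 : 0 < k := by linarith [h.k2]
  have hk2 : 4 ≤ k ^ 2 := by nlinarith [h.k2]
  have hm : (2 : ℝ) ≤ A.m := by exact_mod_cast h.m2
  have hL := h.L1
  have hR : 0 < R := by linarith
  rcases N.eq_empty_or_nonempty with rfl | ⟨δ, hδ⟩
  · rw [card_empty, Nat.cast_zero, zero_mul]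
    positivity
  have c1 := h.cells_near hj δ ej N fun δ' hδ' => ⟨(hN δ' hδ').1, (hd δ' hδ' δ hδ).1⟩
  have c2 := h.cells_near hl δ (D * el) N fun δ' hδ' => ⟨(hN δ' hδ').2.1, (hd δ' hδ' δ hδ).2⟩
  have n1 := (afc_nu hk0.le hψ (hN δ hδ).2.2.1).1
  have n2 := ((hN δ hδ).2.2.2 D hD).1
  have p1 : ψ D ≤ k * (1 + A.L * D / R) := by
    rw [← le_div_iff₀ hR] at hψD
    refine hψD.trans (le_of_eq ?_)
    field_simp
  have d1 : (#(N.image (A.cell j)) : ℝ) ≤ 2 * k ^ 2 := by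
    refine le_of_mul_le_mul_left ?_ (show (0 : ℝ) < A.m by linarith)
    nlinarith
  have d2 : (#(N.image (A.cell l)) : ℝ) ≤ 2 * k ^ 2 + k ^ 2 * (A.L * D / R) := by
    refine le_of_mul_le_mul_left ?_ (show (0 : ℝ) < A.m by linarith)
    have := mul_le_mul_of_nonneg_left p1 (show 0 ≤ k * A.m by positivity)
    nlinarith
  refine (hr.card_le hNZ hk0.le).trans ?_
  gcongr

/-- the main count, with an abstract ordering function `t` -/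
lemma afc_main (h : A.OK k) (hlam : k ^ 10 ≤ A.lam) {ψ : ℝ → ℝ} (hψ : Psi k ψ) {j l : ℕ}
    (hj : j ∈ A.I) (hl : l ∈ A.I) {ej el R : ℝ} (hej : 0 < ej) (hel : 0 < el) (hR : 1 ≤ R)
    (hLR : A.L ≤ k * ψ R) (hψD : ∀ D, 1 ≤ D → D ≤ R → ψ D * R ≤ k * (R + A.L * D))
    (hfar : A.far j ≤ A.m ^ 2 * A.lam ^ 15) {Z : Finset Ln} (hZ : A.m * A.L ≤ k * #Z)
    (hr : A.Rk2 k Z j l)
    (hN : ∀ δ ∈ Z, δ ∈ A.ty j ∧ δ ∈ A.ty l ∧ A.Cmp1 k ψ j ej δ ∧ A.Cmp1 k ψ l el δ)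
    (hb : ∀ δ ∈ Z, ∀ δ' ∈ Z, |A.U l δ - A.U l δ'| ≤ R * el) (t : Ln → ℝ)
    (t1 : ∀ δ ∈ Z, ∀ δ' ∈ Z, A.blk δ < A.blk δ' → t δ ≤ t δ')
    (t2 : ∀ δ ∈ Z, ∀ δ' ∈ Z, t δ - t δ' ≤ 2 * R)
    (t3 : ∀ δ ∈ Z, ∀ δ' ∈ Z, |A.U j δ - A.U j δ'| ≤ ej →
      |A.U l δ - A.U l δ'| ≤ (|t δ - t δ'| + 1) * el) : False := by
  have hk := h.k2
  have hk0 : 0 < k := by linarith
  have hk1 : 1 ≤ k := by linarith
  have hm : (2 : ℝ) ≤ A.m := by exact_mod_cast h.m2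
  have hL := h.L1
  have hl1 := h.lam1
  have hR0 : 0 < R := by linarith
  have hZne : Z.Nonempty := by
    rw [nonempty_iff_ne_empty]
    rintro rfl
    rw [card_empty, Nat.cast_zero, mul_zero] at hZ
    nlinarith
  set B := Z.image A.blk with hB
  have hBc : (#B : ℝ) ≤ k * A.L := by
    refine le_trans ?_ h.blk_card
    exact_mod_cast card_le_card (image_subset_image fun δ hδ => (mem_ty.mp (hN δ hδ).1).1)
  let Zb : ℕ → Finset Ln := fun β => {δ ∈ Z | A.blk δ = β}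
  have hne : ∀ β ∈ B, (Zb β).Nonempty := by
    intro β hβ
    obtain ⟨δ, hδ, rfl⟩ := mem_image.mp hβ
    exact ⟨δ, mem_filter.mpr ⟨hδ, rfl⟩⟩
  -- extreme values of `t`
  have hlo : ∀ β, ∃ x : ℝ, β ∈ B → (∃ δ ∈ Zb β, t δ = x) ∧ ∀ δ ∈ Zb β, x ≤ t δ := by
    intro β
    by_cases hβ : β ∈ B
    · obtain ⟨δ, hδ, hmin⟩ := exists_min_image (Zb β) t (hne β hβ)
      exact ⟨t δ, fun _ => ⟨⟨δ, hδ, rfl⟩, hmin⟩⟩
    · exact ⟨0, fun h => absurd h hβ⟩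
  have hhi : ∀ β, ∃ x : ℝ, β ∈ B → (∃ δ ∈ Zb β, t δ = x) ∧ ∀ δ ∈ Zb β, t δ ≤ x := by
    intro β
    by_cases hβ : β ∈ B
    · obtain ⟨δ, hδ, hmax⟩ := exists_max_image (Zb β) t (hne β hβ)
      exact ⟨t δ, fun _ => ⟨⟨δ, hδ, rfl⟩, hmax⟩⟩
    · exact ⟨0, fun h => absurd h hβ⟩
  choose lo hlo using hlo
  choose hi hhi using hhi
  have hsum : ∑ β ∈ B, (hi β - lo β) ≤ 2 * R := by
    obtain ⟨δ₀, hδ₀, hmin⟩ := exists_min_image Z t hZne
    have := afc_intervals B lo hi (t δ₀) (t δ₀ + 2 * R) (by linarith) (fun β hβ => by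
      obtain ⟨δ, hδ, e⟩ := (hlo β hβ).1
      obtain ⟨δ', hδ', e'⟩ := (hhi β hβ).1
      exact ⟨e ▸ hmin δ (mem_filter.mp hδ).1,
        by linarith [t2 δ' (mem_filter.mp hδ').1 δ₀ hδ₀]⟩) (fun β hβ β' hβ' hlt => by
      obtain ⟨δ, hδ, e⟩ := (hhi β hβ).1
      obtain ⟨δ', hδ', e'⟩ := (hlo β' hβ').1
      rw [← e, ← e']
      refine t1 δ (mem_filter.mp hδ).1 δ' (mem_filter.mp hδ').1 ?_
      rw [(mem_filter.mp hδ).2, (mem_filter.mp hδ').2]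
      exact hlt)
    linarith
  have hη : 0 < A.m / (4 * k ^ 2) := by positivity
  -- one block
  have hblock : ∀ β ∈ B, (#(Zb β) : ℝ) * A.L ≤
      (A.m / (4 * k ^ 2) + #{x ∈ Zb β ×ˢ Zb β | A.afcFar j x.1 x.2} / (A.m / (4 * k ^ 2))) * A.L +
      10 * k * A.lam ^ 14 *
        (2 * k ^ 2 * (2 * k ^ 2 + k ^ 2 * (A.L * (hi β - lo β + 1) / R)) * (k * A.m)) := by
    intro β hβ
    obtain ⟨c, -, hc⟩ := afc_centre (Zb β) (hne β hβ) (A.afcFar j) hη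
    have hsplit : (#(Zb β) : ℝ) = #{δ ∈ Zb β | A.afcFar j c δ} + #{δ ∈ Zb β | ¬ A.afcFar j c δ} := by
      exact_mod_cast (card_filter_add_card_filter_not (s := Zb β) (A.afcFar j c)).symm
    have hlh : lo β ≤ hi β := by
      obtain ⟨δ, hδ⟩ := hne β hβ
      exact ((hlo β hβ).2 δ hδ).trans ((hhi β hβ).2 δ hδ)
    have hsub : ∀ δ ∈ {δ ∈ Zb β | ¬ A.afcFar j c δ}, δ ∈ Z := fun δ hδ =>
      (mem_filter.mp (mem_filter.mp hδ).1).1
    have hv := afc_vals h (le_trans (pow_le_pow_right₀ hk1 (by norm_num)) hlam) hψ hj hej c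
      {δ ∈ Zb β | ¬ A.afcFar j c δ} fun δ hδ => ⟨(hN δ (hsub δ hδ)).2.2.1, (mem_filter.mp hδ).2⟩
    have hf := afc_fiber (L := A.L) {δ ∈ Zb β | ¬ A.afcFar j c δ} (fun δ => ⌊A.U j δ / ej⌋)
      (K := 2 * k ^ 2 * (2 * k ^ 2 + k ^ 2 * (A.L * (hi β - lo β + 1) / R)) * (k * A.m))
      (by have : 0 ≤ hi β - lo β + 1 := by linarith
          positivity) hv (by
      intro v _
      have hD1 : 1 ≤ min R (hi β - lo β + 1) := le_min hR (by linarith)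
      refine (afc_val h hψ hj hl (ej := ej) (el := el) hD1 (min_le_left _ _)
        (hψD _ hD1 (min_le_left _ _)) hr (fun δ hδ => hsub δ (mem_filter.mp hδ).1)
        (fun δ hδ => hN δ (hsub δ (mem_filter.mp hδ).1)) ?_).trans ?_
      · intro δ hδ δ' hδ'
        obtain ⟨a1, a2⟩ := mem_filter.mp hδ
        obtain ⟨b1, b2⟩ := mem_filter.mp hδ'
        have e1 := afc_floor (a2.trans b2.symm)
        rw [← sub_div, abs_div, abs_of_pos hej, div_le_one hej] at e1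
        refine ⟨e1, ?_⟩
        rw [min_mul_of_nonneg _ _ hel.le]
        refine le_min (hb δ (hsub δ a1) δ' (hsub δ' b1))
          ((t3 δ (hsub δ a1) δ' (hsub δ' b1) e1).trans ?_)
        refine mul_le_mul_of_nonneg_right (add_le_add_left ?_ 1) hel.le
        have c1 := (hlo β hβ).2 δ (mem_filter.mp a1).1
        have c2 := (hlo β hβ).2 δ' (mem_filter.mp b1).1
        have c3 := (hhi β hβ).2 δ (mem_filter.mp a1).1
        have c4 := (hhi β hβ).2 δ' (mem_filter.mp b1).1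
        exact abs_le.mpr ⟨by linarith, by linarith⟩
      · gcongr
        exact min_le_right _ _)
    rw [hsplit, add_mul]
    exact add_le_add (mul_le_mul_of_nonneg_right hc (by linarith)) hf
  have hZsum : (#Z : ℝ) = ∑ β ∈ B, (#(Zb β) : ℝ) := by
    exact_mod_cast card_eq_sum_card_image A.blk Z
  have htot := sum_le_sum hblock
  have r1 : ∑ β ∈ B, (A.m / (4 * k ^ 2) +
      (#{x ∈ Zb β ×ˢ Zb β | A.afcFar j x.1 x.2} : ℝ) / (A.m / (4 * k ^ 2))) =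
      #B * (A.m / (4 * k ^ 2)) +
        (∑ β ∈ B, (#{x ∈ Zb β ×ˢ Zb β | A.afcFar j x.1 x.2} : ℝ)) / (A.m / (4 * k ^ 2)) := by
    rw [sum_add_distrib, sum_const, nsmul_eq_mul, sum_div]
  have r2 : ∑ β ∈ B, (2 * k ^ 2 + k ^ 2 * (A.L * (hi β - lo β + 1) / R)) =
      #B * (2 * k ^ 2) + k ^ 2 * (A.L * (∑ β ∈ B, (hi β - lo β) + #B) / R) := by
    rw [sum_add_distrib, sum_const, nsmul_eq_mul, ← mul_sum, ← sum_div, ← mul_sum,
      sum_add_distrib, sum_const, nsmul_eq_mul, mul_one]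
  rw [← sum_mul, ← hZsum, sum_add_distrib, ← sum_mul, r1, ← mul_sum, ← sum_mul, ← mul_sum,
    r2] at htot
  have hF := (afc_far j Z (fun δ hδ => (hN δ hδ).1) B).trans
    (mul_le_mul_of_nonneg_left hfar zero_le_two)
  have hLR' : A.L ≤ k ^ 3 * R := by
    have a1 := hψ.lip R 1 hR le_rfl
    rw [mul_one] at a1
    have a2 := mul_le_mul_of_nonneg_left hψ.one' (show 0 ≤ k * R by positivity)
    have a3 := mul_le_mul_of_nonneg_left (a1.trans a2) hk0.le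
    nlinarith
  have hk5 : 32 ≤ k ^ 5 := by
    have := pow_le_pow_left₀ (by norm_num) hk 5
    linarith
  have s1 : (#B : ℝ) * (A.m / (4 * k ^ 2)) ≤ A.m * A.L / (4 * k) := by
    refine (mul_le_mul_of_nonneg_right hBc hη.le).trans (le_of_eq ?_)
    field_simp
  have s2 : (∑ β ∈ B, (#{x ∈ Zb β ×ˢ Zb β | A.afcFar j x.1 x.2} : ℝ)) / (A.m / (4 * k ^ 2)) ≤
      A.m * A.L / (4 * k) := by
    refine (div_le_div_of_nonneg_right hF hη.le).trans ?_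
    have a1 : 32 * k ^ 3 ≤ A.lam := by
      refine le_trans ?_ hlam
      calc 32 * k ^ 3 ≤ k ^ 5 * k ^ 3 := by gcongr
        _ = k ^ 8 := by ring
        _ ≤ k ^ 10 := pow_le_pow_right₀ hk1 (by norm_num)
    have e : 2 * (A.m ^ 2 * A.lam ^ 15) / (A.m / (4 * k ^ 2)) =
        A.m * (A.lam ^ 15 * (32 * k ^ 3)) / (4 * k) := by
      field_simp
      ring
    rw [e]
    have : A.L = A.lam ^ 15 * A.lam := by unfold L; ring
    rw [this]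
    gcongr
  have s3 : A.L * (∑ β ∈ B, (hi β - lo β) + #B) / R ≤ A.L * (2 + k ^ 4) := by
    rw [mul_div_assoc]
    refine mul_le_mul_of_nonneg_left ?_ (by linarith)
    rw [div_le_iff₀ hR0]
    have := mul_le_mul_of_nonneg_left hLR' hk0.le
    nlinarith
  have s4 : (#B : ℝ) * (2 * k ^ 2) + k ^ 2 * (A.L * (∑ β ∈ B, (hi β - lo β) + #B) / R) ≤
      2 * k ^ 6 * A.L := by
    have a1 := mul_le_mul_of_nonneg_right hBc (show 0 ≤ 2 * k ^ 2 by positivity)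
    have a2 := mul_le_mul_of_nonneg_left s3 (show 0 ≤ k ^ 2 by positivity)
    have a3 : 2 * k ^ 3 + 2 * k ^ 2 ≤ k ^ 6 := by
      have b1 : k ^ 2 ≤ k ^ 3 := pow_le_pow_right₀ hk1 (by norm_num)
      have b2 : 8 ≤ k ^ 3 := by
        have := pow_le_pow_left₀ (by norm_num) hk 3
        linarith
      nlinarith
    have a4 := mul_le_mul_of_nonneg_right a3 (show 0 ≤ A.L by linarith)
    nlinarith
  have s5 : (#Z : ℝ) * A.L ≤ A.m * A.L / (2 * k) * A.L +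
      10 * k * A.lam ^ 14 * (2 * k ^ 2 * (2 * k ^ 6 * A.L) * (k * A.m)) := by
    refine htot.trans (add_le_add ?_ ?_)
    · refine mul_le_mul_of_nonneg_right ((add_le_add s1 s2).trans (le_of_eq ?_)) (by linarith)
      field_simp
      ring
    · gcongr
  have s6 : A.m * A.L / k ≤ #Z := by rw [div_le_iff₀ hk0]; linarith
  have s7 : A.m * A.L / (2 * k) * A.L ≤
      10 * k * A.lam ^ 14 * (2 * k ^ 2 * (2 * k ^ 6 * A.L) * (k * A.m)) := by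
    have a1 := mul_le_mul_of_nonneg_right s6 (show 0 ≤ A.L by linarith)
    have a2 : A.m * A.L / k * A.L = 2 * (A.m * A.L / (2 * k) * A.L) := by field_simp
    linarith
  have s8 : A.lam ^ 2 ≤ 80 * k ^ 11 := by
    have e1 : A.m * A.L / (2 * k) * A.L = (A.m * A.L * A.lam ^ 14 / (2 * k)) * A.lam ^ 2 := by
      unfold L
      ring
    have e2 : 10 * k * A.lam ^ 14 * (2 * k ^ 2 * (2 * k ^ 6 * A.L) * (k * A.m)) =
        (A.m * A.L * A.lam ^ 14 / (2 * k)) * (80 * k ^ 11) := by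
      field_simp
      ring
    rw [e1, e2] at s7
    exact le_of_mul_le_mul_left s7 (by positivity)
  have s9 : (k ^ 10) ^ 2 ≤ A.lam ^ 2 := pow_le_pow_left₀ (by positivity) hlam 2
  have s10 : 512 ≤ k ^ 9 := by
    have := pow_le_pow_left₀ (by norm_num) hk 9
    linarith
  have s11 : 0 < k ^ 11 := by positivity
  have s12 : (k ^ 10) ^ 2 = k ^ 9 * k ^ 11 := by ring
  nlinarith

end AD

end Crest.Agent.R051
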