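import Crest.Agent.R051.ACnt
import Crest.Agent.R070.SPGap

/-! Row 51: the gap/dense dichotomy forces a Lebesgue-like profile. -/

set_option autoImplicit false

open Finset
open scoped Classical Pointwise

namespace Crest.Agent.R051

/-- quadruples of indices -/
noncomputable def Q4 (I : Finset ℕ) (x : ℕ → ℝ) (b η ρ1 : ℝ) : ℝ :=
  #{s ∈ (I ×ˢ I) ×ˢ (I ×ˢ I) | ρ1 ≤ |x s.2.1 - x s.2.2| ∧
    |x s.1.1 - x s.1.2 - b * (x s.2.1 - x s.2.2)| ≤ η}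

lemma gkz_cs {α β : Type*} [DecidableEq β] (P : Finset α) (g : α → β) :
    (#P : ℝ) ^ 2 ≤ #(P.image g) * #{q ∈ P ×ˢ P | g q.1 = g q.2} := by
  have h1 : (#P : ℝ) = ∑ c ∈ P.image g, (#{p ∈ P | g p = c} : ℝ) := by
    exact_mod_cast card_eq_sum_card_image g P
  have h2 : (#{q ∈ P ×ˢ P | g q.1 = g q.2} : ℝ) =
      ∑ c ∈ P.image g, (#{p ∈ P | g p = c} : ℝ) ^ 2 := by
    rw [card_eq_sum_card_fiberwise (f := fun q : α × α => g q.1) (t := P.image g)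
      (fun q hq => mem_image_of_mem g (mem_product.1 (mem_filter.1 hq).1).1)]
    push_cast
    refine sum_congr rfl fun c _ => ?_
    rw [sq, ← Nat.cast_mul, ← card_product]
    congr 2
    ext q
    simp only [mem_filter, mem_product]
    constructor
    · rintro ⟨⟨⟨h1, h2⟩, h3⟩, h4⟩
      exact ⟨⟨h1, h4⟩, h2, h3 ▸ h4⟩
    · rintro ⟨⟨h1, h4⟩, h2, h3⟩
      exact ⟨⟨⟨h1, h2⟩, h4.trans h3.symm⟩, h4⟩
  rw [h2]
  conv_lhs => rw [h1]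
  exact sq_sum_le_card_mul_sum_sq

lemma gkz_fib {α β : Type*} (s : Finset α) (t : Finset β) (f : α → β) (B : ℝ)
    (hf : ∀ a ∈ s, f a ∈ t) (hB : ∀ b ∈ t, (#{a ∈ s | f a = b} : ℝ) ≤ B) : (#s : ℝ) ≤ #t * B := by
  rw [card_eq_sum_card_fiberwise (f := f) (t := t) hf]
  push_cast
  simpa using sum_le_card_nsmul t _ B hB

lemma gkz_bad (I : Finset ℕ) (x : ℕ → ℝ) (b η ρ1 A B : ℝ) (hB0 : 0 ≤ B)
    (hA : ∀ p, (#{i ∈ I | |x i - p| ≤ ρ1} : ℝ) ≤ A) (hB : ∀ p, (#{i ∈ I | |x i - p| ≤ η} : ℝ) ≤ B) :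
    (#{s ∈ (I ×ˢ I) ×ˢ (I ×ˢ I) | |x s.2.1 - x s.2.2| ≤ ρ1 ∧
      |x s.1.1 - x s.1.2 - b * (x s.2.1 - x s.2.2)| ≤ η} : ℝ) ≤ #I * (#I * A) * B := by
  have h1 : (#{c ∈ I ×ˢ I | |x c.1 - x c.2| ≤ ρ1} : ℝ) ≤ #I * A := by
    refine gkz_fib _ I Prod.snd A (fun c hc => (mem_product.1 (mem_filter.1 hc).1).2)
      fun j _ => le_trans ?_ (hA (x j))
    refine Nat.cast_le.2 (card_le_card_of_injOn Prod.fst (fun c hc => ?_) fun c hc c' hc' h => ?_)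
    · simp only [coe_filter, mem_filter, mem_product, Set.mem_ofPred_eq] at hc ⊢
      exact ⟨hc.1.1.1, hc.2 ▸ hc.1.2⟩
    · simp only [coe_filter, mem_filter, mem_product, Set.mem_ofPred_eq] at hc hc'
      exact Prod.ext h (hc.2.trans hc'.2.symm)
  refine le_trans (gkz_fib _ (I ×ˢ {c ∈ I ×ˢ I | |x c.1 - x c.2| ≤ ρ1})
    (fun s => (s.1.2, s.2)) B (fun s hs => ?_) fun t _ => ?_) ?_
  · simp only [mem_filter, mem_product] at hs ⊢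
    exact ⟨hs.1.1.2, hs.1.2, hs.2.1⟩
  · refine le_trans ?_ (hB (x t.1 + b * (x t.2.1 - x t.2.2)))
    refine Nat.cast_le.2 (card_le_card_of_injOn (fun s => s.1.1) (fun s hs => ?_)
      fun s hs s' hs' h => ?_)
    · simp only [coe_filter, mem_filter, mem_product, Set.mem_ofPred_eq] at hs ⊢
      obtain ⟨⟨h2, -, h3⟩, rfl⟩ := hs
      exact ⟨h2.1.1, by rwa [← sub_sub]⟩
    · simp only [coe_filter, mem_filter, mem_product, Set.mem_ofPred_eq] at hs hs'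
      have h4 := hs.2.trans hs'.2.symm
      simp only [Prod.mk.injEq] at h4
      exact Prod.ext (Prod.ext h h4.1) h4.2
  · rw [card_product]
    push_cast
    gcongr

set_option maxHeartbeats 800000 in
/-- Energy of `b = e / f`, `f = μ (x i3 - x i4)`, `e = x i1 - x i2 + ε (x i3 - x i4)`.  The values
`f x i - e x i'` satisfy `RP` and lie in `[-3 |f|, 3 |f|]`; with `ω = |f| η / 2 ≥ ω1`, `exists_sep` and
`loc` bound the number of classes `⌊· / ω⌋` by `2 k ψ (3 |f| ρ0) / ψ (ω ρ0)`; `sm` (with `η / 2` and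
`D = ω ρ0`) and `lip` turn this into `k ^ c L / ψ (η ρ0)`.  Cauchy-Schwarz gives
`#I⁴ ψ (η ρ0) / (k ^ c L)` quadruples; those with `|x i - x i'| < ρ1` are at most
`#I² k² ψ (ρ1 ρ0) ψ (η ρ0)` by `conc`, at most half of them. -/
theorem gkz_energy : ∃ C : ℕ, ∀ (k L : ℝ) (ψ : ℝ → ℝ) (I : Finset ℕ) (x : ℕ → ℝ) (ρ0 ω1 : ℝ),
    2 ≤ k → 0 < L → RL2 k L ψ I x ρ0 ω1 → ∀ ρ1 η : ℝ, 1 ≤ ρ1 * ρ0 → ρ1 ≤ 1 →
    k ^ C * ψ (ρ1 * ρ0) ≤ L → 2 * ω1 ≤ η * ρ1 → η ≤ 1 →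
    ∀ i1 ∈ I, ∀ i2 ∈ I, ∀ i3 ∈ I, ∀ i4 ∈ I, ∀ ε μ : ℝ, (ε = 0 ∨ ε = 1) → (μ = 1 ∨ μ = 2) →
    ρ1 ≤ |x i3 - x i4| → |x i1 - x i2 + ε * (x i3 - x i4)| ≤ 2 * |μ * (x i3 - x i4)| →
    (#I : ℝ) ^ 4 * ψ (η * ρ0) ≤
      k ^ C * L * Q4 I x ((x i1 - x i2 + ε * (x i3 - x i4)) / (μ * (x i3 - x i4))) η ρ1 := by
  refine ⟨13, fun k L ψ I x ρ0 ω1 hk hL h ρ1 η h1 h2 h3 h4 h5 i1 hi1 i2 hi2 i3 hi3 i4 hi4 ε μ hε hμ
    h6 h7 => ?_⟩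
  set f := μ * (x i3 - x i4) with hf
  set e := x i1 - x i2 + ε * (x i3 - x i4) with he
  have hρ0 : 0 < ρ0 := by linarith [h.r1]
  have hρ1 : 0 < ρ1 := by by_contra hh; nlinarith
  have hω1 : 0 < ω1 := by by_contra hh; nlinarith [h.w1]
  have hη : 0 < η := by by_contra hh; nlinarith
  have hfρ : ρ1 ≤ |f| := by
    rw [hf, abs_mul]
    rcases hμ with rfl | rfl
    · simpa using h6
    · rw [abs_two]; linarith
  have hf0 : 0 < |f| := by linarith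
  have hk0 : 0 < k := by linarith
  set ω := |f| * η / 2 with hω
  have hωω : ω1 ≤ ω := by rw [hω]; nlinarith
  have hω0 : 0 < ω := by linarith
  have hηρ : 32 ≤ η * ρ0 := by nlinarith [h.w1, mul_pos hη hρ0]
  have hωρ : 16 ≤ ω * ρ0 := by nlinarith [h.w1]
  have hfρ0 : 1 ≤ |f| * ρ0 := by nlinarith
  set y : ℕ × ℕ → ℝ := fun p => f * x p.1 - e * x p.2 with hy
  obtain ⟨Xs, hX1, hX2, hX3⟩ := exists_sep ((I ×ˢ I).image y) hω0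
  have hloc := h.loc ω (3 * |f|) 0 Xs hωω (by rw [hω]; nlinarith) (fun z hz => by
    obtain ⟨p, hp, rfl⟩ := mem_image.1 (hX1 hz)
    obtain ⟨hp1, hp2⟩ := mem_product.1 hp
    refine ⟨⟨i1, hi1, i2, hi2, i3, hi3, i4, hi4, p.1, hp1, p.2, hp2, ε, μ, hε, hμ, rfl⟩, ?_⟩
    rw [sub_zero]
    refine (abs_sub _ _).trans ?_
    rw [abs_mul f, abs_mul e]
    nlinarith [h.x1 _ hp1, h.x1 _ hp2, abs_nonneg e]) hX2
  set N : ℝ := ((#((I ×ˢ I).image fun p => ⌊y p / ω⌋) : ℕ) : ℝ) with hN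
  have hN2 : N ≤ 2 * #Xs := by
    rw [image_image] at hX3
    rw [hN]
    exact_mod_cast hX3
  have hsm := h.sm (η / 2) (ω * ρ0) (by linarith) (by linarith) (by linarith)
  rw [show ω * ρ0 / (η / 2) = |f| * ρ0 by rw [hω]; field_simp] at hsm
  have hl1 := h.psi.lip 3 (|f| * ρ0) (by norm_num) hfρ0
  have hl2 := h.psi.lip 2 (η / 2 * ρ0) (by norm_num) (by linarith)
  rw [show 2 * (η / 2 * ρ0) = η * ρ0 by ring] at hl2
  rw [mul_assoc 3] at hloc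
  have p1 : 1 ≤ ψ (ω * ρ0) := h.psi.pos (by linarith)
  have p2 : 1 ≤ ψ (η * ρ0) := h.psi.pos (by linarith)
  have p3 : 1 ≤ ψ (|f| * ρ0) := h.psi.pos hfρ0
  have p4 : 1 ≤ ψ (η / 2 * ρ0) := h.psi.pos (by linarith)
  have p5 : 1 ≤ ψ (ρ1 * ρ0) := h.psi.pos h1
  have hN3 : N * ψ (η * ρ0) ≤ 12 * k ^ 4 * L := by
    refine le_of_mul_le_mul_right ?_ (show 0 < ψ (ω * ρ0) by linarith)
    calc N * ψ (η * ρ0) * ψ (ω * ρ0) ≤ 2 * #Xs * ψ (η * ρ0) * ψ (ω * ρ0) := by gcongr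
      _ = 2 * (#Xs * ψ (ω * ρ0)) * ψ (η * ρ0) := by ring
      _ ≤ 2 * (k * (k * 3 * ψ (|f| * ρ0))) * (k * 2 * ψ (η / 2 * ρ0)) := by
          have := hloc.trans (mul_le_mul_of_nonneg_left hl1 hk0.le)
          gcongr 2 * ?_ * ?_
      _ = 12 * k ^ 3 * (ψ (η / 2 * ρ0) * ψ (|f| * ρ0)) := by ring
      _ ≤ 12 * k ^ 3 * (k * L * ψ (ω * ρ0)) := by gcongr
      _ = 12 * k ^ 4 * L * ψ (ω * ρ0) := by ring
  have hcs := gkz_cs (I ×ˢ I) fun p => ⌊y p / ω⌋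
  rw [← hN, card_product] at hcs
  have hbad := gkz_bad I x (e / f) η ρ1 _ _ (by positivity) (fun p => h.conc ρ1 p h1 h2)
    fun p => h.conc η p (by linarith) h5
  set Bd : ℝ := ((#{s ∈ (I ×ˢ I) ×ˢ (I ×ˢ I) | |x s.2.1 - x s.2.2| ≤ ρ1 ∧
      |x s.1.1 - x s.1.2 - e / f * (x s.2.1 - x s.2.2)| ≤ η} : ℕ) : ℝ) with hBd
  have hE : (#{q ∈ (I ×ˢ I) ×ˢ (I ×ˢ I) | ⌊y q.1 / ω⌋ = ⌊y q.2 / ω⌋} : ℝ) ≤
      Q4 I x (e / f) η ρ1 + Bd := by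
    rw [Q4, hBd, ← Nat.cast_add]
    refine Nat.cast_le.2 (le_trans (card_le_card_of_injOn
      (fun q => ((q.1.1, q.2.1), (q.1.2, q.2.2))) (fun q hq => ?_) fun q _ q' _ hqq => ?_)
      (card_union_le _ _))
    · simp only [coe_filter, mem_product, Set.mem_ofPred_eq, coe_union, Set.mem_union] at hq ⊢
      obtain ⟨⟨⟨a1, a2⟩, a3, a4⟩, a5⟩ := hq
      have a6 := Int.abs_sub_lt_one_of_floor_eq_floor a5
      rw [← sub_div, abs_div, abs_of_pos hω0, div_lt_one hω0] at a6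
      have a7 : |x q.1.1 - x q.2.1 - e / f * (x q.1.2 - x q.2.2)| ≤ η := by
        have : y q.1 - y q.2 = f * (x q.1.1 - x q.2.1 - e / f * (x q.1.2 - x q.2.2)) := by
          have := abs_pos.1 hf0
          simp only [hy]
          field_simp
          ring
        rw [this, abs_mul, hω] at a6
        nlinarith [mul_pos hf0 hη]
      rcases le_total ρ1 |x q.1.2 - x q.2.2| with a8 | a8
      · exact Or.inl ⟨⟨⟨a1, a3⟩, a2, a4⟩, a8, a7⟩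
      · exact Or.inr ⟨⟨⟨a1, a3⟩, a2, a4⟩, a8, a7⟩
    · simp only [Prod.mk.injEq] at hqq
      exact Prod.ext (Prod.ext hqq.1.1 hqq.2.1) (Prod.ext hqq.1.2 hqq.2.2)
  set n : ℝ := ((#I : ℕ) : ℝ) with hn
  have hn0 : 0 ≤ n := by positivity
  have hQ0 : 0 ≤ Q4 I x (e / f) η ρ1 := by unfold Q4; positivity
  have hN0 : 0 ≤ N := by positivity
  have s1 : n ^ 4 * ψ (η * ρ0) ≤ 12 * k ^ 4 * L * (Q4 I x (e / f) η ρ1 + Bd) := by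
    push_cast at hcs
    calc n ^ 4 * ψ (η * ρ0) = (n * n) ^ 2 * ψ (η * ρ0) := by ring
      _ ≤ N * (Q4 I x (e / f) η ρ1 + Bd) * ψ (η * ρ0) := by
          gcongr
          exact hcs.trans (by gcongr)
      _ = N * ψ (η * ρ0) * (Q4 I x (e / f) η ρ1 + Bd) := by ring
      _ ≤ _ := by gcongr
  have k5 : 32 ≤ k ^ 5 := by
    have := pow_le_pow_left₀ (by norm_num : (0 : ℝ) ≤ 2) hk 5
    linarith
  have s2 : 24 * k ^ 6 * L * ψ (ρ1 * ρ0) ≤ n ^ 2 := by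
    refine le_of_mul_le_mul_left ?_ (show 0 < k ^ 2 by positivity)
    calc k ^ 2 * (24 * k ^ 6 * L * ψ (ρ1 * ρ0)) = 24 * (k ^ 8 * ψ (ρ1 * ρ0)) * L := by ring
      _ ≤ k ^ 5 * (k ^ 8 * ψ (ρ1 * ρ0)) * L := by gcongr; linarith
      _ = k ^ 13 * ψ (ρ1 * ρ0) * L := by ring
      _ ≤ L * L := by gcongr
      _ ≤ (k * n) * (k * n) := by have := h.Ibig; gcongr
      _ = k ^ 2 * n ^ 2 := by ring
  have s3 : 24 * k ^ 4 * L * Bd ≤ n ^ 4 * ψ (η * ρ0) := by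
    calc 24 * k ^ 4 * L * Bd
        ≤ 24 * k ^ 4 * L * (n * (n * (k * ψ (ρ1 * ρ0))) * (k * ψ (η * ρ0))) := by gcongr
      _ = 24 * k ^ 6 * L * ψ (ρ1 * ρ0) * (n ^ 2 * ψ (η * ρ0)) := by ring
      _ ≤ n ^ 2 * (n ^ 2 * ψ (η * ρ0)) := by gcongr
      _ = _ := by ring
  have k9 : 24 ≤ k ^ 9 := by
    have := pow_le_pow_left₀ (by norm_num : (0 : ℝ) ≤ 2) hk 9
    linarith
  calc n ^ 4 * ψ (η * ρ0) ≤ 24 * (k ^ 4 * L * Q4 I x (e / f) η ρ1) := by linarith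
    _ ≤ k ^ 9 * (k ^ 4 * L * Q4 I x (e / f) η ρ1) := by gcongr
    _ = _ := by ring

lemma gkz_sum (I : Finset ℕ) (x : ℕ → ℝ) {η ρ1 : ℝ} (hη : 0 < η) (hρ : 0 < ρ1) (J : Finset ℕ)
    (b : ℕ → ℝ) (hb : ∀ l ∈ J, ∀ l' ∈ J, l ≠ l' → 5 * η / ρ1 ≤ |b l - b l'|) :
    ∑ l ∈ J, Q4 I x (b l) η ρ1 ≤ (#I : ℝ) ^ 4 := by
  unfold Q4
  rw [← Nat.cast_sum, ← card_biUnion]
  · have h := card_le_card (s := J.biUnion fun l => {s ∈ (I ×ˢ I) ×ˢ (I ×ˢ I) |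
      ρ1 ≤ |x s.2.1 - x s.2.2| ∧ |x s.1.1 - x s.1.2 - b l * (x s.2.1 - x s.2.2)| ≤ η})
      (t := (I ×ˢ I) ×ˢ (I ×ˢ I)) (biUnion_subset.2 fun l _ => filter_subset _ _)
    rw [card_product, card_product] at h
    calc _ ≤ ((#I * #I * (#I * #I) : ℕ) : ℝ) := Nat.cast_le.2 h
      _ = _ := by push_cast; ring
  · intro l hl l' hl' hne
    rw [Function.onFun, disjoint_left]
    intro s hs hs'
    obtain ⟨-, h1, h2⟩ := mem_filter.1 hs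
    obtain ⟨-, -, h3⟩ := mem_filter.1 hs'
    have h4 := hb l hl l' hl' hne
    rw [div_le_iff₀ hρ] at h4
    have h5 : |b l - b l'| * |x s.2.1 - x s.2.2| ≤ 2 * η := by
      rw [← abs_mul]
      have := abs_sub (x s.1.1 - x s.1.2 - b l' * (x s.2.1 - x s.2.2))
        (x s.1.1 - x s.1.2 - b l * (x s.2.1 - x s.2.2))
      rw [show x s.1.1 - x s.1.2 - b l' * (x s.2.1 - x s.2.2) -
        (x s.1.1 - x s.1.2 - b l * (x s.2.1 - x s.2.2)) = (b l - b l') * (x s.2.1 - x s.2.2) by ring]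
        at this
      linarith
    nlinarith [mul_le_mul_of_nonneg_left h1 (abs_nonneg (b l - b l'))]

/-- the counting step at scale `η` -/
lemma gkz_count {I : Finset ℕ} (hI : (0 : ℝ) < #I) (x : ℕ → ℝ) {η ρ1 δ T P : ℝ} (hη : 0 < η)
    (hρ1 : 0 < ρ1) (hη2 : 10 * η ≤ ρ1) (hδ : δ ≤ η / (2 * ρ1)) (hT : 0 ≤ T) (hP : 0 ≤ P) {B : Set ℝ}
    (hdense : ∀ u : ℝ, 0 ≤ u → u ≤ 1 → ∃ c ∈ B, |u - c| ≤ 5 * δ)
    (hB : ∀ b ∈ B, |b| ≤ 2 → (#I : ℝ) ^ 4 * P ≤ T * Q4 I x b η ρ1) : P * ρ1 ≤ 10 * T * η := by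
  obtain ⟨u, hu⟩ : ∃ u, u = η / ρ1 := ⟨_, rfl⟩
  have hu0 : 0 < u := by rw [hu]; positivity
  have hu1 : 10 * u ≤ 1 := by rw [hu, ← mul_div_assoc, div_le_one hρ1]; exact hη2
  have hδ' : 5 * δ ≤ 5 / 2 * u := by
    rw [hu, show 5 / 2 * (η / ρ1) = 5 * (η / (2 * ρ1)) by field_simp]
    linarith
  have ex : ∀ l : ℕ, ∃ b, l ∈ range (⌊1 / (10 * u)⌋₊ + 1) → b ∈ B ∧ |l * (10 * u) - b| ≤ 5 / 2 * u ∧
      l * (10 * u) ≤ 1 := by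
    intro l
    by_cases hl : l ∈ range (⌊1 / (10 * u)⌋₊ + 1)
    · have h1 : l * (10 * u) ≤ 1 := by
        rw [← le_div_iff₀ (by positivity)]
        exact (Nat.le_floor_iff (by positivity)).1 (Nat.lt_succ_iff.1 (mem_range.1 hl))
      obtain ⟨c, hc, h2⟩ := hdense (l * (10 * u)) (by positivity) h1
      exact ⟨c, fun _ => ⟨hc, h2.trans hδ', h1⟩⟩
    · exact ⟨0, fun h => (hl h).elim⟩
  choose b hb using ex
  have hsum := gkz_sum I x hη hρ1 (range (⌊1 / (10 * u)⌋₊ + 1)) b (fun l hl l' hl' hne => by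
    have h1 := abs_le.1 (hb l hl).2.1
    have h2 := abs_le.1 (hb l' hl').2.1
    rw [mul_div_assoc, ← hu, le_abs]
    rcases lt_or_gt_of_ne hne with h3 | h3
    · have : (l : ℝ) + 1 ≤ l' := by exact_mod_cast h3
      have := mul_le_mul_of_nonneg_right this hu0.le
      right; linarith
    · have : (l' : ℝ) + 1 ≤ l := by exact_mod_cast h3
      have := mul_le_mul_of_nonneg_right this hu0.le
      left; linarith)
  have hlow : ∀ l ∈ range (⌊1 / (10 * u)⌋₊ + 1), (#I : ℝ) ^ 4 * P ≤ T * Q4 I x (b l) η ρ1 := by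
    intro l hl
    obtain ⟨a3, a4, a5⟩ := hb l hl
    refine hB _ a3 (abs_le.2 ?_)
    have := abs_le.1 a4
    have : 0 ≤ l * (10 * u) := by positivity
    constructor <;> linarith
  have h1 := sum_le_sum hlow
  rw [sum_const, card_range, ← mul_sum, nsmul_eq_mul] at h1
  have h2 : ((⌊1 / (10 * u)⌋₊ + 1 : ℕ) : ℝ) * P ≤ T := by
    refine le_of_mul_le_mul_right ?_ (show (0 : ℝ) < (#I : ℝ) ^ 4 by positivity)
    calc _ = ((⌊1 / (10 * u)⌋₊ + 1 : ℕ) : ℝ) * ((#I : ℝ) ^ 4 * P) := by ring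
      _ ≤ _ := h1.trans (mul_le_mul_of_nonneg_left hsum hT)
  have h3 : 1 / (10 * u) ≤ ((⌊1 / (10 * u)⌋₊ + 1 : ℕ) : ℝ) := by
    push_cast; exact (Nat.lt_floor_add_one _).le
  have h4 : 1 / (10 * u) * P ≤ T := (mul_le_mul_of_nonneg_right h3 hP).trans h2
  have h5 : 1 / (10 * u) = ρ1 / (10 * η) := by
    rw [hu]; field_simp
  rw [h5, div_mul_eq_mul_div, div_le_iff₀ (by positivity)] at h4
  linarith

/-- the set of quotients -/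
def gkzB (I : Finset ℕ) (x : ℕ → ℝ) (ρ1 : ℝ) : Set ℝ :=
  {b | ∃ i1 ∈ I, ∃ i2 ∈ I, ∃ i3 ∈ I, ∃ i4 ∈ I, ρ1 ≤ |x i3 - x i4| ∧
    b = (x i1 - x i2) / (x i3 - x i4)}

lemma gkz_dense {I : Finset ℕ} {x : ℕ → ℝ} {η0 ρ1 : ℝ} (hη : 0 < η0) (hρ1 : 0 < ρ1)
    (h1 : η0 ≤ ρ1 / 2) (h0 : (0 : ℝ) ∈ gkzB I x ρ1)
    (hE : ∀ i1 ∈ I, ∀ i2 ∈ I, ∀ i3 ∈ I, ∀ i4 ∈ I, ∀ ε : ℝ, (ε = 0 ∨ ε = 1) →
      ρ1 ≤ |x i3 - x i4| → |(x i1 - x i2 + ε * (x i3 - x i4)) / (2 * (x i3 - x i4))| ≤ 2 →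
      0 < Q4 I x ((x i1 - x i2 + ε * (x i3 - x i4)) / (2 * (x i3 - x i4))) η0 ρ1) :
    ∀ u : ℝ, 0 ≤ u → u ≤ 1 → ∃ c ∈ gkzB I x ρ1, |u - c| ≤ 5 * (η0 / (2 * ρ1)) := by
  refine R070.spgap_dense _ (η0 / (2 * ρ1)) (by positivity)
    (by rw [div_le_iff₀ (by positivity)]; linarith) h0 ?_
  rintro b ⟨i1, hi1, i2, hi2, i3, hi3, i4, hi4, a3, rfl⟩ b1 b2 ε hε
  have a0 : x i3 - x i4 ≠ 0 := abs_pos.1 (by linarith)
  have e : ((x i1 - x i2) / (x i3 - x i4) + ε) / 2 =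
      (x i1 - x i2 + ε * (x i3 - x i4)) / (2 * (x i3 - x i4)) := by field_simp
  have a5 := hE i1 hi1 i2 hi2 i3 hi3 i4 hi4 ε hε a3
    (by rw [← e, abs_le]; rcases hε with rfl | rfl <;> constructor <;> linarith)
  rw [← e] at a5
  obtain ⟨s, hs⟩ := card_pos.1 (Nat.cast_pos.1 a5)
  simp only [mem_filter, mem_product] at hs
  obtain ⟨⟨⟨s1, s2⟩, s3, s4⟩, s5, s6⟩ := hs
  refine ⟨_, ⟨_, s1, _, s2, _, s3, _, s4, s5, rfl⟩, ?_⟩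
  have a6 : 0 < |x s.2.1 - x s.2.2| := by linarith
  have a7 := abs_pos.1 a6
  generalize ((x i1 - x i2) / (x i3 - x i4) + ε) / 2 = b' at s6 ⊢
  rw [show b' - (x s.1.1 - x s.1.2) / (x s.2.1 - x s.2.2) =
    -(x s.1.1 - x s.1.2 - b' * (x s.2.1 - x s.2.2)) / (x s.2.1 - x s.2.2) by field_simp; ring,
    abs_div, abs_neg, show 2 * (η0 / (2 * ρ1)) = η0 / ρ1 by field_simp]
  gcongr

/-- choice of the scale -/
lemma gkz_scale {k K L : ℝ} {ψ : ℝ → ℝ} {I : Finset ℕ} {x : ℕ → ℝ} {ρ0 ω1 : ℝ} (hk : 2 ≤ k)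
    (hKk : k ^ 2 ≤ K) (hL1 : K ^ 2 * (32 * k ^ 5) ≤ L) (h : RL2 k L ψ I x ρ0 ω1) :
    ∃ ρ1 : ℝ, 0 < ρ1 ∧ ρ1 ≤ 1 ∧ 4 ≤ ρ1 * ρ0 ∧ K * ψ (ρ1 * ρ0) < L ∧ L ≤ 2 * k * K * ψ (ρ1 * ρ0) ∧
      ψ (4 * (ω1 * ρ0) / ρ1) ≤ 8 * k ^ 4 * K ∧ 4 * ω1 < ρ1 ^ 2 := by
  have hk0 : 0 < k := by linarith
  have hk2 : k ≤ k ^ 2 := by nlinarith
  have hK0 : 0 < K := by linarith
  have k5 : 1 ≤ k ^ 5 := one_le_pow₀ (by linarith)
  have hρ0 : 0 < ρ0 := by linarith [h.r1]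
  have hψ4 : ψ 4 < L / K := by
    have h1 := h.psi.lip 4 1 (by norm_num) le_rfl
    rw [mul_one] at h1
    have h2 : ψ 4 ≤ 4 * K := by nlinarith [h.psi.one']
    rw [lt_div_iff₀ hK0]
    have h3 : K ^ 2 * (32 * 1) ≤ K ^ 2 * (32 * k ^ 5) := by gcongr
    nlinarith
  have hψ0 : L / K ≤ ψ ρ0 := by
    rw [div_le_iff₀ hK0]
    nlinarith [h.top, h.psi.pos h.r1]
  have h4ρ : 4 ≤ ρ0 := by
    by_contra hh
    linarith [h.psi.mono ρ0 4 h.r1 (not_le.1 hh).le]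
  obtain ⟨R, hR4, hRρ, hR1, hR2⟩ := exists_thr ψ (by norm_num) h4ρ
    (fun a b ha hab => h.psi.mono a b (by linarith) hab) hψ4 hψ0
  have hR : 1 ≤ R := by linarith
  have pR := h.psi.pos hR
  have hR1' : K * ψ R < L := by rwa [lt_div_iff₀' hK0] at hR1
  have hR2' : L ≤ 2 * k * K * ψ R := by
    have := hR2.trans (h.psi.lip 2 R (by norm_num) hR)
    rw [div_le_iff₀ hK0] at this
    linarith
  obtain ⟨ρ1, hρ1def⟩ : ∃ ρ1, ρ1 = R / ρ0 := ⟨_, rfl⟩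
  have hρR : ρ1 * ρ0 = R := by rw [hρ1def]; exact div_mul_cancel₀ _ hρ0.ne'
  have hρ1 : 0 < ρ1 := by rw [hρ1def]; positivity
  have hρ11 : ρ1 ≤ 1 := by rw [hρ1def]; exact (div_le_one hρ0).2 hRρ.le
  have hw := h.w1
  have hsm := h.sm ρ1 (4 * (ω1 * ρ0)) (by linarith) hρ11 (by linarith)
  have hκ : ψ (4 * (ω1 * ρ0) / ρ1) ≤ 8 * k ^ 4 * K := by
    have h1 := h.psi.lip 4 (ω1 * ρ0) (by norm_num) (by linarith)
    have h2 := h.w1'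
    have h3 := h.psi.pos (show 1 ≤ 4 * (ω1 * ρ0) by linarith)
    have h4 : ψ (4 * (ω1 * ρ0)) ≤ k * 4 * k := h1.trans (by gcongr)
    rw [hρR] at hsm
    refine le_of_mul_le_mul_left ?_ (show 0 < ψ R by linarith)
    calc ψ R * ψ (4 * (ω1 * ρ0) / ρ1) ≤ k * L * ψ (4 * (ω1 * ρ0)) := hsm
      _ ≤ k * (2 * k * K * ψ R) * (k * 4 * k) := by gcongr
      _ = _ := by ring
  refine ⟨ρ1, hρ1, hρ11, by linarith, by rwa [hρR], by rwa [hρR], hκ, ?_⟩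
  by_contra hh
  have h1 : R ≤ 4 * (ω1 * ρ0) / ρ1 := by
    rw [le_div_iff₀ hρ1, ← hρR]
    have := mul_le_mul_of_nonneg_right (not_lt.1 hh) hρ0.le
    linarith
  have h2 := (h.psi.mono _ _ hR h1).trans hκ
  have h3 : L ≤ 2 * k * K * (8 * k ^ 4 * K) := hR2'.trans (by gcongr)
  have h4 : 0 < K ^ 2 * k ^ 5 := by positivity
  linarith

/-- `R = ρ1 ρ0` from `exists_thr` on `[4, ρ0]` with `θ = L / k ^ c`.  `sm` with `ω = ρ1`,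
`D = 4 ω1 ρ0` bounds `ψ (4 ω1 ρ0 / ρ1) ≤ k ^ c' < ψ R`, so `4 ω1 < ρ1²`.  With `η0 = 2 ω1 / ρ1`
the set `B = {(x i1 - x i2) / (x i3 - x i4) : ρ1 ≤ |x i3 - x i4|}` contains `0` (`conc`) and
satisfies the hypothesis of `R070.spgap_dense` with `δ = η0 / (2 ρ1)` (`gkz_energy`, `μ = 2`).
For `η = D / ρ0 ∈ [η0, ρ1 / 10]` take `b ∈ B` near the points `l · 10 η / ρ1 ∈ [0, 1]`; they are
`5 η / ρ1` apart, a quadruple is counted in `Q4` for at most one of them, and `gkz_energy`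
(`μ = 1`, `ε = 0`) gives `ψ D ≤ 10 k ^ c L D / R`.  Smaller `D`: `ψ D ≤ ψ (η0 ρ0) ≤ k ^ c'`;
larger `D`: `ψ D ≤ ψ R ≤ L`. -/
theorem gkz : ∃ C : ℕ, ∀ (k L : ℝ) (ψ : ℝ → ℝ) (I : Finset ℕ) (x : ℕ → ℝ) (ρ0 ω1 : ℝ),
    2 ≤ k → k ^ C ≤ L → RL2 k L ψ I x ρ0 ω1 →
    ∃ R : ℝ, 1 ≤ R ∧ L ≤ k ^ C * ψ R ∧ ∀ D, 1 ≤ D → D ≤ R → ψ D * R ≤ k ^ C * (R + L * D) := by
  obtain ⟨C0, hE⟩ := gkz_energy
  refine ⟨2 * (C0 + 2) + 10, fun k L ψ I x ρ0 ω1 hk hL h => ?_⟩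
  have hk0 : 0 < k := by linarith
  have hk1 : 1 ≤ k := by linarith
  obtain ⟨K, hK⟩ : ∃ K, K = k ^ (C0 + 2) := ⟨_, rfl⟩
  have hKk : k ^ 2 ≤ K := hK ▸ pow_le_pow_right₀ hk1 (by omega)
  have hKC : k ^ C0 ≤ K := hK ▸ pow_le_pow_right₀ hk1 (by omega)
  have hK1 : 1 ≤ K := (one_le_pow₀ hk1).trans hKk
  have hC : k ^ (2 * (C0 + 2) + 10) = K ^ 2 * k ^ 10 := by rw [hK]; ring
  rw [hC] at hL ⊢
  have k5 : 32 ≤ k ^ 5 := by
    have := pow_le_pow_left₀ (by norm_num : (0 : ℝ) ≤ 2) hk 5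
    linarith
  have k10 : 32 * k ^ 5 ≤ k ^ 10 := by
    have := mul_le_mul_of_nonneg_right k5 (show 0 ≤ k ^ 5 by positivity)
    linarith
  have hK0 : 0 < K := by linarith
  have hL1 : K ^ 2 * (32 * k ^ 5) ≤ L := le_trans (by gcongr) hL
  have hL0 : 0 < L := lt_of_lt_of_le (by positivity) hL1
  have hbig : ∀ a : ℝ, 0 ≤ a → a ≤ 32 * k ^ 5 → a * K ≤ K ^ 2 * k ^ 10 := fun a a0 ha =>
    calc a * K = K * 1 * a := by ring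
      _ ≤ K * K * k ^ 10 := by gcongr; linarith
      _ = _ := by ring
  have hρ0 : 0 < ρ0 := by linarith [h.r1]
  have hw := h.w1
  have hω1 : 0 < ω1 := pos_of_mul_pos_left (show 0 < ω1 * ρ0 by linarith) hρ0.le
  obtain ⟨ρ1, hρ1, hρ11, hR4, hR1, hR2, hκ, hωρ⟩ := gkz_scale hk hKk hL1 h
  have hR : 1 ≤ ρ1 * ρ0 := by linarith
  have pR := h.psi.pos hR
  have hI : (0 : ℝ) < #I := pos_of_mul_pos_right (hL0.trans_le h.Ibig) hk0.le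
  have hE' : ∀ η : ℝ, 2 * ω1 ≤ η * ρ1 → η ≤ 1 →
      ∀ i1 ∈ I, ∀ i2 ∈ I, ∀ i3 ∈ I, ∀ i4 ∈ I, ∀ ε μ : ℝ, (ε = 0 ∨ ε = 1) → (μ = 1 ∨ μ = 2) →
      ρ1 ≤ |x i3 - x i4| → |(x i1 - x i2 + ε * (x i3 - x i4)) / (μ * (x i3 - x i4))| ≤ 2 →
      (#I : ℝ) ^ 4 * ψ (η * ρ0) ≤
        K * L * Q4 I x ((x i1 - x i2 + ε * (x i3 - x i4)) / (μ * (x i3 - x i4))) η ρ1 := by
    intro η a1 a2 i1 hi1 i2 hi2 i3 hi3 i4 hi4 ε μ hε hμ a3 a4
    have a5 : 0 < |μ * (x i3 - x i4)| := by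
      rw [abs_mul]
      rcases hμ with rfl | rfl <;> simp only [abs_one, abs_two] <;> linarith
    rw [abs_div, div_le_iff₀ a5] at a4
    refine (hE k L ψ I x ρ0 ω1 hk hL0 h ρ1 η hR hρ11 ?_ a1 a2 i1 hi1 i2 hi2 i3 hi3 i4 hi4
      ε μ hε hμ a3 a4).trans ?_
    · exact le_trans (by gcongr) hR1.le
    · have : 0 ≤ Q4 I x ((x i1 - x i2 + ε * (x i3 - x i4)) / (μ * (x i3 - x i4))) η ρ1 := by
        unfold Q4; positivity
      gcongr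
  clear hE
  have hB0 : (0 : ℝ) ∈ gkzB I x ρ1 := by
    obtain ⟨i4, hi4⟩ : I.Nonempty := card_pos.1 (by exact_mod_cast hI)
    have h1 := h.conc ρ1 (x i4) hR hρ11
    by_contra hh
    have h2 : {i ∈ I | |x i - x i4| ≤ ρ1} = I := filter_eq_self.2 fun i hi => by
      by_contra h3
      exact hh ⟨i4, hi4, i4, hi4, i, hi, i4, hi4, (not_le.1 h3).le, by simp⟩
    rw [h2] at h1
    have h3 := h.Ibig.trans (mul_le_mul_of_nonneg_left h1 hk0.le)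
    have h4 : k ^ 2 * ψ (ρ1 * ρ0) ≤ K * ψ (ρ1 * ρ0) := by gcongr
    linarith
  obtain ⟨η0, hη0⟩ : ∃ η0, η0 = 2 * ω1 / ρ1 := ⟨_, rfl⟩
  have hη0p : 0 < η0 := by rw [hη0]; positivity
  have hη0ρ : η0 * ρ1 = 2 * ω1 := by rw [hη0]; exact div_mul_cancel₀ _ hρ1.ne'
  have hη01 : η0 ≤ ρ1 / 2 := by rw [hη0, div_le_iff₀ hρ1]; linarith
  have hη0ρ0 : 1 ≤ η0 * ρ0 := by
    have h1 := mul_le_mul_of_nonneg_left hρ11 (mul_pos hη0p hρ0).le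
    have h2 : η0 * ρ0 * ρ1 = 2 * (ω1 * ρ0) := by rw [mul_right_comm, hη0ρ]; ring
    linarith
  have hKL : 0 < K * L := by positivity
  have hdense := gkz_dense hη0p hρ1 hη01 hB0 fun i1 hi1 i2 hi2 i3 hi3 i4 hi4 ε hε a3 a4 => by
    have a5 := hE' η0 hη0ρ.ge (by linarith) i1 hi1 i2 hi2 i3 hi3 i4 hi4 ε 2 hε (Or.inr rfl) a3 a4
    have a6 : 0 < ψ (η0 * ρ0) := by linarith [h.psi.pos hη0ρ0]
    exact pos_of_mul_pos_right ((mul_pos (pow_pos hI 4) a6).trans_le a5) hKL.le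
  have k5' : k ≤ k ^ 5 := by simpa using pow_le_pow_right₀ hk1 (by norm_num : 1 ≤ 5)
  refine ⟨ρ1 * ρ0, hR, hR2.trans ?_, fun D hD hDR => ?_⟩
  · exact mul_le_mul_of_nonneg_right (hbig _ (by positivity) (by linarith)) (by linarith)
  have hLD : 0 < L * D := by positivity
  have hC0 : 0 < K ^ 2 * k ^ 10 := by positivity
  have pD := h.psi.pos hD
  rcases le_total D (η0 * ρ0) with hD1 | hD1
  · have h1 : D ≤ 4 * (ω1 * ρ0) / ρ1 := by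
      rw [le_div_iff₀ hρ1]
      have h1 := mul_le_mul_of_nonneg_right hD1 hρ1.le
      have h2 : η0 * ρ0 * ρ1 = 2 * (ω1 * ρ0) := by rw [mul_right_comm, hη0ρ]; ring
      linarith
    have h2 := (h.psi.mono _ _ hD h1).trans hκ
    have h3 : 8 * k ^ 4 * K ≤ K ^ 2 * k ^ 10 := by
      have : k ^ 4 ≤ k ^ 5 := pow_le_pow_right₀ hk1 (by norm_num)
      exact hbig _ (by positivity) (by linarith)
    calc ψ D * (ρ1 * ρ0) ≤ K ^ 2 * k ^ 10 * (ρ1 * ρ0) :=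
          mul_le_mul_of_nonneg_right (h2.trans h3) (by linarith)
      _ ≤ _ := mul_le_mul_of_nonneg_left (by linarith) hC0.le
  suffices H : ψ D * (ρ1 * ρ0) ≤ 10 * K * (L * D) by
    calc ψ D * (ρ1 * ρ0) ≤ 10 * K * (L * D) := H
      _ ≤ K ^ 2 * k ^ 10 * (L * D) :=
          mul_le_mul_of_nonneg_right (hbig _ (by norm_num) (by linarith)) hLD.le
      _ ≤ _ := mul_le_mul_of_nonneg_left (by linarith) hC0.le
  rcases le_total (ρ1 * ρ0) (10 * D) with hD2 | hD2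
  · have h1 : ψ D ≤ K * L := by
      have h1 := h.psi.mono _ _ hD hDR
      have h2 := mul_le_mul_of_nonneg_right hK1 (show 0 ≤ ψ (ρ1 * ρ0) by linarith)
      have h3 := mul_le_mul_of_nonneg_right hK1 hL0.le
      linarith
    calc ψ D * (ρ1 * ρ0) ≤ K * L * (10 * D) := by gcongr
      _ = _ := by ring
  obtain ⟨η, hηdef⟩ : ∃ η, η = D / ρ0 := ⟨_, rfl⟩
  have hηD : η * ρ0 = D := by rw [hηdef]; exact div_mul_cancel₀ _ hρ0.ne'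
  have hη : 0 < η := by rw [hηdef]; positivity
  have hη1 : η0 ≤ η := by rw [hηdef, le_div_iff₀ hρ0]; exact hD1
  have hη2 : 10 * η ≤ ρ1 := by
    rw [hηdef, ← mul_div_assoc, div_le_iff₀ hρ0]; exact hD2
  have h1 := gkz_count hI x hη hρ1 hη2 (by gcongr) hKL.le (show 0 ≤ ψ D by linarith) hdense (by
    rintro b ⟨i1, hi1, i2, hi2, i3, hi3, i4, hi4, a3, rfl⟩ a4
    have := hE' η (hη0ρ.ge.trans (by gcongr)) (by linarith) i1 hi1 i2 hi2 i3 hi3 i4 hi4 0 1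
      (Or.inl rfl) (Or.inl rfl) a3 (by rwa [zero_mul, add_zero, one_mul])
    rwa [zero_mul, add_zero, one_mul, hηD] at this)
  have h2 := mul_le_mul_of_nonneg_right h1 hρ0.le
  rw [mul_assoc _ η, hηD] at h2
  linarith

end Crest.Agent.R051
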