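import Crest.Agent.R051.ADefs

/-! Row 51: a graph in which every large vertex set is dense has many triangles; a covering lemma. -/

set_option autoImplicit false

open Finset
open scoped Classical Pointwise

namespace Crest.Agent.R051

theorem AGraph_dense {ι : Type*} (V : Finset ι) (D : ι → ι → ι → Prop) (R G : ι → ι → Prop)
    (hV : 10 ^ 4 ≤ #V)
    (tot : ∀ a ∈ V, ∀ x ∈ V, ∀ y ∈ V, a ≠ x → a ≠ y → x ≠ y → D a x y ∨ D x a y ∨ D y a x)
    (irr : 10 ^ 4 * #{z ∈ V ×ˢ V | ¬ R z.1 z.2} ≤ #V ^ 2)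
    (hG : ∀ x ∈ V, ∀ y ∈ V, x ≠ y → R x y →
      #V ≤ 10 ^ 4 * #{a ∈ V | a ≠ x ∧ a ≠ y ∧ D a x y} → G x y) {W : Finset ι} (hW : W ⊆ V)
    (hw : (#V : ℝ) ≤ 10 * #W) :
    3 / 10 * (#W : ℝ) ^ 2 ≤ ∑ x ∈ W, ∑ y ∈ W, if G x y then (1 : ℝ) else 0 := by
  set f : ι → ι → ι → ℝ := fun a x y => if a ≠ x ∧ a ≠ y ∧ x ≠ y ∧ D a x y then 1 else 0 with hf
  set e : ι → ι → ℝ := fun a x => if a = x then 1 else 0 with he
  have f0 : ∀ a x y, 0 ≤ f a x y := fun a x y => by simp only [hf]; positivity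
  have e0 : ∀ a x, 0 ≤ e a x := fun a x => by simp only [he]; positivity
  set A := ∑ x ∈ W, ∑ y ∈ W, ∑ a ∈ W, f a x y with hA
  have h1 : ∑ _a ∈ W, ∑ _x ∈ W, ∑ _y ∈ W, (1 : ℝ) ≤ ∑ a ∈ W, ∑ x ∈ W, ∑ y ∈ W,
      (e a x + e a y + e x y + f a x y + f x a y + f y a x) := by
    refine sum_le_sum fun a ha => sum_le_sum fun x hx => sum_le_sum fun y hy => ?_
    have := e0 a x
    have := e0 a y
    have := e0 x y
    have := f0 a x y
    have := f0 x a y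
    have := f0 y a x
    by_cases h1 : a = x
    · have : e a x = 1 := if_pos h1
      linarith
    by_cases h2 : a = y
    · have : e a y = 1 := if_pos h2
      linarith
    by_cases h3 : x = y
    · have : e x y = 1 := if_pos h3
      linarith
    rcases tot a (hW ha) x (hW hx) y (hW hy) h1 h2 h3 with h | h | h
    · have : f a x y = 1 := if_pos ⟨h1, h2, h3, h⟩
      linarith
    · have : f x a y = 1 := if_pos ⟨Ne.symm h1, h3, h2, h⟩
      linarith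
    · have : f y a x = 1 := if_pos ⟨Ne.symm h2, Ne.symm h3, h1, h⟩
      linarith
  have a1 : ∑ a ∈ W, ∑ x ∈ W, ∑ y ∈ W, f a x y = A := by
    rw [sum_comm]
    exact sum_congr rfl fun x _ => sum_comm
  have a2 : ∑ a ∈ W, ∑ x ∈ W, ∑ y ∈ W, f x a y = A := sum_congr rfl fun x _ => sum_comm
  have b1 : ∑ a ∈ W, ∑ x ∈ W, ∑ _y ∈ W, e a x = (#W : ℝ) ^ 2 := by
    rw [sum_congr rfl fun a ha => (show ∑ x ∈ W, ∑ _y ∈ W, e a x = (#W : ℝ) by
      rw [sum_comm]; simp [he, ha])]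
    simp [sq]
  have b2 : ∑ a ∈ W, ∑ _x ∈ W, ∑ y ∈ W, e a y = (#W : ℝ) ^ 2 := by
    rw [sum_congr rfl fun a ha => (show ∑ _x ∈ W, ∑ y ∈ W, e a y = (#W : ℝ) by simp [he, ha])]
    simp [sq]
  have b3 : ∑ _a ∈ W, ∑ x ∈ W, ∑ y ∈ W, e x y = (#W : ℝ) ^ 2 := by
    rw [sum_comm, b2]
  simp only [sum_add_distrib] at h1
  rw [a1, a2, b1, b2, b3, ← hA] at h1
  simp only [sum_const, nsmul_eq_mul] at h1
  set g := ∑ x ∈ W, ∑ y ∈ W, if G x y then (1 : ℝ) else 0 with hg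
  set c := ∑ x ∈ W, ∑ y ∈ W, if ¬ R x y then (1 : ℝ) else 0 with hc
  have h2 : A ≤ ∑ x ∈ W, ∑ y ∈ W, ((#W : ℝ) * (if G x y then (1 : ℝ) else 0) +
      (#W : ℝ) * (if ¬ R x y then (1 : ℝ) else 0) + #V / 10 ^ 4) := by
    refine sum_le_sum fun x hx => sum_le_sum fun y hy => ?_
    have t1 : ∑ a ∈ W, f a x y ≤ #W := by
      refine (sum_le_card_nsmul W _ 1 fun a _ => ?_).trans (by simp)
      simp only [hf]
      split_ifs <;> norm_num
    have t2 : (0 : ℝ) ≤ #V / 10 ^ 4 := by positivity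
    have t3 : (0 : ℝ) ≤ #W := by positivity
    by_cases c1 : G x y
    · rw [if_pos c1]
      split_ifs <;> linarith
    by_cases c2 : ¬ R x y
    · rw [if_neg c1, if_pos c2]
      linarith
    rw [if_neg c1, if_neg c2, mul_zero, zero_add, zero_add]
    by_cases c3 : x = y
    · refine le_trans (le_of_eq (sum_eq_zero fun a _ => if_neg fun h => h.2.2.1 c3)) t2
    have t4 := lt_of_not_ge fun h => c1 (hG x (hW hx) y (hW hy) c3 (not_not.1 c2) h)
    have t5 : ∑ a ∈ W, f a x y ≤ #{a ∈ V | a ≠ x ∧ a ≠ y ∧ D a x y} := by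
      simp only [hf, sum_boole]
      exact Nat.cast_le.2 (card_le_card fun a ha => mem_filter.2 ⟨hW (mem_filter.1 ha).1,
        (mem_filter.1 ha).2.1, (mem_filter.1 ha).2.2.1, (mem_filter.1 ha).2.2.2.2⟩)
    have t6 : (10 ^ 4 * #{a ∈ V | a ≠ x ∧ a ≠ y ∧ D a x y} : ℝ) ≤ #V := by exact_mod_cast t4.le
    rw [le_div_iff₀ (by norm_num)]
    linarith
  simp only [sum_add_distrib, ← mul_sum, ← hg, ← hc, sum_const, nsmul_eq_mul] at h2
  have h3 : 10 ^ 4 * c ≤ (#V : ℝ) ^ 2 := by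
    refine le_trans ?_ (show (10 ^ 4 * #{z ∈ V ×ˢ V | ¬ R z.1 z.2} : ℝ) ≤ _ by exact_mod_cast irr)
    rw [hc, ← sum_product' (f := fun x y => if ¬ R x y then (1 : ℝ) else 0), sum_boole]
    gcongr
  have h4 : (10 ^ 4 : ℝ) ≤ #V := by exact_mod_cast hV
  generalize (#W : ℝ) = w at *
  generalize (#V : ℝ) = n at *
  have w0 : 1000 ≤ w := by linarith
  have h5 : n ^ 2 ≤ (10 * w) ^ 2 := by gcongr
  have h6 : w * (w * w) ≤ w * (3 * w + 3 * g + 3 * c + 3 * (w * (n / 10 ^ 4))) := by linarith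
  have h7 := le_of_mul_le_mul_left h6 (by linarith)
  have h8 : w * n ≤ w * (10 * w) := by gcongr
  have h9 : 1000 * w ≤ w * w := by gcongr
  linarith

/-- Every `W ⊆ V` with `#V ≤ 10 #W` spans at least `0.3 #W²` ordered good pairs (each unordered
triple of `W` has a dominating element, so `∑_{(x,y)} #{a ∈ W | D a x y} ≥ w (w-1) (w-2) / 3`).
Hence at least half of the vertices have degree `≥ #V / 10` (else they form a sparse set), and
each of them sees `0.3 (#V / 10)²` good pairs in its neighbourhood. -/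
theorem tri_graph {ι : Type*} (V : Finset ι) (D : ι → ι → ι → Prop) (R G : ι → ι → Prop)
    (hV : 10 ^ 4 ≤ #V) (hD : ∀ a x y, D a x y → D a y x)
    (tot : ∀ a ∈ V, ∀ x ∈ V, ∀ y ∈ V, a ≠ x → a ≠ y → x ≠ y → D a x y ∨ D x a y ∨ D y a x)
    (irr : 10 ^ 4 * #{z ∈ V ×ˢ V | ¬ R z.1 z.2} ≤ #V ^ 2)
    (hG : ∀ x ∈ V, ∀ y ∈ V, x ≠ y → R x y →
      #V ≤ 10 ^ 4 * #{a ∈ V | a ≠ x ∧ a ≠ y ∧ D a x y} → G x y) :
    #V ^ 3 ≤ 1000 * #{z ∈ V ×ˢ V ×ˢ V | G z.1 z.2.1 ∧ G z.1 z.2.2 ∧ G z.2.1 z.2.2} := by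
  have key := fun W hW hw => AGraph_dense V D R G hV tot irr hG (W := W) hW hw
  have h4 : (10 ^ 4 : ℝ) ≤ #V := by exact_mod_cast hV
  set B := {x ∈ V | (10 * #{y ∈ V | G x y} : ℝ) < #V} with hB
  have hB2 : 2 * (#B : ℝ) ≤ #V := by
    by_contra h
    have h1 := key B (filter_subset _ _) (by linarith)
    have h2 : ∑ x ∈ B, ∑ y ∈ B, (if G x y then (1 : ℝ) else 0) ≤ #B • ((#V : ℝ) / 10) := by
      refine sum_le_card_nsmul _ _ _ fun x hx => ?_
      have h3 := (mem_filter.1 hx).2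
      have h5 : (#{y ∈ B | G x y} : ℝ) ≤ #{y ∈ V | G x y} := by
        gcongr
        exact filter_subset _ _
      rw [sum_boole]
      linarith
    rw [nsmul_eq_mul] at h2
    nlinarith
  have hC : (#(V \ B) : ℝ) = #V - #B := by
    rw [card_sdiff_of_subset (filter_subset _ _), Nat.cast_sub (card_le_card (filter_subset _ _))]
  have h5 : #(V \ B) • (3 / 1000 * (#V : ℝ) ^ 2) ≤
      ∑ x ∈ V \ B, ∑ y ∈ V, ∑ z ∈ V, if G x y ∧ G x z ∧ G y z then (1 : ℝ) else 0 := by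
    refine card_nsmul_le_sum _ _ _ fun x hx => ?_
    have h6 : (#V : ℝ) ≤ 10 * #{y ∈ V | G x y} :=
      le_of_not_gt fun h => (mem_sdiff.1 hx).2 (mem_filter.2 ⟨(mem_sdiff.1 hx).1, h⟩)
    have h7 := key _ (filter_subset _ _) h6
    have h8 : (#V : ℝ) ^ 2 ≤ (10 * #{y ∈ V | G x y}) ^ 2 := by gcongr
    refine le_trans (by linarith) (h7.trans_eq ?_)
    rw [sum_filter]
    refine sum_congr rfl fun y _ => ?_
    rw [sum_filter]
    by_cases h9 : G x y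
    · simp only [h9, if_true, true_and, ite_and]
    · simp [h9]
  have h9 : ∑ x ∈ V \ B, ∑ y ∈ V, ∑ z ∈ V, (if G x y ∧ G x z ∧ G y z then (1 : ℝ) else 0) ≤
      #{z ∈ V ×ˢ V ×ˢ V | G z.1 z.2.1 ∧ G z.1 z.2.2 ∧ G z.2.1 z.2.2} := by
    rw [← sum_boole, sum_product]
    simp only [sum_product]
    exact sum_le_sum_of_subset_of_nonneg sdiff_subset fun _ _ _ => by positivity
  rw [nsmul_eq_mul, hC] at h5
  have h10 : (#V : ℝ) ^ 3 ≤
      1000 * #{z ∈ V ×ˢ V ×ˢ V | G z.1 z.2.1 ∧ G z.1 z.2.2 ∧ G z.2.1 z.2.2} := by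
    have : 0 ≤ ((#V : ℝ) - 2 * #B) * (#V : ℝ) ^ 2 := mul_nonneg (by linarith) (sq_nonneg _)
    have : 0 ≤ (#V : ℝ) ^ 3 := by positivity
    linarith
  exact_mod_cast h10

theorem AGraph_greedy {α : Type*} (x ρ : α → ℝ) (B : Finset α) (hρ : ∀ a ∈ B, 0 ≤ ρ a) :
    ∃ S ⊆ B, (∀ a ∈ B, ∃ s ∈ S, |x a - x s| ≤ ρ s) ∧
      ∀ s ∈ S, ∀ s' ∈ S, s ≠ s' → ρ s < |x s' - x s| := by
  induction B using Finset.strongInduction with
  | H B ih =>
    rcases B.eq_empty_or_nonempty with rfl | hB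
    · exact ⟨∅, by simp⟩
    obtain ⟨a, ha, hm⟩ := exists_max_image B ρ hB
    obtain ⟨S, h1, h2, h3⟩ := ih {b ∈ B | ρ a < |x b - x a|}
      (filter_ssubset.2 ⟨a, ha, by simpa using hρ a ha⟩) fun b hb => hρ b (mem_filter.1 hb).1
    refine ⟨insert a S, insert_subset ha (h1.trans (filter_subset _ _)), fun b hb => ?_, ?_⟩
    · rcases lt_or_ge (ρ a) |x b - x a| with h | h
      · obtain ⟨s, hs, h⟩ := h2 b (mem_filter.2 ⟨hb, h⟩)
        exact ⟨s, mem_insert_of_mem hs, h⟩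
      · exact ⟨a, mem_insert_self _ _, h⟩
    · intro s hs s' hs' hne
      rcases mem_insert.1 hs with e | ht <;> rcases mem_insert.1 hs' with e' | ht'
      · exact absurd (e.trans e'.symm) hne
      · rw [e]
        exact (mem_filter.1 (h1 ht')).2
      · rw [abs_sub_comm, e']
        exact (hm s (mem_filter.1 (h1 ht)).1).trans_lt (mem_filter.1 (h1 ht)).2
      · exact h3 s ht s' ht' hne

theorem AGraph_two {α : Type*} (x ρ : α → ℝ) (S : Finset α)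
    (h : ∀ s ∈ S, ∀ s' ∈ S, s ≠ s' → ρ s < |x s' - x s|) (y : ℝ) :
    #{s ∈ S | |y - x s| ≤ ρ s} ≤ 2 := by
  rw [← card_filter_add_card_filter_not (fun s => x s ≤ y)]
  refine add_le_add (b := 1) (d := 1) (card_le_one.2 fun s hs s' hs' => ?_)
    (card_le_one.2 fun s hs s' hs' => ?_)
  all_goals
    by_contra hne
    simp only [mem_filter, abs_le, not_le] at hs hs'
    have h1 := h s hs.1.1 s' hs'.1.1 hne
    have h2 := h s' hs'.1.1 s hs.1.1 (Ne.symm hne)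
    rw [abs_sub_comm] at h2
    rcases abs_cases (x s' - x s) with h3 | h3 <;> linarith [hs.1.2.1, hs.1.2.2, hs'.1.2.1,
      hs'.1.2.2, hs.2, hs'.2, h3.1]

/-- One-dimensional covering lemma.  Choose a radius for every bad point and select greedily the
point with the largest radius (induction on the set of bad points not yet covered); a real number
lies in at most two selected intervals (one centre on each side). -/
theorem cover1 {α β : Type*} (Z : Finset α) (N : Finset β) (x : α → ℝ) (y : β → ℝ) (θ : ℝ)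
    (hθ : 0 ≤ θ) :
    (#{a ∈ Z | ∃ ρ : ℝ, 0 < ρ ∧
      (#{a' ∈ Z | |x a' - x a| ≤ ρ} : ℝ) < θ * #{b ∈ N | |y b - x a| ≤ ρ}} : ℝ) ≤ 2 * θ * #N := by
  set B := {a ∈ Z | ∃ ρ : ℝ, 0 < ρ ∧
      (#{a' ∈ Z | |x a' - x a| ≤ ρ} : ℝ) < θ * #{b ∈ N | |y b - x a| ≤ ρ}} with hB
  have : ∀ a, ∃ ρ : ℝ, a ∈ B → 0 < ρ ∧
      (#{a' ∈ Z | |x a' - x a| ≤ ρ} : ℝ) < θ * #{b ∈ N | |y b - x a| ≤ ρ} := fun a => by
    by_cases ha : a ∈ B
    · obtain ⟨ρ, h⟩ := (mem_filter.1 ha).2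
      exact ⟨ρ, fun _ => h⟩
    · exact ⟨0, fun h => absurd h ha⟩
  choose ρ hρ using this
  obtain ⟨S, h1, h2, h3⟩ := AGraph_greedy x ρ B fun a ha => (hρ a ha).1.le
  have h4 : #B ≤ ∑ s ∈ S, #{a' ∈ Z | |x a' - x s| ≤ ρ s} := by
    refine le_trans (card_le_card fun a ha => ?_) card_biUnion_le
    obtain ⟨s, hs, h⟩ := h2 a ha
    exact mem_biUnion.2 ⟨s, hs, mem_filter.2 ⟨(mem_filter.1 ha).1, h⟩⟩
  have h5 : ∑ s ∈ S, #{b ∈ N | |y b - x s| ≤ ρ s} ≤ #N * 2 := by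
    exact (sum_card_bipartiteAbove_eq_sum_card_bipartiteBelow (s := S) (t := N)
      (fun s b => |y b - x s| ≤ ρ s)).trans_le
      (sum_le_card_nsmul _ _ _ fun b _ => AGraph_two x ρ S h3 (y b))
  calc (#B : ℝ) ≤ ∑ s ∈ S, (#{a' ∈ Z | |x a' - x s| ≤ ρ s} : ℝ) := by exact_mod_cast h4
    _ ≤ ∑ s ∈ S, θ * #{b ∈ N | |y b - x s| ≤ ρ s} := sum_le_sum fun s hs => (hρ s (h1 hs)).2.le
    _ ≤ θ * (#N * 2) := by
        rw [← mul_sum]
        exact mul_le_mul_of_nonneg_left (by exact_mod_cast h5) hθ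
    _ = _ := by ring

end Crest.Agent.R051
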