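import Crest.Agent.R051.AGraph

/-! Row 51: the local mass profiles of the three coordinates of a line agree. -/

set_option autoImplicit false

open Finset
open scoped Classical Pointwise

namespace Crest.Agent.R051

/-- hypotheses on three columns and a family of lines with `x 0 + x 1 + x 2 ≈ 0` -/
structure H3 (k m L : ℝ) (C : Fin 3 → Col) (G : Finset Ln) : Prop where
  k2 : 2 ≤ k
  m1 : 1 ≤ m
  L1 : 1 ≤ L
  ok : ∀ a, (C a).OK m (k * m * L)
  sub : ∀ a, G ⊆ (C a).Ty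
  big : m * L ≤ k * #G
  pos : ∀ a, ∀ δ ∈ G, 0 < (C a).sz δ
  dom : ∀ a b, a ≠ b → ∀ δ ∈ G,
    (#{δ' ∈ G | (C a).cell δ' = (C a).cell δ ∧ (C b).cell δ' = (C b).cell δ} : ℝ) * L ≤ k * m
  lin : ∀ a b, a ≠ b → ∀ δ ∈ G, |∑ c, (C c).x δ| ≤ 3 * max ((C a).sz δ) ((C b).sz δ)

lemma AH1_nu_mono (C : Col) (p : ℝ) {ρ ρ' : ℝ} (h : ρ ≤ ρ') : C.nu p ρ ≤ C.nu p ρ' := by
  unfold Col.nu
  refine Nat.cast_le.2 (card_le_card fun δ hδ => ?_)
  rw [mem_filter] at hδ ⊢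
  exact ⟨hδ.1, hδ.2.trans h⟩

lemma AH1_nu_nonneg (C : Col) (p ρ : ℝ) : 0 ≤ C.nu p ρ := Nat.cast_nonneg _

section
variable {k m L : ℝ} {C : Fin 3 → Col} {G : Finset Ln}

lemma AH1_fib (h : H3 k m L C G) {b c : Fin 3} (hcb : c ≠ b) (q : ℕ) {Z : Finset Ln} (hZ : Z ⊆ G)
    (hq : ∀ δ ∈ Z, (C c).cell δ = q) : (#Z : ℝ) * L ≤ k * m * #(Z.image (C b).cell) := by
  have hL : 0 ≤ L := by linarith [h.L1]
  rw [card_eq_sum_card_image (C b).cell Z]
  push_cast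
  rw [sum_mul]
  calc _ ≤ ∑ _r ∈ Z.image (C b).cell, k * m := by
        refine sum_le_sum fun r hr => ?_
        obtain ⟨δ, hδ, rfl⟩ := mem_image.1 hr
        refine le_trans (mul_le_mul_of_nonneg_right ?_ hL) (h.dom c b hcb δ (hZ hδ))
        refine Nat.cast_le.2 (card_le_card fun δ' hδ' => ?_)
        rw [mem_filter] at hδ' ⊢
        exact ⟨hZ hδ'.1, (hq δ' hδ'.1).trans (hq δ hδ).symm, hδ'.2⟩
    _ = _ := by rw [sum_const, nsmul_eq_mul, mul_comm]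

lemma AH1_cells (h : H3 k m L C G) (c : Fin 3) : (#(G.image (C c).cell) : ℝ) ≤ k * L + 3 := by
  have h1 := (h.ok c).cnt 0 (∑ δ ∈ G, |(C c).x δ - 0|) G (h.sub c) fun δ hδ =>
    single_le_sum (f := fun δ => |(C c).x δ - 0|) (fun _ _ => abs_nonneg _) hδ
  have h2 : (C c).nu 0 (∑ δ ∈ G, |(C c).x δ - 0|) ≤ k * m * L :=
    le_trans (Nat.cast_le.2 (card_filter_le _ _)) (h.ok c).card
  have hm : 0 < m := by linarith [h.m1]
  refine le_of_mul_le_mul_left (h1.trans ?_) hm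
  linarith

/-- lines in the `c`-cell of `δ` that are `ρ`-close to `δ` at column `a` -/
noncomputable def AH1_Z (C : Fin 3 → Col) (G : Finset Ln) (a c : Fin 3) (δ : Ln) (ρ : ℝ) :
    Finset Ln :=
  {δ' ∈ {δ' ∈ G | (C c).cell δ' = (C c).cell δ} | |(C a).x δ' - (C a).x δ| ≤ ρ}

noncomputable def AH1_B (k L : ℝ) (C : Fin 3 → Col) (G : Finset Ln) (a c : Fin 3) : Finset Ln :=
  {δ ∈ G | ∃ ρ : ℝ, 0 < ρ ∧
    (#(AH1_Z C G a c δ ρ) : ℝ) < 1 / (100 * k ^ 3 * L) * (C a).nu ((C a).x δ) ρ}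

lemma AH1_bad (h : H3 k m L C G) (a c : Fin 3) : 20 * #(AH1_B k L C G a c) ≤ #G := by
  have hk := h.k2
  have hL := h.L1
  have hm := h.m1
  have hk0 : 0 < k := by linarith
  have hL0 : 0 < L := by linarith
  have hθ : 0 ≤ 1 / (100 * k ^ 3 * L) := by positivity
  have h1 : (#(AH1_B k L C G a c) : ℝ) ≤
      (k * L + 3) * (2 * (1 / (100 * k ^ 3 * L)) * (k * m * L)) := by
    rw [card_eq_sum_card_fiberwise (s := AH1_B k L C G a c) (f := (C c).cell)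
      (t := G.image (C c).cell)
      (fun δ hδ => mem_coe.2 (mem_image_of_mem _ (mem_filter.1 (mem_coe.1 hδ)).1))]
    push_cast
    calc _ ≤ ∑ _q ∈ G.image (C c).cell, 2 * (1 / (100 * k ^ 3 * L)) * (k * m * L) := by
          refine sum_le_sum fun q _ => ?_
          have h2 := cover1 {δ ∈ G | (C c).cell δ = q} (C a).Ty (C a).x (C a).x _ hθ
          refine le_trans (Nat.cast_le.2 (card_le_card fun δ hδ => ?_)) (h2.trans ?_)
          · simp only [AH1_B, mem_filter] at hδ ⊢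
            obtain ⟨⟨h3, ρ, h4, h5⟩, h6⟩ := hδ
            refine ⟨⟨h3, h6⟩, ρ, h4, ?_⟩
            subst h6
            exact h5
          · exact mul_le_mul_of_nonneg_left (h.ok a).card (by positivity)
      _ ≤ _ := by
          rw [sum_const, nsmul_eq_mul]
          exact mul_le_mul_of_nonneg_right (AH1_cells h c) (by positivity)
  have h2 : (k * L + 3) * (2 * (1 / (100 * k ^ 3 * L)) * (k * m * L)) ≤ #G / 20 := by
    have a1 : k * L + 3 ≤ 5 / 2 * (k * L) := by nlinarith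
    have a2 : m * L / k ≤ #G := by
      rw [div_le_iff₀ hk0]
      linarith [h.big]
    calc _ ≤ 5 / 2 * (k * L) * (2 * (1 / (100 * k ^ 3 * L)) * (k * m * L)) := by gcongr
      _ = m * L / k / 20 := by field_simp; norm_num
      _ ≤ _ := by gcongr
  have h3 : (20 : ℝ) * #(AH1_B k L C G a c) ≤ #G := by linarith
  exact_mod_cast h3

lemma AH1_mem {a c : Fin 3} {δ δ' : Ln} {ρ : ℝ} : δ' ∈ AH1_Z C G a c δ ρ ↔
    (δ' ∈ G ∧ (C c).cell δ' = (C c).cell δ) ∧ |(C a).x δ' - (C a).x δ| ≤ ρ := by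
  simp only [AH1_Z, mem_filter]

lemma AH1_good (h : H3 k m L C G) {a c : Fin 3} {δ : Ln} (hδ : δ ∈ G)
    (hb : δ ∉ AH1_B k L C G a c) {ρ : ℝ} (hρ : 0 < ρ) :
    (C a).nu ((C a).x δ) ρ ≤ 100 * k ^ 3 * (#(AH1_Z C G a c δ ρ) * L) := by
  have hk0 : 0 < k := by linarith [h.k2]
  have hL0 : 0 < L := by linarith [h.L1]
  by_contra hc
  refine hb (mem_filter.2 ⟨hδ, ρ, hρ, ?_⟩)
  rw [one_div, inv_mul_eq_div, lt_div_iff₀ (by positivity)]
  push Not at hc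
  linarith

lemma AH1_i (h : H3 k m L C G)
    (ho : ∀ δ ∈ G, (C 0).sz δ ≤ (C 1).sz δ ∧ (C 1).sz δ ≤ (C 2).sz δ) {δ : Ln} (hδ : δ ∈ G)
    (hb : δ ∉ AH1_B k L C G 0 1) {l : ℝ} (hl : 0 < l) :
    (C 0).nu ((C 0).x δ) (l * (C 1).sz δ) ≤ 100 * k ^ 4 * ((2 * l + 16) * m) := by
  have hk0 : 0 < k := by linarith [h.k2]
  have hm0 : 0 < m := by linarith [h.m1]
  have hs := h.pos 1 δ hδ
  set s := (C 1).sz δ with hs'
  have h1 := AH1_good h hδ hb (mul_pos hl hs)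
  set Z := AH1_Z C G 0 1 δ (l * s)
  have hZ : Z ⊆ G := fun δ' hδ' => (AH1_mem.1 hδ').1.1
  have h2 := AH1_fib h (b := 2) (c := 1) (by decide) _ hZ fun δ' hδ' => (AH1_mem.1 hδ').1.2
  have hl3 : ∀ δ ∈ G, |(C 0).x δ + (C 1).x δ + (C 2).x δ| ≤ 3 * (C 1).sz δ := by
    intro δ hδ
    have := h.lin 0 1 (by decide) δ hδ
    rwa [Fin.sum_univ_three, max_eq_right (ho δ hδ).1] at this
  have h3 := (h.ok 2).big ((C 2).x δ) ((7 + l) * s) s hs (by positivity) Z (hZ.trans (h.sub 2))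
    fun δ' hδ' => by
      obtain ⟨⟨a1, a2⟩, a3⟩ := AH1_mem.1 hδ'
      obtain ⟨a4, a5⟩ := (h.ok 1).same δ (h.sub 1 hδ) δ' (h.sub 1 a1) a2
      have a6 := abs_le.1 (hl3 δ hδ)
      have a7 := hl3 δ' a1
      rw [a4] at a7
      have a7 := abs_le.1 a7
      have a3 := abs_le.1 a3
      have a5 := abs_le.1 a5
      refine ⟨abs_le.2 ⟨by linarith [a6.1, a6.2], by linarith [a6.1, a6.2]⟩, ?_⟩
      have := (ho δ' a1).2
      rw [a4] at this
      exact this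
  have h4 : (#(Z.image (C 2).cell) : ℝ) ≤ 2 * l + 16 :=
    le_of_mul_le_mul_left (h3.trans (le_of_eq (by ring))) hs
  calc _ ≤ _ := h1
    _ ≤ 100 * k ^ 3 * (k * m * (2 * l + 16)) :=
        mul_le_mul_of_nonneg_left (h2.trans (by gcongr)) (by positivity)
    _ = _ := by ring

lemma AH1_ii (h : H3 k m L C G)
    (ho : ∀ δ ∈ G, (C 0).sz δ ≤ (C 1).sz δ ∧ (C 1).sz δ ≤ (C 2).sz δ) {a b c : Fin 3}
    (hca : c ≠ a) (hcb : c ≠ b) (hsum : ∀ f : Fin 3 → ℝ, ∑ e, f e = f a + f b + f c) {δ : Ln}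
    (hδ : δ ∈ G) (hc : (C c).sz δ ≤ (C 1).sz δ) (hb : δ ∉ AH1_B k L C G a c) {ρ : ℝ}
    (hρ : (C 1).sz δ ≤ ρ) :
    (C a).nu ((C a).x δ) ρ ≤ 100 * k ^ 4 * ((C b).nu ((C b).x δ) (11 * ρ) + 6 * m) := by
  have hk0 : 0 < k := by linarith [h.k2]
  have hm0 : 0 < m := by linarith [h.m1]
  have hρ0 : 0 < ρ := (h.pos 1 δ hδ).trans_le hρ
  have h1 := AH1_good h hδ hb hρ0
  set Z := AH1_Z C G a c δ ρ
  set Z1 := {δ' ∈ Z | (C a).sz δ' ≤ 2 * ρ} with hZ1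
  set Z2 := {δ' ∈ Z | ¬ (C a).sz δ' ≤ 2 * ρ} with hZ2
  have hZ : Z ⊆ G := fun δ' hδ' => (AH1_mem.1 hδ').1.1
  have s1 : Z1 ⊆ G := (filter_subset _ _).trans hZ
  have s2 : Z2 ⊆ G := (filter_subset _ _).trans hZ
  have e : (#Z : ℝ) = #Z1 + #Z2 := by
    exact_mod_cast (card_filter_add_card_filter_not (s := Z) _).symm
  have f1 := AH1_fib h hcb _ s1 fun δ' hδ' => (AH1_mem.1 (mem_filter.1 hδ').1).1.2
  have f2 := AH1_fib h hca _ s2 fun δ' hδ' => (AH1_mem.1 (mem_filter.1 hδ').1).1.2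
  have g2 := (h.ok a).big ((C a).x δ) ρ (2 * ρ) (by positivity) hρ0.le Z2 (s2.trans (h.sub a))
    fun δ' hδ' => ⟨(AH1_mem.1 (mem_filter.1 hδ').1).2, (not_le.1 (mem_filter.1 hδ').2).le⟩
  have g2' : (#(Z2.image (C a).cell) : ℝ) ≤ 3 :=
    le_of_mul_le_mul_left (g2.trans (le_of_eq (by ring))) (by positivity : 0 < 2 * ρ)
  have g0 : |(C a).x δ + (C b).x δ + (C c).x δ| ≤ 3 * ρ := by
    have := h.lin 0 1 (by decide) δ hδ
    rw [hsum, max_eq_right (ho δ hδ).1] at this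
    linarith
  have g1 := (h.ok b).cnt ((C b).x δ) (11 * ρ) Z1 (s1.trans (h.sub b)) fun δ' hδ' => by
    obtain ⟨⟨a1, a2⟩, a3⟩ := AH1_mem.1 (mem_filter.1 hδ').1
    have a0 := (mem_filter.1 hδ').2
    obtain ⟨a4, a5⟩ := (h.ok c).same δ (h.sub c hδ) δ' (h.sub c a1) a2
    have a7 := h.lin c a hca δ' a1
    rw [hsum, a4] at a7
    have a8 : max ((C c).sz δ) ((C a).sz δ') ≤ 2 * ρ := max_le (by linarith) a0
    have a6 := abs_le.1 g0
    have a7 := abs_le.1 a7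
    have a3 := abs_le.1 a3
    have a5 := abs_le.1 a5
    exact abs_le.2 ⟨by linarith [a6.1, a6.2], by linarith [a6.1, a6.2]⟩
  have g3 : (#Z : ℝ) * L ≤ k * ((C b).nu ((C b).x δ) (11 * ρ) + 6 * m) := by
    have a1 := mul_le_mul_of_nonneg_left g1 hk0.le
    have a2 : k * m * #(Z2.image (C a).cell) ≤ k * m * 3 := by gcongr
    rw [e]
    nlinarith
  calc _ ≤ _ := h1
    _ ≤ 100 * k ^ 3 * (k * ((C b).nu ((C b).x δ) (11 * ρ) + 6 * m)) := by gcongr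
    _ = _ := by ring

end

/-- Ordered case, one line.  For `a ≠ c` apply `cover1` inside every cell of column `c` (at most
`k L + 3` cells) with `θ / L`, `θ = 1 / (100 k³)`: outside a set of at most `#G / 2` lines,
`#{δ' ∈ G in the c-cell of δ, |x a δ' - x a δ| ≤ ρ} ≥ θ nu a / L` for all `ρ > 0`.
Let `s = sz 1 δ`, so `|∑ x| ≤ 3 s`.  (i) `c = 1`, `a = 0`, `ρ = λ s`: these lines have `sz 1 = s`,
`|∑ x| ≤ 3 s`, `sz 2 ≥ s`, so they use `≤ 2 λ + 16` cells of column 2 (`big`) and `dom` gives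
`nu 0 (λ s) ≤ (2 λ + 16) k m / θ`.  (ii) for `c ∈ {0, 1}`, `{a, b, c} = {0, 1, 2}`, `ρ ≥ s`: lines whose
`a`-cell has size `≤ 2 ρ` have `|x b δ' - x b δ| ≤ 11 ρ`, and at most two `a`-cells are larger
(`big`); with `cnt`, `nu a ρ ≤ (k / θ) (nu b (11 ρ) + 5 m)`.  This covers `(a, b)` in
`(0,2), (2,0), (1,2), (2,1)`; the pairs `(0,1), (1,0)` go through column 2; (i) and (ii) give the
bound at radius `3 s`, which also handles `ρ < s`. -/
theorem h1a : ∃ c : ℕ, ∀ (k m L : ℝ) (C : Fin 3 → Col) (G : Finset Ln), H3 k m L C G →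
    (∀ δ ∈ G, (C 0).sz δ ≤ (C 1).sz δ ∧ (C 1).sz δ ≤ (C 2).sz δ) →
    ∃ G' ⊆ G, #G ≤ 2 * #G' ∧ ∀ δ ∈ G',
      (∀ a, (C a).nu ((C a).x δ) (3 * (C 1).sz δ) ≤ k ^ c * m) ∧
      ∀ a b, ∀ ρ : ℝ, 0 < ρ →
        (C a).nu ((C a).x δ) ρ ≤ k ^ c * ((C b).nu ((C b).x δ) (121 * ρ) + m) := by
  refine ⟨43, fun k m L C G h ho => ?_⟩
  set B := (univ : Finset (Fin 3 × Fin 3)).biUnion fun z => AH1_B k L C G z.1 z.2 with hB
  have hBc : 20 * #B ≤ 9 * #G := by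
    calc 20 * #B ≤ 20 * ∑ z : Fin 3 × Fin 3, #(AH1_B k L C G z.1 z.2) :=
          Nat.mul_le_mul_left _ card_biUnion_le
      _ = ∑ z : Fin 3 × Fin 3, 20 * #(AH1_B k L C G z.1 z.2) := mul_sum _ _ _
      _ ≤ ∑ _z : Fin 3 × Fin 3, #G := sum_le_sum fun z _ => AH1_bad h z.1 z.2
      _ = 9 * #G := by simp
  have hGc : #G ≤ #(G \ B) + #B := card_le_card_sdiff_add_card
  refine ⟨G \ B, sdiff_subset, by omega, fun δ hδ' => ?_⟩
  have hδ : δ ∈ G := (mem_sdiff.1 hδ').1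
  have hb : ∀ a c, δ ∉ AH1_B k L C G a c := fun a c hc =>
    (mem_sdiff.1 hδ').2 (mem_biUnion.2 ⟨(a, c), mem_univ _, hc⟩)
  have hk := h.k2
  have hm0 : 0 < m := by linarith [h.m1]
  have hs := h.pos 1 δ hδ
  have hi := fun l hl => AH1_i h ho hδ (hb 0 1) (l := l) hl
  have h02 := fun ρ hρ => AH1_ii h ho (a := 0) (b := 2) (c := 1) (by decide) (by decide)
    (fun f => by rw [Fin.sum_univ_three]; ring) hδ le_rfl (hb 0 1) (ρ := ρ) hρ
  have h20 := fun ρ hρ => AH1_ii h ho (a := 2) (b := 0) (c := 1) (by decide) (by decide)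
    (fun f => by rw [Fin.sum_univ_three]; ring) hδ le_rfl (hb 2 1) (ρ := ρ) hρ
  have h12 := fun ρ hρ => AH1_ii h ho (a := 1) (b := 2) (c := 0) (by decide) (by decide)
    (fun f => by rw [Fin.sum_univ_three]; ring) hδ (ho δ hδ).1 (hb 1 0) (ρ := ρ) hρ
  have h21 := fun ρ hρ => AH1_ii h ho (a := 2) (b := 1) (c := 0) (by decide) (by decide)
    (fun f => by rw [Fin.sum_univ_three]; ring) hδ (ho δ hδ).1 (hb 2 0) (ρ := ρ) hρ
  have hK : 1000 * (100 * k ^ 4) ^ 3 ≤ k ^ 43 := by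
    have a1 : (2 : ℝ) ^ 31 ≤ k ^ 31 := pow_le_pow_left₀ (by norm_num) hk 31
    calc 1000 * (100 * k ^ 4) ^ 3 = 10 ^ 9 * k ^ 12 := by ring
      _ ≤ k ^ 31 * k ^ 12 := by
          gcongr
          exact le_trans (by norm_num) a1
      _ = _ := by ring
  have hK1 : 1 ≤ 100 * k ^ 4 := by
    have : 1 ≤ k ^ 4 := one_le_pow₀ (by linarith)
    linarith
  generalize 100 * k ^ 4 = K at hi h02 h20 h12 h21 hK hK1
  generalize k ^ 43 = M at hK ⊢
  set s := (C 1).sz δ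
  have hK0 : 0 < K := by linarith
  have hK2 : K ≤ K ^ 2 := by nlinarith
  have hK3 : K ^ 2 ≤ K ^ 3 := by nlinarith
  have b1 : K * m ≤ K ^ 3 * m := by gcongr; linarith
  have b2 : K ^ 2 * m ≤ K ^ 3 * m := by gcongr
  have b3 : 1000 * K ^ 3 * m ≤ M * m := by gcongr
  have b0 : 0 ≤ K * m := by positivity
  have r3 : ∀ a, (C a).nu ((C a).x δ) (3 * s) ≤ M * m := by
    have c0 := hi 3 (by norm_num)
    have c1 := hi 33 (by norm_num)
    have c2 := hi 363 (by norm_num)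
    have c3 := h20 (3 * s) (by linarith)
    have c4 := h20 (33 * s) (by linarith)
    have c5 := h12 (3 * s) (by linarith)
    rw [show 11 * (3 * s) = 33 * s by ring] at c3 c5
    rw [show 11 * (33 * s) = 363 * s by ring] at c4
    have d3 := c3.trans (mul_le_mul_of_nonneg_left (add_le_add_left c1 _) hK0.le)
    have d4 := c4.trans (mul_le_mul_of_nonneg_left (add_le_add_left c2 _) hK0.le)
    have d5 := c5.trans (mul_le_mul_of_nonneg_left (add_le_add_left d4 _) hK0.le)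
    intro a
    fin_cases a
    · exact c0.trans (by nlinarith)
    · exact d5.trans (by nlinarith)
    · exact d3.trans (by nlinarith)
  refine ⟨r3, fun a b ρ hρ => ?_⟩
  have hM : K ^ 3 ≤ M := by
    have : 0 ≤ K ^ 3 := by positivity
    linarith
  have hM0 : 0 ≤ M := le_trans (by positivity) hM
  have n0 := AH1_nu_nonneg (C b) ((C b).x δ) (121 * ρ)
  rcases le_total ρ s with hρs | hρs
  · refine (AH1_nu_mono _ _ (by linarith)).trans ((r3 a).trans ?_)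
    gcongr
    linarith
  have one : ∀ {x y : ℝ}, x ≤ K * (y + 6 * m) → y ≤ (C b).nu ((C b).x δ) (121 * ρ) →
      x ≤ M * ((C b).nu ((C b).x δ) (121 * ρ) + m) := by
    intro x y h1 h2
    have a1 : K * y ≤ M * (C b).nu ((C b).x δ) (121 * ρ) :=
      (mul_le_mul_of_nonneg_left h2 hK0.le).trans
        (mul_le_mul_of_nonneg_right (by linarith) n0)
    nlinarith
  have two : ∀ {x y : ℝ}, x ≤ K * (y + 6 * m) →
      y ≤ K * ((C b).nu ((C b).x δ) (11 * (11 * ρ)) + 6 * m) →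
      x ≤ M * ((C b).nu ((C b).x δ) (121 * ρ) + m) := by
    intro x y h1 h2
    rw [show 11 * (11 * ρ) = 121 * ρ by ring] at h2
    have a0 := h1.trans (mul_le_mul_of_nonneg_left (add_le_add_left h2 _) hK0.le)
    have a1 : K ^ 2 * (C b).nu ((C b).x δ) (121 * ρ) ≤ M * (C b).nu ((C b).x δ) (121 * ρ) :=
      mul_le_mul_of_nonneg_right (by linarith) n0
    nlinarith
  have mo : (C b).nu ((C b).x δ) (11 * ρ) ≤ (C b).nu ((C b).x δ) (121 * ρ) :=
    AH1_nu_mono _ _ (by linarith)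
  have same : (C b).nu ((C b).x δ) ρ ≤ M * ((C b).nu ((C b).x δ) (121 * ρ) + m) := by
    have a1 : (C b).nu ((C b).x δ) ρ ≤ (C b).nu ((C b).x δ) (121 * ρ) :=
      AH1_nu_mono _ _ (by linarith)
    have a2 : 1 * (C b).nu ((C b).x δ) (121 * ρ) ≤ M * (C b).nu ((C b).x δ) (121 * ρ) :=
      mul_le_mul_of_nonneg_right (by linarith) n0
    have a3 : 0 ≤ M * m := by positivity
    linarith
  have h11 : s ≤ 11 * ρ := by linarith
  fin_cases a <;> fin_cases b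
  · exact same
  · exact two (h02 ρ hρs) (h21 _ h11)
  · exact one (h02 ρ hρs) mo
  · exact two (h12 ρ hρs) (h20 _ h11)
  · exact same
  · exact one (h12 ρ hρs) mo
  · exact one (h20 ρ hρs) mo
  · exact one (h21 ρ hρs) mo
  · exact same

end Crest.Agent.R051
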