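import Crest.Agent.R051.AH1

/-! Row 51: linking the profiles of different lines. -/

set_option autoImplicit false

open Finset
open scoped Classical Pointwise

namespace Crest.Agent.R051

lemma AH2_nu_le (C : Col) {p p' ρ ρ' : ℝ} (h : ρ + |p - p'| ≤ ρ') : C.nu p ρ ≤ C.nu p' ρ' := by
  unfold Col.nu
  refine Nat.cast_le.2 (card_le_card fun δ hδ => ?_)
  rw [mem_filter] at hδ ⊢
  refine ⟨hδ.1, ?_⟩
  have := abs_sub_le (C.x δ) p p'
  linarith [hδ.2]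

lemma AH2_nu_mono (C : Col) (p : ℝ) : Monotone (C.nu p) := fun _ _ h =>
  AH2_nu_le C (by simpa using h)

lemma AH2_nu_nonneg (C : Col) (p ρ : ℝ) : 0 ≤ C.nu p ρ := Nat.cast_nonneg _

/-- comparison of two profiles -/
def AH2_Rel (K m : ℝ) (f g : ℝ → ℝ) : Prop := ∀ ρ : ℝ, 0 < ρ → f ρ ≤ K * (g (K * ρ) + m)

lemma AH2_Rel.mono {K K' m : ℝ} {f g : ℝ → ℝ} (h : AH2_Rel K m f g) (hK : K ≤ K') (hK0 : 0 ≤ K)
    (hm : 0 ≤ m) (hg : Monotone g) (h0 : ∀ ρ, 0 ≤ g ρ) : AH2_Rel K' m f g := by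
  intro ρ hρ
  refine (h ρ hρ).trans ?_
  have h1 : g (K * ρ) ≤ g (K' * ρ) := hg (by gcongr)
  have := h0 (K * ρ)
  have hK' : 0 ≤ K' := hK0.trans hK
  gcongr

lemma AH2_Rel.trans {k m : ℝ} {i j : ℕ} {f g u : ℝ → ℝ} (h : AH2_Rel (k ^ i) m f g)
    (h' : AH2_Rel (k ^ j) m g u) (hk : 2 ≤ k) (hm : 0 ≤ m) (hu : Monotone u)
    (h0 : ∀ ρ, 0 ≤ u ρ) : AH2_Rel (k ^ (i + j + 1)) m f u := by
  intro ρ hρ
  have hi : 1 ≤ k ^ i := one_le_pow₀ (by linarith)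
  have hj : 1 ≤ k ^ j := one_le_pow₀ (by linarith)
  have h1 := h ρ hρ
  have h2 := h' (k ^ i * ρ) (by positivity)
  have e : k ^ (i + j + 1) = k ^ i * k ^ j * k := by ring
  have h3 : u (k ^ j * (k ^ i * ρ)) ≤ u (k ^ (i + j + 1) * ρ) := hu (by
    rw [e]
    have : 0 ≤ k ^ i * k ^ j * ρ := by positivity
    nlinarith)
  have h4 := h0 (k ^ (i + j + 1) * ρ)
  set U := u (k ^ (i + j + 1) * ρ)
  have h5 : g (k ^ i * ρ) + m ≤ k ^ j * k * (U + m) := by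
    have a1 : g (k ^ i * ρ) ≤ k ^ j * (U + m) := h2.trans (by gcongr)
    have a2 : m ≤ k ^ j * (U + m) := by nlinarith
    have a3 : 0 ≤ k ^ j * (U + m) := by positivity
    nlinarith
  calc f ρ ≤ k ^ i * (g (k ^ i * ρ) + m) := h1
    _ ≤ k ^ i * (k ^ j * k * (U + m)) := by gcongr
    _ = _ := by rw [e]; ring

lemma AH2_cs {α β : Type*} [DecidableEq β] (s : Finset α) (f : α → β) :
    (#s : ℝ) ^ 2 ≤ #(s.image f) * ∑ x ∈ s, (#{y ∈ s | f y = f x} : ℝ) := by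
  have h1 : (#s : ℝ) = ∑ b ∈ s.image f, (#{y ∈ s | f y = b} : ℝ) := by
    exact_mod_cast card_eq_sum_card_image f s
  have h2 : ∑ x ∈ s, (#{y ∈ s | f y = f x} : ℝ) =
      ∑ b ∈ s.image f, (#{y ∈ s | f y = b} : ℝ) ^ 2 := by
    rw [sum_comp (fun b => (#{y ∈ s | f y = b} : ℝ)) f]
    simp only [nsmul_eq_mul, sq]
  rw [h2, h1]
  exact sq_sum_le_card_mul_sum_sq

lemma AH2_cells {C : Col} {k m L : ℝ} (h : C.OK m (k * m * L)) (hk : 2 ≤ k) (hm : 1 ≤ m)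
    (hL : 1 ≤ L) {Z : Finset Ln} (hZ : Z ⊆ C.Ty) : (#(Z.image C.cell) : ℝ) ≤ k ^ 3 * L := by
  have h1 := h.cnt 0 (∑ δ ∈ Z, |C.x δ|) Z hZ fun δ hδ => by
    rw [sub_zero]
    exact single_le_sum (f := fun δ => |C.x δ|) (fun _ _ => abs_nonneg _) hδ
  have h2 : C.nu 0 (∑ δ ∈ Z, |C.x δ|) ≤ k * m * L :=
    le_trans (Nat.cast_le.2 (card_filter_le _ _)) h.card
  have h3 : m * #(Z.image C.cell) ≤ m * (k * L + 3) := by linarith
  have h4 := le_of_mul_le_mul_left h3 (by linarith)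
  have h5 : 2 ≤ k * L := by nlinarith
  have h6 : 4 * (k * L) ≤ k ^ 2 * (k * L) := by gcongr; nlinarith
  nlinarith

lemma AH2_arith {k m L g w n S : ℝ} (hk : 2 ≤ k) (hm : 1 ≤ m) (hL : 1 ≤ L) (hw : 0 ≤ w)
    (hG : m * L ≤ k ^ 2 * g) (cs : g ^ 2 ≤ n * S) (c1 : n ≤ k ^ 3 * L)
    (e3 : S * L ≤ k ^ 3 * L * (w * (k * m))) (hS : 0 ≤ S) : m * L ≤ k ^ 11 * w := by
  have e4 : g ^ 2 * L ≤ k ^ 3 * L * (k ^ 3 * L * (w * (k * m))) := by
    calc g ^ 2 * L ≤ (n * S) * L := by gcongr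
      _ = n * (S * L) := mul_assoc _ _ _
      _ ≤ _ := mul_le_mul c1 e3 (by positivity) (by positivity)
  have e6 : (m * L * L) * (m * L) ≤ (m * L * L) * (k ^ 11 * w) := by
    calc (m * L * L) * (m * L) = (m * L) ^ 2 * L := by ring
      _ ≤ (k ^ 2 * g) ^ 2 * L := by gcongr
      _ = k ^ 4 * (g ^ 2 * L) := by ring
      _ ≤ k ^ 4 * (k ^ 3 * L * (k ^ 3 * L * (w * (k * m)))) := by gcongr
      _ = _ := by ring
  exact le_of_mul_le_mul_left e6 (by positivity)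

lemma AH2_count {k m L : ℝ} {C : Fin 3 → Col} {G G1 : Finset Ln} (h : H3 k m L C G)
    (h1 : G1 ⊆ G) (h2 : #G ≤ 2 * #G1) :
    ∃ q, m * L ≤ k ^ 11 *
      #{δ ∈ G1 | ∃ δ1 ∈ G1, (C 0).cell δ1 = q ∧ (C 1).cell δ1 = (C 1).cell δ} := by
  have hk := h.k2
  have hm := h.m1
  have hL := h.L1
  have h2' : (#G : ℝ) ≤ 2 * #G1 := by exact_mod_cast h2
  have hG : m * L ≤ k ^ 2 * #G1 := by
    have a1 : k * #G ≤ k * (2 * #G1) := by gcongr
    have a2 : (0 : ℝ) ≤ k * #G1 := by positivity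
    nlinarith [h.big]
  have hne : G1.Nonempty := by
    rw [← card_pos]
    by_contra h0
    have : #G1 = 0 := by omega
    rw [this] at hG
    have : 0 < m * L := by positivity
    simp at hG
    linarith
  set W : ℕ → Finset Ln := fun q =>
    {δ ∈ G1 | ∃ δ1 ∈ G1, (C 0).cell δ1 = q ∧ (C 1).cell δ1 = (C 1).cell δ} with hW
  obtain ⟨q, -, hq⟩ := exists_max_image (G1.image (C 0).cell) (fun q => #(W q)) (hne.image _)
  refine ⟨q, ?_⟩
  have c0 := AH2_cells (h.ok 0) hk hm hL (h1.trans (h.sub 0))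
  have c1 := AH2_cells (h.ok 1) hk hm hL (h1.trans (h.sub 1))
  have cs := AH2_cs G1 (C 1).cell
  have e1 : ∑ x ∈ G1, (#{y ∈ G1 | (C 1).cell y = (C 1).cell x} : ℝ) =
      ∑ p ∈ G1.image (C 0).cell, ∑ x ∈ G1,
        (#{y ∈ G1 | (C 0).cell y = p ∧ (C 1).cell y = (C 1).cell x} : ℝ) := by
    rw [sum_comm]
    refine sum_congr rfl fun x _ => ?_
    rw [card_eq_sum_card_fiberwise (f := (C 0).cell) (t := G1.image (C 0).cell)
      (fun y hy => mem_coe.2 (mem_image_of_mem _ (mem_filter.1 (mem_coe.1 hy)).1))]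
    push_cast
    refine sum_congr rfl fun p _ => ?_
    rw [filter_filter]
    simp only [and_comm]
  have e2 : ∀ p ∈ G1.image (C 0).cell, (∑ x ∈ G1,
      (#{y ∈ G1 | (C 0).cell y = p ∧ (C 1).cell y = (C 1).cell x} : ℝ)) * L ≤
        #(W q) * (k * m) := by
    intro p hp
    have a1 : (#(W p) : ℝ) ≤ #(W q) := by exact_mod_cast hq p hp
    refine le_trans ?_ (mul_le_mul_of_nonneg_right a1 (by positivity))
    rw [sum_mul, hW]
    simp only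
    rw [card_filter]
    push_cast
    rw [sum_mul]
    refine sum_le_sum fun x hx => ?_
    split_ifs with hex
    · obtain ⟨δ1, hδ1, a, b⟩ := hex
      rw [one_mul]
      refine le_trans ?_ (h.dom 0 1 (by decide) δ1 (h1 hδ1))
      rw [a, b]
      gcongr
    · rw [filter_eq_empty_iff.2 fun y hy hy' => hex ⟨y, hy, hy'⟩]
      simp
  have e3 : (∑ x ∈ G1, (#{y ∈ G1 | (C 1).cell y = (C 1).cell x} : ℝ)) * L ≤
      k ^ 3 * L * (#(W q) * (k * m)) := by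
    rw [e1, sum_mul]
    refine (sum_le_card_nsmul _ _ _ e2).trans ?_
    rw [nsmul_eq_mul]
    gcongr
  exact AH2_arith hk hm hL (Nat.cast_nonneg _) hG cs c1 e3
    (sum_nonneg fun _ _ => Nat.cast_nonneg _)

/-- Ordered case, many lines.  Take `G'` from `h1a`.  Two lines of `G'` in the same cell of column
`c ∈ {0, 1}` have comparable profiles at `c` (`sz c ≤ sz 1 = s`; radius `2 ρ` if `ρ ≥ sz c`, else
the mass is `≤ k ^ c m`).  Double counting: a cell of column 1 holding `g` lines of `G'` meets at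
least `g L / (k m)` cells of column 0 (`dom`); by Cauchy-Schwarz over the `≤ k L + 3` cells of
column 1 and averaging over the cells of column 0, some cell `Q` of column 0 has
`G'' = {δ ∈ G' | ∃ δ1 ∈ G' in Q with the same 1-cell as δ}` of size `≥ m L / k ^ c`. -/
theorem h1b : ∃ c : ℕ, ∀ (k m L : ℝ) (C : Fin 3 → Col) (G : Finset Ln), H3 k m L C G →
    (∀ δ ∈ G, (C 0).sz δ ≤ (C 1).sz δ ∧ (C 1).sz δ ≤ (C 2).sz δ) →
    ∃ G' ⊆ G, m * L ≤ k ^ c * #G' ∧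
      (∀ δ ∈ G', ∀ a, (C a).nu ((C a).x δ) |∑ e, (C e).x δ| ≤ k ^ c * m) ∧
      ∀ δ ∈ G', ∀ δ' ∈ G', ∀ a b, ∀ ρ : ℝ, 0 < ρ →
        (C a).nu ((C a).x δ) ρ ≤ k ^ c * ((C b).nu ((C b).x δ') (k ^ c * ρ) + m) := by
  obtain ⟨c, hc⟩ := h1a
  refine ⟨7 * (c + 7) + 6, fun k m L C G h hord => ?_⟩
  obtain ⟨G1, hG1, hcard, hG⟩ := hc k m L C G h hord
  obtain ⟨q, hq⟩ := AH2_count h hG1 hcard
  have hk := h.k2
  have hk1 : 1 ≤ k := by linarith
  have hm : 0 ≤ m := by linarith [h.m1]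
  have hc7 : k ^ c ≤ k ^ (c + 7) := pow_le_pow_right₀ hk1 (by omega)
  have h128 : (128 : ℝ) ≤ k ^ (c + 7) := by
    calc (128 : ℝ) = 2 ^ 7 := by norm_num
      _ ≤ k ^ 7 := by gcongr
      _ ≤ k ^ (c + 7) := pow_le_pow_right₀ hk1 (by omega)
  have hB : ∀ δ ∈ G1, ∀ a b, AH2_Rel (k ^ (c + 7)) m ((C a).nu ((C a).x δ))
      ((C b).nu ((C b).x δ)) := by
    intro δ hδ a b ρ hρ
    refine ((hG δ hδ).2 a b ρ hρ).trans ?_
    have h1 : (C b).nu ((C b).x δ) (121 * ρ) ≤ (C b).nu ((C b).x δ) (k ^ (c + 7) * ρ) :=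
      AH2_nu_mono _ _ (by gcongr; linarith)
    have := AH2_nu_nonneg (C b) ((C b).x δ) (121 * ρ)
    gcongr
  have hC : ∀ a, ∀ δ ∈ G1, ∀ δ' ∈ G1, (C a).sz δ ≤ (C 1).sz δ → (C a).cell δ' = (C a).cell δ →
      AH2_Rel (k ^ (c + 7)) m ((C a).nu ((C a).x δ)) ((C a).nu ((C a).x δ')) := by
    intro a δ hδ δ' hδ' hs he ρ hρ
    have h0 := AH2_nu_nonneg (C a) ((C a).x δ') (k ^ (c + 7) * ρ)
    by_cases hr : (C a).sz δ ≤ ρ
    · have h1 := ((h.ok a).same δ (h.sub a (hG1 hδ)) δ' (h.sub a (hG1 hδ')) he).2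
      rw [abs_sub_comm] at h1
      have h2 : (C a).nu ((C a).x δ) ρ ≤ (C a).nu ((C a).x δ') (k ^ (c + 7) * ρ) :=
        AH2_nu_le _ (by nlinarith)
      nlinarith
    · have h1 := h.pos 1 δ (hG1 hδ)
      have h2 : (C a).nu ((C a).x δ) ρ ≤ (C a).nu ((C a).x δ) (3 * (C 1).sz δ) :=
        AH2_nu_mono _ _ (by linarith [not_le.1 hr])
      have h3 := (hG δ hδ).1 a
      calc _ ≤ k ^ c * m := h2.trans h3
        _ ≤ k ^ (c + 7) * m := by gcongr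
        _ ≤ _ := by gcongr; linarith
  refine ⟨{δ ∈ G1 | ∃ δ1 ∈ G1, (C 0).cell δ1 = q ∧ (C 1).cell δ1 = (C 1).cell δ},
    (filter_subset _ _).trans hG1, hq.trans ?_, fun δ hδ a => ?_,
    fun δ hδ δ' hδ' a b => ?_⟩
  · exact mul_le_mul_of_nonneg_right (pow_le_pow_right₀ hk1 (by omega)) (by positivity)
  · have hδ1 := (mem_filter.1 hδ).1
    have h1 := h.lin 0 1 (by decide) δ (hG1 hδ1)
    rw [max_eq_right (hord δ (hG1 hδ1)).1] at h1
    refine (AH2_nu_mono _ _ h1).trans (((hG δ hδ1).1 a).trans ?_)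
    exact mul_le_mul_of_nonneg_right (pow_le_pow_right₀ hk1 (by omega)) hm
  · obtain ⟨hδ0, δ1, hδ1, a1, b1⟩ := mem_filter.1 hδ
    obtain ⟨hδ0', δ2, hδ2, a2, b2⟩ := mem_filter.1 hδ'
    have r1 := hB δ hδ0 a 1
    have r2 := hC 1 δ hδ0 δ1 hδ1 le_rfl b1
    have r3 := hB δ1 hδ1 1 0
    have r4 := hC 0 δ1 hδ1 δ2 hδ2 (hord δ1 (hG1 hδ1)).1 (a2.trans a1.symm)
    have r5 := hB δ2 hδ2 0 1
    have r6 := hC 1 δ2 hδ2 δ' hδ0' le_rfl b2.symm
    have r7 := hB δ' hδ0' 1 b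
    have t : ∀ {i j : ℕ} {f g : ℝ → ℝ} {D : Col} {p : ℝ}, AH2_Rel (k ^ i) m f g →
        AH2_Rel (k ^ j) m g (D.nu p) → AH2_Rel (k ^ (i + j + 1)) m f (D.nu p) :=
      fun x y => x.trans y hk hm (AH2_nu_mono _ _) (AH2_nu_nonneg _ _)
    have r := t (t (t (t (t (t r1 r2) r3) r4) r5) r6) r7
    exact r.mono (pow_le_pow_right₀ hk1 (by omega)) (by positivity) hm (AH2_nu_mono _ _)
      (AH2_nu_nonneg _ _)

/-- pigeonhole over the six orderings of the sizes (`Equiv.Perm (Fin 3)`), then `h1b` for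
`C ∘ σ` with `6 k` -/
theorem h1 : ∃ c : ℕ, ∀ (k m L : ℝ) (C : Fin 3 → Col) (G : Finset Ln), H3 k m L C G →
    ∃ G' ⊆ G, m * L ≤ k ^ c * #G' ∧
      (∀ δ ∈ G', ∀ a, (C a).nu ((C a).x δ) |∑ e, (C e).x δ| ≤ k ^ c * m) ∧
      ∀ δ ∈ G', ∀ δ' ∈ G', ∀ a b, ∀ ρ : ℝ, 0 < ρ →
        (C a).nu ((C a).x δ) ρ ≤ k ^ c * ((C b).nu ((C b).x δ') (k ^ c * ρ) + m) := by
  obtain ⟨c, hc⟩ := h1b
  refine ⟨4 * c, fun k m L C G h => ?_⟩
  have hk := h.k2
  have hm : 0 ≤ m := by linarith [h.m1]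
  have hL : 0 ≤ L := by linarith [h.L1]
  set W : Equiv.Perm (Fin 3) → Finset Ln := fun σ =>
    {δ ∈ G | (C (σ 0)).sz δ ≤ (C (σ 1)).sz δ ∧ (C (σ 1)).sz δ ≤ (C (σ 2)).sz δ} with hW
  obtain ⟨σ, -, hσ⟩ := exists_max_image univ (fun σ => #(W σ)) univ_nonempty
  have hsub : G ⊆ univ.biUnion W := by
    intro δ hδ
    have := Tuple.monotone_sort fun a => (C a).sz δ
    exact mem_biUnion.2 ⟨Tuple.sort fun a => (C a).sz δ, mem_univ _,
      mem_filter.2 ⟨hδ, this (by decide), this (by decide)⟩⟩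
  have hcard : #G ≤ 6 * #(W σ) := by
    refine (card_le_card hsub).trans ((card_biUnion_le_card_mul _ _ _ hσ).trans ?_)
    simp [Fintype.card_perm, Nat.factorial]
  have hcard' : (#G : ℝ) ≤ 6 * #(W σ) := by exact_mod_cast hcard
  have hWG : W σ ⊆ G := filter_subset _ _
  have hsum : ∀ δ, ∑ e, (C (σ e)).x δ = ∑ e, (C e).x δ := fun δ =>
    Equiv.sum_comp σ fun e => (C e).x δ
  have hk6 : k ≤ 6 * k := by linarith
  have H : H3 (6 * k) m L (fun a => C (σ a)) (W σ) := by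
    refine ⟨by linarith, h.m1, h.L1, fun a => ?_, fun a => hWG.trans (h.sub _), ?_,
      fun a δ hδ => h.pos _ δ (hWG hδ), fun a b hab δ hδ => ?_, fun a b hab δ hδ => ?_⟩
    · have := h.ok (σ a)
      exact ⟨this.same, this.cnt, this.big, this.card.trans (by gcongr)⟩
    · calc m * L ≤ k * #G := h.big
        _ ≤ k * (6 * #(W σ)) := by gcongr
        _ = _ := by ring
    · refine le_trans ?_ ((h.dom (σ a) (σ b) (σ.injective.ne hab) δ (hWG hδ)).trans (by gcongr))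
      gcongr
    · rw [hsum]
      exact h.lin (σ a) (σ b) (σ.injective.ne hab) δ (hWG hδ)
  obtain ⟨G', hG', h1, h2, h3⟩ := hc (6 * k) m L _ _ H fun δ hδ => (mem_filter.1 hδ).2
  have hp : (6 * k) ^ c ≤ k ^ (4 * c) := by
    rw [pow_mul]
    have a1 : (2 : ℝ) ^ 3 ≤ k ^ 3 := by gcongr
    have a2 : 6 * k ≤ k ^ 4 := by nlinarith
    gcongr
  refine ⟨G', hG'.trans hWG, h1.trans (by gcongr), fun δ hδ a => ?_, fun δ hδ δ' hδ' a b => ?_⟩
  · obtain ⟨a, rfl⟩ := σ.surjective a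
    have := h2 δ hδ a
    simp only [hsum] at this
    exact this.trans (by gcongr)
  · obtain ⟨a, rfl⟩ := σ.surjective a
    obtain ⟨b, rfl⟩ := σ.surjective b
    exact AH2_Rel.mono (h3 δ hδ δ' hδ' a b) hp (by positivity) hm (AH2_nu_mono _ _)
      (AH2_nu_nonneg _ _)

end Crest.Agent.R051
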