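import Crest.Agent.R051.ADefs
import Crest.Agent.R070.SPBsg
import Crest.Agent.R070.SPPiece

/-! Row 51: structure lemma (Balog-Szemerédi-Gowers and Ruzsa covering). -/

set_option autoImplicit false

open Finset
open scoped Classical Pointwise

namespace Crest.Agent.R051

lemma ast_lattice (F : Finset ℤ) (p : ℝ) (m : ℕ) (hF : ∀ v ∈ F, |(v : ℝ) - p| ≤ m) :
    (#F : ℝ) ≤ 2 * m + 1 := by
  have h1 : F ⊆ Finset.Icc ⌈p - m⌉ ⌊p + m⌋ := by
    intro v hv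
    have h2 := abs_le.1 (hF v hv)
    rw [Finset.mem_Icc, Int.ceil_le, Int.le_floor]
    constructor <;> linarith [h2.1, h2.2]
  have h2 : #F ≤ 2 * m + 1 := by
    refine (card_le_card h1).trans ?_
    rw [Int.card_Icc, Int.ceil_sub_natCast, Int.floor_add_natCast]
    have := Int.floor_le_ceil p
    omega
  exact_mod_cast h2

lemma ast_conv {B : Finset ℤ} {x k : ℝ}
    (hf : ∀ p : ℝ, (#{b ∈ B | |x * b - p| ≤ 10} : ℝ) ≤ k) (p : ℝ) :
    (#(B.filter fun b : ℤ => |x * b - p| ≤ 10) : ℝ) ≤ k := by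
  refine le_trans (Nat.cast_le.2 ?_) (hf p)
  refine card_le_card_of_injOn (fun b : ℤ => (b : ℝ)) (fun b hb => ?_)
    fun a _ b _ h => Int.cast_injective h
  obtain ⟨h1, h2⟩ := mem_filter.1 hb
  refine mem_coe.2 (mem_filter.2 ⟨?_, h2⟩)
  simpa using h1

lemma ast_sum_sq {X Y : Type*} [DecidableEq Y] (s : Finset X) (D : Finset Y) (f : X → Y)
    (hf : ∀ x ∈ s, f x ∈ D) :
    ∑ d ∈ D, (#{x ∈ s | f x = d} : ℝ) ^ 2 = #{p ∈ s ×ˢ s | f p.1 = f p.2} := by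
  rw [card_eq_sum_card_fiberwise (f := fun p : X × X => f p.1) (t := D) (fun p hp =>
    hf _ (mem_product.1 (mem_filter.1 hp).1).1)]
  push_cast
  refine sum_congr rfl fun d _ => ?_
  rw [sq, ← Nat.cast_mul, ← card_product]
  congr 2
  ext p
  simp only [mem_product, mem_filter]
  constructor
  · rintro ⟨⟨h1, h2⟩, h3, h4⟩
    exact ⟨⟨⟨h1, h3⟩, h2.trans h4.symm⟩, h2⟩
  · rintro ⟨⟨⟨h1, h3⟩, h2⟩, h4⟩
    exact ⟨⟨h1, h4⟩, h3, h2.symm.trans h4⟩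

lemma ast_pigeon {α β : Type*} (S : Finset α) (X : Finset β) (F : β → Finset α)
    (hS : S.Nonempty) (h : ∀ s ∈ S, ∃ x ∈ X, s ∈ F x) : ∃ x ∈ X, (#S : ℝ) ≤ #X * #(F x) := by
  have hX : X.Nonempty := by
    obtain ⟨s, hs⟩ := hS
    obtain ⟨x, hx, -⟩ := h s hs
    exact ⟨x, hx⟩
  obtain ⟨x, hx, hmax⟩ := exists_max_image X (fun x => #(F x)) hX
  refine ⟨x, hx, ?_⟩
  have h1 : S ⊆ X.biUnion F := fun s hs => mem_biUnion.2 (h s hs)
  have h2 : #S ≤ #X * #(F x) :=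
    (card_le_card h1).trans (card_biUnion_le_card_mul _ _ _ hmax)
  exact_mod_cast h2

lemma ast_ne {α : Type*} {S : Finset α} {a K : ℝ} (ha : 0 < a) (h : a ≤ K * #S) : S.Nonempty := by
  rw [nonempty_iff_ne_empty]
  rintro rfl
  simp only [card_empty, Nat.cast_zero, mul_zero] at h
  linarith

lemma ast_fib {α β : Type*} [DecidableEq β] (S : Finset α) (f : α → β) {K : ℝ}
    (h : ∀ b, (#{a ∈ S | f a = b} : ℝ) ≤ K) : (#S : ℝ) ≤ K * #(S.image f) := by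
  rw [card_eq_sum_card_image f S, Nat.cast_sum, mul_comm, ← nsmul_eq_mul]
  exact sum_le_card_nsmul _ _ _ fun b _ => h b

/-- many large subsets: a popular one meets many of the others -/
lemma ast_pairs {ι β : Type*} [DecidableEq β] (I : Finset ι) (hI : I.Nonempty) (B : Finset β)
    (Bi : ι → Finset β) (hsub : ∀ i ∈ I, Bi i ⊆ B) {M K : ℝ} (hM : 0 < M) (hK : 0 < K)
    (hB : (#B : ℝ) ≤ M) (hBi : ∀ i ∈ I, M ≤ K * #(Bi i)) (y : ι → ℝ) :
    ∃ j ∈ I, (#I : ℝ) ≤ 4 * K ^ 2 * #{i ∈ I | y i ≤ y j ∧ M ≤ 4 * K ^ 2 * #(Bi i ∩ Bi j)} := by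
  by_contra hcon
  push Not at hcon
  set n : ℝ := ((#I : ℕ) : ℝ) with hn
  have hn0 : 0 < n := Nat.cast_pos.2 hI.card_pos
  set c : ι → ι → ℝ := fun i j => #(Bi i ∩ Bi j) with hc
  have hc0 : ∀ i j, 0 ≤ c i j := fun i j => Nat.cast_nonneg _
  have hcs : ∀ i j, c i j = c j i := fun i j => by simp only [hc, inter_comm]
  have hcM : ∀ i ∈ I, ∀ j, c i j ≤ M := fun i hi j =>
    le_trans (Nat.cast_le.2 (card_le_card (inter_subset_left.trans (hsub i hi)))) hB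
  have h1 : ∀ j ∈ I, 4 * K ^ 2 * ∑ i ∈ I, (if y i ≤ y j then c i j else 0) < 2 * n * M := by
    intro j hj
    have h2 : ∀ i ∈ I, 4 * K ^ 2 * (if y i ≤ y j then c i j else 0) ≤
        4 * K ^ 2 * M * (if y i ≤ y j ∧ M ≤ 4 * K ^ 2 * c i j then 1 else 0) + M := by
      intro i hi
      by_cases h3 : y i ≤ y j
      · by_cases h4 : M ≤ 4 * K ^ 2 * c i j
        · rw [if_pos h3, if_pos ⟨h3, h4⟩, mul_one]
          have := mul_le_mul_of_nonneg_left (hcM i hi j) (show 0 ≤ 4 * K ^ 2 by positivity)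
          linarith
        · rw [if_pos h3, if_neg fun h => h4 h.2, mul_zero, zero_add]
          exact (not_le.1 h4).le
      · rw [if_neg h3, if_neg fun h => h3 h.1, mul_zero, mul_zero, zero_add]
        exact hM.le
    have h3 := sum_le_sum h2
    rw [← mul_sum, sum_add_distrib, ← mul_sum, sum_boole, sum_const, nsmul_eq_mul] at h3
    have h4 := mul_lt_mul_of_pos_left (hcon j hj) hM
    refine h3.trans_lt ?_
    simp only [hc] at h4 ⊢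
    linarith
  have h2 : 4 * K ^ 2 * ∑ j ∈ I, ∑ i ∈ I, (if y i ≤ y j then c i j else 0) < n * (2 * n * M) := by
    rw [mul_sum]
    refine (sum_lt_sum_of_nonempty hI h1).trans_eq ?_
    rw [sum_const, nsmul_eq_mul]
  have h3 : ∑ j ∈ I, ∑ i ∈ I, c i j ≤ 2 * ∑ j ∈ I, ∑ i ∈ I, (if y i ≤ y j then c i j else 0) := by
    rw [two_mul]
    nth_rewrite 2 [sum_comm]
    rw [← sum_add_distrib]
    refine sum_le_sum fun j _ => ?_
    rw [← sum_add_distrib]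
    refine sum_le_sum fun i _ => ?_
    rcases le_total (y i) (y j) with h | h
    · rw [if_pos h]
      split_ifs
      · linarith [hc0 i j, hc0 j i]
      · linarith
    · rw [if_pos h, hcs j i]
      split_ifs
      · linarith [hc0 i j]
      · linarith
  set e : ι → β → ℝ := fun i b => if b ∈ Bi i then 1 else 0 with he
  have h4 : ∀ i ∈ I, (#(Bi i) : ℝ) = ∑ b ∈ B, e i b := fun i hi => by
    simp only [he]
    rw [sum_boole, filter_mem_eq_inter, inter_eq_right.2 (hsub i hi)]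
  have h5 : ∀ j ∈ I, ∀ i ∈ I, c i j = ∑ b ∈ B, e j b * e i b := fun j _ i hi => by
    have : ∀ b, e j b * e i b = if b ∈ Bi i ∩ Bi j then 1 else 0 := fun b => by
      simp only [he, mem_inter]
      by_cases h1 : b ∈ Bi i <;> by_cases h2 : b ∈ Bi j <;> simp [h1, h2]
    simp only [this]
    rw [sum_boole, filter_mem_eq_inter, inter_eq_right.2 (inter_subset_left.trans (hsub i hi))]
  have h6 : ∑ j ∈ I, ∑ i ∈ I, c i j = ∑ b ∈ B, (∑ i ∈ I, e i b) ^ 2 := by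
    rw [sum_congr rfl fun j hj => sum_congr rfl fun i hi => h5 j hj i hi]
    simp only [sq, sum_mul_sum]
    rw [sum_congr rfl fun j _ => sum_comm, sum_comm]
  have h7 : n * M ≤ K * ∑ b ∈ B, ∑ i ∈ I, e i b := by
    rw [sum_comm, mul_sum, ← nsmul_eq_mul, ← sum_const]
    exact sum_le_sum fun i hi => by rw [← h4 i hi]; exact hBi i hi
  have h8 : (∑ b ∈ B, ∑ i ∈ I, e i b) ^ 2 ≤ #B * ∑ b ∈ B, (∑ i ∈ I, e i b) ^ 2 :=
    sq_sum_le_card_mul_sum_sq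
  rw [← h6] at h8
  set S := ∑ j ∈ I, ∑ i ∈ I, c i j with hS
  have hS0 : 0 ≤ S := sum_nonneg fun _ _ => sum_nonneg fun _ _ => hc0 _ _
  have h9 : (n * M) ^ 2 ≤ K ^ 2 * (M * S) := by
    calc (n * M) ^ 2 ≤ (K * ∑ b ∈ B, ∑ i ∈ I, e i b) ^ 2 := pow_le_pow_left₀ (by positivity) h7 2
      _ = K ^ 2 * (∑ b ∈ B, ∑ i ∈ I, e i b) ^ 2 := mul_pow _ _ _
      _ ≤ K ^ 2 * (M * S) :=
        mul_le_mul_of_nonneg_left (h8.trans (mul_le_mul_of_nonneg_right hB hS0)) (sq_nonneg _)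
  have h10 : K ^ 2 * S < n * n * M := by
    have := mul_le_mul_of_nonneg_left h3 (sq_nonneg K)
    linarith
  have h11 := mul_lt_mul_of_pos_left h10 hM
  nlinarith

/-- the covering step -/
lemma ast_cov (A B Bi : Finset ℤ) (x x0 v v0 k M : ℝ) (hk : 2 ≤ k) (hM : 0 < M) (hx0 : x0 ≠ 0)
    (hx : |x| ≤ |x0|) (hA : (#A : ℝ) ≤ M) (hAA : (#(A - A) : ℝ) ≤ k ^ 144 * #A) (hsub : Bi ⊆ B)
    (hf : ∀ p : ℝ, (#(B.filter fun b : ℤ => |x0 * b - p| ≤ 10) : ℝ) ≤ k) (hBi : M ≤ k ^ 66 * #Bi)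
    (h0 : ∀ b ∈ Bi, ∃ a ∈ A, |(a : ℝ) + x0 * b - v0| ≤ 4)
    (h1 : ∀ b ∈ Bi, ∃ a ∈ A, |(a : ℝ) + x * b - v| ≤ 4) : Cov (k ^ 499) (x / x0) (A - A) := by
  have hk0 : 0 < k := by linarith
  have hk1 : 1 ≤ k := by linarith
  choose! a0 ha0 ha0' using h0
  choose! a1 ha1 ha1' using h1
  set S := Bi.image a0 with hS
  have hfib : (#Bi : ℝ) ≤ k * #S := by
    refine ast_fib Bi a0 fun a => le_trans (Nat.cast_le.2 (card_le_card fun b hb => ?_)) (hf (v0 - a))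
    obtain ⟨h2, h3⟩ := mem_filter.1 hb
    refine mem_filter.2 ⟨hsub h2, ?_⟩
    have h4 := ha0' b h2
    rw [h3] at h4
    rw [show x0 * b - (v0 - a) = a + x0 * b - v0 by ring]
    linarith
  have hSne : S.Nonempty := (ast_ne hM hBi).image _
  have hSA : S ⊆ A := fun a ha => by
    obtain ⟨b, hb, rfl⟩ := mem_image.1 ha
    exact ha0 b hb
  have hsub' : A - A + S ⊆ 2 • A - 1 • A := by
    intro x hx
    obtain ⟨y, hy, z, hz, rfl⟩ := mem_add.1 hx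
    obtain ⟨b1, hb1, b2, hb2, rfl⟩ := mem_sub.1 hy
    rw [two_nsmul, one_nsmul]
    exact mem_sub.2 ⟨b1 + z, add_mem_add hb1 (hSA hz), b2, hb2, by abel⟩
  have hcard : (#(A - A + S) : ℝ) ≤ k ^ 499 * #S := by
    calc (#(A - A + S) : ℝ) ≤ #(2 • A - 1 • A) := by exact_mod_cast card_le_card hsub'
      _ ≤ (k ^ 144) ^ (2 + 1) * #A := R070.sp_pr A (k ^ 144) (hSne.mono hSA) hAA 2 1
      _ ≤ (k ^ 144) ^ (2 + 1) * (k ^ 66 * (k * #S)) := by
          refine mul_le_mul_of_nonneg_left (hA.trans (hBi.trans ?_)) (by positivity)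
          exact mul_le_mul_of_nonneg_left hfib (by positivity)
      _ = _ := by ring
  obtain ⟨F, -, hF1, hF2⟩ := ruzsa_covering_add hSne hcard
  refine ⟨F.image fun φ : ℤ => x / x0 * φ, le_trans (by exact_mod_cast card_image_le) hF1,
    fun h hh => ?_⟩
  obtain ⟨φ, hφ, y, hy, rfl⟩ := mem_add.1 (hF2 hh)
  obtain ⟨c1, hc1, c2, hc2, rfl⟩ := mem_sub.1 hy
  obtain ⟨b1, hb1, rfl⟩ := mem_image.1 hc1
  obtain ⟨b2, hb2, rfl⟩ := mem_image.1 hc2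
  refine ⟨_, mem_image_of_mem _ hφ, _, sub_mem_sub (ha1 b1 hb1) (ha1 b2 hb2), ?_⟩
  have e : x / x0 * ((φ + (a0 b1 - a0 b2) : ℤ) : ℝ) - x / x0 * φ - ((a1 b1 - a1 b2 : ℤ) : ℝ) =
      x / x0 * (((a0 b1 : ℝ) + x0 * b1 - v0) - ((a0 b2 : ℝ) + x0 * b2 - v0)) -
        (((a1 b1 : ℝ) + x * b1 - v) - ((a1 b2 : ℝ) + x * b2 - v)) := by
    push_cast
    field_simp
    ring
  have hs : |x / x0| ≤ 1 := by
    rw [abs_div]
    exact div_le_one_of_le₀ hx (abs_nonneg _)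
  have e1 : |((a0 b1 : ℝ) + x0 * b1 - v0) - ((a0 b2 : ℝ) + x0 * b2 - v0)| ≤ 8 :=
    (abs_sub _ _).trans (by linarith [ha0' b1 hb1, ha0' b2 hb2])
  have e2 : |((a1 b1 : ℝ) + x * b1 - v) - ((a1 b2 : ℝ) + x * b2 - v)| ≤ 8 :=
    (abs_sub _ _).trans (by linarith [ha1' b1 hb1, ha1' b2 hb2])
  have e3 : (16 : ℝ) ≤ k ^ 499 := by
    calc (16 : ℝ) = 2 ^ 4 := by norm_num
      _ ≤ k ^ 4 := by gcongr
      _ ≤ k ^ 499 := pow_le_pow_right₀ hk1 (by norm_num)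
  rw [e]
  refine (abs_sub _ _).trans ?_
  rw [abs_mul]
  have e4 := mul_le_mul hs e1 (abs_nonneg _) zero_le_one
  linarith

/-- a part of `A` with small additive energy carries few pairs: `#G² ≤ 9 #V · #{pairs of G with
|(a - a') + x (b - b')| ≤ 8}` (round to integers), the latter is `∑_e r_R(e) n(e)` with
`n e = #{(b, b') : |x (b' - b) - e| ≤ 8} ≤ #B k`, `∑ n e ≤ 17 #B²`; Cauchy-Schwarz. -/
theorem ast_energy (R B V : Finset ℤ) (G : Finset (ℤ × ℤ)) (x k : ℝ) (hG : G ⊆ R ×ˢ B)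
    (hf : ∀ p : ℝ, (#{b ∈ B | |x * b - p| ≤ 10} : ℝ) ≤ k)
    (hV : ∀ g ∈ G, ∃ v ∈ V, |(g.1 : ℝ) + x * g.2 - v| ≤ 4) :
    (#G : ℝ) ^ 4 ≤ 17 * k * (#V : ℝ) ^ 2 * (addEnergy R R : ℝ) * (#B : ℝ) ^ 3 := by
  have hk0 : 0 ≤ k := le_trans (Nat.cast_nonneg _) (hf 0)
  choose! f hf1 hf2 using hV
  set P := {p ∈ G ×ˢ G | f p.1 = f p.2} with hP
  set D := (R ×ˢ R).image fun a => a.1 - a.2 with hD
  set r : ℤ → ℝ := fun d => #{a ∈ R ×ˢ R | a.1 - a.2 = d} with hr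
  set u : ℤ → ℝ := fun d => #{b ∈ B ×ˢ B | |(d : ℝ) + x * (b.1 - b.2)| ≤ 8} with hu
  have h1 : (#G : ℝ) ^ 2 ≤ #V * #P := by
    rw [hP, ← ast_sum_sq G V f hf1, card_eq_sum_card_fiberwise (f := f) (t := V) hf1]
    push_cast
    exact sq_sum_le_card_mul_sum_sq
  have h2 : (#P : ℝ) ≤ ∑ d ∈ D, r d * u d := by
    rw [card_eq_sum_card_fiberwise (f := fun p => p.1.1 - p.2.1) (s := P) (t := D) fun p hp => by
      have h := mem_product.1 (mem_filter.1 hp).1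
      exact mem_image_of_mem (fun a : _ × _ => a.1 - a.2) (a := (p.1.1, p.2.1))
        (mem_product.2 ⟨(mem_product.1 (hG h.1)).1, (mem_product.1 (hG h.2)).1⟩)]
    push_cast
    refine sum_le_sum fun d _ => ?_
    rw [hr, hu, ← Nat.cast_mul, ← card_product, Nat.cast_le]
    refine card_le_card_of_injOn (fun p => ((p.1.1, p.2.1), (p.1.2, p.2.2))) (fun p hp => ?_) ?_
    · obtain ⟨hp1, hp2⟩ := mem_filter.1 hp
      obtain ⟨hp3, hp4⟩ := mem_filter.1 hp1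
      obtain ⟨g1, g2⟩ := mem_product.1 hp3
      have a1 := mem_product.1 (hG g1)
      have a2 := mem_product.1 (hG g2)
      refine mem_coe.2 (mem_product.2 ⟨mem_filter.2 ⟨mem_product.2 ⟨a1.1, a2.1⟩, hp2⟩,
        mem_filter.2 ⟨mem_product.2 ⟨a1.2, a2.2⟩, ?_⟩⟩)
      have b1 := hf2 _ g1
      have b2 := hf2 _ g2
      rw [← hp4] at b2
      have e : (d : ℝ) + x * (p.1.2 - p.2.2) = ((p.1.1 : ℝ) + x * p.1.2 - f p.1) -
          ((p.2.1 : ℝ) + x * p.2.2 - f p.1) := by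
        rw [← hp2]
        push_cast
        ring
      show |(d : ℝ) + x * (p.1.2 - p.2.2)| ≤ 8
      rw [e]
      exact (abs_sub _ _).trans (by linarith)
    · rintro ⟨⟨a, b⟩, a', b'⟩ - ⟨⟨c, e⟩, c', e'⟩ - h
      simp only [Prod.mk.injEq] at h ⊢
      tauto
  have h4 : ∑ d ∈ D, r d ^ 2 ≤ addEnergy R R := by
    simp only [hr]
    rw [ast_sum_sq (R ×ˢ R) D (fun a => a.1 - a.2) fun a ha => mem_image_of_mem _ ha,
      addEnergy_eq_card_filter, Nat.cast_le]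
    refine card_le_card_of_injOn (fun q => ((q.1.1, q.2.2), (q.2.1, q.1.2))) (fun q hq => ?_) ?_
    · simp only [coe_filter, mem_product, Set.mem_ofPred_eq] at hq ⊢
      refine ⟨by tauto, ?_⟩
      rw [← sub_eq_zero, ← sub_eq_zero.2 hq.2]
      abel
    · rintro ⟨⟨a, b⟩, a', b'⟩ - ⟨⟨c, e⟩, c', e'⟩ - h
      simp only [Prod.mk.injEq] at h ⊢
      tauto
  have h5 : ∀ d, u d ≤ #B * k := fun d => by
    have e : u d = ∑ b' ∈ B, (#(B.filter fun b : ℤ => |(d : ℝ) + x * (b - b')| ≤ 8) : ℝ) := by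
      simp only [hu, card_filter, sum_product_right]
      push_cast
      rfl
    rw [e, ← nsmul_eq_mul]
    refine sum_le_card_nsmul _ _ _ fun b' _ =>
      le_trans (Nat.cast_le.2 (card_le_card fun b hb => ?_)) (ast_conv hf (x * b' - d))
    obtain ⟨h2, h3⟩ := mem_filter.1 hb
    refine mem_filter.2 ⟨h2, ?_⟩
    rw [show x * b - (x * b' - d) = d + x * (b - b') by ring]
    linarith
  have h6 : ∑ d ∈ D, u d ≤ #B ^ 2 * 17 := by
    have e : ∑ d ∈ D, u d =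
        ∑ b ∈ B ×ˢ B, (#(D.filter fun d : ℤ => |(d : ℝ) + x * (b.1 - b.2)| ≤ 8) : ℝ) := by
      simp only [hu, card_filter]
      push_cast
      exact sum_comm
    rw [e, sq, ← Nat.cast_mul, ← card_product, ← nsmul_eq_mul]
    refine sum_le_card_nsmul _ _ _ fun b _ => ?_
    refine (ast_lattice _ (-(x * (b.1 - b.2))) 8 fun d hd => ?_).trans (by norm_num)
    rw [sub_neg_eq_add]
    exact_mod_cast (mem_filter.1 hd).2
  have h7 : ∑ d ∈ D, u d ^ 2 ≤ #B * k * (#B ^ 2 * 17) := by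
    refine le_trans (sum_le_sum fun d _ => ?_ : _ ≤ ∑ d ∈ D, #B * k * u d) ?_
    · rw [sq]
      exact mul_le_mul_of_nonneg_right (h5 d) (Nat.cast_nonneg _)
    · rw [← mul_sum]
      exact mul_le_mul_of_nonneg_left h6 (by positivity)
  have h8 : (#P : ℝ) ^ 2 ≤ addEnergy R R * (#B * k * (#B ^ 2 * 17)) :=
    (pow_le_pow_left₀ (Nat.cast_nonneg _) h2 2).trans ((sum_mul_sq_le_sq_mul_sq D r u).trans
      (mul_le_mul h4 h7 (sum_nonneg fun _ _ => sq_nonneg _) (Nat.cast_nonneg _)))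
  calc (#G : ℝ) ^ 4 = ((#G : ℝ) ^ 2) ^ 2 := by ring
    _ ≤ ((#V : ℝ) * #P) ^ 2 := pow_le_pow_left₀ (sq_nonneg _) h1 2
    _ = (#V : ℝ) ^ 2 * (#P : ℝ) ^ 2 := mul_pow _ _ _
    _ ≤ (#V : ℝ) ^ 2 * (addEnergy R R * (#B * k * (#B ^ 2 * 17))) :=
      mul_le_mul_of_nonneg_left h8 (sq_nonneg _)
    _ = _ := by ring

/-- `R070.sp_decomp` on `A` with `t = k ^ (-a)`: the remainder carries at most half of each `G i`
(`ast_energy`), so one piece `A'` is dense for many `i`.  For such `i` a popular `v i` gives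
`B i = {b : x i b ∈ v i - A' ± 4}` of size `≥ N / k ^ c` (at most 9 values of `a` per `b`).
Cauchy-Schwarz gives many pairs `(i0, i)` with `|x i| ≤ |x i0|` and `#(B i ∩ B i0) ≥ N / k ^ c`;
fix a popular `i0`.  `S = {a ∈ A' : a ≈ v i0 - x i0 b, b ∈ B i ∩ B i0}` has `≥ N / k ^ c` elements
(fibre bound) and `(x i / x i0) S ⊆ const + A' ± 8`.  `Finset.ruzsa_covering_add` with
`#(A' - A' + S) ≤ #(2 • A' - 1 • A')` (`R070.sp_pr`) covers `A' - A'` by translates of `S - S`. -/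
theorem ast : ∃ C : ℕ, ∀ k N : ℝ, 2 ≤ k → 1 ≤ N → ∀ (A B : Finset ℤ) (I : Finset ℕ) (x : ℕ → ℝ)
    (G : ℕ → Finset (ℤ × ℤ)) (V : ℕ → Finset ℤ), (#A : ℝ) ≤ k * N → (#B : ℝ) ≤ k * N →
    I.Nonempty → (∀ i ∈ I, x i ≠ 0) →
    (∀ i ∈ I, ∀ p : ℝ, (#{b ∈ B | |x i * b - p| ≤ 10} : ℝ) ≤ k) →
    (∀ i ∈ I, G i ⊆ A ×ˢ B ∧ N ^ 2 ≤ k * #(G i) ∧ (#(V i) : ℝ) ≤ k * N ∧
      ∀ g ∈ G i, ∃ v ∈ V i, |(g.1 : ℝ) + x i * g.2 - v| ≤ 4) →
    ∃ A' ⊆ A, N ≤ k ^ C * #A' ∧ (#(A' - A') : ℝ) ≤ k ^ C * #A' ∧ ∃ I' ⊆ I, ∃ i0 ∈ I,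
      (#I : ℝ) ≤ k ^ C * #I' ∧ ∀ i ∈ I', |x i| ≤ |x i0| ∧ Cov (k ^ C) (x i / x i0) (A' - A') := by
  refine ⟨499, ?_⟩
  intro k N hk hN A B I x G V hA hB hI hx hf hG
  have hk0 : 0 < k := by linarith
  have hk1 : 1 ≤ k := by linarith
  have hpow : ∀ {a b : ℕ}, a ≤ b → k ^ a ≤ k ^ b := fun h => pow_le_pow_right₀ hk1 h
  have h2pow : ∀ a : ℕ, (2 : ℝ) ^ a ≤ k ^ a := fun a => by gcongr
  have h4k : (4 : ℝ) ≤ k ^ 2 := by nlinarith
  set M : ℝ := k * N with hM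
  have hM0 : 0 < M := by positivity
  have hMG : ∀ i ∈ I, M ^ 2 ≤ k ^ 3 * #(G i) := fun i hi => by
    have h2 := (hG i hi).2.1
    calc M ^ 2 = k ^ 2 * N ^ 2 := by rw [hM]; ring
      _ ≤ k ^ 2 * (k * #(G i)) := by gcongr
      _ = k ^ 3 * #(G i) := by ring
  set t : ℝ := (k ^ 22)⁻¹ with ht
  have ht0 : 0 < t := by positivity
  obtain ⟨Ps, R, hR, hE, hP, hcov, hPs⟩ := R070.sp_decomp A M t ht0 hM0 hA
  have hPc : (#Ps : ℝ) ≤ k ^ 24 := by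
    rw [ht, ← div_eq_mul_inv, div_le_iff₀ (by positivity)] at hP
    calc (#Ps : ℝ) ≤ 4 * k ^ 22 := hP
      _ ≤ k ^ 2 * k ^ 22 := by gcongr
      _ = k ^ 24 := by ring
  set GG : Finset ℤ → ℕ → Finset (ℤ × ℤ) := fun A' i => {g ∈ G i | g.1 ∈ A'} with hGG
  have hpiece : ∀ i ∈ I, ∃ A' ∈ Ps, M ^ 2 ≤ k ^ 28 * #(GG A' i) := by
    intro i hi
    obtain ⟨g1, -, g3, g4⟩ := hG i hi
    set G1 := {g ∈ G i | g.1 ∈ R} with hG1
    have e1 : 2 * k ^ 3 * #G1 ≤ M ^ 2 := by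
      have h1 := ast_energy R B (V i) G1 (x i) k (fun g hg => mem_product.2
        ⟨(mem_filter.1 hg).2, (mem_product.1 (g1 (mem_filter.1 hg).1)).2⟩) (hf i hi)
        fun g hg => g4 g (mem_filter.1 hg).1
      have h2 : (272 : ℝ) ≤ k ^ 9 := le_trans (by norm_num) (h2pow 9)
      refine le_of_pow_le_pow_left₀ (n := 4) (by norm_num) (by positivity) ?_
      calc (2 * k ^ 3 * (#G1 : ℝ)) ^ 4 = 16 * k ^ 12 * (#G1 : ℝ) ^ 4 := by ring
        _ ≤ 16 * k ^ 12 * (17 * k * M ^ 2 * (t * M ^ 3) * M ^ 3) := by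
            refine mul_le_mul_of_nonneg_left (h1.trans ?_) (by positivity)
            gcongr
        _ = 272 * (k ^ 13 * t * M ^ 8) := by ring
        _ ≤ k ^ 9 * (k ^ 13 * t * M ^ 8) := by gcongr
        _ = (M ^ 2) ^ 4 := by
            rw [ht]
            field_simp
    set G3 := G i \ G1 with hG3
    have e3 : (#(G i) : ℝ) ≤ #G3 + #G1 := by
      have : #(G i) ≤ #G3 + #G1 := card_le_card_sdiff_add_card
      exact_mod_cast this
    have e4 : M ^ 2 ≤ 2 * k ^ 3 * #G3 := by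
      have e5 := hMG i hi
      have e6 : k ^ 3 * (#(G i) : ℝ) ≤ k ^ 3 * (#G3 + #G1) := by gcongr
      linarith
    obtain ⟨A', hA', e6⟩ := ast_pigeon G3 Ps (fun A' => GG A' i) (ast_ne (by positivity) e4) (by
      intro g hg
      obtain ⟨k1, k2⟩ := mem_sdiff.1 hg
      have k3 := mem_product.1 (g1 k1)
      simp only [hG1, mem_filter, k1, true_and] at k2
      obtain ⟨A', hA', k4⟩ := (hcov _ k3.1).resolve_left k2
      exact ⟨A', hA', mem_filter.2 ⟨k1, k4⟩⟩)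
    refine ⟨A', hA', e4.trans ?_⟩
    calc 2 * k ^ 3 * (#G3 : ℝ) ≤ k * k ^ 3 * (k ^ 24 * #(GG A' i)) := by
          gcongr
          exact e6.trans (by gcongr)
      _ = k ^ 28 * #(GG A' i) := by ring
  obtain ⟨A', hA', hII⟩ := ast_pigeon I Ps
    (fun A' => {i ∈ I | M ^ 2 ≤ k ^ 28 * #(GG A' i)}) hI (by
      intro i hi
      obtain ⟨A', hA', h⟩ := hpiece i hi
      exact ⟨A', hA', mem_filter.2 ⟨hi, h⟩⟩)
  set I1 := {i ∈ I | M ^ 2 ≤ k ^ 28 * #(GG A' i)} with hI1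
  have hI1ne : I1.Nonempty := ast_ne (Nat.cast_pos.2 hI.card_pos) hII
  obtain ⟨a1, a2, a3⟩ := hPs A' hA'
  have hA'M : (#A' : ℝ) ≤ M := le_trans (Nat.cast_le.2 (card_le_card a1)) hA
  have hdoub : (#(A' - A') : ℝ) ≤ k ^ 144 * #A' := by
    rw [ht, inv_pow, ← div_eq_mul_inv, div_le_iff₀ (by positivity)] at a3
    calc (#(A' - A') : ℝ) ≤ 2 ^ 12 * #A' * (k ^ 22) ^ 6 := a3
      _ ≤ k ^ 12 * #A' * (k ^ 22) ^ 6 := by gcongr
      _ = k ^ 144 * #A' := by ring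
  have hMA : M ≤ k ^ 24 * #A' := by
    rw [ht, div_le_iff₀ (by norm_num), inv_mul_le_iff₀ (by positivity)] at a2
    calc M ≤ k ^ 22 * (#A' * 4) := a2
      _ ≤ k ^ 22 * (#A' * k ^ 2) := by gcongr
      _ = k ^ 24 * #A' := by ring
  -- popular values
  have hv : ∀ i ∈ I1, ∃ v : ℤ,
      M ≤ k ^ 32 * #(B.filter fun b : ℤ => ∃ a ∈ A', |(a : ℝ) + x i * b - v| ≤ 4) := by
    intro i hi
    obtain ⟨hi', hi2⟩ := mem_filter.1 hi
    obtain ⟨g1, -, g3, g4⟩ := hG i hi'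
    obtain ⟨v, -, hv⟩ := ast_pigeon (GG A' i) (V i)
      (fun v => {g ∈ GG A' i | |(g.1 : ℝ) + x i * g.2 - v| ≤ 4}) (ast_ne (by positivity) hi2) (by
        intro g hg
        obtain ⟨v, hv, h⟩ := g4 g (mem_filter.1 hg).1
        exact ⟨v, hv, mem_filter.2 ⟨hg, h⟩⟩)
    refine ⟨v, ?_⟩
    set Gv := {g ∈ GG A' i | |(g.1 : ℝ) + x i * g.2 - v| ≤ 4} with hGv
    have e1 : M ≤ k ^ 28 * #Gv := by
      refine le_of_mul_le_mul_left ?_ hM0
      calc M * M = M ^ 2 := by ring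
        _ ≤ k ^ 28 * #(GG A' i) := hi2
        _ ≤ k ^ 28 * (M * #Gv) := by
            gcongr
            exact hv.trans (by gcongr)
        _ = M * (k ^ 28 * #Gv) := by ring
    have e2 : (#Gv : ℝ) ≤ 9 * #(Gv.image Prod.snd) := by
      refine ast_fib Gv Prod.snd fun b => ?_
      rw [← card_image_of_injOn (f := Prod.fst) (fun y hy z hz hyz => Prod.ext hyz
        ((mem_filter.1 (mem_coe.1 hy)).2.trans (mem_filter.1 (mem_coe.1 hz)).2.symm))]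
      refine (ast_lattice _ (v - x i * b) 4 fun a ha => ?_).trans (by norm_num)
      obtain ⟨g, hg, rfl⟩ := mem_image.1 ha
      obtain ⟨hg1, rfl⟩ := mem_filter.1 hg
      rw [show (g.1 : ℝ) - (v - x i * g.2) = g.1 + x i * g.2 - v by ring]
      exact_mod_cast (mem_filter.1 hg1).2
    have e3 : Gv.image Prod.snd ⊆ {b ∈ B | ∃ a ∈ A', |(a : ℝ) + x i * b - v| ≤ 4} := by
      intro b hb
      obtain ⟨g, hg, rfl⟩ := mem_image.1 hb
      obtain ⟨hg1, hg2⟩ := mem_filter.1 hg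
      obtain ⟨hg3, hg4⟩ := mem_filter.1 hg1
      exact mem_filter.2 ⟨(mem_product.1 (g1 hg3)).2, g.1, hg4, hg2⟩
    have e4 : (9 : ℝ) ≤ k ^ 4 := le_trans (by norm_num) (h2pow 4)
    calc M ≤ k ^ 28 * #Gv := e1
      _ ≤ k ^ 28 * (k ^ 4 * #(B.filter fun b : ℤ => ∃ a ∈ A', |(a : ℝ) + x i * b - v| ≤ 4)) := by
          refine mul_le_mul_of_nonneg_left (e2.trans ?_) (by positivity)
          exact mul_le_mul e4 (Nat.cast_le.2 (card_le_card e3)) (Nat.cast_nonneg _) (by positivity)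
      _ = _ := by ring
  choose! v hv using hv
  set Bi : ℕ → Finset ℤ := fun i => {b ∈ B | ∃ a ∈ A', |(a : ℝ) + x i * b - v i| ≤ 4} with hBi
  obtain ⟨i0, hi0, hI'⟩ := ast_pairs I1 hI1ne B Bi (fun i _ => filter_subset _ _) hM0
    (show 0 < k ^ 32 by positivity) hB hv fun i => |x i|
  have h66 : 4 * (k ^ 32) ^ 2 ≤ k ^ 66 := by
    calc 4 * (k ^ 32) ^ 2 ≤ k ^ 2 * (k ^ 32) ^ 2 := by gcongr
      _ = k ^ 66 := by ring
  have hi0' : i0 ∈ I := (mem_filter.1 hi0).1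
  refine ⟨A', a1, ?_, hdoub.trans (mul_le_mul_of_nonneg_right (hpow (by norm_num))
    (Nat.cast_nonneg _)), {i ∈ I1 | |x i| ≤ |x i0| ∧ M ≤ 4 * (k ^ 32) ^ 2 * #(Bi i ∩ Bi i0)},
    (filter_subset _ _).trans (filter_subset _ _), i0, hi0', ?_, fun i hi => ?_⟩
  · calc N ≤ M := le_mul_of_one_le_left (by linarith) hk1
      _ ≤ k ^ 24 * #A' := hMA
      _ ≤ k ^ 499 * #A' := mul_le_mul_of_nonneg_right (hpow (by norm_num)) (Nat.cast_nonneg _)
  · set n : ℝ := ((#{i ∈ I1 | |x i| ≤ |x i0| ∧ M ≤ 4 * (k ^ 32) ^ 2 * #(Bi i ∩ Bi i0)} : ℕ) : ℝ)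
      with hn
    have hn0 : 0 ≤ n := Nat.cast_nonneg _
    calc (#I : ℝ) ≤ #Ps * #I1 := hII
      _ ≤ k ^ 24 * (k ^ 66 * n) :=
          mul_le_mul hPc (hI'.trans (mul_le_mul_of_nonneg_right h66 hn0)) (Nat.cast_nonneg _)
            (by positivity)
      _ = k ^ 90 * n := by ring
      _ ≤ k ^ 499 * n := mul_le_mul_of_nonneg_right (hpow (by norm_num)) hn0
  · obtain ⟨-, h1, h2⟩ := mem_filter.1 hi
    refine ⟨h1, ast_cov A' B (Bi i ∩ Bi i0) (x i) (x i0) (v i) (v i0) k M hk hM0 (hx i0 hi0') h1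
      hA'M hdoub (inter_subset_left.trans (filter_subset _ _)) (ast_conv (hf i0 hi0'))
      (h2.trans (mul_le_mul_of_nonneg_right h66 (Nat.cast_nonneg _))) (fun b hb => ?_)
      fun b hb => ?_⟩
    · exact (mem_filter.1 (mem_inter.1 hb).2).2
    · exact (mem_filter.1 (mem_inter.1 hb).1).2

end Crest.Agent.R051
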