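import Crest.Agent.R051.AClus
import Crest.Agent.R051.AST

/-! Row 51: discretisation at the scale `e0`. -/

set_option autoImplicit false

open Finset
open scoped Classical Pointwise

namespace Crest.Agent.R051

namespace AD

/-- the filters in `ast` and `RH.up` run over the image of `B` in `ℝ` -/
lemma lat_coe (B : Finset ℤ) (P : ℝ → Prop) [DecidablePred P] :
    #(Finset.filter P (B : Finset ℝ)) = #(Finset.filter (fun b : ℤ => P b) B) := by
  have : ((B : Finset ℝ)) = B.image (fun b : ℤ => (b : ℝ)) := by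
    ext y
    simp [eq_comm]
  rw [this, filter_image, card_image_of_injective _ Int.cast_injective]

lemma lat_fl (x y : ℝ) : |x - y| ≤ |(⌊x⌋ : ℝ) - ⌊y⌋| + 1 := by
  have a1 := Int.floor_le x
  have a2 := Int.floor_le y
  have a3 := Int.lt_floor_add_one x
  have a4 := Int.lt_floor_add_one y
  have a5 := le_abs_self ((⌊x⌋ : ℝ) - ⌊y⌋)
  have a6 := neg_abs_le ((⌊x⌋ : ℝ) - ⌊y⌋)
  rw [abs_le]
  constructor <;> linarith

lemma lat_fl1 (x : ℝ) : |(⌊x⌋ : ℝ) - x| ≤ 1 := by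
  have a1 := Int.floor_le x
  have a3 := Int.lt_floor_add_one x
  rw [abs_le]
  constructor <;> linarith

lemma lat_fl2 (y : ℝ) {D : ℝ} (hD : 1 ≤ D) :
    ⌊(⌊y⌋ : ℝ) / D⌋ = ⌊y / D⌋ ∨ ⌊(⌊y⌋ : ℝ) / D⌋ = ⌊y / D⌋ - 1 := by
  have hD0 : 0 < D := by linarith
  have a1 : ⌊(⌊y⌋ : ℝ) / D⌋ ≤ ⌊y / D⌋ :=
    Int.floor_mono (div_le_div_of_nonneg_right (Int.floor_le y) hD0.le)
  have a2 : ⌊y / D - 1⌋ ≤ ⌊(⌊y⌋ : ℝ) / D⌋ := by
    refine Int.floor_mono ?_
    rw [le_div_iff₀ hD0, sub_mul, div_mul_cancel₀ _ hD0.ne']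
    linarith [Int.lt_floor_add_one y]
  rw [Int.floor_sub_one] at a2
  omega

lemma lat_inv {e0 : ℝ} (he : 0 < e0) (t : ℝ) : |t / e0|⁻¹ = e0 / |t| := by
  rw [abs_div, inv_div, abs_of_pos he]

section
variable {A : AD} {k : ℝ} {ψ : ℝ → ℝ}

lemma lat_glob (h : A.OK k) (a : ℕ) {c : ℝ} (hc : c ≠ 0) (Z : Finset Ln)
    (hZ : ∀ δ ∈ Z, A.Cmp1 k ψ a |c|⁻¹ δ) {D : ℝ} (hD : 1 ≤ D) :
    (#(Z.image fun δ => ⌊c * A.U a δ / D⌋) : ℝ) * ψ D ≤ 2 * k ^ 2 * A.L := by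
  have hk : 0 < k := by linarith [h.k2]
  have hm : (0 : ℝ) < A.m := Nat.cast_pos.2 (by linarith [h.m2])
  have h1 := pack a hc 0 D (A.m * ψ D / k) (by linarith) Z (A.ty a)
    (fun δ hδ => by rw [div_le_iff₀ hk, mul_comm _ k]; exact (hZ δ hδ D hD).2) (fun _ _ _ h _ => h)
  simp only [add_zero] at h1
  have h2 := mul_le_mul_of_nonneg_right (h.ty_card a) hk.le
  rw [div_mul_eq_mul_div, div_le_iff₀ hk] at h1
  refine le_of_mul_le_mul_left ?_ hm
  linarith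

lemma lat_glob1 (h : A.OK k) (hψ : Psi k ψ) (a : ℕ) {c : ℝ} (hc : c ≠ 0) (Z : Finset Ln)
    (hZ : ∀ δ ∈ Z, A.Cmp1 k ψ a |c|⁻¹ δ) :
    (#(Z.image fun δ => ⌊c * A.U a δ⌋) : ℝ) ≤ 2 * k ^ 2 * A.L := by
  have h1 := lat_glob h a hc Z hZ le_rfl
  simp only [div_one] at h1
  exact (le_mul_of_one_le_right (Nat.cast_nonneg _) hψ.one).trans h1

lemma lat_loc (h : A.OK k) (hψ : Psi k ψ) (a : ℕ) {c : ℝ} (hc : c ≠ 0) (Z : Finset Ln)
    (hZ : ∀ δ ∈ Z, A.Cmp1 k ψ a |c|⁻¹ δ) {e D : ℝ} (hD : 1 ≤ D) {δ0 : Ln}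
    (h0 : A.Cmp1 k ψ a e δ0) (hn : ∀ δ ∈ Z, |A.U a δ - A.U a δ0| + |c|⁻¹ / 2 ≤ D * e) :
    (#(Z.image fun δ => ⌊c * A.U a δ⌋) : ℝ) ≤ 2 * k ^ 2 * ψ D := by
  have hk : 0 < k := by linarith [h.k2]
  have hm : (0 : ℝ) < A.m := Nat.cast_pos.2 (by linarith [h.m2])
  have h1 := pack a hc 0 1 (A.m / k) one_pos Z {δ' ∈ A.ty a | |A.U a δ' - A.U a δ0| ≤ D * e}
    (fun δ hδ => by
      rw [div_le_iff₀ hk, mul_comm _ k]
      exact (le_mul_of_one_le_right hm.le hψ.one).trans (hZ δ hδ 1 le_rfl).2)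
    (fun δ hδ δ' h1 h2 => mem_filter.2 ⟨h1, by
      have := abs_sub_le (A.U a δ') (A.U a δ) (A.U a δ0)
      linarith [hn δ hδ]⟩)
  simp only [add_zero, div_one] at h1
  have h2 : (#{δ' ∈ A.ty a | |A.U a δ' - A.U a δ0| ≤ D * e} : ℝ) * k ≤ k * A.m * ψ D * k :=
    mul_le_mul_of_nonneg_right (h0 D hD).1 hk.le
  rw [div_mul_eq_mul_div, div_le_iff₀ hk] at h1
  refine le_of_mul_le_mul_left ?_ hm
  linarith

lemma lat_cells (h : A.OK k) (hψ : Psi k ψ) {a : ℕ} (ha : a ∈ A.I) {c : ℝ} (hc : c ≠ 0)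
    (Z : Finset Ln) {δ0 : Ln} (h0 : A.Cmp1 k ψ a |c|⁻¹ δ0)
    (hZ : ∀ δ ∈ Z, δ ∈ A.ty a ∧ ⌊c * A.U a δ⌋ = ⌊c * A.U a δ0⌋) :
    (#(Z.image (A.cell a)) : ℝ) ≤ 2 * k ^ 2 := by
  have hk := h.k2
  have hm : (0 : ℝ) < A.m := Nat.cast_pos.2 (by linarith [h.m2])
  have hc0 : 0 < |c| := abs_pos.2 hc
  have h1 := h.cells_near ha δ0 (1 * |c|⁻¹) Z fun δ hδ => ⟨(hZ δ hδ).1, by
    have := lat_fl (c * A.U a δ) (c * A.U a δ0)
    rw [(hZ δ hδ).2, sub_self, abs_zero, zero_add, ← mul_sub, abs_mul] at this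
    rw [← div_eq_mul_inv, le_div_iff₀ hc0, mul_comm]
    exact this⟩
  have h2 := (h0 1 le_rfl).1
  have h3 : k * A.m * ψ 1 ≤ k * A.m * k := mul_le_mul_of_nonneg_left hψ.one' (by positivity)
  have h4 : (A.m : ℝ) * 3 ≤ A.m * k ^ 2 := mul_le_mul_of_nonneg_left (by nlinarith) hm.le
  refine le_of_mul_le_mul_left ?_ hm
  linarith

lemma lat_pow (hk : 2 ≤ k) (n a b : ℕ) {c : ℝ} (hc : c ≤ 2 ^ n) (hab : n + a ≤ b) :
    c * k ^ a ≤ k ^ b := by
  have h1 : (2 : ℝ) ^ n ≤ k ^ n := pow_le_pow_left₀ (by norm_num) hk n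
  calc c * k ^ a ≤ k ^ n * k ^ a := mul_le_mul_of_nonneg_right (hc.trans h1) (by positivity)
    _ = k ^ (n + a) := (pow_add _ _ _).symm
    _ ≤ k ^ b := pow_le_pow_right₀ (by linarith) hab

end

/-- Let `i1 ∈ A1` maximise `|q i|`, `Z = ⋃ Gi i`, `A = ⌊U j / e0⌋(Z)`, `B = ⌊q i1 U l / e0⌋(Z)`,
`V i = ⌊r i U i / e0⌋(Gi i)`, `G i` the image of `Gi i` in `A ×ˢ B`, `x i = q i / q i1`.
Sizes, `up`, `pack` and the fibre bound come from `AD.pack` and the two-sided profiles (fibre: the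
lines concerned lie within `23 e0 / |q i|` of one of them at column `l`, use `cl` for `i' = i` above
and `i' = i1` below); a fibre of `Gi i → G i` meets `≤ k² + 3` cells at `j` and at `l`
(`cells_near`, `Rk2.card_le`).  Then `ast` with `N = L`, and `clus` for the index `i0` it returns.
For `RH.pack` note `⌊⌊y⌋ / D⌋ ∈ {⌊y / D⌋ - 1, ⌊y / D⌋}` for `D ≥ 1`. -/
theorem lat : ∃ C : ℕ, ∀ (A : AD) (k : ℝ), A.OK k → ∀ j l A1 Gi e0 ψ,
    A.Prof k j l A1 Gi e0 ψ → ∃ i0 ∈ A1, ∃ A' I',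
      RH (k ^ C) A.L ψ A' I' (fun i => A.q j l i / A.q j l i0) := by
  obtain ⟨C1, hast⟩ := ast
  obtain ⟨C2, hclus⟩ := clus
  refine ⟨10 * C1 + C2 + 10, fun A k h j l A1 Gi e0 ψ hp => ?_⟩
  have hk := h.k2
  have hk1 : 1 ≤ k := by linarith
  have hk0 : 0 < k := by linarith
  have hL := h.L1
  have hL0 : 0 < A.L := by linarith
  have hm : (0 : ℝ) < A.m := Nat.cast_pos.2 (by linarith [h.m2])
  have he := hp.e0pos
  have hψ := hp.psi
  have ht := hp.tri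
  have hne : A1.Nonempty := by
    rw [nonempty_iff_ne_empty]
    rintro rfl
    have := ht.big
    simp only [card_empty, Nat.cast_zero, mul_zero] at this
    linarith
  obtain ⟨i1, hi1, hmax⟩ := exists_max_image A1 (fun i => |A.q j l i|) hne
  have hq : ∀ i ∈ A1, A.q j l i ≠ 0 := fun i hi => (ht.q_ne h hi).1
  have hr : ∀ i ∈ A1, A.r j l i ≠ 0 := fun i hi => (ht.q_ne h hi).2
  have hqa : ∀ i ∈ A1, 0 < |A.q j l i| := fun i hi => abs_pos.2 (hq i hi)
  set Z : Finset Ln := A1.biUnion Gi with hZ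
  set c0 : ℝ := 1 / e0 with hc0
  set c1 : ℝ := A.q j l i1 / e0 with hc1
  have c0ne : c0 ≠ 0 := by positivity
  have c1ne : c1 ≠ 0 := div_ne_zero (hq i1 hi1) he.ne'
  have c0inv : |c0|⁻¹ = e0 := by rw [hc0, lat_inv he, abs_one, div_one]
  have c1inv : |c1|⁻¹ = e0 / |A.q j l i1| := lat_inv he _
  have hZG : ∀ i ∈ A1, Gi i ⊆ Z := fun i hi => subset_biUnion_of_mem Gi hi
  have Zj : ∀ δ ∈ Z, A.Cmp1 k ψ j |c0|⁻¹ δ := fun δ hδ => by
    obtain ⟨i, hi, hδ⟩ := mem_biUnion.1 hδ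
    rw [c0inv]
    exact hp.cj i hi δ hδ
  have Zl' : ∀ δ ∈ Z, ∀ i' ∈ A1, A.Cmp1 k ψ l (e0 / |A.q j l i'|) δ := fun δ hδ => by
    obtain ⟨i, hi, hδ⟩ := mem_biUnion.1 hδ
    exact hp.cl i hi δ hδ
  have Zl : ∀ δ ∈ Z, A.Cmp1 k ψ l |c1|⁻¹ δ := fun δ hδ => by
    rw [c1inv]
    exact Zl' δ hδ i1 hi1
  set fa : Ln → ℤ := fun δ => ⌊c0 * A.U j δ⌋ with hfa
  set fb : Ln → ℤ := fun δ => ⌊c1 * A.U l δ⌋ with hfb
  set x : ℕ → ℝ := fun i => A.q j l i / A.q j l i1 with hx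
  have x1 : ∀ i ∈ A1, |x i| ≤ 1 := fun i hi => by
    simp only [hx, abs_div]
    exact (div_le_one (hqa i1 hi1)).2 (hmax i hi)
  have xc : ∀ i, x i * c1 = A.q j l i / e0 := fun i => by
    have := hq i1 hi1
    simp only [hx, hc1]
    field_simp
  have K1 : 2 * k ^ 2 * A.L ≤ k ^ 10 * A.L :=
    mul_le_mul_of_nonneg_right (lat_pow hk 1 2 10 (by norm_num) (by norm_num)) hL0.le
  have fib : ∀ i ∈ A1, ∀ p : ℝ, 
      (#{b ∈ (Z.image fb : Finset ℤ) | |x i * (b : ℝ) - p| ≤ 10} : ℝ) ≤ k ^ 10 := by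
    intro i hi p
    rw [lat_coe, filter_image]
    rcases (Z.filter fun δ => |x i * (fb δ : ℝ) - p| ≤ 10).eq_empty_or_nonempty with h0 | ⟨δ0, h0⟩
    · rw [h0]
      simp only [image_empty, card_empty, Nat.cast_zero]
      positivity
    obtain ⟨h0Z, h0p⟩ := mem_filter.1 h0
    have a1 := lat_loc h hψ l c1ne (Z.filter fun δ => |x i * (fb δ : ℝ) - p| ≤ 10)
      (fun δ hδ => Zl δ (mem_filter.1 hδ).1) (D := 22) (by norm_num) (Zl' δ0 h0Z i hi)
      (fun δ hδ => by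
        have b1 := (mem_filter.1 hδ).2
        have b2 := mul_le_mul_of_nonneg_left (lat_fl (c1 * A.U l δ) (c1 * A.U l δ0))
          (abs_nonneg (x i))
        have b3 : |x i| * |(fb δ : ℝ) - fb δ0| ≤ 20 := by
          rw [← abs_mul, mul_sub]
          have := abs_sub_le (x i * fb δ) p (x i * fb δ0)
          rw [abs_sub_comm p] at this
          linarith
        rw [← mul_sub, ← abs_mul, ← mul_assoc, xc, abs_mul, abs_div, abs_of_pos he, mul_add] at b2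
        have b4 : |A.q j l i| / e0 * |A.U l δ - A.U l δ0| ≤ 21 := by linarith [x1 i hi]
        have b5 : |A.U l δ - A.U l δ0| ≤ 21 * (e0 / |A.q j l i|) := by
          rw [div_mul_eq_mul_div, div_le_iff₀ he] at b4
          rw [← mul_div_assoc, le_div_iff₀ (hqa i hi)]
          linarith
        have b6 : e0 / |A.q j l i1| ≤ e0 / |A.q j l i| :=
          div_le_div_of_nonneg_left he.le (hqa i hi) (hmax i hi)
        have b7 : 0 < e0 / |A.q j l i| := div_pos he (hqa i hi)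
        rw [c1inv]
        linarith)
    have a2 := hψ.lip 22 1 (by norm_num) le_rfl
    rw [mul_one] at a2
    have a3 : k * 22 * ψ 1 ≤ k * 22 * k := mul_le_mul_of_nonneg_left hψ.one' (by positivity)
    refine a1.trans ((mul_le_mul_of_nonneg_left (a2.trans a3) (by positivity)).trans ?_)
    have := lat_pow hk 6 4 10 (c := 44) (by norm_num) (by norm_num)
    linarith
  have Gbig : ∀ i ∈ A1, A.L ^ 2 ≤ k ^ 10 * #((Gi i).image fun δ => (fa δ, fb δ)) := by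
    intro i hi
    have a1 : ∀ g ∈ (Gi i).image fun δ => (fa δ, fb δ),
        (#{δ ∈ Gi i | (fa δ, fb δ) = g} : ℝ) * A.L ≤ 4 * k ^ 5 * A.m := by
      intro g hg
      obtain ⟨δ0, h0, rfl⟩ := mem_image.1 hg
      have b1 := (ht.rk2 i hi).1.card_le
        (filter_subset (fun δ => (fa δ, fb δ) = (fa δ0, fb δ0)) _) hk0.le
      have b2 := lat_cells h hψ ht.hj c0ne {δ ∈ Gi i | (fa δ, fb δ) = (fa δ0, fb δ0)}
        (Zj δ0 (hZG i hi h0)) fun δ hδ =>
          ⟨(ht.ty i hi δ (mem_filter.1 hδ).1).2.1, congrArg Prod.fst (mem_filter.1 hδ).2⟩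
      have b3 := lat_cells h hψ ht.hl c1ne {δ ∈ Gi i | (fa δ, fb δ) = (fa δ0, fb δ0)}
        (Zl δ0 (hZG i hi h0)) fun δ hδ =>
          ⟨(ht.ty i hi δ (mem_filter.1 hδ).1).2.2, congrArg Prod.snd (mem_filter.1 hδ).2⟩
      refine b1.trans ?_
      calc _ ≤ (2 * k ^ 2) * (2 * k ^ 2) * (k * A.m) := by gcongr
        _ = _ := by ring
    have a2 : (#(Gi i) : ℝ) * A.L ≤
        #((Gi i).image fun δ => (fa δ, fb δ)) * (4 * k ^ 5 * A.m) := by
      rw [card_eq_sum_card_image (fun δ => (fa δ, fb δ)) (Gi i), Nat.cast_sum, sum_mul,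
        ← nsmul_eq_mul]
      exact sum_le_card_nsmul _ _ _ a1
    have a3 := mul_le_mul_of_nonneg_right (ht.Gbig i hi) hL0.le
    have a4 := mul_le_mul_of_nonneg_left a2 hk0.le
    have a5 := mul_le_mul_of_nonneg_right (lat_pow hk 2 6 10 (c := 4) (by norm_num) (by norm_num))
      (by positivity : (0 : ℝ) ≤ A.m * #((Gi i).image fun δ => (fa δ, fb δ)))
    refine le_of_mul_le_mul_left ?_ hm
    linarith
  obtain ⟨A', hA', b1, b2, I', hI', i0, hi0, b3, b4⟩ := hast (k ^ 10) A.L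
    (hk.trans (le_self_pow₀ hk1 (by norm_num))) hL (Z.image fa) (Z.image fb) A1 x
    (fun i => (Gi i).image fun δ => (fa δ, fb δ))
    (fun i => (Gi i).image fun δ => ⌊A.r j l i / e0 * A.U i δ⌋)
    ((lat_glob1 h hψ j c0ne Z Zj).trans K1) ((lat_glob1 h hψ l c1ne Z Zl).trans K1) hne
    (fun i hi => div_ne_zero (hq i hi) (hq i1 hi1)) fib
    (fun i hi => ⟨fun g hg => by
        obtain ⟨δ, hδ, rfl⟩ := mem_image.1 hg
        exact mem_product.2 ⟨mem_image_of_mem fa (hZG i hi hδ), mem_image_of_mem fb (hZG i hi hδ)⟩,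
      Gbig i hi,
      (lat_glob1 h hψ i (div_ne_zero (hr i hi) he.ne') (Gi i) fun δ hδ => by
        rw [lat_inv he]
        exact hp.ci i hi δ hδ).trans K1,
      fun g hg => by
        obtain ⟨δ, hδ, rfl⟩ := mem_image.1 hg
        refine ⟨_, mem_image_of_mem _ hδ, ?_⟩
        have a1 := lat_fl1 (c0 * A.U j δ)
        have a2 : |x i * ((fb δ : ℝ) - c1 * A.U l δ)| ≤ 1 := by
          rw [abs_mul]
          exact mul_le_one₀ (x1 i hi) (abs_nonneg _) (lat_fl1 _)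
        have a3 := lat_fl1 (A.r j l i / e0 * A.U i δ)
        have a4 : |A.err j l i δ / e0| ≤ 1 := by
          rw [abs_div, abs_of_pos he]
          exact (div_le_one he).2 (hp.err i hi δ hδ)
        have a5 : A.err j l i δ / e0 =
            c0 * A.U j δ + x i * c1 * A.U l δ - A.r j l i / e0 * A.U i δ := by
          rw [xc, hc0, err]
          ring
        rw [a5, abs_le] at a4
        rw [abs_le] at a1 a2 a3 ⊢
        simp only [hfa]
        constructor <;> linarith [a1.1, a1.2, a2.1, a2.2, a3.1, a3.2, a4.1, a4.2]⟩)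
  rw [← pow_mul] at b1 b2 b3 b4
  have pw : ∀ n, n ≤ 10 * C1 + C2 + 10 → k ^ n ≤ k ^ (10 * C1 + C2 + 10) := fun n hn =>
    pow_le_pow_right₀ hk1 hn
  have pw1 := pw (10 * C1) (by omega)
  have hle : ∀ i ∈ I', |A.q j l i| ≤ |A.q j l i0| := fun i hi => by
    have := (b4 i hi).1
    simp only [hx, abs_div] at this
    exact (div_le_div_iff_of_pos_right (hqa i1 hi1)).1 this
  refine ⟨i0, hi0, A', I', hψ.mono_k ((pow_one k).symm.trans_le (pw 1 (by omega))),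
    b1.trans (by gcongr), b2.trans (by gcongr), fun p D hD => ?_, fun D hD => ?_, ?_,
    fun i hi => ?_, fun i hi => ?_, fun ω D p h1 h2 h3 => ?_⟩
  · have hψD := hψ.pos hD
    rw [lat_coe]
    refine (Nat.cast_le.2 (card_le_card (filter_subset_filter _ hA'))).trans ?_
    rw [filter_image]
    rcases (Z.filter fun δ => |(fa δ : ℝ) - p| ≤ D).eq_empty_or_nonempty with h0 | ⟨δ0, h0⟩
    · rw [h0]
      simp only [image_empty, card_empty, Nat.cast_zero]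
      positivity
    obtain ⟨h0Z, h0p⟩ := mem_filter.1 h0
    have a1 := lat_loc h hψ j c0ne (Z.filter fun δ => |(fa δ : ℝ) - p| ≤ D)
      (fun δ hδ => Zj δ (mem_filter.1 hδ).1) (D := 4 * D) (by linarith) (Zj δ0 h0Z)
      (fun δ hδ => by
        have d1 := (mem_filter.1 hδ).2
        have d2 := lat_fl (c0 * A.U j δ) (c0 * A.U j δ0)
        have d3 := abs_sub_le (fa δ : ℝ) p (fa δ0)
        rw [abs_sub_comm p] at d3
        rw [← mul_sub, abs_mul, hc0, abs_of_pos (by positivity : 0 < 1 / e0), one_div,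
          inv_mul_le_iff₀ he] at d2
        have d4 : e0 * (|(fa δ : ℝ) - fa δ0| + 1) ≤ e0 * (2 * D + 1) := by
          gcongr
          linarith
        have d5 : e0 * 1 ≤ e0 * D := by gcongr
        rw [c0inv]
        simp only [hfa, hc0, one_div] at d4
        linarith)
    have a2 := hψ.lip 4 D (by norm_num) hD
    refine a1.trans ((mul_le_mul_of_nonneg_left a2 (by positivity)).trans ?_)
    have := mul_le_mul_of_nonneg_right
      (lat_pow hk 3 3 (10 * C1 + C2 + 10) (c := 8) (by norm_num) (by omega))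
      (by linarith : 0 ≤ ψ D)
    linarith
  · have hψD := hψ.pos hD
    have a1 := lat_glob h j c0ne Z Zj hD
    set S := Z.image fun δ => ⌊c0 * A.U j δ / D⌋ with hS
    have a2 : (A'.image fun a : ℤ => ⌊(a : ℝ) / D⌋) ⊆ S ∪ S.image fun n => n - 1 := by
      intro n hn
      obtain ⟨a, ha, rfl⟩ := mem_image.1 hn
      obtain ⟨δ, hδ, rfl⟩ := mem_image.1 (hA' ha)
      have d1 : ⌊c0 * A.U j δ / D⌋ ∈ S := mem_image_of_mem _ hδ
      rcases lat_fl2 (c0 * A.U j δ) hD with d2 | d2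
      · exact mem_union_left _ (d2 ▸ d1)
      · exact mem_union_right _ (mem_image.2 ⟨_, d1, d2.symm⟩)
    have a3 : (#(A'.image fun a : ℤ => ⌊(a : ℝ) / D⌋) : ℝ) ≤ #S + #S := by
      exact_mod_cast (card_le_card a2).trans
        ((card_union_le _ _).trans (Nat.add_le_add_left card_image_le _))
    have a4 := mul_le_mul_of_nonneg_right a3 (by linarith : 0 ≤ ψ D)
    have := mul_le_mul_of_nonneg_right
      (lat_pow hk 2 2 (10 * C1 + C2 + 10) (c := 4) (by norm_num) (by omega)) hL0.le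
    linarith
  · refine ht.big.trans ((mul_le_mul_of_nonneg_left b3 hk0.le).trans ?_)
    rw [← mul_assoc, ← pow_succ']
    exact mul_le_mul_of_nonneg_right (pw _ (by omega)) (Nat.cast_nonneg _)
  · rw [abs_div]
    exact (div_le_one (hqa i0 hi0)).2 (hle i hi)
  · have := (b4 i hi).2.mono pw1
    simp only [hx] at this
    rwa [div_div_div_cancel_right₀ (hq i1 hi1)] at this
  · have hψD := hψ.pos h3
    have hψ' := hψ.pos (D := D / ω) (h3.trans (le_div_self (by linarith) h1 h2))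
    have a1 := hclus A k h j l A1 Gi e0 ψ hp i0 hi0 ω D p h1 h2 h3
    have a2 := pw C2 (by omega)
    refine le_trans (mul_le_mul_of_nonneg_right (Nat.cast_le.2 (card_le_card fun i hi => ?_))
      (by linarith)) (a1.trans (by gcongr))
    obtain ⟨d1, d2⟩ := mem_filter.1 hi
    exact mem_filter.2 ⟨hI' d1, hle i d1, d2⟩

end AD

end Crest.Agent.R051
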