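import Crest.Agent.R051.AH2
import Crest.Agent.R051.ACol

/-! Row 51: one profile for many columns. -/

set_option autoImplicit false

open Finset
open scoped Classical Pointwise

namespace Crest.Agent.R051

namespace AD

/-- one-sided comparison of two profiles -/
def aprof_R (κ m : ℝ) (f g : ℝ → ℝ) : Prop := ∀ ρ : ℝ, 0 < ρ → f ρ ≤ κ * (g (κ * ρ) + m)

lemma aprof_R.mono {κ κ' m : ℝ} {f g : ℝ → ℝ} (h : aprof_R κ m f g) (h0 : 0 ≤ κ) (hκ : κ ≤ κ')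
    (hm : 0 ≤ m) (hg : Monotone g) (hg0 : ∀ ρ, 0 ≤ g ρ) : aprof_R κ' m f g := fun ρ hρ =>
  (h ρ hρ).trans (mul_le_mul hκ (add_le_add_left (hg (by gcongr)) _)
    (add_nonneg (hg0 _) hm) (h0.trans hκ))

lemma aprof_R.trans {κ m : ℝ} {f g u : ℝ → ℝ} (h : aprof_R κ m f g) (h' : aprof_R κ m g u)
    (hκ : 1 ≤ κ) (hm : 0 ≤ m) (hu : Monotone u) (hu0 : ∀ ρ, 0 ≤ u ρ) :
    aprof_R (2 * κ ^ 2) m f u := by
  intro ρ hρ
  have h1 := h' (κ * ρ) (by positivity)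
  have h2 : u (κ * (κ * ρ)) ≤ u (2 * κ ^ 2 * ρ) := hu (by
    have : 0 < κ ^ 2 * ρ := by positivity
    nlinarith)
  have h3 := hu0 (2 * κ ^ 2 * ρ)
  have h4 : m ≤ κ * (u (2 * κ ^ 2 * ρ) + m) := by nlinarith
  calc f ρ ≤ κ * (g (κ * ρ) + m) := h ρ hρ
    _ ≤ κ * (κ * (u (2 * κ ^ 2 * ρ) + m) + κ * (u (2 * κ ^ 2 * ρ) + m)) := by
        gcongr
        exact h1.trans (by gcongr)
    _ = _ := by ring

lemma aprof_mono {A : AD} {a : ℕ} {δ : Ln} {e : ℝ} (he : 0 < e) :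
    Monotone fun ρ => A.nu a δ (ρ * e) := fun _ _ h => nu_mono a δ (by gcongr)

lemma aprof_cmp {A : AD} {a j : ℕ} {δ d : Ln} {e κ K : ℝ} (he : 0 < e) (hκ : 1 ≤ κ)
    (hK : 2 * κ ≤ K) (hm : (0 : ℝ) ≤ A.m)
    (h1 : aprof_R κ A.m (fun ρ => A.nu a δ (ρ * e)) fun ρ => A.nu j d (ρ * 1))
    (h2 : aprof_R κ A.m (fun ρ => A.nu j d (ρ * 1)) fun ρ => A.nu a δ (ρ * e)) :
    A.Cmp K (fun ρ => A.nu j d ρ + A.m) a e δ := by
  intro ρ hρ
  constructor
  · have := h1.mono (by linarith) (show κ ≤ K by linarith) hm (aprof_mono one_pos)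
      (fun _ => Nat.cast_nonneg _) ρ hρ
    simpa only [mul_one] using this
  · have h3 := h2 ρ hρ
    simp only [mul_one] at h3 ⊢
    have h4 : A.nu a δ (κ * ρ * e) ≤ A.nu a δ (K * ρ * e) := nu_mono a δ (by gcongr; linarith)
    have h5 : 0 ≤ A.nu a δ (K * ρ * e) := Nat.cast_nonneg _
    have h6 : κ * (A.nu a δ (κ * ρ * e) + A.m) ≤ κ * (A.nu a δ (K * ρ * e) + A.m) := by gcongr
    have h7 : (κ + 1) * (A.nu a δ (K * ρ * e) + A.m) ≤ K * (A.nu a δ (K * ρ * e) + A.m) := by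
      gcongr; linarith
    linarith

lemma aprof_one : ∃ c : ℕ, ∀ (A : AD) (k : ℝ), A.OK k → ∀ j l A0 Gi, A.Tri k j l A0 Gi →
    ∀ i ∈ A0, ∃ G' ⊆ Gi i, A.m * A.L ≤ k ^ c * #G' ∧
      (∀ δ ∈ G', A.nu j δ |A.err j l i δ| ≤ k ^ c * A.m) ∧
      (∀ δ ∈ G', ∀ δ' ∈ G', aprof_R (k ^ c) A.m (fun ρ => A.nu j δ (ρ * 1))
        fun ρ => A.nu j δ' (ρ * 1)) ∧
      (∀ δ ∈ G', ∀ δ' ∈ G', aprof_R (k ^ c) A.m (fun ρ => A.nu l δ (ρ * |A.q j l i|⁻¹))
        fun ρ => A.nu l δ' (ρ * |A.q j l i|⁻¹)) ∧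
      (∀ δ ∈ G', ∀ δ' ∈ G', aprof_R (k ^ c) A.m (fun ρ => A.nu j δ (ρ * 1))
        fun ρ => A.nu l δ' (ρ * |A.q j l i|⁻¹)) ∧
      (∀ δ ∈ G', ∀ δ' ∈ G', aprof_R (k ^ c) A.m (fun ρ => A.nu l δ (ρ * |A.q j l i|⁻¹))
        fun ρ => A.nu j δ' (ρ * 1)) ∧
      (∀ δ ∈ G', ∀ δ' ∈ G', aprof_R (k ^ c) A.m (fun ρ => A.nu j δ (ρ * 1))
        fun ρ => A.nu i δ' (ρ * |A.r j l i|⁻¹)) ∧
      (∀ δ ∈ G', ∀ δ' ∈ G', aprof_R (k ^ c) A.m (fun ρ => A.nu i δ (ρ * |A.r j l i|⁻¹))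
        fun ρ => A.nu j δ' (ρ * 1)) := by
  obtain ⟨c, hc⟩ := h1
  refine ⟨c, fun A k hA j l A0 Gi ht i hi => ?_⟩
  obtain ⟨hq, hr⟩ := Tri.q_ne hA ht hi
  have hr' : -A.r j l i ≠ 0 := neg_ne_zero.2 hr
  set C : Fin 3 → Col := ![A.col j 1, A.col l (A.q j l i), A.col i (-A.r j l i)] with hC
  have hsum : ∀ δ, ∑ e, (C e).x δ = A.err j l i δ := fun δ => by
    simp only [hC, Fin.sum_univ_three, col, err, Matrix.cons_val_zero, Matrix.cons_val_one,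
      Matrix.cons_val]
    ring
  have sy : ∀ {a b : ℕ}, A.Rk2 k (Gi i) a b → A.Rk2 k (Gi i) b a := fun h δ hδ => by
    simpa only [and_comm] using h δ hδ
  obtain ⟨r1, r2, r3⟩ := ht.rk2 i hi
  have H : H3 k A.m A.L C (Gi i) := by
    refine ⟨hA.k2, by exact_mod_cast le_trans one_le_two hA.m2, hA.L1, fun a => ?_, fun a => ?_,
      ht.Gbig i hi, fun a δ hδ => ?_, fun a b hab => ?_, fun a b hab δ hδ => ?_⟩
    · fin_cases a
      exacts [hA.col_ok ht.hj one_ne_zero, hA.col_ok ht.hl hq, hA.col_ok (ht.sub hi) hr']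
    · intro δ hδ
      obtain ⟨h1, h2, h3⟩ := ht.ty i hi δ hδ
      fin_cases a
      exacts [h2, h3, h1]
    · obtain ⟨h1, h2, h3⟩ := ht.pos i hi δ hδ
      fin_cases a
      exacts [mul_pos (abs_pos.2 one_ne_zero) h2, mul_pos (abs_pos.2 hq) h3,
        mul_pos (abs_pos.2 hr') h1]
    · fin_cases a <;> fin_cases b
      exacts [(hab rfl).elim, r1, r2, sy r1, (hab rfl).elim, r3, sy r2, sy r3, (hab rfl).elim]
    · obtain ⟨h1, h2, h3⟩ := ht.lin i hi δ hδ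
      rw [hsum]
      have s0 : (C 0).sz δ = A.sz j δ := by
        show |(1 : ℝ)| * A.sz j δ = _
        rw [abs_one, one_mul]
      have s1 : (C 1).sz δ = |A.q j l i| * A.sz l δ := rfl
      have s2 : (C 2).sz δ = |A.r j l i| * A.sz i δ := by
        show |(-A.r j l i)| * A.sz i δ = _
        rw [abs_neg]
      rw [← s0] at h1 h2
      rw [← s1] at h1 h3
      rw [← s2] at h2 h3
      fin_cases a <;> fin_cases b
      exacts [(hab rfl).elim, h1, h2, max_comm ((C 0).sz δ) _ ▸ h1, (hab rfl).elim, h3,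
        max_comm ((C 0).sz δ) _ ▸ h2, max_comm ((C 1).sz δ) _ ▸ h3, (hab rfl).elim]
  obtain ⟨G', g1, g2, g3, g4⟩ := hc k A.m A.L C (Gi i) H
  have n0 : ∀ δ ρ, (C 0).nu ((C 0).x δ) ρ = A.nu j δ (ρ * 1) := fun δ ρ => by
    have := col_nu (A := A) j one_ne_zero δ ρ
    rw [abs_one, inv_one] at this
    exact this
  have n1 : ∀ δ ρ, (C 1).nu ((C 1).x δ) ρ = A.nu l δ (ρ * |A.q j l i|⁻¹) := fun δ ρ =>
    col_nu l hq δ ρ
  have n2 : ∀ δ ρ, (C 2).nu ((C 2).x δ) ρ = A.nu i δ (ρ * |A.r j l i|⁻¹) := fun δ ρ => by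
    have := col_nu (A := A) i hr' δ ρ
    rw [abs_neg] at this
    exact this
  refine ⟨G', g1, g2, fun δ hδ => ?_, ?_, ?_, ?_, ?_, ?_, ?_⟩
  · have := g3 δ hδ 0
    rwa [n0, hsum, mul_one] at this
  · intro δ hδ δ' hδ' ρ hρ; simpa only [n0] using g4 δ hδ δ' hδ' 0 0 ρ hρ
  · intro δ hδ δ' hδ' ρ hρ; simpa only [n1] using g4 δ hδ δ' hδ' 1 1 ρ hρ
  · intro δ hδ δ' hδ' ρ hρ; simpa only [n0, n1] using g4 δ hδ δ' hδ' 0 1 ρ hρ
  · intro δ hδ δ' hδ' ρ hρ; simpa only [n0, n1] using g4 δ hδ δ' hδ' 1 0 ρ hρ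
  · intro δ hδ δ' hδ' ρ hρ; simpa only [n0, n2] using g4 δ hδ δ' hδ' 0 2 ρ hρ
  · intro δ hδ δ' hδ' ρ hρ; simpa only [n0, n2] using g4 δ hδ δ' hδ' 2 0 ρ hρ

/-- Apply `h1` for every `i ∈ A0` to the columns `col j 1`, `col l (q i)`, `col i (- r i)`
(`col_ok`, `col_nu`).  Some line `δ*` lies in `G' i` for at least `#A0 / k ^ c'` columns `i`; these
form `A1`, and `φ ρ = nu j δ* ρ + m`.  For `cl` with `i' ≠ i` go through `δ*`:
`nu l δ (ρ / |q i'|) ≲ nu l δ* (κ ρ / |q i'|)` (pair `a = b` of `h1` for `i`, with radius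
`ρ |q i| / |q i'|`) `≲ φ (κ² ρ)` (`h1` for `i'`).  `small`: the heights are injective. -/
theorem prof0 : ∃ C : ℕ, ∀ (A : AD) (k : ℝ), A.OK k → ∀ j l A0 Gi, A.Tri k j l A0 Gi →
    ∃ A1 Gi' φ, A.Prof0 (k ^ C) j l A1 Gi' φ := by
  obtain ⟨c, hc⟩ := aprof_one
  refine ⟨2 * c + 2, fun A k hA j l A0 Gi ht => ?_⟩
  have hc' := fun i (hi : i ∈ A0) => hc A k hA j l A0 Gi ht i hi
  choose! G' hG hGb hE hj hl hjl hlj hji hij using hc'
  have hk := hA.k2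
  have hm : (2 : ℝ) ≤ A.m := by exact_mod_cast hA.m2
  have hL := hA.L1
  set κ := k ^ c with hκ
  have hκ1 : 1 ≤ κ := one_le_pow₀ (by linarith)
  have hK : k ^ (2 * c + 2) = k ^ 2 * κ ^ 2 := by rw [hκ]; ring
  rw [hK]
  have hK4 : 4 * κ ^ 2 ≤ k ^ 2 * κ ^ 2 := by gcongr; nlinarith
  have hκ2 : κ ≤ κ ^ 2 := le_self_pow₀ hκ1 two_ne_zero
  have hKk : k ^ 2 * κ ≤ k ^ 2 * κ ^ 2 := by gcongr
  have hKk' : k ^ 2 ≤ k ^ 2 * κ := le_mul_of_one_le_right (by positivity) hκ1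
  set K := k ^ 2 * κ ^ 2 with hKdef
  have hGty : ∀ i ∈ A0, G' i ⊆ A.ty j := fun i hi δ hδ => (ht.ty i hi δ (hG i hi hδ)).2.1
  have hmL : 0 < A.m * A.L := by positivity
  -- pigeonhole
  obtain ⟨d, hd, hd'⟩ : ∃ d ∈ A.ty j, A.L ≤ k ^ 2 * κ * #{i ∈ A0 | d ∈ G' i} := by
    by_contra hcon
    push Not at hcon
    have hA0 : A0.Nonempty := by
      rw [← card_pos]
      by_contra h0
      have := ht.big
      rw [show #A0 = 0 by omega] at this
      simp at this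
      linarith
    obtain ⟨i0, hi0⟩ := hA0
    have hne : (A.ty j).Nonempty := by
      refine Nonempty.mono (hGty i0 hi0) ?_
      rw [← card_pos]
      by_contra h0
      have := hGb i0 hi0
      rw [show #(G' i0) = 0 by omega] at this
      simp only [Nat.cast_zero, mul_zero] at this
      linarith
    have h1 : ∑ d ∈ A.ty j, (#{i ∈ A0 | d ∈ G' i} : ℝ) = ∑ i ∈ A0, (#(G' i) : ℝ) := by
      have := sum_card_bipartiteAbove_eq_sum_card_bipartiteBelow (s := A.ty j) (t := A0)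
        (fun d i => d ∈ G' i)
      simp only [bipartiteAbove, bipartiteBelow] at this
      have h2 : ∀ i ∈ A0, #{d ∈ A.ty j | d ∈ G' i} = #(G' i) := fun i hi => by
        rw [filter_mem_eq_inter, inter_eq_right.2 (hGty i hi)]
      rw [sum_congr rfl h2] at this
      exact_mod_cast this
    have h2 := sum_lt_sum_of_nonempty hne hcon
    rw [← mul_sum, h1, sum_const, nsmul_eq_mul] at h2
    have h3 : #A0 * (A.m * A.L) ≤ κ * ∑ i ∈ A0, (#(G' i) : ℝ) := by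
      rw [mul_sum, ← nsmul_eq_mul, ← sum_const]
      exact sum_le_sum hGb
    have h4 := hA.ty_card j
    have h5 := ht.big
    have h6 : k * A.L * (A.m * A.L) ≤ k * (k * #A0) * (A.m * A.L) := by gcongr
    have h7 : k ^ 2 * (#A0 * (A.m * A.L)) ≤ k ^ 2 * (κ * ∑ i ∈ A0, (#(G' i) : ℝ)) := by gcongr
    have h8 : #(A.ty j) * A.L ≤ k * A.m * A.L * A.L := by gcongr
    nlinarith
  set A1 := {i ∈ A0 | d ∈ G' i} with hA1
  have hs : ∀ i ∈ A1, i ∈ A0 ∧ d ∈ G' i := fun i hi => mem_filter.1 hi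
  have hmono : Monotone fun ρ => A.nu j d ρ + A.m := fun a b h =>
    add_le_add_left (nu_mono j d h) _
  have hsmall : ∃ a, 0 < a ∧ A.nu j d a + A.m ≤ 2 * A.m := by
    have h1 : ∀ᶠ a in nhdsWithin (0 : ℝ) (Set.Ioi 0), ∀ δ ∈ (A.ty j).erase d,
        a < |A.U j δ - A.U j d| := by
      rw [Filter.eventually_all_finset]
      intro δ hδ
      obtain ⟨h1, h2⟩ := mem_erase.1 hδ
      exact nhdsWithin_le_nhds (gt_mem_nhds (abs_pos.2 (sub_ne_zero.2 fun h =>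
        h1 (hA.U_inj j ht.hj δ (mem_ty.1 h2).1 d (mem_ty.1 hd).1 h))))
    obtain ⟨a, ha, ha0⟩ := (h1.and self_mem_nhdsWithin).exists
    refine ⟨a, ha0, ?_⟩
    have h2 : #{δ' ∈ A.ty j | |A.U j δ' - A.U j d| ≤ a} ≤ 1 := by
      refine card_le_one_iff_subset_singleton.2 ⟨d, fun δ hδ => ?_⟩
      obtain ⟨h3, h4⟩ := mem_filter.1 hδ
      by_contra h5
      exact (ha δ (mem_erase.2 ⟨by simpa using h5, h3⟩)).not_ge h4
    have h3 : A.nu j d a ≤ 1 := by unfold nu; exact_mod_cast h2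
    linarith
  have hm0 : (0 : ℝ) ≤ A.m := by linarith
  have one : (fun ρ => A.nu j d (ρ * 1)) = A.nu j d := by funext ρ; rw [mul_one]
  have mono2 : ∀ {a : ℕ} {δ : Ln} {e : ℝ} {f : ℝ → ℝ}, 0 < e →
      aprof_R κ A.m f (fun ρ => A.nu a δ (ρ * e)) →
      aprof_R (2 * κ ^ 2) A.m f (fun ρ => A.nu a δ (ρ * e)) := fun he h =>
    h.mono (by linarith) (by linarith) hm0 (aprof_mono he) fun _ => Nat.cast_nonneg _
  refine ⟨A1, G', fun ρ => A.nu j d ρ + A.m, ht.subset (by nlinarith) (filter_subset _ _)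
    (fun i hi => hG i (hs i hi).1) (hd'.trans (by gcongr)) (fun i hi =>
      (hGb i (hs i hi).1).trans (by gcongr; linarith)), hmono,
    fun ρ => le_add_of_nonneg_left (Nat.cast_nonneg _), fun ρ => ?_, hsmall, ?_, ?_, ?_, ?_, ?_⟩
  · have h1 : A.nu j d ρ ≤ k * A.m * A.L := by
      refine le_trans ?_ (hA.ty_card j)
      unfold nu
      exact_mod_cast card_filter_le _ _
    have h2 : (A.m : ℝ) ≤ A.m * A.L := le_mul_of_one_le_right hm0 hL
    have h3 : k + 1 ≤ K := by nlinarith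
    calc A.nu j d ρ + A.m ≤ (k + 1) * (A.m * A.L) := by linarith
      _ ≤ K * (A.m * A.L) := by gcongr
      _ = _ := by ring
  · have h0 : 0 ≤ ∑ δ ∈ A.ty j, |A.U j δ - A.U j d| := sum_nonneg fun _ _ => abs_nonneg _
    refine ⟨1 + ∑ δ ∈ A.ty j, |A.U j δ - A.U j d|, by linarith, ?_⟩
    have hA1 : A1.Nonempty := by
      rw [← card_pos]
      by_contra h0
      rw [show #A1 = 0 by omega] at hd'
      simp only [Nat.cast_zero, mul_zero] at hd'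
      linarith
    obtain ⟨i, hi⟩ := hA1
    have h1 : (#(G' i) : ℝ) ≤ A.nu j d (1 + ∑ δ ∈ A.ty j, |A.U j δ - A.U j d|) := by
      unfold nu
      refine Nat.cast_le.2 (card_le_card fun δ hδ => ?_)
      have h2 := hGty i (hs i hi).1 hδ
      have h3 := single_le_sum (f := fun δ => |A.U j δ - A.U j d|) (fun _ _ => abs_nonneg _) h2
      exact mem_filter.2 ⟨h2, by linarith⟩
    refine (hGb i (hs i hi).1).trans ?_
    gcongr
    · linarith
    · linarith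
  · intro i hi δ hδ
    obtain ⟨h1, h2⟩ := hs i hi
    exact aprof_cmp one_pos (by linarith) (by linarith) hm0
      (mono2 one_pos (hj i h1 δ hδ d h2)) (mono2 one_pos (hj i h1 d h2 δ hδ))
  · intro i hi δ hδ i' hi'
    obtain ⟨h1, h2⟩ := hs i hi
    obtain ⟨h1', h2'⟩ := hs i' hi'
    have hq : 0 < |A.q j l i| := abs_pos.2 (Tri.q_ne hA ht h1).1
    have hq' : 0 < |A.q j l i'| := abs_pos.2 (Tri.q_ne hA ht h1').1
    have sc : ∀ δ ∈ G' i, ∀ δ' ∈ G' i, aprof_R κ A.m (fun ρ => A.nu l δ (ρ * |A.q j l i'|⁻¹))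
        fun ρ => A.nu l δ' (ρ * |A.q j l i'|⁻¹) := by
      intro δ hδ δ' hδ' ρ hρ
      have := hl i h1 δ hδ δ' hδ' (ρ * (|A.q j l i| * |A.q j l i'|⁻¹)) (by positivity)
      have e1 : ρ * (|A.q j l i| * |A.q j l i'|⁻¹) * |A.q j l i|⁻¹ = ρ * |A.q j l i'|⁻¹ := by
        field_simp
      have e2 : κ * (ρ * (|A.q j l i| * |A.q j l i'|⁻¹)) * |A.q j l i|⁻¹ =
          κ * ρ * |A.q j l i'|⁻¹ := by field_simp
      simp only [e1, e2] at this
      exact this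
    exact aprof_cmp (by positivity) (by linarith) (by linarith) hm0
      ((sc δ hδ d h2).trans (hlj i' h1' d h2' d h2') hκ1 hm0 (aprof_mono one_pos)
        fun _ => Nat.cast_nonneg _)
      ((hjl i' h1' d h2' d h2').trans (sc d h2 δ hδ) hκ1 hm0 (aprof_mono (by positivity))
        fun _ => Nat.cast_nonneg _)
  · intro i hi δ hδ
    obtain ⟨h1, h2⟩ := hs i hi
    have hr : 0 < |A.r j l i|⁻¹ := inv_pos.2 (abs_pos.2 (Tri.q_ne hA ht h1).2)
    exact aprof_cmp hr (by linarith) (by linarith) hm0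
      (mono2 one_pos (hij i h1 δ hδ d h2)) (mono2 hr (hji i h1 d h2 δ hδ))
  · intro i hi δ hδ
    obtain ⟨h1, h2⟩ := hs i hi
    have hK0 : 0 < K := by linarith
    rcases (abs_nonneg (A.err j l i δ)).eq_or_lt with h0 | h0
    · obtain ⟨a, ha, ha'⟩ := hsmall
      rw [← h0, zero_div]
      refine (hmono ha.le).trans (ha'.trans ?_)
      gcongr
      linarith
    · have h3 := hj i h1 d h2 δ hδ (|A.err j l i δ| / K) (by positivity)
      have h4 : A.nu j δ (κ * (|A.err j l i δ| / K) * 1) ≤ κ * A.m := by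
        refine (nu_mono j δ ?_).trans (hE i h1 δ hδ)
        rw [mul_one, ← mul_div_assoc, div_le_iff₀ hK0, mul_comm]
        gcongr
        linarith
      simp only [mul_one] at h3 h4 ⊢
      have h5 : κ * (A.nu j δ (κ * (|A.err j l i δ| / K)) + A.m) ≤ κ * (κ * A.m + A.m) := by
        gcongr
      have h6 : (κ * κ + κ + 1) * A.m ≤ K * A.m := by gcongr; nlinarith
      linarith

end AD

end Crest.Agent.R051
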