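import Crest.Agent.R051.ACnt

/-! Row 51: supermultiplicativity of the profile and the local ring count. -/

set_option autoImplicit false

open Finset
open scoped Classical Pointwise

namespace Crest.Agent.R051

lemma asm_card_le {α β : Type*} [DecidableEq β] (s : Finset α) (g : α → β) {t B : ℝ}
    (h : ∀ q, (#{a ∈ s | g a = q} : ℝ) * t ≤ B) : (#s : ℝ) * t ≤ #(s.image g) * B := by
  rw [card_eq_sum_card_image g s]
  push_cast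
  rw [sum_mul]
  refine (sum_le_sum fun q _ => h q).trans ?_
  simp

lemma asm_floor {y ω : ℝ} (hω : 0 < ω) : 0 ≤ y - ⌊y / ω⌋ * ω ∧ y - ⌊y / ω⌋ * ω ≤ ω := by
  have h1 := Int.floor_le (y / ω)
  have h2 := Int.lt_floor_add_one (y / ω)
  rw [le_div_iff₀ hω] at h1
  rw [div_lt_iff₀ hω] at h2
  constructor <;> linarith

lemma asm_coe (A : Finset ℤ) (p D : ℝ) :
    #{a ∈ A | |(a : ℝ) - p| ≤ D} = #(A.filter fun a : ℤ => |(a : ℝ) - p| ≤ D) := by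
  have h : (A >>= fun a => (pure (a : ℝ) : Finset ℝ)) = A.image fun a : ℤ => (a : ℝ) := by
    ext y
    simp [eq_comm]
  change #(filter _ (A >>= fun a => (pure (a : ℝ) : Finset ℝ))) = _
  rw [h, filter_image, card_image_of_injective _ Int.cast_injective]

variable {k L κ : ℝ} {ψ : ℝ → ℝ} {A : Finset ℤ} {I : Finset ℕ} {x : ℕ → ℝ}

lemma asm_A_le (h : RH k L ψ A I x) : (#A : ℝ) ≤ k * L := by
  have h1 := h.pack 1 le_rfl
  have h2 : (A.image fun a : ℤ => ⌊(a : ℝ) / 1⌋) = A := by simp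
  rw [h2] at h1
  have := h.psi.one
  nlinarith [Nat.cast_nonneg (α := ℝ) #A]

lemma asm_reach (h : RH k L ψ A I x) : ∃ b, 1 ≤ b ∧ (#A : ℝ) ≤ k * ψ b := by
  have h0 : 0 ≤ ∑ a ∈ A, |(a : ℝ)| := sum_nonneg fun a _ => abs_nonneg _
  refine ⟨1 + ∑ a ∈ A, |(a : ℝ)|, by linarith, ?_⟩
  have h1 := h.up 0 (1 + ∑ a ∈ A, |(a : ℝ)|) (by linarith)
  rwa [asm_coe, filter_true_of_mem] at h1
  intro a ha
  have := single_le_sum (f := fun a : ℤ => |(a : ℝ)|) (fun a _ => abs_nonneg _) ha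
  rw [sub_zero]
  linarith

lemma asm_class (h : RH k L ψ A I x) (hA : A.Nonempty) {ρ : ℝ} (hρ : 1 ≤ ρ) :
    ∃ S ⊆ A, (∀ a ∈ S, ∀ a' ∈ S, |(a : ℝ) - a'| ≤ ρ) ∧ #A * ψ ρ ≤ #S * (k * L) := by
  obtain ⟨q, -, hq⟩ := exists_max_image (A.image fun a : ℤ => ⌊(a : ℝ) / ρ⌋)
    (fun q => #(A.filter fun a : ℤ => ⌊(a : ℝ) / ρ⌋ = q)) (hA.image _)
  refine ⟨(A.filter fun a : ℤ => ⌊(a : ℝ) / ρ⌋ = q), filter_subset _ _, fun a ha a' ha' => ?_, ?_⟩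
  · have h1 := asm_floor (y := a) (ω := ρ) (by linarith)
    have h2 := asm_floor (y := a') (ω := ρ) (by linarith)
    rw [(mem_filter.1 ha).2] at h1
    rw [(mem_filter.1 ha').2] at h2
    rw [abs_le]
    constructor <;> linarith [h1.1, h1.2, h2.1, h2.2]
  · have h1 : (#A : ℝ) ≤ #(A.filter fun a : ℤ => ⌊(a : ℝ) / ρ⌋ = q) * #(A.image fun a : ℤ => ⌊(a : ℝ) / ρ⌋) := by
      exact_mod_cast card_le_mul_card_image A _ hq
    have h2 := h.pack ρ hρ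
    have h3 := h.psi.pos hρ
    calc (#A : ℝ) * ψ ρ ≤ (#(A.filter fun a : ℤ => ⌊(a : ℝ) / ρ⌋ = q) *
          #(A.image fun a : ℤ => ⌊(a : ℝ) / ρ⌋)) * ψ ρ := by gcongr
      _ = #(A.filter fun a : ℤ => ⌊(a : ℝ) / ρ⌋ = q) * (#(A.image fun a : ℤ => ⌊(a : ℝ) / ρ⌋) * ψ ρ) := by ring
      _ ≤ _ := by gcongr

lemma asm_sm (h : RH k L ψ A I x) (hk : 2 ≤ k) (hL : 0 < L) (hκ : 1 ≤ κ) (hA : A.Nonempty)
    (hE : ∀ i ∈ I, ∀ D, 1 ≤ D → (#A : ℝ) ^ 4 * ψ D ≤ κ * L * En A (x i) D) {ρ0 : ℝ} (h1 : 1 ≤ ρ0)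
    (h2 : 2 * k ^ 2 * κ * L * ψ ρ0 ≤ (#A : ℝ) ^ 2) {ω D : ℝ} (h3 : 4 ≤ ω * ρ0) (hω : ω ≤ 1)
    (hD : 1 ≤ D) : ψ (ω * ρ0) * ψ (D / ω) ≤ 16 * κ * k ^ 3 * L * ψ D := by
  have hω0 : 0 < ω := by
    by_contra hc
    nlinarith
  obtain ⟨Xs, hXs, hsep, hc⟩ := exists_sep (I.image x) hω0
  have h4 : 1 ≤ ω * ρ0 / 4 := by linarith
  have h5 := cnt_global h.psi hA (by positivity) h.up h1 h2 h3 Xs (fun y hy => by
    obtain ⟨i, hi, rfl⟩ := mem_image.1 (hXs hy)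
    exact hE i hi _ h4) hsep
  have hDω : 1 ≤ D / ω := by rw [le_div_iff₀ hω0]; linarith
  have p1 := h.psi.pos hDω
  have p2 := h.psi.pos hD
  have p3 := h.psi.pos h4
  have h6 := asm_card_le I (fun i => ⌊x i / ω⌋) (t := ψ (D / ω)) (B := k * L * ψ D) fun q => by
    refine le_trans ?_ (h.clus ω D (q * ω) hω0 hω hD)
    gcongr with i
    rintro rfl
    have := asm_floor (y := x i) hω0
    rw [abs_le]
    constructor <;> linarith [this.1, this.2]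
  rw [image_image] at hc
  have hc' : (#(I.image fun i => ⌊x i / ω⌋) : ℝ) ≤ 2 * #Xs := by exact_mod_cast hc
  have h7 : ψ (ω * ρ0) ≤ k * 4 * ψ (ω * ρ0 / 4) := by
    have := h.psi.lip 4 _ (by norm_num) h4
    rwa [show 4 * (ω * ρ0 / 4) = ω * ρ0 by ring] at this
  have h8 : L * (ψ (ω * ρ0 / 4) * ψ (D / ω)) ≤ L * (4 * κ * k ^ 2 * L * ψ D) :=
    calc L * (ψ (ω * ρ0 / 4) * ψ (D / ω)) ≤ (k * #I) * (ψ (ω * ρ0 / 4) * ψ (D / ω)) := by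
          gcongr; exact h.Ibig
      _ = k * ψ (ω * ρ0 / 4) * (#I * ψ (D / ω)) := by ring
      _ ≤ k * ψ (ω * ρ0 / 4) * ((2 * #Xs) * (k * L * ψ D)) := by
          gcongr _ * ?_
          exact h6.trans (by gcongr)
      _ = 2 * k * (k * L * ψ D) * (#Xs * ψ (ω * ρ0 / 4)) := by ring
      _ ≤ 2 * k * (k * L * ψ D) * (2 * κ * L) := by gcongr
      _ = L * (4 * κ * k ^ 2 * L * ψ D) := by ring
  have h9 := le_of_mul_le_mul_left h8 hL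
  calc ψ (ω * ρ0) * ψ (D / ω) ≤ (k * 4 * ψ (ω * ρ0 / 4)) * ψ (D / ω) := by gcongr
    _ = k * 4 * (ψ (ω * ρ0 / 4) * ψ (D / ω)) := by ring
    _ ≤ k * 4 * (4 * κ * k ^ 2 * L * ψ D) := by gcongr
    _ = _ := by ring

lemma asm_pow (hk : 2 ≤ k) (hκ : 1 ≤ κ) (j a b : ℕ) (ha : a ≤ 6) (hb : j + b ≤ 46) :
    2 ^ j * κ ^ a * k ^ b ≤ κ ^ 6 * k ^ 46 :=
  calc 2 ^ j * κ ^ a * k ^ b ≤ k ^ j * κ ^ 6 * k ^ b := by gcongr
    _ = κ ^ 6 * k ^ (j + b) := by ring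
    _ ≤ _ := by gcongr; linarith

lemma asm_rho0 (h : RH k L ψ A I x) (hk : 2 ≤ k) (hκ : 1 ≤ κ) (hL : κ ^ 6 * k ^ 46 ≤ L) :
    ∃ ρ0, 1 ≤ ρ0 ∧ 2 * k ^ 2 * κ * L * ψ ρ0 ≤ (#A : ℝ) ^ 2 ∧ L ≤ 4 * κ * k ^ 5 * ψ ρ0 := by
  have hL0 : 0 < L := lt_of_lt_of_le (by positivity) hL
  obtain ⟨b, hb, hb'⟩ := asm_reach h
  have hA := asm_A_le h
  have hN : (0 : ℝ) ≤ #A := Nat.cast_nonneg _
  have hc : 0 < 2 * k ^ 2 * κ * L := by positivity
  have hsq : L ^ 2 ≤ k ^ 2 * (#A : ℝ) ^ 2 := by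
    rw [← mul_pow]
    gcongr
    exact h.big
  obtain ⟨ρ0, r1, -, r2, r3⟩ := exists_thr ψ (θ := (#A : ℝ) ^ 2 / (2 * k ^ 2 * κ * L)) one_pos hb
    h.psi.mono (by
      rw [lt_div_iff₀ hc]
      have h1 := asm_pow hk hκ 2 1 5 (by norm_num) (by norm_num)
      have h2 : k ^ 2 * (ψ 1 * (2 * k ^ 2 * κ * L)) < k ^ 2 * (#A : ℝ) ^ 2 :=
        calc k ^ 2 * (ψ 1 * (2 * k ^ 2 * κ * L)) ≤ k ^ 2 * (k * (2 * k ^ 2 * κ * L)) := by
              gcongr; exact h.psi.one'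
          _ = (2 * κ * k ^ 5) * L := by ring
          _ < (2 ^ 2 * κ ^ 1 * k ^ 5) * L := by
              gcongr ?_ * L
              have : 0 < κ * k ^ 5 := by positivity
              linarith
          _ ≤ L * L := by gcongr; linarith
          _ ≤ _ := by rw [← sq]; exact hsq
      exact lt_of_mul_lt_mul_left h2 (by positivity)) (by
      rw [div_le_iff₀ hc]
      have p := h.psi.pos hb
      calc (#A : ℝ) ^ 2 = #A * #A := sq _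
        _ ≤ (k * ψ b) * (k * L) := by gcongr
        _ = ψ b * (1 * k ^ 2 * 1 * L) := by ring
        _ ≤ _ := by gcongr; norm_num)
  refine ⟨ρ0, r1, ?_, ?_⟩
  · rw [lt_div_iff₀ hc] at r2
    linarith
  · rw [div_le_iff₀ hc] at r3
    have h1 := h.psi.lip 2 ρ0 (by norm_num) r1
    have h2 : L * L ≤ L * (4 * κ * k ^ 5 * ψ ρ0) :=
      calc L * L ≤ k ^ 2 * (#A : ℝ) ^ 2 := by rw [← sq]; exact hsq
        _ ≤ k ^ 2 * ((k * 2 * ψ ρ0) * (2 * k ^ 2 * κ * L)) := by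
            gcongr
            exact r3.trans (by gcongr)
        _ = _ := by ring
    exact le_of_mul_le_mul_left h2 hL0

lemma asm_rho2 (hψ : Psi k ψ) (hk : 2 ≤ k) (hκ : 1 ≤ κ) (hL : κ ^ 6 * k ^ 46 ≤ L) {ρ0 s : ℝ}
    (r1 : 1 ≤ ρ0) (ht : L ≤ 4 * κ * k ^ 5 * ψ ρ0) (hs : L ≤ 4 * κ * k ^ 7 * s) :
    ∃ ρ2, 4 ≤ ρ2 ∧ ρ2 < ρ0 ∧ 2 * k ^ 2 * κ * L * ψ ρ2 ≤ s ^ 2 ∧ L ≤ 64 * κ ^ 3 * k ^ 17 * ψ ρ2 := by
  have hL0 : 0 < L := lt_of_lt_of_le (by positivity) hL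
  have hc : 0 < 2 * k ^ 2 * κ * L := by positivity
  have p0 := hψ.pos r1
  have h4 : ψ 4 ≤ 4 * k ^ 2 := by
    have h1 := hψ.lip 4 1 (by norm_num) le_rfl
    rw [mul_one] at h1
    calc ψ 4 ≤ k * 4 * ψ 1 := h1
      _ ≤ k * 4 * k := by gcongr; exact hψ.one'
      _ = _ := by ring
  -- lower bound for the threshold
  have hθ : L ≤ 32 * κ ^ 3 * k ^ 16 * min (s ^ 2 / (2 * k ^ 2 * κ * L)) (ψ ρ0) := by
    rcases min_choice (s ^ 2 / (2 * k ^ 2 * κ * L)) (ψ ρ0) with e | e <;> rw [e]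
    · rw [← mul_div_assoc, le_div_iff₀ hc]
      calc L * (2 * k ^ 2 * κ * L) = 2 * k ^ 2 * κ * L ^ 2 := by ring
        _ ≤ 2 * k ^ 2 * κ * (4 * κ * k ^ 7 * s) ^ 2 := by gcongr
        _ = _ := by ring
    · calc L ≤ 4 * κ * k ^ 5 * ψ ρ0 := ht
        _ = 4 * κ ^ 1 * k ^ 5 * ψ ρ0 := by ring
        _ ≤ _ := by gcongr <;> linarith
  have h5 : ψ 4 < min (s ^ 2 / (2 * k ^ 2 * κ * L)) (ψ ρ0) := by
    have h1 := asm_pow hk hκ 8 3 18 (by norm_num) (by norm_num)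
    refine lt_of_mul_lt_mul_left (a := 32 * κ ^ 3 * k ^ 16) ?_ (by positivity)
    calc 32 * κ ^ 3 * k ^ 16 * ψ 4 ≤ 32 * κ ^ 3 * k ^ 16 * (4 * k ^ 2) := by gcongr
      _ = 128 * (κ ^ 3 * k ^ 18) := by ring
      _ < 2 ^ 8 * κ ^ 3 * k ^ 18 := by
          have : 0 < κ ^ 3 * k ^ 18 := by positivity
          linarith
      _ ≤ _ := by linarith
  have h6 : 4 ≤ ρ0 := by
    by_contra hc
    have := hψ.mono ρ0 4 r1 (not_le.1 hc).le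
    linarith [min_le_right (s ^ 2 / (2 * k ^ 2 * κ * L)) (ψ ρ0)]
  obtain ⟨ρ2, q1, q2, q3, q4⟩ := exists_thr ψ (by norm_num) h6
    (fun a b ha hab => hψ.mono a b (by linarith) hab) h5 (min_le_right _ _)
  refine ⟨ρ2, q1, q2, ?_, ?_⟩
  · have := q3.trans_le (min_le_left _ _)
    rw [lt_div_iff₀ hc] at this
    linarith
  · have h1 := hψ.lip 2 ρ2 (by norm_num) (by linarith)
    calc L ≤ 32 * κ ^ 3 * k ^ 16 * (k * 2 * ψ ρ2) := hθ.trans (by gcongr; exact q4.trans h1)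
      _ = _ := by ring

lemma asm_core (h : RH k L ψ A I x) (hk : 2 ≤ k) (hκ : 1 ≤ κ) (hL : κ ^ 6 * k ^ 46 ≤ L)
    (hE : ∀ y, (RP I x y ∨ ∃ i ∈ I, x i = y) → ∀ S ⊆ A, ∀ D, 1 ≤ D →
      (#S : ℝ) ^ 4 * ψ D ≤ κ * L * En S y D) :
    ∃ ρ0 ω1, RL2 (κ ^ 6 * k ^ 46) L ψ I x ρ0 ω1 := by
  have hL0 : 0 < L := lt_of_lt_of_le (by positivity) hL
  have hA : A.Nonempty := by
    rw [nonempty_iff_ne_empty]
    rintro rfl
    have := h.big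
    simp only [card_empty, Nat.cast_zero, mul_zero] at this
    linarith
  have hkK : k ≤ κ ^ 6 * k ^ 46 := by simpa using asm_pow hk hκ 0 0 1 (by norm_num) (by norm_num)
  obtain ⟨ρ0, r1, r2, r3⟩ := asm_rho0 h hk hκ hL
  have p0 := h.psi.pos r1
  have hsm := fun ω D => asm_sm h hk hL0 hκ hA
    (fun i hi => hE _ (Or.inr ⟨i, hi, rfl⟩) A Subset.rfl) r1 r2 (ω := ω) (D := D)
  obtain ⟨S, hSA, hd, hS⟩ := asm_class h hA r1
  have hS1 : L ≤ 4 * κ * k ^ 7 * #S := by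
    have h1 : L * L ≤ L * (4 * κ * k ^ 7 * #S) :=
      calc L * L ≤ (k * #A) * (4 * κ * k ^ 5 * ψ ρ0) := by gcongr; exact h.big
        _ = 4 * κ * k ^ 6 * (#A * ψ ρ0) := by ring
        _ ≤ 4 * κ * k ^ 6 * (#S * (k * L)) := by gcongr
        _ = _ := by ring
    exact le_of_mul_le_mul_left h1 hL0
  have hSn : S.Nonempty := by
    rw [nonempty_iff_ne_empty]
    rintro rfl
    simp only [card_empty, Nat.cast_zero, mul_zero] at hS1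
    linarith
  obtain ⟨ρ2, q1, q2, q3, q4⟩ := asm_rho2 h.psi hk hκ hL r1 r3 hS1
  have hρ0 : 0 < ρ0 := by linarith
  have hρ2 : 0 < ρ2 := by linarith
  have p2 := h.psi.pos (D := ρ2) (by linarith)
  -- passing from the scale `ρ2` to the scale `ρ0`
  have hup : ∀ D, 1 ≤ D → ψ (D * (ρ0 / ρ2)) ≤ 1024 * κ ^ 4 * k ^ 20 * ψ D := by
    intro D hD
    have e1 : ρ2 / ρ0 * ρ0 = ρ2 := by field_simp
    have h1 := hsm (ρ2 / ρ0) D (by rw [e1]; exact q1) ((div_le_one hρ0).2 q2.le) hD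
    rw [e1, show D / (ρ2 / ρ0) = D * (ρ0 / ρ2) by field_simp] at h1
    have pD := h.psi.pos hD
    refine le_of_mul_le_mul_left (a := ψ ρ2) (h1.trans ?_) (by linarith)
    calc 16 * κ * k ^ 3 * L * ψ D ≤ 16 * κ * k ^ 3 * (64 * κ ^ 3 * k ^ 17 * ψ ρ2) * ψ D := by gcongr
      _ = _ := by ring
  have hv : 1 ≤ ρ0 / ρ2 := (one_le_div hρ2).2 q2.le
  refine ⟨ρ0, 16 / ρ2, h.psi.mono_k hkK, h.Ibig.trans (by gcongr), h.x1, r1, ?_, ?_, ?_, ?_, ?_, ?_⟩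
  · have := asm_pow hk hκ 2 1 5 (by norm_num) (by norm_num)
    exact r3.trans (by gcongr ?_ * _; linarith)
  · intro ω D h1 h2 h3
    have := asm_pow hk hκ 4 1 3 (by norm_num) (by norm_num)
    have pD := h.psi.pos h3
    exact (hsm ω D h1 h2 h3).trans (by gcongr ?_ * _ * _; linarith)
  · intro ω p h1 h2
    have hω : 0 < ω := by
      by_contra hc
      nlinarith
    have h3 := h.clus ω (ω * ρ0) p hω h2 h1
    rw [show ω * ρ0 / ω = ρ0 by field_simp] at h3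
    have pD := h.psi.pos h1
    have := asm_pow hk hκ 2 1 6 (by norm_num) (by norm_num)
    refine le_of_mul_le_mul_right (a := ψ ρ0) (h3.trans ?_) (by linarith)
    calc k * L * ψ (ω * ρ0) ≤ k * (4 * κ * k ^ 5 * ψ ρ0) * ψ (ω * ρ0) := by gcongr
      _ = (2 ^ 2 * κ ^ 1 * k ^ 6) * ψ (ω * ρ0) * ψ ρ0 := by ring
      _ ≤ _ := by gcongr
  · rw [show 16 / ρ2 * ρ0 = 16 * (ρ0 / ρ2) by ring]
    linarith
  · rw [show 16 / ρ2 * ρ0 = 16 * (ρ0 / ρ2) by ring]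
    have h1 := h.psi.lip 16 1 (by norm_num) le_rfl
    rw [mul_one] at h1
    have := asm_pow hk hκ 14 4 22 (by norm_num) (by norm_num)
    calc ψ (16 * (ρ0 / ρ2)) ≤ 1024 * κ ^ 4 * k ^ 20 * ψ 16 := hup 16 (by norm_num)
      _ ≤ 1024 * κ ^ 4 * k ^ 20 * (k * 16 * k) := by
          gcongr
          exact h1.trans (by gcongr; exact h.psi.one')
      _ = 2 ^ 14 * κ ^ 4 * k ^ 22 := by ring
      _ ≤ _ := this
  · intro ω ρ c Xs h1 h2 h3 h4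
    rw [div_le_iff₀ hρ2] at h1
    have hω : 0 < ω := by
      by_contra hc
      nlinarith
    have h5 : ω * ρ2 ≤ ω * ρ0 := by gcongr
    have h6 : ω * ρ0 ≤ ρ * ρ0 := by gcongr
    have hD : 1 ≤ ω * ρ2 / 4 := by linarith
    have h7 := cnt_local (c := c) (ρ := ρ) h.psi hSn (by positivity)
      (fun p D hD => le_trans (by rw [asm_coe, asm_coe]; gcongr) (h.up p D hD)) (by linarith) q3 (by linarith) Xs
      (fun y hy => hE y (Or.inl (h3 y hy).1) S hSA _ hD) h4 hd (fun y hy => (h3 y hy).2)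
      (by linarith)
    have h8 := hup _ hD
    rw [show ω * ρ2 / 4 * (ρ0 / ρ2) = ω * ρ0 / 4 by field_simp] at h8
    have h9 := h.psi.lip 4 (ω * ρ0 / 4) (by norm_num) (by linarith)
    rw [show 4 * (ω * ρ0 / 4) = ω * ρ0 by ring] at h9
    have h10 := h.psi.lip 2 (ρ * ρ0) (by norm_num) (by linarith)
    rw [← mul_assoc] at h10
    have pD := h.psi.pos hD
    have pρ := h.psi.pos (D := ρ * ρ0) (by linarith)
    have pω := h.psi.pos (D := ω * ρ0) (by linarith)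
    have := asm_pow hk hκ 16 6 30 (by norm_num) (by norm_num)
    refine le_of_mul_le_mul_left (a := L) ?_ hL0
    calc L * (#Xs * ψ (ω * ρ0))
        ≤ (4 * κ * k ^ 7 * #S) * (#Xs * (k * 4 * (1024 * κ ^ 4 * k ^ 20 * ψ (ω * ρ2 / 4)))) := by
          gcongr
          exact h9.trans (by gcongr)
      _ = 2 ^ 14 * κ ^ 5 * k ^ 28 * (#Xs * #S * ψ (ω * ρ2 / 4)) := by ring
      _ ≤ 2 ^ 14 * κ ^ 5 * k ^ 28 * (2 * κ * L * (k * (k * 2 * ψ (ρ * ρ0)))) := by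
          gcongr _ * ?_
          exact h7.trans (by gcongr)
      _ = L * ((2 ^ 16 * κ ^ 6 * k ^ 30) * ψ (ρ * ρ0)) := by ring
      _ ≤ _ := by gcongr

/-- Let `k1 = k ^ c` from `cov_rp` (`c ≥ 1`), `κ = k1 ^ 12` (`energy_lower`).  `#A ≤ k L` (`pack` at
`D = 1`) and `ψ` reaches `#A / k` (`up`).  `ρ0`: `exists_thr` for `θ = #A² / (2 k² κ L)`, `top` by
`lip`.  `sm`: `L / k ≤ #I ≤ 2 n w` with `n` from `exists_sep` + `cnt_global` and `w` from `clus`.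
`conc`: `clus` with `D = ω ρ0`.  `S` = fullest class of `⌊a / ρ0⌋` (`#S ≥ #A ψ ρ0 / (k L)`),
`ρ2 ∈ [4, ρ0)` from `exists_thr` for `min (#S² / (2 k² κ L)) (ψ ρ0)`, `v = ρ0 / ρ2`,
`ω1 = 16 v / ρ0`.  `sm` with `ω = 1 / v` gives `ψ ρ2 ψ (16 v) ≤ k' L ψ 16` (`w1'`) and
`ψ ρ2 ψ (ω ρ0 / 4) ≤ k' L ψ (ω ρ2 / 4)`, which turns `cnt_local` (`ρs = ρ2`, `R0 = ρ0`) into `loc`. -/
theorem rl2 : ∃ C : ℕ, ∀ (k L : ℝ) (ψ : ℝ → ℝ) (A : Finset ℤ) (I : Finset ℕ) (x : ℕ → ℝ),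
    2 ≤ k → k ^ C ≤ L → RH k L ψ A I x → ∃ ρ0 ω1, RL2 (k ^ C) L ψ I x ρ0 ω1 := by
  obtain ⟨c, hc⟩ := cov_rp
  refine ⟨(c + 1) * 12 * 6 + 46, fun k L ψ A I x hk hL h => ?_⟩
  have hk1 : (1 : ℝ) ≤ k := by linarith
  have e : k ^ ((c + 1) * 12 * 6 + 46) = ((k ^ (c + 1)) ^ 12) ^ 6 * k ^ 46 := by
    rw [pow_add, pow_mul, pow_mul]
  rw [e] at hL ⊢
  have hL0 : 0 < L := lt_of_lt_of_le (by positivity) hL
  have h1 : k ≤ k ^ (c + 1) := le_self_pow₀ hk1 (by omega)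
  have h2 : k ^ c ≤ k ^ (c + 1) := pow_le_pow_right₀ hk1 (by omega)
  refine asm_core h hk (one_le_pow₀ (one_le_pow₀ hk1)) hL fun y hy S hS D hD => ?_
  have hA : A.Nonempty := by
    rw [nonempty_iff_ne_empty]
    rintro rfl
    have := h.big
    simp only [card_empty, Nat.cast_zero, mul_zero] at this
    linarith
  refine energy_lower (hk.trans h1) hS hD (by linarith [h.psi.pos hD]) (h.dbl.trans (by gcongr))
    ((h.pack D hD).trans (by gcongr)) ?_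
  rcases hy with hy | ⟨i, hi, rfl⟩
  · exact (hc k A I x hk hA h.dbl (fun i hi => ⟨h.x1 i hi, h.cov i hi⟩) y hy).mono h2
  · exact (h.cov i hi).mono h1

end Crest.Agent.R051
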