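import Crest.Agent.R051.AGraph
import Crest.Agent.R051.ACol

/-! Row 51: the profile is quasi-Lipschitz; choice of the scale. -/

set_option autoImplicit false

open Finset
open scoped Classical Pointwise

namespace Crest.Agent.R051

/-- cutting an interval of radius `R` into pieces of length `r` -/
lemma ascale_cut {α : Type*} (S : Finset α) (x : α → ℝ) (p R r M : ℝ) (hr : 0 < r) (hR : 0 ≤ R)
    (hM : 0 ≤ M) (hS : ∀ a ∈ S, |x a - p| ≤ R)
    (h : ∀ a0 ∈ S, (#{a ∈ S | |x a - x a0| ≤ r} : ℝ) ≤ M) : (#S : ℝ) ≤ (2 * R / r + 1) * M := by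
  set f : α → ℕ := fun a => ⌊(x a - p + R) / r⌋₊ with hf
  have hmem : ∀ a ∈ S, f a ∈ range (⌊2 * R / r⌋₊ + 1) := by
    intro a ha
    rw [mem_range, Nat.lt_succ_iff]
    apply Nat.floor_le_floor
    have := (abs_le.1 (hS a ha)).2
    apply div_le_div_of_nonneg_right _ hr.le
    linarith
  rw [card_eq_sum_card_fiberwise hmem]
  push_cast
  have hb : ∀ b ∈ range (⌊2 * R / r⌋₊ + 1), (#{a ∈ S | f a = b} : ℝ) ≤ M := by
    intro b _
    rcases (filter (fun a => f a = b) S).eq_empty_or_nonempty with h0 | ⟨a0, ha0⟩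
    · rw [h0]; simpa using hM
    · rw [mem_filter] at ha0
      refine le_trans ?_ (h a0 ha0.1)
      norm_cast
      apply card_le_card
      intro a ha
      rw [mem_filter] at ha ⊢
      refine ⟨ha.1, ?_⟩
      have e : f a = f a0 := ha.2.trans ha0.2.symm
      have n1 : 0 ≤ (x a - p + R) / r :=
        div_nonneg (by linarith [(abs_le.1 (hS a ha.1)).1]) hr.le
      have n2 : 0 ≤ (x a0 - p + R) / r :=
        div_nonneg (by linarith [(abs_le.1 (hS a0 ha0.1)).1]) hr.le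
      have l1 := Nat.floor_le n1
      have l2 := Nat.floor_le n2
      have u1 := Nat.lt_floor_add_one ((x a - p + R) / r)
      have u2 := Nat.lt_floor_add_one ((x a0 - p + R) / r)
      simp only [hf] at e
      rw [e] at l1 u1
      have d1 : (x a - p + R) / r - (x a0 - p + R) / r ≤ 1 := by linarith
      have d2 : (x a0 - p + R) / r - (x a - p + R) / r ≤ 1 := by linarith
      rw [← sub_div, div_le_one hr] at d1 d2
      rw [abs_le]
      constructor <;> linarith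
  refine (sum_le_sum hb).trans ?_
  rw [sum_const, card_range, nsmul_eq_mul]
  apply mul_le_mul_of_nonneg_right _ hM
  push_cast
  have := Nat.floor_le (div_nonneg (by linarith : (0 : ℝ) ≤ 2 * R) hr.le)
  linarith

namespace AD

/-- Fix `i ∈ A1`.  By `cover1` (`θ = 1 / (4 k²)`) some `δ' ∈ Gi i` has
`#(Gi i ∩ [U j δ' ± ρ]) ≥ θ nu j δ' ρ` for all `ρ`.  Cut `[U j δ' ± σ ρ]` into `≤ 2 σ + 1` intervals
of length `ρ`; each holds at most `k φ (k ρ)` lines of `Gi i`.  Use `σ = k² s`, `ρ = ρ' / k`. -/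
theorem prof_lip : ∃ C : ℕ, ∀ (A : AD) (k : ℝ), A.OK k → ∀ j l A1 Gi φ,
    A.Prof0 k j l A1 Gi φ → ∀ s ρ : ℝ, 1 ≤ s → 0 < ρ → φ (s * ρ) ≤ k ^ C * s * φ ρ := by
  refine ⟨10, fun A k hA j l A1 Gi φ hP s ρ hs hρ => ?_⟩
  have hk2 := hA.k2
  have hk0 : 0 < k := by linarith
  have hL := hA.L1
  have hm : (2 : ℝ) ≤ A.m := by exact_mod_cast hA.m2
  have hφ : (A.m : ℝ) ≤ φ ρ := hP.lower ρ
  have hφ0 : 0 ≤ φ ρ := by linarith
  obtain ⟨i, hi⟩ : A1.Nonempty := by
    rw [← card_pos]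
    by_contra h0
    have h1 : #A1 = 0 := by omega
    have h2 := hP.tri.big
    rw [h1] at h2
    simp at h2
    linarith
  have hθ : (0 : ℝ) ≤ 1 / (4 * k ^ 2) := by positivity
  have hc := cover1 (Gi i) (A.ty j) (A.U j) (A.U j) _ hθ
  have hG := hP.tri.Gbig i hi
  have hty := hA.ty_card j
  obtain ⟨δ, hδ, hgood⟩ : ∃ δ ∈ Gi i, ∀ R : ℝ, 0 < R →
      1 / (4 * k ^ 2) * A.nu j δ R ≤ #{a' ∈ Gi i | |A.U j a' - A.U j δ| ≤ R} := by
    by_contra hcon
    push Not at hcon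
    unfold nu at hcon
    rw [filter_true_of_mem (fun a ha => hcon a ha)] at hc
    have h3 : 2 * (1 / (4 * k ^ 2)) * (#(A.ty j) : ℝ) ≤ 2 * (1 / (4 * k ^ 2)) * (k * A.m * A.L) := by
      gcongr
    have h4 : k * (2 * (1 / (4 * k ^ 2)) * (k * A.m * A.L)) = A.m * A.L / 2 := by
      field_simp
      ring
    have h5 : k * (#(Gi i) : ℝ) ≤ A.m * A.L / 2 := by
      rw [← h4]
      exact mul_le_mul_of_nonneg_left (hc.trans h3) hk0.le
    have h6 : 0 < (A.m : ℝ) * A.L := by positivity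
    linarith
  have hsρ : 0 < s * ρ := by positivity
  have h1 := (hP.cj i hi δ hδ (s * ρ) hsρ).2
  rw [mul_one] at h1
  have h2 := hgood (k * (s * ρ)) (by positivity)
  have h3 := ascale_cut {a' ∈ Gi i | |A.U j a' - A.U j δ| ≤ k * (s * ρ)} (A.U j) (A.U j δ)
    (k * (s * ρ)) (ρ / k) (k * φ ρ) (by positivity) (by positivity) (by positivity)
    (fun a ha => (mem_filter.1 ha).2) (by
      intro a0 ha0
      have ha0' := (mem_filter.1 ha0).1
      have h4 := (hP.cj i hi a0 ha0' (ρ / k) (by positivity)).1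
      rw [mul_one, mul_div_cancel₀ _ hk0.ne'] at h4
      refine le_trans ?_ h4
      unfold nu
      norm_cast
      apply card_le_card
      intro a ha
      rw [mem_filter] at ha ⊢
      exact ⟨(hP.tri.ty i hi a (mem_filter.1 ha.1).1).2.1, ha.2⟩)
  have h5 : 2 * (k * (s * ρ)) / (ρ / k) = 2 * k ^ 2 * s := by
    field_simp
  rw [h5] at h3
  have h6 : A.nu j δ (k * (s * ρ)) ≤ 4 * k ^ 2 * ((2 * k ^ 2 * s + 1) * (k * φ ρ)) := by
    have h7 := h2.trans h3
    rw [one_div, inv_mul_le_iff₀ (by positivity)] at h7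
    exact h7
  have hk1 : 1 ≤ k := by linarith
  have h8 : 1 ≤ k ^ 2 * s := one_le_mul_of_one_le_of_one_le (one_le_pow₀ hk1) hs
  have h9 : 1 ≤ k ^ 5 * s := one_le_mul_of_one_le_of_one_le (one_le_pow₀ hk1) hs
  have h10 : A.nu j δ (k * (s * ρ)) ≤ 12 * (k ^ 5 * s) * φ ρ := by
    refine h6.trans ?_
    calc 4 * k ^ 2 * ((2 * k ^ 2 * s + 1) * (k * φ ρ))
        ≤ 4 * k ^ 2 * ((3 * (k ^ 2 * s)) * (k * φ ρ)) := by
          gcongr
          linarith
      _ = 12 * (k ^ 5 * s) * φ ρ := by ring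
  have h11 : (A.m : ℝ) ≤ (k ^ 5 * s) * φ ρ := by nlinarith
  have h12 : (16 : ℝ) ≤ k ^ 4 := by
    calc (16 : ℝ) = 2 ^ 4 := by norm_num
      _ ≤ k ^ 4 := by gcongr
  calc φ (s * ρ) ≤ k * (A.nu j δ (k * (s * ρ)) + A.m) := h1
    _ ≤ k * (13 * ((k ^ 5 * s) * φ ρ)) := by
        apply mul_le_mul_of_nonneg_left _ hk0.le
        linarith
    _ = 13 * (k ^ 6 * s * φ ρ) := by ring
    _ ≤ k ^ 4 * (k ^ 6 * s * φ ρ) := by
        apply mul_le_mul_of_nonneg_right (by linarith)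
        positivity
    _ = k ^ 10 * s * φ ρ := by ring

/-- `exists_thr` gives `ρ1 > 0` with `φ (ρ1 / 2) < 2 k m ≤ φ ρ1` (here `k ^ C ≤ lam` is used for
`2 k m ≤ m L / k`).  Put `e0 = 2 k ρ1`, `ψ D = φ (D e0) / m`.  Lower profile:
`φ (D ρ1) ≤ k (nu (D e0 / 2) + m)` and `φ (D ρ1) ≥ 2 k m`.  Error: `φ (|err| / k) ≤ k m < φ ρ1`. -/
theorem prof : ∃ C : ℕ, ∀ (A : AD) (k : ℝ), A.OK k → k ^ C ≤ A.lam → ∀ j l A1 Gi φ,
    A.Prof0 k j l A1 Gi φ → ∃ e0 ψ, A.Prof (k ^ C) j l A1 Gi e0 ψ := by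
  obtain ⟨C, hC⟩ := prof_lip
  refine ⟨C + 5, fun A k hA hlam j l A1 Gi φ hP => ?_⟩
  have lip := hC A k hA j l A1 Gi φ hP
  have hk2 := hA.k2
  have hk0 : 0 < k := by linarith
  have hk1 : 1 ≤ k := by linarith
  have hm : (2 : ℝ) ≤ A.m := by exact_mod_cast hA.m2
  have hm0 : (0 : ℝ) < A.m := by linarith
  have hφ0 : ∀ ρ, 0 ≤ φ ρ := fun ρ => hm0.le.trans (hP.lower ρ)
  have hkC : 1 ≤ k ^ C := one_le_pow₀ hk1
  have hpow : ∀ n, n ≤ 5 → k ^ C * k ^ n ≤ k ^ (C + 5) := by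
    intro n hn
    rw [← pow_add]
    exact pow_le_pow_right₀ hk1 (by omega)
  have hL : 2 * k ^ 2 ≤ A.L := by
    calc 2 * k ^ 2 ≤ k * k ^ 2 := by gcongr
      _ = k ^ 3 := by ring
      _ ≤ k ^ (C + 5) := pow_le_pow_right₀ hk1 (by omega)
      _ ≤ A.lam := hlam
      _ ≤ A.lam ^ 16 := le_self_pow₀ hA.lam1 (by norm_num)
  obtain ⟨a, ha, hφa⟩ := hP.small
  obtain ⟨b, hb, hφb⟩ := hP.large
  obtain ⟨ρ, hρa, -, hρ1, hρ2⟩ := exists_thr φ (θ := 2 * k * A.m) ha (le_max_left a b)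
    (fun x y _ hxy => hP.mono hxy) (by nlinarith) (by
      have h1 : φ b ≤ φ (max a b) := hP.mono (le_max_right a b)
      have h2 : k * (2 * k * A.m) ≤ k * φ b := by
        refine le_trans ?_ hφb
        calc k * (2 * k * A.m) = A.m * (2 * k ^ 2) := by ring
          _ ≤ A.m * A.L := by gcongr
      exact (le_of_mul_le_mul_left h2 hk0).trans h1)
  have hρ : 0 < ρ := ha.trans_le hρa
  have he0 : 0 < 4 * k * ρ := by positivity
  have key : ∀ (c : ℕ) (e : ℝ) (δ : Ln), A.Cmp k φ c e δ →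
      A.Cmp1 (k ^ (C + 5)) (fun D => φ (D * (4 * k * ρ)) / A.m) c (4 * k * ρ * e) δ := by
    intro c e δ h D hD
    have hD0 : 0 < D := by linarith
    have hnu : ∀ R, 0 ≤ A.nu c δ R := fun R => by unfold nu; positivity
    constructor
    · have h1 := (h (D * (4 * k * ρ)) (by positivity)).1
      have h2 := lip k (D * (4 * k * ρ)) hk1 (by positivity)
      rw [← mul_assoc D, mul_assoc (k ^ (C + 5)), mul_div_cancel₀ _ hm0.ne']
      refine h1.trans ?_
      calc k * φ (k * (D * (4 * k * ρ))) ≤ k * (k ^ C * k * φ (D * (4 * k * ρ))) := by gcongr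
        _ = k ^ C * k ^ 2 * φ (D * (4 * k * ρ)) := by ring
        _ ≤ k ^ (C + 5) * φ (D * (4 * k * ρ)) :=
          mul_le_mul_of_nonneg_right (hpow 2 (by norm_num)) (hφ0 _)
    · have h1 := (h (D * (2 * ρ)) (by positivity)).2
      have h2 := lip (2 * k) (D * (2 * ρ)) (by linarith) (by positivity)
      have h3 : φ (2 * ρ) ≤ φ (D * (2 * ρ)) := hP.mono (by nlinarith)
      have e1 : k * (D * (2 * ρ)) * e = D * (4 * k * ρ * e) / 2 := by ring
      have e2 : 2 * k * (D * (2 * ρ)) = D * (4 * k * ρ) := by ring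
      rw [e1] at h1
      rw [e2] at h2
      rw [mul_div_cancel₀ _ hm0.ne']
      have h4 : φ (D * (2 * ρ)) ≤ 2 * k * A.nu c δ (D * (4 * k * ρ * e) / 2) := by linarith
      have h5 : (4 : ℝ) ≤ k ^ 2 := by nlinarith
      have h6 := hnu (D * (4 * k * ρ * e) / 2)
      calc φ (D * (4 * k * ρ)) ≤ k ^ C * (2 * k) * φ (D * (2 * ρ)) := h2
        _ ≤ k ^ C * (2 * k) * (2 * k * A.nu c δ (D * (4 * k * ρ * e) / 2)) := by gcongr
        _ = k ^ C * (4 * k ^ 2) * A.nu c δ (D * (4 * k * ρ * e) / 2) := by ring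
        _ ≤ k ^ C * (k ^ 2 * k ^ 2) * A.nu c δ (D * (4 * k * ρ * e) / 2) := by gcongr
        _ = k ^ C * k ^ 4 * A.nu c δ (D * (4 * k * ρ * e) / 2) := by ring
        _ ≤ _ := mul_le_mul_of_nonneg_right (hpow 4 (by norm_num)) h6
  refine ⟨4 * k * ρ, fun D => φ (D * (4 * k * ρ)) / A.m, ?_, he0, ⟨?_, ?_, ?_, ?_⟩, ?_, ?_, ?_, ?_⟩
  · exact hP.tri.mono (le_self_pow₀ hk1 (by omega))
  · intro D D' _ hDD
    exact div_le_div_of_nonneg_right (hP.mono (by gcongr)) hm0.le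
  · rw [one_le_div hm0]
    exact hP.lower _
  · rw [div_le_iff₀ hm0, one_mul]
    have h2 := lip (4 * k) ρ (by linarith) hρ
    have h5 : (8 : ℝ) ≤ k ^ 3 := by
      calc (8 : ℝ) = 2 ^ 3 := by norm_num
        _ ≤ k ^ 3 := by gcongr
    calc φ (4 * k * ρ) ≤ k ^ C * (4 * k) * φ ρ := h2
      _ ≤ k ^ C * (4 * k) * (2 * k * A.m) := by gcongr
      _ = k ^ C * (8 * k ^ 2) * A.m := by ring
      _ ≤ k ^ C * (k ^ 3 * k ^ 2) * A.m := by gcongr
      _ = k ^ C * k ^ 5 * A.m := by ring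
      _ ≤ k ^ (C + 5) * A.m := mul_le_mul_of_nonneg_right (hpow 5 le_rfl) hm0.le
  · intro s D hs hD
    have hD0 : 0 < D := by linarith
    have h2 := lip s (D * (4 * k * ρ)) hs (by positivity)
    rw [← mul_div_assoc]
    apply div_le_div_of_nonneg_right _ hm0.le
    rw [mul_assoc s D]
    refine h2.trans ?_
    have h3 := hpow 0 (by norm_num)
    rw [pow_zero, mul_one] at h3
    have h4 := hφ0 (D * (4 * k * ρ))
    gcongr
  · intro i hi δ hδ
    simpa using key j 1 δ (hP.cj i hi δ hδ)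
  · intro i hi δ hδ i' hi'
    rw [div_eq_mul_inv]
    exact key l _ δ (hP.cl i hi δ hδ i' hi')
  · intro i hi δ hδ
    rw [div_eq_mul_inv]
    exact key i _ δ (hP.ci i hi δ hδ)
  · intro i hi δ hδ
    have h1 := hP.err i hi δ hδ
    have h2 : |A.err j l i δ| / k < 2 * ρ := by
      by_contra h3
      have h4 := hP.mono (not_lt.1 h3)
      nlinarith
    rw [div_lt_iff₀ hk0] at h2
    nlinarith

end AD

end Crest.Agent.R051
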