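import Crest.Agent.R051.AThick
import Crest.Agent.R051.AGraph

/-! Row 51: choice of two base columns. -/

set_option autoImplicit false

open Finset
open scoped Classical Pointwise

namespace Crest.Agent.R051

namespace AD

lemma ATri_comm {α β : Type*} (s : Finset α) (t : Finset β) (r : α → β → Prop)
    [∀ a, DecidablePred (r a)] [∀ b, DecidablePred fun a => r a b] :
    ∑ a ∈ s, (#{b ∈ t | r a b} : ℝ) = ∑ b ∈ t, (#{a ∈ s | r a b} : ℝ) := by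
  simp only [natCast_card_filter]
  rw [sum_comm]

lemma ATri_avg {α : Type*} (s : Finset α) (f : α → ℝ) {B N : ℝ} (hB : 0 < B) (hN : (#s : ℝ) ≤ N)
    (h : B ≤ ∑ x ∈ s, f x) : ∃ x ∈ s, B ≤ N * f x := by
  by_contra! h1
  rcases s.eq_empty_or_nonempty with rfl | hs
  · simp at h; linarith
  have h2 := sum_lt_sum_of_nonempty hs h1
  rw [← mul_sum, sum_const, nsmul_eq_mul] at h2
  have h3 : (0 : ℝ) ≤ #s := Nat.cast_nonneg _
  nlinarith [mul_le_mul_of_nonneg_left h (h3.trans hN), mul_le_mul_of_nonneg_right hN hB.le]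

lemma ATri_pop {α : Type*} (s : Finset α) (f : α → ℝ) {M N t : ℝ} (ht : 0 ≤ t)
    (hN : (#s : ℝ) ≤ N) (hM : ∀ x ∈ s, f x ≤ M) :
    ∑ x ∈ s, f x ≤ #{x ∈ s | t ≤ f x} * M + N * t := by
  rw [← sum_filter_add_sum_filter_not s fun x => t ≤ f x]
  refine add_le_add ?_ ?_
  · exact (sum_le_card_nsmul _ _ M fun x hx => hM x (mem_filter.1 hx).1).trans_eq (nsmul_eq_mul ..)
  · refine (sum_le_card_nsmul _ _ t fun x hx => (not_le.1 (mem_filter.1 hx).2).le).trans ?_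
    rw [nsmul_eq_mul]
    exact mul_le_mul_of_nonneg_right ((Nat.cast_le.2 (card_filter_le _ _)).trans hN) ht

lemma ATri_dom {A : AD} {a b c : ℕ} {δ : Ln} (h : A.Dom a b c δ) : A.Dom a c b δ := by
  unfold Dom at h ⊢
  rw [abs_sub_comm (A.X b) (A.X a), abs_sub_comm (A.X b) (A.X c), abs_sub_comm (A.X a) (A.X c)]
  exact h.symm

lemma ATri_tot (A : AD) (a x y : ℕ) (δ : Ln) :
    A.Dom a x y δ ∨ A.Dom x a y δ ∨ A.Dom y a x δ := by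
  unfold Dom
  rw [abs_sub_comm (A.X x) (A.X a), abs_sub_comm (A.X x) (A.X y)]
  generalize |A.X y - A.X a| * A.sz x δ = u, |A.X y - A.X x| * A.sz a δ = v,
    |A.X a - A.X x| * A.sz y δ = w
  rcases le_total u v with h1 | h1
  · rcases le_total v w with h2 | h2
    exacts [.inr (.inr ⟨h2, h1.trans h2⟩), .inl ⟨h1, h2⟩]
  · rcases le_total u w with h2 | h2
    exacts [.inr (.inr ⟨h1.trans h2, h2⟩), .inr (.inl ⟨h1, h2⟩)]

lemma ATri_symm {A : AD} {T' : Finset (ℕ × Ln)} {η : ℝ} {b c : ℕ} {δ : Ln}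
    (h : A.Good T' η b c δ) : A.Good T' η c b δ :=
  ⟨h.2.1, h.1, h.2.2.1.symm, h.2.2.2.1.symm, h.2.2.2.2.trans (Nat.cast_le.2 (card_le_card
    fun a ha => by
      rw [mem_filter] at ha ⊢
      exact ⟨ha.1, ha.2.1, ha.2.2.2.1, ha.2.2.1, ATri_dom ha.2.2.2.2⟩))⟩

lemma ATri_div {d e a b Λ a' b' : ℝ} (hd : d ≠ 0) (h : |Λ| ≤ 3 * max a' b') (h1 : |Λ| = |d * e|)
    (h2 : a' = |d| * a) (h3 : b' = |d| * b) : |e| ≤ 3 * max a b := by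
  rw [h1, h2, h3, abs_mul, ← mul_max_of_nonneg _ _ (abs_nonneg d), mul_left_comm] at h
  exact le_of_mul_le_mul_left h (abs_pos.2 hd)

/-- the triangles of one line -/
lemma ATri_line {A : AD} {k : ℝ} (h : A.OK k) (T' : Finset (ℕ × Ln)) {κ : ℝ} (δ : Ln)
    (h4 : 10 ^ 4 ≤ κ * A.L) (h1 : κ * A.L ≤ #{a ∈ A.I | (a, δ) ∈ T'})
    (h2 : 10 ^ 4 * (#{z ∈ A.I ×ˢ A.I | δ ∈ A.ty z.1 ∧ δ ∈ A.ty z.2 ∧ ¬ A.Reg z.1 z.2 δ} : ℝ) ≤
      (κ * A.L) ^ 2) (hT : T' ⊆ A.T) (hδ : δ ∈ A.Γ) :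
    (κ * A.L) ^ 3 ≤ 2000 * #{z ∈ (A.I ×ˢ A.I) ×ˢ A.I | A.Good T' (κ / 10 ^ 4) z.2 z.1.1 δ ∧
      A.Good T' (κ / 10 ^ 4) z.2 z.1.2 δ ∧ A.Good T' (κ / 10 ^ 4) z.1.1 z.1.2 δ ∧
      A.X z.1.1 < A.X z.1.2} := by
  obtain ⟨V, hV⟩ : ∃ V, V = {a ∈ A.I | (a, δ) ∈ T'} := ⟨_, rfl⟩
  rw [← hV] at h1
  have hm : ∀ a, a ∈ V ↔ a ∈ A.I ∧ (a, δ) ∈ T' := fun a => by rw [hV, mem_filter]
  have h0 : 0 ≤ κ * A.L := by linarith
  have key := tri_graph V (fun a x y => A.Dom a x y δ) (fun x y => A.Reg x y δ)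
    (fun x y => A.Good T' (κ / 10 ^ 4) x y δ) (by exact_mod_cast h4.trans h1)
    (fun a x y => ATri_dom) (fun a _ x _ y _ _ _ _ => ATri_tot A a x y δ) ?_ ?_
  · refine (pow_le_pow_left₀ h0 h1 3).trans ?_
    rw [← Nat.cast_pow]
    refine (Nat.cast_le.2 key).trans ?_
    rw [show (2000 : ℝ) = ((1000 * 2 : ℕ) : ℝ) by norm_num, ← Nat.cast_mul, Nat.cast_le, mul_assoc,
      two_mul]
    refine Nat.mul_le_mul_left _ ?_
    rw [← card_filter_add_card_filter_not fun z : ℕ × ℕ × ℕ => A.X z.2.1 < A.X z.2.2]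
    refine add_le_add (card_le_card_of_injOn (fun z => ((z.2.1, z.2.2), z.1)) (fun z hz => ?_) ?_)
      (card_le_card_of_injOn (fun z => ((z.2.2, z.2.1), z.1)) (fun z hz => ?_) ?_)
    · simp only [coe_filter, mem_filter, mem_product, Set.mem_ofPred_eq, hm] at hz ⊢
      tauto
    · rintro ⟨a, b, c⟩ - ⟨a', b', c'⟩ - h
      simp only [Prod.mk.injEq] at h ⊢
      tauto
    · simp only [coe_filter, mem_filter, mem_product, Set.mem_ofPred_eq, hm] at hz ⊢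
      obtain ⟨⟨⟨a1, a2, a3⟩, a4, a5, a6⟩, a7⟩ := hz
      exact ⟨⟨⟨a3.1, a2.1⟩, a1.1⟩, a5, a4, ATri_symm a6, lt_of_le_of_ne (not_lt.1 a7)
        fun e => a6.2.2.1 (h.X_inj _ a2.1 _ a3.1 e.symm)⟩
    · rintro ⟨a, b, c⟩ - ⟨a', b', c'⟩ - h
      simp only [Prod.mk.injEq] at h ⊢
      tauto
  · rw [← Nat.cast_le (α := ℝ)]
    push_cast
    refine le_trans ?_ (h2.trans (pow_le_pow_left₀ h0 h1 2))
    refine mul_le_mul (by norm_num) (Nat.cast_le.2 (card_le_card fun z hz => ?_))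
      (Nat.cast_nonneg _) (by norm_num)
    simp only [mem_filter, mem_product, hm, ty] at hz ⊢
    exact ⟨⟨hz.1.1.1, hz.1.2.1⟩, ⟨hδ, hT hz.1.1.2⟩, ⟨hδ, hT hz.1.2.2⟩, hz.2⟩
  · intro x hx y hy hxy hr hc
    refine ⟨((hm x).1 hx).2, ((hm y).1 hy).2, hxy, hr, ?_⟩
    rw [div_mul_eq_mul_div, div_le_iff₀ (by norm_num), mul_comm _ ((10 : ℝ) ^ 4)]
    refine h1.trans ((Nat.cast_le.2 hc).trans ?_)
    push_cast
    refine mul_le_mul (by norm_num) (Nat.cast_le.2 (card_le_card fun z hz => ?_))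
      (Nat.cast_nonneg _) (by norm_num)
    simp only [mem_filter, hm] at hz ⊢
    tauto

/-- many lines with many clean columns and few irregular pairs -/
lemma ATri_lines {A : AD} {k : ℝ} (h : A.OK k) (hk : k ^ 5 ≤ A.lam) {T' : Finset (ℕ × Ln)}
    (hT : A.Clean (4 * k) T') :
    A.m * A.L ≤ 16 * k * #{δ ∈ A.Γ | 1 / (8 * k ^ 2) * A.L ≤ #{a ∈ A.I | (a, δ) ∈ T'} ∧
      10 ^ 4 * (#{z ∈ A.I ×ˢ A.I | δ ∈ A.ty z.1 ∧ δ ∈ A.ty z.2 ∧ ¬ A.Reg z.1 z.2 δ} : ℝ) ≤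
        (1 / (8 * k ^ 2) * A.L) ^ 2} := by
  have hk2 := h.k2
  have hk0 : 0 < k := by linarith
  have hl : 0 < A.lam := by linarith [h.lam1]
  have hL : 0 < A.L := pow_pos hl 16
  have hm : (0 : ℝ) < A.m := by have := h.m2; positivity
  -- many columns
  have a1 : (#T' : ℝ) ≤ ∑ δ ∈ A.Γ, (#{a ∈ A.I | (a, δ) ∈ T'} : ℝ) := by
    rw [← Nat.cast_sum, Nat.cast_le, ← card_sigma]
    refine card_le_card_of_injOn (fun x => ⟨x.2, x.1⟩) (fun x hx => ?_) ?_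
    · have := mem_product.1 (h.T_sub (hT.sub hx))
      simp only [mem_coe, mem_sigma, mem_filter]
      exact ⟨this.2, this.1, hx⟩
    · rintro ⟨a, b⟩ - ⟨a', b'⟩ - h
      simp only [Sigma.mk.injEq, heq_eq_eq, Prod.mk.injEq] at h ⊢
      tauto
  have a2 := ATri_pop A.Γ (fun δ => (#{a ∈ A.I | (a, δ) ∈ T'} : ℝ)) (M := A.L)
    (t := 1 / (8 * k ^ 2) * A.L) (by positivity) h.Γ_card
    fun δ _ => (Nat.cast_le.2 (card_filter_le _ _)).trans h.I_card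
  obtain ⟨Γ1, hΓ1⟩ : ∃ Γ1, Γ1 = {δ ∈ A.Γ | 1 / (8 * k ^ 2) * A.L ≤ #{a ∈ A.I | (a, δ) ∈ T'}} :=
    ⟨_, rfl⟩
  rw [← hΓ1] at a2
  have a3 : A.m * A.L ≤ 8 * k * #Γ1 := by
    have b1 := mul_le_mul_of_nonneg_left (a1.trans a2) (by positivity : 0 ≤ 4 * k)
    have b2 : 4 * k * (#Γ1 * A.L + k * A.m * A.L * (1 / (8 * k ^ 2) * A.L)) =
        4 * k * #Γ1 * A.L + A.m * A.L ^ 2 / 2 := by field_simp; ring
    refine le_of_mul_le_mul_right ?_ hL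
    linarith [hT.big]
  -- few irregular pairs
  obtain ⟨f, hf⟩ : ∃ f : Ln → ℝ, f = fun δ =>
      (#{z ∈ A.I ×ˢ A.I | δ ∈ A.ty z.1 ∧ δ ∈ A.ty z.2 ∧ ¬ A.Reg z.1 z.2 δ} : ℝ) := ⟨_, rfl⟩
  have hf0 : ∀ δ, 0 ≤ f δ := fun δ => by rw [hf]; exact Nat.cast_nonneg _
  have a4 : ∑ δ ∈ A.Γ, f δ ≤ 8 * k ^ 3 * A.m * A.L ^ 2 * A.lam ^ 8 := by
    simp only [hf]
    rw [ATri_comm]
    refine (sum_le_card_nsmul _ _ (8 * k ^ 3 * A.m * A.L ^ 2 / A.lam ^ 24) fun z _ => ?_).trans ?_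
    · rw [le_div_iff₀ (by positivity)]
      refine le_trans ?_ (h.irreg z.1 z.2)
      gcongr
      intro δ hδ
      rw [mem_filter] at hδ ⊢
      exact hδ.2
    · rw [nsmul_eq_mul, card_product, Nat.cast_mul]
      have := h.I_card
      calc (#A.I : ℝ) * #A.I * (8 * k ^ 3 * A.m * A.L ^ 2 / A.lam ^ 24) ≤
            A.L * A.L * (8 * k ^ 3 * A.m * A.L ^ 2 / A.lam ^ 24) := by gcongr
        _ = _ := by
            rw [show A.L * A.L = A.lam ^ 8 * A.lam ^ 24 by rw [L]; ring]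
            field_simp
  obtain ⟨Γ2, hΓ2⟩ : ∃ Γ2, Γ2 = {δ ∈ A.Γ | ¬ 10 ^ 4 * f δ ≤ (1 / (8 * k ^ 2) * A.L) ^ 2} :=
    ⟨_, rfl⟩
  have a5 : #Γ2 * (1 / (8 * k ^ 2) * A.L) ^ 2 ≤ 10 ^ 4 * ∑ δ ∈ A.Γ, f δ := by
    rw [mul_sum, ← nsmul_eq_mul]
    refine (card_nsmul_le_sum Γ2 (fun δ => 10 ^ 4 * f δ) _ fun δ hδ => ?_).trans
      (sum_le_sum_of_subset_of_nonneg (hΓ2 ▸ filter_subset _ _) fun δ _ _ => by
        have := hf0 δ
        positivity)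
    rw [hΓ2, mem_filter] at hδ
    exact (not_le.1 hδ.2).le
  have a6 : 16 * k * #Γ2 ≤ A.m * A.L := by
    have b1 : 16 * 8 * 64 * 10 ^ 4 * k ^ 8 ≤ A.lam ^ 8 := by
      calc 16 * 8 * 64 * 10 ^ 4 * k ^ 8 ≤ 2 ^ 32 * k ^ 8 := by gcongr; norm_num
        _ ≤ k ^ 32 * k ^ 8 := by gcongr
        _ = (k ^ 5) ^ 8 := by ring
        _ ≤ _ := by gcongr
    have b2 : (#Γ2 : ℝ) ≤ 8 * 64 * 10 ^ 4 * k ^ 7 * A.m * A.lam ^ 8 := by
      refine le_of_mul_le_mul_right (a5.trans ?_) (by positivity)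
      calc 10 ^ 4 * ∑ δ ∈ A.Γ, f δ ≤ 10 ^ 4 * (8 * k ^ 3 * A.m * A.L ^ 2 * A.lam ^ 8) := by gcongr
        _ = _ := by field_simp; ring
    calc 16 * k * #Γ2 ≤ 16 * k * (8 * 64 * 10 ^ 4 * k ^ 7 * A.m * A.lam ^ 8) := by gcongr
      _ = A.m * (16 * 8 * 64 * 10 ^ 4 * k ^ 8 * A.lam ^ 8) := by ring
      _ ≤ A.m * (A.lam ^ 8 * A.lam ^ 8) := by gcongr
      _ = _ := by rw [L]; ring
  have a7 : (#Γ1 : ℝ) ≤ #{δ ∈ A.Γ | 1 / (8 * k ^ 2) * A.L ≤ #{a ∈ A.I | (a, δ) ∈ T'} ∧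
      10 ^ 4 * f δ ≤ (1 / (8 * k ^ 2) * A.L) ^ 2} + #Γ2 := by
    rw [← Nat.cast_add, Nat.cast_le]
    refine (card_le_card fun δ hδ => ?_).trans (card_union_le _ _)
    rw [hΓ1, mem_filter] at hδ
    rw [hΓ2, mem_union, mem_filter, mem_filter]
    tauto
  have a8 := mul_le_mul_of_nonneg_left a7 (by positivity : 0 ≤ 16 * k)
  subst hf
  linarith

lemma ATri_K {k : ℝ} (hk2 : 2 ≤ k) (c : ℝ) (e : ℕ) (hc : c ≤ 2 ^ 60) (he : e ≤ 10) :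
    c * k ^ e ≤ k ^ 70 :=
  calc c * k ^ e ≤ 2 ^ 60 * k ^ 10 := by gcongr; linarith
    _ ≤ k ^ 60 * k ^ 10 := by gcongr
    _ = _ := by ring

/-- the choice of the two base columns -/
lemma ATri_pick {A : AD} {k : ℝ} (h : A.OK k) (hk : k ^ 70 ≤ A.lam) {T' : Finset (ℕ × Ln)}
    (hT : A.Clean (4 * k) T') {κ : ℝ} (hκ : κ = 1 / (8 * k ^ 2)) :
    ∃ j ∈ A.I, ∃ l ∈ A.I, ∃ Gi : ℕ → Finset Ln, (∀ i, ∀ δ ∈ Gi i, δ ∈ A.Γ ∧
      A.Good T' (κ / 10 ^ 4) i j δ ∧ A.Good T' (κ / 10 ^ 4) i l δ ∧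
        A.Good T' (κ / 10 ^ 4) j l δ ∧ A.X j < A.X l) ∧
      A.m * A.L ^ 2 / (32000 * 512 * k ^ 7) ≤ ∑ i ∈ A.I, (#(Gi i) : ℝ) := by
  have hk2 := h.k2
  have hk1 : 1 ≤ k := by linarith
  have hk0 : 0 < k := by linarith
  have hl : 0 < A.lam := by linarith [h.lam1]
  have hL : 0 < A.L := pow_pos hl 16
  have hm : (0 : ℝ) < A.m := by have := h.m2; positivity
  have hκ0 : 0 < κ := by rw [hκ]; positivity
  have h4 : 10 ^ 4 ≤ κ * A.L := by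
    rw [hκ, one_div, ← div_eq_inv_mul, le_div_iff₀ (by positivity), ← mul_assoc]
    exact (ATri_K hk2 _ 2 (by norm_num) (by norm_num)).trans
      (hk.trans (le_self_pow₀ h.lam1 (by norm_num)))
  have a1 := ATri_lines h ((pow_le_pow_right₀ hk1 (by norm_num)).trans hk) hT
  rw [← hκ] at a1
  obtain ⟨P, hP⟩ : ∃ P : (ℕ × ℕ) × ℕ → Ln → Prop, P = fun z δ =>
      A.Good T' (κ / 10 ^ 4) z.2 z.1.1 δ ∧ A.Good T' (κ / 10 ^ 4) z.2 z.1.2 δ ∧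
        A.Good T' (κ / 10 ^ 4) z.1.1 z.1.2 δ ∧ A.X z.1.1 < A.X z.1.2 := ⟨_, rfl⟩
  obtain ⟨c, hc⟩ : ∃ c : ℝ, c = 32000 * 512 * k ^ 7 := ⟨_, rfl⟩
  have hc0 : 0 < c := by rw [hc]; positivity
  have a2 : A.m * A.L ^ 4 / c ≤ ∑ y ∈ A.I ×ˢ A.I, ∑ i ∈ A.I, (#{δ ∈ A.Γ | P (y, i) δ} : ℝ) := by
    rw [← sum_product' (f := fun y i => (#{δ ∈ A.Γ | P (y, i) δ} : ℝ)), ATri_comm]
    refine le_trans ?_ ((card_nsmul_le_sum _ _ ((κ * A.L) ^ 3 / 2000) fun δ hδ => ?_).trans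
      (sum_le_sum_of_subset_of_nonneg (filter_subset (fun δ => κ * A.L ≤ #{a ∈ A.I | (a, δ) ∈ T'} ∧
        10 ^ 4 * (#{z ∈ A.I ×ˢ A.I | δ ∈ A.ty z.1 ∧ δ ∈ A.ty z.2 ∧ ¬ A.Reg z.1 z.2 δ} : ℝ) ≤
          (κ * A.L) ^ 2) _) fun _ _ _ => Nat.cast_nonneg _))
    · rw [nsmul_eq_mul]
      rw [← div_le_iff₀' (by positivity)] at a1
      refine le_trans (le_of_eq ?_) (mul_le_mul_of_nonneg_right a1 (by positivity))
      rw [hc, hκ]; field_simp; ring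
    · rw [mem_filter] at hδ
      rw [div_le_iff₀' (by norm_num)]
      refine (ATri_line h T' δ h4 hδ.2.1 hδ.2.2 hT.sub hδ.1).trans (mul_le_mul_of_nonneg_left
        (Nat.cast_le.2 (card_le_card fun z hz => ?_)) (by norm_num))
      rw [mem_filter] at hz ⊢
      rw [hP]
      exact hz
  obtain ⟨⟨j, l⟩, hjl, a3⟩ := ATri_avg _ _ (N := A.L * A.L) (by positivity) (by
    rw [card_product, Nat.cast_mul]
    have := h.I_card
    gcongr) a2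
  refine ⟨j, (mem_product.1 hjl).1, l, (mem_product.1 hjl).2,
    fun i => {δ ∈ A.Γ | P ((j, l), i) δ}, fun i δ hδ => ?_, ?_⟩
  · rw [mem_filter, hP] at hδ
    exact hδ
  · rw [← hc]
    exact le_of_mul_le_mul_left (le_of_eq_of_le (by ring) a3) (mul_pos hL hL)

lemma ATri_lin {A : AD} {k : ℝ} (h : A.OK k) {T' : Finset (ℕ × Ln)} (hT : A.Clean (4 * k) T')
    {η : ℝ} {i j l : ℕ} {δ : Ln} (hi' : i ∈ A.I) (hj : j ∈ A.I) (hl' : l ∈ A.I) (b0 : δ ∈ A.Γ)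
    (b1 : A.Good T' η i j δ) (b2 : A.Good T' η i l δ) (b3 : A.Good T' η j l δ) :
    |A.err j l i δ| ≤ 3 * max (A.sz j δ) (|A.q j l i| * A.sz l δ) ∧
    |A.err j l i δ| ≤ 3 * max (A.sz j δ) (|A.r j l i| * A.sz i δ) ∧
    |A.err j l i δ| ≤ 3 * max (|A.q j l i| * A.sz l δ) (|A.r j l i| * A.sz i δ) := by
  have hty : ∀ {a δ}, δ ∈ A.Γ → (a, δ) ∈ T' → δ ∈ A.ty a := fun h1 h2 =>
    mem_filter.2 ⟨h1, hT.sub h2⟩
  have hd : A.X l - A.X i ≠ 0 := sub_ne_zero.2 fun e => b2.2.2.1 (h.X_inj _ hl' _ hi' e).symm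
  have ti := hty b0 b1.1
  have tj := hty b0 b1.2.1
  have tl := hty b0 b2.2.1
  have ni := hT.narrow _ b1.1
  have nj := hT.narrow _ b1.2.1
  have nl := hT.narrow _ b2.2.1
  have eq : |A.X i - A.X j| = |A.X l - A.X i| * |A.q j l i| := by
    rw [← abs_mul, q, mul_div_cancel₀ _ hd]
  have er : |A.X l - A.X j| = |A.X l - A.X i| * |A.r j l i| := by
    rw [← abs_mul, r, mul_div_cancel₀ _ hd]
  have ee : (A.X l - A.X i) * A.err j l i δ = (A.X l - A.X i) * A.U j δ +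
      (A.X i - A.X j) * A.U l δ - (A.X l - A.X j) * A.U i δ := by
    rw [err, q, r]; field_simp
  refine ⟨ATri_div hd (h.thick hi' hj hl' tj tl nj nl b3.2.2.2.1) ?_ rfl ?_,
    ATri_div hd (h.thick hl' hj hi' tj ti nj ni b1.2.2.2.1.symm) ?_ ?_ ?_,
    ATri_div hd (h.thick hj hl' hi' tl ti nl ni b2.2.2.2.1.symm) ?_ ?_ ?_⟩
  · rw [ee, ← abs_neg]; congr 1; ring
  · rw [eq, mul_assoc]
  · rw [ee]; congr 1; ring
  · rw [abs_sub_comm]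
  · rw [er, mul_assoc]
  · rw [ee, ← abs_neg]; congr 1; ring
  · rw [eq, mul_assoc]
  · rw [abs_sub_comm, er, mul_assoc]

lemma ATri_rk {A : AD} {k : ℝ} (h : A.OK k) {T' : Finset (ℕ × Ln)} (hT : A.Clean (4 * k) T')
    {κ : ℝ} (hκ : κ = 1 / (8 * k ^ 2)) {Z : Finset Ln} {a b : ℕ} (hZ : ∀ δ ∈ Z, δ ∈ A.Γ)
    (hg : ∀ δ ∈ Z, A.Good T' (κ / 10 ^ 4) a b δ) : A.Rk2 (k ^ 70) Z a b := by
  intro δ _
  have hk2 := h.k2
  have hk0 : 0 < k := by linarith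
  have hL : 0 < A.L := pow_pos (by linarith [h.lam1]) 16
  have hκ0 : 0 < κ := by rw [hκ]; positivity
  have hκ1 : κ ≤ 1 := by rw [hκ, div_le_one (by positivity)]; nlinarith
  have b1 := h.good_dom hT (η := κ / 10 ^ 4) (by positivity) (by linarith) a b δ
  rw [← le_div_iff₀ (by positivity)] at b1
  refine le_trans (mul_le_mul_of_nonneg_right (Nat.cast_le.2 (card_le_card fun δ' hδ' => ?_)) hL.le)
    (b1.trans ?_)
  · rw [mem_filter] at hδ' ⊢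
    exact ⟨hZ δ' hδ'.1, hg δ' hδ'.1, hδ'.2⟩
  · calc 288 * k * A.m / (κ / 10 ^ 4) ^ 3 = 288 * 512 * 10 ^ 12 * k ^ 7 * A.m := by
          rw [hκ]; field_simp; ring
      _ ≤ _ := mul_le_mul_of_nonneg_right (ATri_K hk2 _ 7 (by norm_num) (by norm_num))
          (Nat.cast_nonneg _)

/-- With `k' = 4 k`: lines with at least `κ L` clean columns, `κ = 1 / (2 k k')`, number at least
`m L / (2 k')`.  By `irreg` summed over the `≤ L²` pairs, all but `m L / (4 k')` of them have at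
most `10⁻⁴ κ² L²` irregular pairs (`L = lam ^ 16`, so the total is `8 k³ m L² lam ^ 8`).
`tri_graph` with `D a x y = Dom a x y δ`, `G = Good T' η · · δ`, `η = 10⁻⁴ κ` (`Good` is symmetric,
so half of the ordered triangles `(i, j, l)` have `X j < X l`); average over `(j, l)`, then keep the
columns `i` with many lines.  `rk2` is `good_dom`, `lin` is `thick` for the three pairs divided by
`|X l - X i|`. -/
theorem tri : ∃ C : ℕ, ∀ (A : AD) (k : ℝ), A.OK k → k ^ C ≤ A.lam → ∀ T', A.Clean (4 * k) T' →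
    ∃ j l A0 Gi, A.Tri (k ^ C) j l A0 Gi := by
  refine ⟨70, fun A k h hk T' hT => ?_⟩
  have hk2 := h.k2
  have hk0 : 0 < k := by linarith
  have hl : 0 < A.lam := by linarith [h.lam1]
  have hL : 0 < A.L := pow_pos hl 16
  have hm : (0 : ℝ) < A.m := by have := h.m2; positivity
  have hK := ATri_K hk2
  obtain ⟨κ, hκ⟩ : ∃ κ : ℝ, κ = 1 / (8 * k ^ 2) := ⟨_, rfl⟩
  obtain ⟨j, hj, l, hl', Gi, hG, a4⟩ := ATri_pick h hk hT hκ
  obtain ⟨c, hc⟩ : ∃ c : ℝ, c = 32000 * 512 * k ^ 7 := ⟨_, rfl⟩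
  have hc0 : 0 < c := by rw [hc]; positivity
  rw [← hc] at a4
  have a5 := ATri_pop A.I (fun i => (#(Gi i) : ℝ)) (M := k * A.m * A.L)
    (t := A.m * A.L / (2 * c)) (by positivity) h.I_card
    fun i _ => (Nat.cast_le.2 (card_le_card fun δ hδ => (hG i δ hδ).1)).trans h.Γ_card
  obtain ⟨A0, hA0⟩ : ∃ A0, A0 = {i ∈ A.I | A.m * A.L / (2 * c) ≤ #(Gi i)} := ⟨_, rfl⟩
  rw [← hA0] at a5
  have a6 : A.L ≤ 2 * c * k * #A0 := by
    have b1 : A.m * A.L ^ 2 / (2 * c) ≤ #A0 * (k * A.m * A.L) := by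
      have : A.m * A.L ^ 2 / c - A.L * (A.m * A.L / (2 * c)) = A.m * A.L ^ 2 / (2 * c) := by
        field_simp; ring
      linarith
    rw [div_le_iff₀ (by positivity)] at b1
    refine le_of_mul_le_mul_left ?_ (mul_pos hm hL)
    linarith
  have hA : ∀ i ∈ A0, i ∈ A.I ∧ A.m * A.L ≤ 2 * c * #(Gi i) ∧ ∃ δ, δ ∈ Gi i := fun i hi => by
    rw [hA0, mem_filter] at hi
    refine ⟨hi.1, (div_le_iff₀' (by positivity)).1 hi.2, card_pos.1 ?_⟩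
    exact_mod_cast (by positivity : 0 < A.m * A.L / (2 * c)).trans_le hi.2
  obtain ⟨i₀, hi₀⟩ : A0.Nonempty := by
    rw [nonempty_iff_ne_empty]
    rintro rfl
    simp at a6
    linarith
  obtain ⟨δ₀, hδ₀⟩ := (hA i₀ hi₀).2.2
  have g₀ := (hG i₀ δ₀ hδ₀).2.2.2
  have hty : ∀ {a δ}, δ ∈ A.Γ → (a, δ) ∈ T' → δ ∈ A.ty a := fun h1 h2 =>
    mem_filter.2 ⟨h1, hT.sub h2⟩
  have hrk := fun i a b => ATri_rk h hT hκ (Z := Gi i) (a := a) (b := b) fun δ hδ => (hG i δ hδ).1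
  refine ⟨j, l, A0, Gi, hj, hl', g₀.2, fun i hi => (hA i hi).1, fun hi => ?_, fun hi => ?_,
    a6.trans ?_, hT.far (j, δ₀) g₀.1.1, hT.far (l, δ₀) g₀.1.2.1, fun i _ δ hδ => ?_,
    fun i hi => (hA i hi).2.1.trans ?_, fun i _ δ hδ => ?_, fun i _ => ⟨hrk i j l fun δ hδ => ?_,
      hrk i j i fun δ hδ => ?_, hrk i l i fun δ hδ => ?_⟩, fun i hi δ hδ => ?_⟩
  · obtain ⟨δ, hδ⟩ := (hA j hi).2.2
    exact (hG j δ hδ).2.1.2.2.1 rfl
  · obtain ⟨δ, hδ⟩ := (hA l hi).2.2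
    exact (hG l δ hδ).2.2.1.2.2.1 rfl
  · refine mul_le_mul_of_nonneg_right ?_ (Nat.cast_nonneg _)
    calc 2 * c * k = 2 * 32000 * 512 * k ^ 8 := by rw [hc]; ring
      _ ≤ _ := hK _ 8 (by norm_num) (by norm_num)
  · obtain ⟨b0, b1, b2, -⟩ := hG i δ hδ
    exact ⟨hty b0 b1.1, hty b0 b1.2.1, hty b0 b2.2.1⟩
  · refine mul_le_mul_of_nonneg_right ?_ (Nat.cast_nonneg _)
    calc 2 * c = 2 * 32000 * 512 * k ^ 7 := by rw [hc]; ring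
      _ ≤ _ := hK _ 7 (by norm_num) (by norm_num)
  · obtain ⟨-, b1, b2, -⟩ := hG i δ hδ
    exact ⟨hT.pos (i, δ) b1.1, hT.pos (j, δ) b1.2.1, hT.pos (l, δ) b2.2.1⟩
  · exact (hG i δ hδ).2.2.2.1
  · exact ATri_symm (hG i δ hδ).2.1
  · exact ATri_symm (hG i δ hδ).2.2.1
  · obtain ⟨b0, b1, b2, b3, -⟩ := hG i δ hδ
    exact ATri_lin h hT (hA i hi).1 hj hl' b0 b1 b2 b3

end AD

end Crest.Agent.R051
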