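import Crest.Agent.R051.AWide
import Crest.Agent.R051.ATri
import Crest.Agent.R051.AProf
import Crest.Agent.R051.AScale
import Crest.Agent.R051.ALat
import Crest.Agent.R051.ASM
import Crest.Agent.R051.AGkz
import Crest.Agent.R051.AFC

/-! Row 51: the abstract lemma. -/

set_option autoImplicit false

open Finset
open scoped Classical Pointwise

namespace Crest.Agent.R051

lemma amain_cmp {A : AD} {k k' e : ℝ} {φ : ℝ → ℝ} {a : ℕ} {δ : Ln} (h : A.Cmp k φ a e δ)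
    (h0 : 0 < k) (hk : k ≤ k') (he : 0 ≤ e) (hφ : Monotone φ) (hp : ∀ ρ, 0 ≤ φ ρ) :
    A.Cmp k' φ a e δ := fun ρ hρ => by
  obtain ⟨p, q⟩ := h ρ hρ
  have h1 : φ (k * ρ) ≤ φ (k' * ρ) := hφ (by gcongr)
  have h2 : A.nu a δ (k * ρ * e) ≤ A.nu a δ (k' * ρ * e) := AD.nu_mono a δ (by gcongr)
  have h3 : 0 ≤ A.nu a δ (k * ρ * e) := Nat.cast_nonneg _
  have h4 := hp (k * ρ)
  have h5 : 0 ≤ k' := h0.le.trans hk
  exact ⟨p.trans (by gcongr), q.trans (by gcongr)⟩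

lemma amain_prof0 {A : AD} {k k' : ℝ} {j l : ℕ} {A1 : Finset ℕ} {Gi : ℕ → Finset Ln}
    {φ : ℝ → ℝ} (h : A.Prof0 k j l A1 Gi φ) (h0 : 0 < k) (hk : k ≤ k') (hL : 0 ≤ A.L) :
    A.Prof0 k' j l A1 Gi φ := by
  have hp : ∀ ρ, 0 ≤ φ ρ := fun ρ => (Nat.cast_nonneg _).trans (h.lower ρ)
  refine ⟨h.tri.mono hk, h.mono, h.lower, fun ρ => (h.upper ρ).trans (by gcongr), h.small, ?_,
    fun i hi δ hδ => amain_cmp (h.cj i hi δ hδ) h0 hk zero_le_one h.mono hp,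
    fun i hi δ hδ i' hi' => amain_cmp (h.cl i hi δ hδ i' hi') h0 hk (by positivity) h.mono hp,
    fun i hi δ hδ => amain_cmp (h.ci i hi δ hδ) h0 hk (by positivity) h.mono hp,
    fun i hi δ hδ => ?_⟩
  · obtain ⟨b, hb, hb'⟩ := h.large
    have := hp b
    exact ⟨b, hb, hb'.trans (by gcongr)⟩
  · exact (h.mono (by gcongr)).trans ((h.err i hi δ hδ).trans (by gcongr))

lemma amain_rh {k k' L : ℝ} {ψ : ℝ → ℝ} {A : Finset ℤ} {I : Finset ℕ} {x : ℕ → ℝ}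
    (h : RH k L ψ A I x) (hk : k ≤ k') (hL : 0 ≤ L) : RH k' L ψ A I x := by
  have hp : ∀ {D : ℝ}, 1 ≤ D → 0 ≤ ψ D := fun hD => zero_le_one.trans (h.psi.pos hD)
  refine ⟨h.psi.mono_k hk, h.big.trans (by gcongr), h.dbl.trans (by gcongr),
    fun p D hD => (h.up p D hD).trans ?_, fun D hD => (h.pack D hD).trans (by gcongr),
    h.Ibig.trans (by gcongr), h.x1, fun i hi => (h.cov i hi).mono hk,
    fun ω D p h1 h2 hD => (h.clus ω D p h1 h2 hD).trans ?_⟩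
  · have := hp hD
    gcongr
  · have := hp hD
    gcongr

lemma amain_rl2 {k k' L : ℝ} {ψ : ℝ → ℝ} {I : Finset ℕ} {x : ℕ → ℝ} {ρ0 ω1 : ℝ}
    (h : RL2 k L ψ I x ρ0 ω1) (hk : k ≤ k') (hL : 0 ≤ L) : RL2 k' L ψ I x ρ0 ω1 := by
  have hp : ∀ {D : ℝ}, 1 ≤ D → 0 ≤ ψ D := fun hD => zero_le_one.trans (h.psi.pos hD)
  refine ⟨h.psi.mono_k hk, h.Ibig.trans (by gcongr), h.x1, h.r1, h.top.trans ?_,
    fun ω D h1 h2 hD => (h.sm ω D h1 h2 hD).trans ?_,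
    fun ω p h1 h2 => (h.conc ω p h1 h2).trans ?_, h.w1, h.w1'.trans hk,
    fun ω ρ c Xs h1 h2 h3 h4 => (h.loc ω ρ c Xs h1 h2 h3 h4).trans ?_⟩
  · have := hp h.r1
    gcongr
  · have := hp hD
    gcongr
  · have := hp h1
    gcongr
  · have h5 : ω1 * ρ0 ≤ ρ * ρ0 :=
      mul_le_mul_of_nonneg_right (h1.trans h2) (zero_le_one.trans h.r1)
    have := hp (D := ρ * ρ0) (by linarith [h.w1])
    gcongr

lemma amain_pow {k : ℝ} (hk : 2 ≤ k) (c : ℕ) :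
    k ≤ k ^ (c + 1) ∧ k ^ c ≤ k ^ (c + 1) ∧ 0 < k ^ c :=
  ⟨le_self_pow₀ (by linarith) (by omega), pow_le_pow_right₀ (by linarith) (by omega),
    pow_pos (by linarith) c⟩

/-- chain `clean, tri, prof0, prof, lat, rl2, gkz, fc` (use `OK.mono`, `Prof.mono`,
`lam ≤ L`; the final exponent is the product of all exponents, each replaced by `· + 1`) -/
theorem AD.main : ∃ C : ℕ, ∀ (A : AD) (k : ℝ), A.OK k → k ^ C ≤ A.lam → False := by
  obtain ⟨c1, h1⟩ := AD.clean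
  obtain ⟨c2, h2⟩ := AD.tri
  obtain ⟨c3, h3⟩ := AD.prof0
  obtain ⟨c4, h4⟩ := AD.prof
  obtain ⟨c5, h5⟩ := AD.lat
  obtain ⟨c6, h6⟩ := rl2
  obtain ⟨c7, h7⟩ := gkz
  obtain ⟨c8, h8⟩ := AD.fc
  refine ⟨(c2 + 1) * (c3 + 1) * (c4 + 1) * (c5 + 1) * (c6 + 1) * (c7 + 1) * (c8 + 1) + c1,
    fun A k hA hlam => ?_⟩
  have k0 := hA.k2
  have hL := hA.L1
  have hlL : A.lam ≤ A.L := le_self_pow₀ hA.lam1 (by norm_num)
  have e1 : k ^ c1 ≤ A.lam := (pow_le_pow_right₀ (by linarith) (by omega)).trans hlam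
  have e2 := (pow_le_pow_right₀ (by linarith : (1 : ℝ) ≤ k) (Nat.le_add_right _ c1)).trans hlam
  simp only [pow_mul] at e2
  obtain ⟨a1, b1, -⟩ := amain_pow k0 c2
  generalize k ^ (c2 + 1) = k1 at *
  have k1' := k0.trans a1
  obtain ⟨a2, b2, d2⟩ := amain_pow k1' c3
  generalize k1 ^ (c3 + 1) = k2 at *
  have k2' := k1'.trans a2
  obtain ⟨a3, b3, -⟩ := amain_pow k2' c4
  generalize k2 ^ (c4 + 1) = k3 at *
  have k3' := k2'.trans a3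
  obtain ⟨a4, b4, -⟩ := amain_pow k3' c5
  generalize k3 ^ (c5 + 1) = k4 at *
  have k4' := k3'.trans a4
  obtain ⟨a5, b5, -⟩ := amain_pow k4' c6
  generalize k4 ^ (c6 + 1) = k5 at *
  have k5' := k4'.trans a5
  obtain ⟨a6, b6, -⟩ := amain_pow k5' c7
  generalize k5 ^ (c7 + 1) = k6 at *
  have k6' := k5'.trans a6
  obtain ⟨a7, b7, -⟩ := amain_pow k6' c8
  obtain ⟨T', hT⟩ := h1 A k hA e1
  obtain ⟨j, l, A0, G0, ht⟩ := h2 A k hA (by linarith) T' hT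
  obtain ⟨A1, G1, φ, hp0⟩ := h3 A k1 (hA.mono a1) j l A0 G0 (ht.mono b1)
  obtain ⟨e0, ψ, hp⟩ := h4 A k2 (hA.mono (by linarith)) (by linarith) j l A1 G1 φ
    (amain_prof0 hp0 d2 b2 (by linarith))
  obtain ⟨i0, hi0, A', I', hr⟩ := h5 A k3 (hA.mono (by linarith)) j l A1 G1 e0 ψ (hp.mono b3)
  obtain ⟨ρ0, ω1, hr2⟩ := h6 k4 A.L ψ A' I' _ k4' (by linarith) (amain_rh hr b4 (by linarith))
  obtain ⟨R, r1, r2, r3⟩ := h7 k5 A.L ψ I' _ ρ0 ω1 k5' (by linarith)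
    (amain_rl2 hr2 b5 (by linarith))
  have hψ : 0 ≤ ψ R := zero_le_one.trans (hp.psi.pos r1)
  refine h8 A k6 (hA.mono (by linarith)) (by linarith) j l A1 G1 e0 ψ (hp.mono (by linarith)) i0 hi0
    R r1 (r2.trans (by gcongr)) fun D d1 d2 => (r3 D d1 d2).trans ?_
  have : 0 ≤ R + A.L * D := by positivity
  gcongr

end Crest.Agent.R051
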