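import Crest.Agent.R051.ACol

/-! Row 51: consequences of the cubic incidence bound, wide cells, first cleaning. -/

set_option autoImplicit false

open Finset
open scoped Classical Pointwise

namespace Crest.Agent.R051

namespace AD

variable {A : AD} {k : ℝ}

/-- Hölder (power mean, `pow_sum_le_card_mul_sum_pow` or `inner_le_nnorm_mul_nnorm`-free version
`Finset.pow_sum_le_card_mul_sum_pow`) over the listed coarse cells, then `p5` -/
lemma OK.p5_cells (h : A.OK k) (a : ℕ) (ha : 1 ≤ a) (Γ' : Finset Ln) (hΓ : Γ' ⊆ A.Γ)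
    (F : Finset (ℕ × ℕ)) (N : Finset (ℕ × Ln))
    (hN : ∀ x ∈ N, x ∈ A.T ∧ x.2 ∈ Γ' ∧ (x.1, A.rk x.1 x.2 / (a * A.m)) ∈ F) :
    (#N : ℝ) ^ 3 ≤ (#F : ℝ) ^ 2 * (k * a ^ 2 * #Γ' * (#Γ' + A.m / A.L) * A.m) := by
  set c : ℕ × ℕ → ℕ := fun y => #{δ ∈ Γ' | (y.1, δ) ∈ A.T ∧ A.rk y.1 δ / (a * A.m) = y.2} with hc
  set F' := F ∩ A.I ×ˢ range (#A.Γ + 1) with hF'
  have h1 : #N ≤ ∑ y ∈ F', c y := by
    rw [card_eq_sum_card_fiberwise (f := fun x : ℕ × Ln => (x.1, A.rk x.1 x.2 / (a * A.m)))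
      (s := N) (t := F') ?_]
    · refine sum_le_sum fun y _ => card_le_card_of_injOn Prod.snd ?_ ?_
      · intro x hx
        obtain ⟨hx1, rfl⟩ := mem_filter.1 (mem_coe.1 hx)
        exact mem_coe.2 (mem_filter.2 ⟨(hN x hx1).2.1, (hN x hx1).1, rfl⟩)
      · intro x hx x' hx' he
        have e1 := congrArg Prod.fst (mem_filter.1 (mem_coe.1 hx)).2
        have e2 := congrArg Prod.fst (mem_filter.1 (mem_coe.1 hx')).2
        exact Prod.ext (e1.trans e2.symm) he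
    · intro x hx
      obtain ⟨h1, _, h3⟩ := hN x hx
      refine mem_coe.2 (mem_inter.2 ⟨h3, mem_product.2 ⟨(h.mem_T h1).1, mem_range.2 ?_⟩⟩)
      refine Nat.lt_succ_of_le ((Nat.div_le_self _ _).trans ?_)
      exact card_le_card ((filter_subset _ _).trans (filter_subset _ _))
  have h2 : (#N : ℝ) ≤ ∑ y ∈ F', (c y : ℝ) := by exact_mod_cast h1
  have h3 : ∑ y ∈ F', (c y : ℝ) ^ 3 ≤ k * a ^ 2 * #Γ' * (#Γ' + A.m / A.L) * A.m := by
    refine le_trans ?_ (h.p5 a ha Γ' hΓ)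
    rw [← sum_product' (f := fun i q => (c (i, q) : ℝ) ^ 3)]
    exact sum_le_sum_of_subset_of_nonneg inter_subset_right fun _ _ _ => by positivity
  have h4 : (#F' : ℝ) ≤ #F := by exact_mod_cast card_le_card inter_subset_left
  calc (#N : ℝ) ^ 3 ≤ (∑ y ∈ F', (c y : ℝ)) ^ 3 := pow_le_pow_left₀ (by positivity) h2 3
    _ ≤ (#F' : ℝ) ^ 2 * ∑ y ∈ F', (c y : ℝ) ^ 3 :=
        pow_sum_le_card_mul_sum_pow (fun _ _ => by positivity) 2
    _ ≤ _ := mul_le_mul (pow_le_pow_left₀ (by positivity) h4 2) h3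
        (sum_nonneg fun _ _ => by positivity) (by positivity)

/-- one interval of mass at most `a m` in each column of `J`: the ranks of the lines in it fill
an integer interval of length `≤ a m`, which meets at most two coarse cells -/
lemma OK.p5_int (h : A.OK k) (a : ℕ) (ha : 1 ≤ a) (Γ' : Finset Ln) (hΓ : Γ' ⊆ A.Γ)
    (J : Finset ℕ) (p R : ℕ → ℝ)
    (hm : ∀ i ∈ J, (#{δ ∈ A.ty i | |A.U i δ - p i| ≤ R i} : ℝ) ≤ a * A.m)
    (N : Finset (ℕ × Ln))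
    (hN : ∀ x ∈ N, x ∈ A.T ∧ x.1 ∈ J ∧ x.2 ∈ Γ' ∧ |A.U x.1 x.2 - p x.1| ≤ R x.1) :
    (#N : ℝ) ^ 3 ≤ 4 * (#J : ℝ) ^ 2 * (k * a ^ 2 * #Γ' * (#Γ' + A.m / A.L) * A.m) := by
  have ham : 0 < a * A.m := Nat.mul_pos ha (lt_of_lt_of_le two_pos h.m2)
  have hq : ∀ i, ∃ q : ℕ, i ∈ J → ∀ δ ∈ A.ty i, |A.U i δ - p i| ≤ R i →
      A.rk i δ / (a * A.m) = q ∨ A.rk i δ / (a * A.m) = q + 1 := by
    intro i
    rcases ({δ ∈ A.ty i | |A.U i δ - p i| ≤ R i} : Finset Ln).eq_empty_or_nonempty with he | hne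
    · exact ⟨0, fun _ δ h1 h2 => absurd (he ▸ mem_filter.2 ⟨h1, h2⟩) (notMem_empty δ)⟩
    obtain ⟨δ₀, h0, hmin⟩ := exists_min_image _ (A.U i) hne
    refine ⟨A.rk i δ₀ / (a * A.m), fun hi δ h1 h2 => ?_⟩
    have h3 := rk_sub (hmin δ (mem_filter.2 ⟨h1, h2⟩))
    have h4 : #{δ'' ∈ A.ty i | A.U i δ₀ ≤ A.U i δ'' ∧ A.U i δ'' < A.U i δ} ≤
        #{δ ∈ A.ty i | |A.U i δ - p i| ≤ R i} := by
      refine card_le_card fun x hx => ?_
      obtain ⟨e1, e2, e3⟩ := mem_filter.1 hx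
      refine mem_filter.2 ⟨e1, abs_le.2 ⟨?_, ?_⟩⟩
      · linarith [(abs_le.1 (mem_filter.1 h0).2).1]
      · linarith [(abs_le.1 h2).2]
    have h5 : #{δ ∈ A.ty i | |A.U i δ - p i| ≤ R i} ≤ a * A.m := by exact_mod_cast hm i hi
    have h6 : A.rk i δ₀ / (a * A.m) ≤ A.rk i δ / (a * A.m) := Nat.div_le_div_right (by omega)
    have h7 : A.rk i δ / (a * A.m) ≤ A.rk i δ₀ / (a * A.m) + 1 := by
      rw [← Nat.add_div_right _ ham]
      exact Nat.div_le_div_right (by omega)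
    omega
  choose q hq using hq
  have h1 := h.p5_cells a ha Γ' hΓ
    (J.image (fun i => (i, q i)) ∪ J.image fun i => (i, q i + 1)) N fun x hx => by
      obtain ⟨e1, e2, e3, e4⟩ := hN x hx
      refine ⟨e1, e3, ?_⟩
      rcases hq x.1 e2 x.2 (h.mem_T e1).2 e4 with e | e
      · exact mem_union_left _ (mem_image.2 ⟨x.1, e2, by rw [e]⟩)
      · exact mem_union_right _ (mem_image.2 ⟨x.1, e2, by rw [e]⟩)
  have h2 : #(J.image (fun i => (i, q i)) ∪ J.image fun i => (i, q i + 1)) ≤ 2 * #J := by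
    refine (card_union_le _ _).trans ?_
    rw [two_mul]
    exact add_le_add card_image_le card_image_le
  have h3 : (#(J.image (fun i => (i, q i)) ∪ J.image fun i => (i, q i + 1)) : ℝ) ≤ 2 * #J := by
    exact_mod_cast h2
  have hk : 0 ≤ k := by linarith [h.k2]
  have hL : 0 ≤ A.L := by linarith [h.L1]
  refine h1.trans (mul_le_mul_of_nonneg_right ?_ (by positivity))
  exact (pow_le_pow_left₀ (by positivity) h3 2).trans (le_of_eq (by ring))

end AD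

end Crest.Agent.R051
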