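import Crest.Agent.R051.ADefs
import Crest.Agent.R070.SPPiece

/-! Row 51: the covering ring and the energy of ring elements (model: R070/SPRing). -/

set_option autoImplicit false

open Finset
open scoped Classical Pointwise

namespace Crest.Agent.R051

/-- `H = A - A` is symmetric and `H + H ⊆ F + H` with `#F ≤ k ^ 5` (Ruzsa covering, `sp_pr`) -/
lemma ag_of_dbl {k : ℝ} {A : Finset ℤ} (hA : A.Nonempty) (hd : (#(A - A) : ℝ) ≤ k * #A) :
    ∃ F : Finset ℤ, (#F : ℝ) ≤ k ^ 5 ∧ ∀ h1 ∈ A - A, ∀ h2 ∈ A - A, ∃ f ∈ F, h1 + h2 - f ∈ A - A := by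
  have hsub : (A - A + (A - A)) + A ⊆ 3 • A - 2 • A := by
    intro x hx
    obtain ⟨y, hy, z, hz, rfl⟩ := mem_add.1 hx
    obtain ⟨y1, hy1, y2, hy2, rfl⟩ := mem_add.1 hy
    obtain ⟨a1, ha1, b1, hb1, rfl⟩ := mem_sub.1 hy1
    obtain ⟨a2, ha2, b2, hb2, rfl⟩ := mem_sub.1 hy2
    rw [succ_nsmul, two_nsmul]
    exact mem_sub.2 ⟨a1 + a2 + z, add_mem_add (add_mem_add ha1 ha2) hz, b1 + b2,
      add_mem_add hb1 hb2, by abel⟩
  have hcard : (#((A - A + (A - A)) + A) : ℝ) ≤ k ^ 5 * #A :=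
    le_trans (by exact_mod_cast card_le_card hsub) (R070.sp_pr A k hA hd 3 2)
  obtain ⟨F, -, hF1, hF2⟩ := ruzsa_covering_add hA hcard
  refine ⟨F, hF1, fun h1 hh1 h2 hh2 => ?_⟩
  obtain ⟨φ, hφ, y, hy, e⟩ := mem_add.1 (hF2 (add_mem_add hh1 hh2))
  refine ⟨φ, hφ, ?_⟩
  rw [← e, add_sub_cancel_left]
  exact hy

lemma Cov.neg {k s : ℝ} {A : Finset ℤ} (h : Cov k s (A - A)) : Cov k (-s) (A - A) := by
  obtain ⟨T, a1, b1⟩ := h
  refine ⟨T, a1, fun g hg => ?_⟩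
  have hg' : -g ∈ A - A := by
    obtain ⟨a, ha, b, hb, rfl⟩ := mem_sub.1 hg
    rw [neg_sub]
    exact sub_mem_sub hb ha
  obtain ⟨x, hx, g', hg', c1⟩ := b1 (-g) hg'
  refine ⟨x, hx, g', hg', ?_⟩
  have e : -s * (g : ℝ) = s * ((-g : ℤ) : ℝ) := by push_cast; ring
  rw [e]
  exact c1

lemma Cov.add {k s t : ℝ} {A : Finset ℤ} (hk : 2 ≤ k) (hA : A.Nonempty)
    (hd : (#(A - A) : ℝ) ≤ k * #A) (h1 : Cov k s (A - A)) (h2 : Cov k t (A - A)) :
    Cov (k ^ 7) (s + t) (A - A) := by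
  obtain ⟨T1, a1, b1⟩ := h1
  obtain ⟨T2, a2, b2⟩ := h2
  obtain ⟨T0, a0, b0⟩ := ag_of_dbl hA hd
  have hk0 : 0 ≤ k := by linarith
  refine ⟨T1 + T2 + T0.image (fun z : ℤ => (z : ℝ)), ?_, fun h hh => ?_⟩
  · have h3 : (#(T1 + T2 + T0.image (fun z : ℤ => (z : ℝ))) : ℝ) ≤ #T1 * #T2 * #T0 := by
      exact_mod_cast card_add_le.trans (Nat.mul_le_mul card_add_le card_image_le)
    have h4 : (#T1 : ℝ) * #T2 * #T0 ≤ k * k * k ^ 5 := by gcongr
    calc _ ≤ k * k * k ^ 5 := h3.trans h4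
      _ = k ^ 7 := by ring
  · obtain ⟨x, hx, g, hg, c1⟩ := b1 h hh
    obtain ⟨y, hy, g', hg', c2⟩ := b2 h hh
    obtain ⟨z, hz, c0⟩ := b0 g hg g' hg'
    refine ⟨_, add_mem_add (add_mem_add hx hy) (mem_image_of_mem _ hz), _, c0, ?_⟩
    have e : (s + t) * (h : ℝ) - (x + y + z) - ((g + g' - z : ℤ) : ℝ) =
        (s * h - x - g) + (t * h - y - g') := by
      push_cast; ring
    rw [e]
    refine (abs_add_le _ _).trans ?_
    have h5 : k ^ 2 ≤ k ^ 7 := pow_le_pow_right₀ (by linarith) (by norm_num)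
    nlinarith

lemma Cov.mul {k s t : ℝ} {H : Finset ℤ} (hk : 2 ≤ k) (h1 : Cov k s H) (h2 : Cov k t H)
    (ht : |t| ≤ k) : Cov (k ^ 3) (t * s) H := by
  obtain ⟨T1, a1, b1⟩ := h1
  obtain ⟨T2, a2, b2⟩ := h2
  refine ⟨image₂ (fun x y => t * x + y) T1 T2, ?_, fun h hh => ?_⟩
  · have h3 : (#(image₂ (fun x y => t * x + y) T1 T2) : ℝ) ≤ #T1 * #T2 := by
      exact_mod_cast card_image₂_le _ _ _
    have h4 : (#T1 : ℝ) * #T2 ≤ k * k := by gcongr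
    nlinarith
  · obtain ⟨x, hx, g, hg, c1⟩ := b1 h hh
    obtain ⟨y, hy, g', hg', c2⟩ := b2 g hg
    refine ⟨_, mem_image₂_of_mem hx hy, g', hg', ?_⟩
    have e : (t * s) * (h : ℝ) - (t * x + y) - g' = t * (s * h - x - g) + (t * g - y - g') := by
      ring
    rw [e]
    refine (abs_add_le _ _).trans ?_
    rw [abs_mul]
    have h5 : |t| * |s * h - x - g| ≤ k * k := by gcongr
    nlinarith

theorem cov_rp : ∃ C : ℕ, ∀ (k : ℝ) (A : Finset ℤ) (I : Finset ℕ) (x : ℕ → ℝ), 2 ≤ k →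
    A.Nonempty → (#(A - A) : ℝ) ≤ k * #A → (∀ i ∈ I, |x i| ≤ 1 ∧ Cov k (x i) (A - A)) →
    ∀ y, RP I x y → Cov (k ^ C) y (A - A) := by
  refine ⟨7 ^ 4, fun k A I x hk hA hd hx y hy => ?_⟩
  have hk1 : 1 ≤ k := by linarith
  have h2 : ∀ m : ℕ, k ≤ k ^ (7 ^ m) := fun m =>
    le_self_pow₀ hk1 (pow_pos (by norm_num) m).ne'
  have h3 : ∀ m : ℕ, k ^ (7 ^ (m + 1)) = (k ^ (7 ^ m)) ^ 7 := fun m => by
    rw [pow_succ, pow_mul]
  have hadd : ∀ (m : ℕ) {s t : ℝ}, Cov (k ^ (7 ^ m)) s (A - A) → Cov (k ^ (7 ^ m)) t (A - A) →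
      Cov (k ^ (7 ^ (m + 1))) (s + t) (A - A) := by
    intro m s t hs ht
    rw [h3]
    exact hs.add (hk.trans (h2 m)) hA
      (hd.trans (mul_le_mul_of_nonneg_right (h2 m) (Nat.cast_nonneg _))) ht
  have hsub : ∀ (m : ℕ) {s t : ℝ}, Cov (k ^ (7 ^ m)) s (A - A) → Cov (k ^ (7 ^ m)) t (A - A) →
      Cov (k ^ (7 ^ (m + 1))) (s - t) (A - A) := by
    intro m s t hs ht
    rw [sub_eq_add_neg]
    exact hadd m hs ht.neg
  have hup : ∀ (m : ℕ) {s : ℝ}, Cov (k ^ (7 ^ m)) s (A - A) →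
      Cov (k ^ (7 ^ (m + 1))) s (A - A) := by
    intro m s hs
    exact hs.mono (pow_le_pow_right₀ hk1 (Nat.pow_le_pow_right (by norm_num) (by omega)))
  have hmul : ∀ (m : ℕ) {s : ℝ}, Cov (k ^ (7 ^ m)) s (A - A) → ∀ i ∈ I,
      Cov (k ^ (7 ^ (m + 1))) (s * x i) (A - A) := by
    intro m s hs i hi
    rw [h3, mul_comm]
    have h4 := hk.trans (h2 m)
    refine (Cov.mul h4 hs ((hx i hi).2.mono (h2 m)) ((hx i hi).1.trans (by linarith))).mono ?_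
    exact pow_le_pow_right₀ (by linarith) (by norm_num)
  have h0 : ∀ i ∈ I, Cov (k ^ (7 ^ 0)) (x i) (A - A) := fun i hi => (hx i hi).2.mono (h2 0)
  obtain ⟨i1, m1, i2, m2, i3, m3, i4, m4, i5, m5, i6, m6, ε, μ, hε, hμ, rfl⟩ := hy
  have hu := hsub 0 (h0 i3 m3) (h0 i4 m4)
  have hv := hsub 0 (h0 i1 m1) (h0 i2 m2)
  have hμu : Cov (k ^ (7 ^ 2)) (μ * (x i3 - x i4)) (A - A) := by
    rcases hμ with rfl | rfl
    · rw [one_mul]; exact hup 1 hu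
    · rw [two_mul]; exact hadd 1 hu hu
  have hεu : Cov (k ^ (7 ^ 2)) (x i1 - x i2 + ε * (x i3 - x i4)) (A - A) := by
    rcases hε with rfl | rfl
    · rw [zero_mul, add_zero]; exact hup 1 hv
    · rw [one_mul]; exact hadd 1 hv hu
  exact hsub 3 (hmul 2 hμu i5 m5) (hmul 2 hεu i6 m6)

/-- Classes `⌊z / D⌋` of `z ∈ (A - A) - (A - A)`: a fullest class `F` of `A` has
`#F ≥ #A ψ D / (k L)`; translates `z + F` for representatives of classes in one residue mod 3 are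
disjoint subsets of `3 • A - 2 • A`, of size `≤ k ^ 5 #A`. -/
lemma classes_le {k L D ψD : ℝ} {A : Finset ℤ} (hk : 2 ≤ k) (hA : A.Nonempty) (hD : 1 ≤ D)
    (hψ : 0 < ψD) (hd : (#(A - A) : ℝ) ≤ k * #A)
    (hp : (#(A.image fun a : ℤ => ⌊(a : ℝ) / D⌋) : ℝ) * ψD ≤ k * L) :
    (#(((A - A) - (A - A)).image fun a : ℤ => ⌊(a : ℝ) / D⌋) : ℝ) * ψD ≤ 3 * k ^ 6 * L := by
  have hD0 : 0 < D := by linarith
  have hk0 : 0 ≤ k := by linarith
  set c : ℤ → ℤ := fun a : ℤ => ⌊(a : ℝ) / D⌋ with hc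
  set Z := (A - A) - (A - A) with hZ
  obtain ⟨q0, hq0, hmax⟩ := exists_max_image (A.image c) (fun q => #{a ∈ A | c a = q})
    (hA.image c)
  set F := {a ∈ A | c a = q0} with hF
  have hFne : F.Nonempty := by
    obtain ⟨a, ha, e⟩ := mem_image.1 hq0
    exact ⟨a, mem_filter.2 ⟨ha, e⟩⟩
  have hAF : #A ≤ #(A.image c) * #F := by
    rw [card_eq_sum_card_image c A]
    exact (sum_le_card_nsmul _ _ _ hmax).trans (by rw [smul_eq_mul])
  obtain ⟨R, hRZ, hRinj, hRim⟩ := exists_subset_injOn_image_eq_of_surjOn (f := c) (Z : Set ℤ)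
    (Z.image c) (by rw [coe_image]; exact Set.surjOn_image _ _)
  have hRc : #(Z.image c) = #R := by rw [← hRim, card_image_of_injOn hRinj]
  have hcount : #R * #F ≤ #(3 • A - 2 • A) * 2 := by
    refine card_mul_le_card_mul (fun z y => y - z ∈ F) (fun z hz => ?_) fun y _ => ?_
    · refine card_le_card_of_injOn (fun f => f + z) (fun f hf => ?_)
        fun a _ b _ h => add_right_cancel h
      refine mem_coe.2 ((mem_bipartiteAbove _).2 ⟨?_, by simpa using hf⟩)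
      obtain ⟨y1, hy1, y2, hy2, rfl⟩ := mem_sub.1 (mem_coe.1 (hRZ (mem_coe.2 hz)))
      obtain ⟨a1, ha1, b1, hb1, rfl⟩ := mem_sub.1 hy1
      obtain ⟨a2, ha2, b2, hb2, rfl⟩ := mem_sub.1 hy2
      rw [succ_nsmul, two_nsmul]
      exact mem_sub.2 ⟨a1 + b2 + f, add_mem_add (add_mem_add ha1 hb2)
        (mem_filter.1 (mem_coe.1 hf)).1, b1 + a2, add_mem_add hb1 ha2, by ring⟩
    · have h2 : #({c y - q0 - 1, c y - q0} : Finset ℤ) ≤ 2 := card_le_two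
      refine le_trans (card_le_card_of_injOn c (fun z hz => ?_) (hRinj.mono fun z hz => ?_)) h2
      · obtain ⟨-, hz2⟩ := (mem_bipartiteBelow _).1 (mem_coe.1 hz)
        have h3 : c (y - z) = q0 := (mem_filter.1 hz2).2
        have e : ((y - z : ℤ) : ℝ) / D = (y : ℝ) / D - (z : ℝ) / D := by push_cast; ring
        have a1 := Int.floor_le (((y - z : ℤ) : ℝ) / D)
        have a2 := Int.lt_floor_add_one (((y - z : ℤ) : ℝ) / D)
        have b1 := Int.floor_le ((y : ℝ) / D)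
        have b2 := Int.lt_floor_add_one ((y : ℝ) / D)
        have c1 := Int.floor_le ((z : ℝ) / D)
        have c2 := Int.lt_floor_add_one ((z : ℝ) / D)
        change ((c (y - z) : ℤ) : ℝ) ≤ _ at a1
        change _ < ((c (y - z) : ℤ) : ℝ) + 1 at a2
        change ((c y : ℤ) : ℝ) ≤ _ at b1
        change _ < ((c y : ℤ) : ℝ) + 1 at b2
        change ((c z : ℤ) : ℝ) ≤ _ at c1
        change _ < ((c z : ℤ) : ℝ) + 1 at c2
        rw [h3, e] at a1 a2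
        have d1 : ((c z : ℤ) : ℝ) < ((c y - q0 + 1 : ℤ) : ℝ) := by push_cast; linarith
        have d2 : ((c y - q0 - 2 : ℤ) : ℝ) < ((c z : ℤ) : ℝ) := by push_cast; linarith
        have d3 := Int.cast_lt.1 d1
        have d4 := Int.cast_lt.1 d2
        simp only [coe_insert, coe_singleton, Set.mem_insert_iff, Set.mem_singleton_iff]
        omega
      · exact mem_coe.2 ((mem_bipartiteBelow _).1 (mem_coe.1 hz)).1
  have hpr : (#(3 • A - 2 • A) : ℝ) ≤ k ^ (3 + 2) * #A := R070.sp_pr A k hA hd 3 2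
  have hFp : (0 : ℝ) < #F := by exact_mod_cast hFne.card_pos
  have h5 : (#R : ℝ) ≤ 2 * k ^ 5 * #(A.image c) := by
    refine le_of_mul_le_mul_right ?_ hFp
    have e1 : (#R : ℝ) * #F ≤ #(3 • A - 2 • A) * 2 := by exact_mod_cast hcount
    have e2 : (#A : ℝ) ≤ #(A.image c) * #F := by exact_mod_cast hAF
    calc (#R : ℝ) * #F ≤ k ^ (3 + 2) * #A * 2 := e1.trans (by gcongr)
      _ ≤ k ^ (3 + 2) * (#(A.image c) * #F) * 2 := by gcongr
      _ = _ := by ring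
  have hkL : 0 ≤ k * L := le_trans (by positivity) hp
  rw [hRc]
  calc (#R : ℝ) * ψD ≤ 2 * k ^ 5 * #(A.image c) * ψD := by gcongr
    _ = 2 * k ^ 5 * (#(A.image c) * ψD) := by ring
    _ ≤ 2 * k ^ 5 * (k * L) := by gcongr
    _ ≤ 3 * k ^ 5 * (k * L) := by gcongr; norm_num
    _ = _ := by ring

/-- Cauchy-Schwarz over the fibres of a map -/
lemma ARing_cs {α β : Type*} [DecidableEq β] (P : Finset α) (g : α → β) :
    #P ^ 2 ≤ #(P.image g) * #{pp ∈ P ×ˢ P | g pp.1 = g pp.2} := by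
  have e : #{pp ∈ P ×ˢ P | g pp.1 = g pp.2} = ∑ q ∈ P.image g, #{p ∈ P | g p = q} ^ 2 := by
    rw [card_eq_sum_card_fiberwise (f := fun pp : α × α => g pp.1) (t := P.image g)
      (fun pp hpp => mem_coe.2 (mem_image_of_mem _
        (mem_product.1 (mem_filter.1 (mem_coe.1 hpp)).1).1))]
    refine sum_congr rfl fun q _ => ?_
    rw [sq, ← card_product]
    congr 1
    ext pp
    simp only [mem_filter, mem_product]
    constructor
    · rintro ⟨⟨⟨h1, h2⟩, h3⟩, h4⟩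
      exact ⟨⟨h1, h4⟩, h2, h3 ▸ h4⟩
    · rintro ⟨⟨h1, h4⟩, h2, h3⟩
      exact ⟨⟨⟨h1, h2⟩, h4.trans h3.symm⟩, h4⟩
  rw [e, card_eq_sum_card_image g P]
  exact sq_sum_le_card_mul_sum_sq

/-- with `s0 ∈ S`, `s1 - x s3 = const - t + z ± k` with `t ∈ T`, `z ∈ (A - A) - (A - A)`; so
`⌊(s1 - x s3) / D⌋` takes at most `k (2 k + 3) · classes` values; Cauchy-Schwarz -/
theorem energy_lower {k L D ψD x : ℝ} {A S : Finset ℤ} (hk : 2 ≤ k) (hS : S ⊆ A) (hD : 1 ≤ D)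
    (hψ : 0 < ψD) (hd : (#(A - A) : ℝ) ≤ k * #A)
    (hp : (#(A.image fun a : ℤ => ⌊(a : ℝ) / D⌋) : ℝ) * ψD ≤ k * L) (hx : Cov k x (A - A)) :
    (#S : ℝ) ^ 4 * ψD ≤ k ^ 12 * L * En S x D := by
  have hD0 : 0 < D := by linarith
  have hk0 : 0 < k := by linarith
  have hkL : 0 ≤ k * L := le_trans (by positivity) hp
  have hL : 0 ≤ L := by
    by_contra h0
    exact absurd hkL (not_le.2 (mul_neg_of_pos_of_neg hk0 (not_le.1 h0)))
  have hEn : 0 ≤ En S x D := Nat.cast_nonneg _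
  rcases S.eq_empty_or_nonempty with rfl | ⟨s0, hs0⟩
  · simp only [card_empty, Nat.cast_zero, ne_eq, OfNat.ofNat_ne_zero, not_false_eq_true, zero_pow,
      zero_mul]
    positivity
  have hA : A.Nonempty := ⟨s0, hS hs0⟩
  have hcl := classes_le hk hA hD hψ hd hp
  obtain ⟨T, hT, hcov⟩ := hx
  set g : ℤ × ℤ → ℤ := fun p => ⌊((p.1 : ℝ) - x * p.2) / D⌋ with hg
  set Q := ((A - A) - (A - A)).image fun a : ℤ => ⌊(a : ℝ) / D⌋ with hQ
  have hcs := ARing_cs (S ×ˢ S) g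
  have hE : (#{pp ∈ (S ×ˢ S) ×ˢ (S ×ˢ S) | g pp.1 = g pp.2} : ℝ) ≤ En S x D := by
    unfold En
    refine Nat.cast_le.2 (card_le_card_of_injOn
      (fun pp => ((pp.1.1, pp.2.1), (pp.1.2, pp.2.2))) (fun pp hpp => ?_) ?_)
    · obtain ⟨h1, h2⟩ := mem_filter.1 (mem_coe.1 hpp)
      obtain ⟨h3, h4⟩ := mem_product.1 h1
      refine mem_coe.2 (mem_filter.2 ⟨mem_product.2 ⟨mem_product.2
        ⟨(mem_product.1 h3).1, (mem_product.1 h4).1⟩, mem_product.2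
        ⟨(mem_product.1 h3).2, (mem_product.1 h4).2⟩⟩, ?_⟩)
      have h5 := Int.abs_sub_lt_one_of_floor_eq_floor h2
      rw [← sub_div, abs_div, abs_of_pos hD0, div_lt_one hD0] at h5
      refine le_trans (le_of_eq ?_) h5.le
      congr 1
      ring
    · rintro ⟨⟨a1, a2⟩, a3, a4⟩ - ⟨⟨b1, b2⟩, b3, b4⟩ - h
      simp only [Prod.mk.injEq] at h ⊢
      tauto
  have him : (S ×ˢ S).image g ⊆ (T ×ˢ Q ×ˢ Icc (-⌊k⌋ - 1) (⌊k⌋ + 2)).image
      fun u => ⌊((s0 : ℝ) - x * s0 - u.1) / D⌋ + u.2.1 + u.2.2 := by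
    intro q hq
    obtain ⟨⟨a, b⟩, hab, rfl⟩ := mem_image.1 hq
    obtain ⟨ha, hb⟩ := mem_product.1 hab
    obtain ⟨t, ht, h', hh', he⟩ := hcov (b - s0) (sub_mem_sub (hS hb) (hS hs0))
    have hz : (a - s0) - h' ∈ (A - A) - (A - A) := sub_mem_sub (sub_mem_sub (hS ha) (hS hs0)) hh'
    refine mem_image.2 ⟨(t, ⌊(((a - s0) - h' : ℤ) : ℝ) / D⌋, g (a, b) -
      ⌊((s0 : ℝ) - x * s0 - t) / D⌋ - ⌊(((a - s0) - h' : ℤ) : ℝ) / D⌋), mem_product.2
      ⟨ht, mem_product.2 ⟨mem_image_of_mem _ hz, ?_⟩⟩, by simp only; ring⟩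
    set e : ℝ := x * ((b - s0 : ℤ) : ℝ) - t - h' with he'
    have hed : |e / D| ≤ k := by
      rw [abs_div, abs_of_pos hD0]
      exact (div_le_self (abs_nonneg _) hD).trans he
    have ew : ((a : ℝ) - x * b) / D =
        ((s0 : ℝ) - x * s0 - t) / D + (((a - s0) - h' : ℤ) : ℝ) / D - e / D := by
      rw [he']; push_cast; ring
    have a1 := Int.floor_le (((a : ℝ) - x * b) / D)
    have a2 := Int.lt_floor_add_one (((a : ℝ) - x * b) / D)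
    have b1 := Int.floor_le (((s0 : ℝ) - x * s0 - t) / D)
    have b2 := Int.lt_floor_add_one (((s0 : ℝ) - x * s0 - t) / D)
    have c1 := Int.floor_le ((((a - s0) - h' : ℤ) : ℝ) / D)
    have c2 := Int.lt_floor_add_one ((((a - s0) - h' : ℤ) : ℝ) / D)
    have k2 := Int.lt_floor_add_one k
    obtain ⟨e1, e2⟩ := abs_le.1 hed
    change ((g (a, b) : ℤ) : ℝ) ≤ _ at a1
    change _ < ((g (a, b) : ℤ) : ℝ) + 1 at a2
    rw [ew] at a1 a2
    generalize g (a, b) = n1 at *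
    generalize ⌊((s0 : ℝ) - x * s0 - t) / D⌋ = n2 at *
    generalize ⌊(((a - s0) - h' : ℤ) : ℝ) / D⌋ = n3 at *
    have d1 : ((n1 - n2 - n3 : ℤ) : ℝ) < ((⌊k⌋ + 3 : ℤ) : ℝ) := by push_cast; linarith
    have d2 : ((-⌊k⌋ - 2 : ℤ) : ℝ) < ((n1 - n2 - n3 : ℤ) : ℝ) := by push_cast; linarith
    have d3 := Int.cast_lt.1 d1
    have d4 := Int.cast_lt.1 d2
    exact mem_Icc.2 ⟨by simp only; omega, by simp only; omega⟩
  have hI : (#(Icc (-⌊k⌋ - 1) (⌊k⌋ + 2)) : ℝ) ≤ 2 * k + 4 := by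
    have h0 : 0 ≤ ⌊k⌋ := Int.floor_nonneg.2 hk0.le
    have h1 : ((#(Icc (-⌊k⌋ - 1) (⌊k⌋ + 2)) : ℕ) : ℤ) = 2 * ⌊k⌋ + 4 := by
      rw [Int.card_Icc, Int.toNat_of_nonneg (by omega)]; ring
    have h2 : (#(Icc (-⌊k⌋ - 1) (⌊k⌋ + 2)) : ℝ) = 2 * (⌊k⌋ : ℝ) + 4 := by exact_mod_cast h1
    rw [h2]
    linarith [Int.floor_le k]
  have hN : (#((S ×ˢ S).image g) : ℝ) ≤ k * (#Q * (2 * k + 4)) := by
    have h1 := (card_le_card him).trans card_image_le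
    rw [card_product, card_product] at h1
    have h2 : (#((S ×ˢ S).image g) : ℝ) ≤ #T * (#Q * #(Icc (-⌊k⌋ - 1) (⌊k⌋ + 2))) := by
      exact_mod_cast h1
    exact h2.trans (by gcongr)
  have h4 : (#S : ℝ) ^ 4 ≤ k * (#Q * (2 * k + 4)) * En S x D := by
    rw [card_product] at hcs
    have h1 : (((#S : ℝ) * #S) ^ 2) ≤ #((S ×ˢ S).image g) *
        #{pp ∈ (S ×ˢ S) ×ˢ (S ×ˢ S) | g pp.1 = g pp.2} := by exact_mod_cast hcs
    calc (#S : ℝ) ^ 4 = ((#S : ℝ) * #S) ^ 2 := by ring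
      _ ≤ _ := h1
      _ ≤ _ := by gcongr
  have h5 : 3 * (2 * k + 4) ≤ k ^ 5 := by
    have h1 : (2 : ℝ) ^ 4 ≤ k ^ 4 := pow_le_pow_left₀ (by norm_num) hk 4
    have h2 : k ^ 5 = k ^ 4 * k := by ring
    nlinarith
  calc (#S : ℝ) ^ 4 * ψD ≤ k * (#Q * (2 * k + 4)) * En S x D * ψD := by gcongr
    _ = k * (2 * k + 4) * (#Q * ψD) * En S x D := by ring
    _ ≤ k * (2 * k + 4) * (3 * k ^ 6 * L) * En S x D := by gcongr
    _ = k ^ 7 * (3 * (2 * k + 4)) * L * En S x D := by ring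
    _ ≤ k ^ 7 * k ^ 5 * L * En S x D := by gcongr
    _ = _ := by ring

end Crest.Agent.R051
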