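import Crest.Agent.R051.AP5

/-! Row 51: the three-column relation up to cell sizes, and the max trick. -/

set_option autoImplicit false

open Finset
open scoped Classical Pointwise

namespace Crest.Agent.R051

lemma thick_core {xa xb xc ua ub uc c0 c1 cm cp ubm ucm ubp ucp mb Mb mc Mc : ℝ}
    (hb : xb < cm) (l0 : cm ≤ c0) (g0 : c0 ≤ cp) (l1 : cm ≤ c1) (g1 : c1 ≤ cp)
    (r0 : uc * (c0 - xb) = ub * (c0 - xc)) (r1 : ua * (c1 - xb) = ub * (c1 - xa))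
    (rm : ucm * (cm - xb) = ubm * (cm - xc)) (rp : ucp * (cp - xb) = ubp * (cp - xc))
    (pb : 0 < mb) (pc : 0 < mc) (b0 : mb ≤ ub ∧ ub ≤ Mb) (bm : mb ≤ ubm ∧ ubm ≤ Mb)
    (bp : mb ≤ ubp ∧ ubp ≤ Mb) (cm' : mc ≤ ucm ∧ ucm ≤ Mc) (cp' : mc ≤ ucp ∧ ucp ≤ Mc)
    (n : Mb ≤ 2 * mb) (hs : (Mb - mb) * mc ≤ (Mc - mc) * mb) :
    |(xc - xb) * ua - (xc - xa) * ub - (xa - xb) * uc| ≤ 3 * |xa - xb| * (Mc - mc) := by
  have p0 : 0 < c0 - xb := by linarith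
  have p1 : 0 < c1 - xb := by linarith
  have pm : 0 < cm - xb := by linarith
  have pp : 0 < cp - xb := by linarith
  have pub : 0 < ub := pb.trans_le b0.1
  have pubm : 0 < ubm := pb.trans_le bm.1
  have pubp : 0 < ubp := pb.trans_le bp.1
  have pM : 0 < Mb := pub.trans_le b0.2
  have e0 : uc = ub * (1 - (xc - xb) * (c0 - xb)⁻¹) := by
    field_simp
    linarith
  have e1 : ua = ub * (1 - (xa - xb) * (c1 - xb)⁻¹) := by
    field_simp
    linarith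
  have em : (xc - xb) * (cm - xb)⁻¹ = 1 - ucm / ubm := by
    field_simp
    linarith
  have ep : (xc - xb) * (cp - xb)⁻¹ = 1 - ucp / ubp := by
    field_simp
    linarith
  have eΛ : (xc - xb) * ua - (xc - xa) * ub - (xa - xb) * uc =
      (xa - xb) * (ub * ((xc - xb) * ((c0 - xb)⁻¹ - (c1 - xb)⁻¹))) := by
    rw [e0, e1]
    ring
  have t1 : |(c0 - xb)⁻¹ - (c1 - xb)⁻¹| ≤ |(cm - xb)⁻¹ - (cp - xb)⁻¹| := by
    refine le_trans ?_ (le_abs_self _)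
    have a1 : (c0 - xb)⁻¹ ≤ (cm - xb)⁻¹ := inv_anti₀ pm (by linarith)
    have a2 : (c1 - xb)⁻¹ ≤ (cm - xb)⁻¹ := inv_anti₀ pm (by linarith)
    have a3 : (cp - xb)⁻¹ ≤ (c0 - xb)⁻¹ := inv_anti₀ p0 (by linarith)
    have a4 : (cp - xb)⁻¹ ≤ (c1 - xb)⁻¹ := inv_anti₀ p1 (by linarith)
    rw [abs_le]
    constructor <;> linarith
  have t2 : |xc - xb| * |(cm - xb)⁻¹ - (cp - xb)⁻¹| ≤ Mc / mb - mc / Mb := by
    rw [← abs_mul, mul_sub, em, ep]
    have a1 : ucm / ubm ≤ Mc / mb := div_le_div₀ (by linarith [cm'.1, cm'.2]) cm'.2 pb bm.1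
    have a2 : ucp / ubp ≤ Mc / mb := div_le_div₀ (by linarith [cp'.1, cp'.2]) cp'.2 pb bp.1
    have a3 : mc / Mb ≤ ucm / ubm := div_le_div₀ (by linarith [cm'.1]) cm'.1 pubm bm.2
    have a4 : mc / Mb ≤ ucp / ubp := div_le_div₀ (by linarith [cp'.1]) cp'.1 pubp bp.2
    rw [abs_le]
    constructor <;> linarith
  have t3 : Mb * (Mc / mb - mc / Mb) ≤ 3 * (Mc - mc) := by
    have e : Mb * (Mc / mb - mc / Mb) = (Mb * (Mc - mc) + (Mb - mb) * mc) / mb := by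
      field_simp
      ring
    rw [e, div_le_iff₀ pb]
    have : Mb * (Mc - mc) ≤ 2 * mb * (Mc - mc) :=
      mul_le_mul_of_nonneg_right n (by linarith [cm'.1, cm'.2])
    linarith
  rw [eΛ, abs_mul, abs_mul, abs_mul, abs_of_pos pub, mul_comm 3, mul_assoc]
  refine mul_le_mul_of_nonneg_left (le_trans ?_ t3) (abs_nonneg _)
  exact mul_le_mul b0.2 ((mul_le_mul_of_nonneg_left t1 (abs_nonneg _)).trans t2)
    (by positivity) pM.le

namespace AD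

variable {A : AD} {k : ℝ}

lemma thick_reg_symm {b c : ℕ} {δ : Ln} (h : A.Reg b c δ) : A.Reg c b δ := by
  obtain ⟨⟨d1, a1, a2, a3, a4, a5⟩, ⟨d2, b1, b2, b3, b4, b5⟩⟩ := h
  exact ⟨⟨d1, a2, a1, a4, a3, a5⟩, ⟨d2, b2, b1, b4, b3, b5⟩⟩

lemma thick_cell {i : ℕ} {δ δ' : Ln} (hδ' : δ' ∈ A.ty i) (e : A.cell i δ' = A.cell i δ) :
    A.cmin i δ ≤ A.U i δ' ∧ A.U i δ' ≤ A.cmax i δ := by
  obtain ⟨e1, e2, -⟩ := cell_congr e
  rw [← e1, ← e2]
  exact cmin_le hδ'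

lemma OK.thick_half (h : A.OK k) {a b c : ℕ} (ha : a ∈ A.I) (hb : b ∈ A.I) (hc : c ∈ A.I) {δ : Ln}
    (h1 : δ ∈ A.ty b) (n1 : A.cmax b δ ≤ 2 * A.cmin b δ) (hr : A.Reg b c δ)
    (hs : A.sz b δ * A.cmin c δ ≤ A.sz c δ * A.cmin b δ) :
    |(A.X c - A.X b) * A.U a δ - (A.X c - A.X a) * A.U b δ - (A.X a - A.X b) * A.U c δ| ≤
      3 * |A.X a - A.X b| * A.sz c δ := by
  obtain ⟨⟨d1, a1, a2, a3, a4, a5⟩, ⟨d2, b1, b2, b3, b4, b5⟩⟩ := hr
  have g := (mem_ty.1 h1).1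
  have g1 := (mem_ty.1 a1).1
  have g2 := (mem_ty.1 b1).1
  obtain ⟨c0, l0, u0, r0⟩ := h.rel δ g b hb c hc
  obtain ⟨c1, l1, u1, r1⟩ := h.rel δ g b hb a ha
  obtain ⟨cm, lm, um, rm⟩ := h.rel d1 g1 b hb c hc
  obtain ⟨cp, lp, up, rp⟩ := h.rel d2 g2 b hb c hc
  have o1 := h.ord d1 g1 δ g a5
  have o2 := h.ord δ g d2 g2 b5
  have pc : 0 < A.cmin c δ := by
    rw [← (cell_congr a4).1]
    exact h.cmin_pos hc a2
  exact thick_core (((h.X_lt b hb).trans_le (h.Xs_le d1 g1)).trans lm) (by linarith) (by linarith)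
    (by linarith) (by linarith) r0 r1 rm rp (h.cmin_pos hb h1) pc (cmin_le h1)
    (thick_cell a1 a3) (thick_cell b1 b3) (thick_cell a2 a4) (thick_cell b2 b4) n1 hs

lemma OK.thick_fibre (h : A.OK k) (b c : ℕ) (Z : Finset Ln)
    (hZ : ∀ δ ∈ Z, δ ∈ A.ty b ∧ δ ∈ A.ty c)
    (hw : ∀ δ ∈ Z, ∀ δ' ∈ Z, A.cell b δ' = A.cell b δ → A.cell c δ' = A.cell c δ →
      A.w δ = A.w δ') : (#Z : ℝ) * A.lam ^ 24 ≤ 4 * k ^ 3 * A.m * A.L ^ 2 := by
  have hl : 0 ≤ A.lam ^ 24 := pow_nonneg (zero_le_one.trans h.lam1) _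
  have hk : 0 ≤ k := by linarith [h.k2]
  have hL : 0 ≤ A.L := by linarith [h.L1]
  rw [card_eq_sum_card_image (fun δ => (A.cell b δ, A.cell c δ)) Z, Nat.cast_sum, sum_mul]
  have e1 : ∀ y ∈ Z.image fun δ => (A.cell b δ, A.cell c δ),
      (#{δ ∈ Z | (A.cell b δ, A.cell c δ) = y} : ℝ) * A.lam ^ 24 ≤ k * A.m := fun y hy => by
    obtain ⟨δ1, hδ1, rfl⟩ := mem_image.1 hy
    refine le_trans (mul_le_mul_of_nonneg_right (Nat.cast_le.2 (card_le_card fun δ hδ => ?_)) hl)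
      (h.w_card (A.w δ1))
    obtain ⟨g1, g2⟩ := mem_filter.1 hδ
    rw [Prod.mk.injEq] at g2
    exact mem_filter.2 ⟨(mem_ty.1 (hZ δ g1).1).1, (hw δ1 hδ1 δ g1 g2.1 g2.2).symm⟩
  refine (sum_le_sum e1).trans ?_
  rw [sum_const, nsmul_eq_mul]
  have e2 : #(Z.image fun δ => (A.cell b δ, A.cell c δ)) ≤
      #((A.ty b).image (A.cell b)) * #((A.ty c).image (A.cell c)) := by
    rw [← card_product]
    refine card_le_card fun y hy => ?_
    obtain ⟨δ1, hδ1, rfl⟩ := mem_image.1 hy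
    exact mem_product.2 ⟨mem_image_of_mem _ (hZ δ1 hδ1).1, mem_image_of_mem _ (hZ δ1 hδ1).2⟩
  have e3 : (#(Z.image fun δ => (A.cell b δ, A.cell c δ)) : ℝ) ≤ (2 * k * A.L) * (2 * k * A.L) := by
    refine le_trans (by exact_mod_cast e2) (mul_le_mul (h.cells_card b) (h.cells_card c)
      (Nat.cast_nonneg _) (by positivity))
  refine (mul_le_mul_of_nonneg_right e3 (by positivity)).trans (le_of_eq ?_)
  ring

/-- Let `c0`, `c1` be the axis points of `δ` for the pairs `(b, c)`, `(b, a)`.  Then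
`Λ = U b (X c - X b) (X a - X b) (1 / (c0 - X b) - 1 / (c1 - X b))`.  The two lines given by `Reg`
have axis points `c- < lo ≤ c0, c1 ≤ hi < c+` for `(b, c)` and `U c / U b = 1 - (X c - X b) / (· - X b)`,
so `|Λ| ≤ |X a - X b| U b (cmax c / cmin b - cmin c / cmax b)
≤ |X a - X b| (2 sz c + sz b * cmin c / cmin b)`.  If `sz b * cmin c ≤ sz c * cmin b` this is at most
`3 |X a - X b| sz c`; otherwise use the same bound with `b` and `c` exchanged (`Λ` changes sign). -/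
lemma OK.thick (h : A.OK k) {a b c : ℕ} (ha : a ∈ A.I) (hb : b ∈ A.I) (hc : c ∈ A.I) {δ : Ln}
    (h1 : δ ∈ A.ty b) (h2 : δ ∈ A.ty c) (n1 : A.cmax b δ ≤ 2 * A.cmin b δ)
    (n2 : A.cmax c δ ≤ 2 * A.cmin c δ) (hr : A.Reg b c δ) :
    |(A.X c - A.X b) * A.U a δ - (A.X c - A.X a) * A.U b δ - (A.X a - A.X b) * A.U c δ| ≤
      3 * max (|A.X c - A.X a| * A.sz b δ) (|A.X a - A.X b| * A.sz c δ) := by
  rcases le_total (A.sz b δ * A.cmin c δ) (A.sz c δ * A.cmin b δ) with hs | hs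
  · refine (h.thick_half ha hb hc h1 n1 hr hs).trans ?_
    rw [mul_assoc]
    gcongr
    exact le_max_right _ _
  · have := h.thick_half ha hc hb h2 n2 (thick_reg_symm hr) hs
    rw [abs_sub_comm (A.X a), mul_assoc, ← abs_neg] at this
    refine le_trans (le_of_eq ?_) (this.trans ?_)
    · congr 1
      ring
    · gcongr
      exact le_max_left _ _

lemma Reg.symm {b c : ℕ} {δ : Ln} (h : A.Reg b c δ) : A.Reg c b δ := by
  exact thick_reg_symm h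

/-- in each of the `≤ (2 k L)²` pairs of cells only the smallest and the largest window are
irregular -/
lemma OK.irreg (h : A.OK k) (b c : ℕ) :
    (#{δ ∈ A.ty b | δ ∈ A.ty c ∧ ¬ A.Reg b c δ} : ℝ) * A.lam ^ 24 ≤ 8 * k ^ 3 * A.m * A.L ^ 2 := by
  have hl : 0 ≤ A.lam ^ 24 := pow_nonneg (zero_le_one.trans h.lam1) _
  set Z1 := {δ ∈ A.ty b | δ ∈ A.ty c ∧ ¬ ∃ δ' ∈ A.ty b, δ' ∈ A.ty c ∧ A.cell b δ' = A.cell b δ ∧
    A.cell c δ' = A.cell c δ ∧ A.w δ' < A.w δ} with hZ1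
  set Z2 := {δ ∈ A.ty b | δ ∈ A.ty c ∧ ¬ ∃ δ' ∈ A.ty b, δ' ∈ A.ty c ∧ A.cell b δ' = A.cell b δ ∧
    A.cell c δ' = A.cell c δ ∧ A.w δ < A.w δ'} with hZ2
  have e1 := h.thick_fibre b c Z1 (fun δ hδ => ⟨(mem_filter.1 hδ).1, (mem_filter.1 hδ).2.1⟩)
    fun δ hδ δ' hδ' c1 c2 => by
      rw [mem_filter] at hδ hδ'
      exact le_antisymm (not_lt.1 fun hl => hδ.2.2 ⟨δ', hδ'.1, hδ'.2.1, c1, c2, hl⟩)
        (not_lt.1 fun hl => hδ'.2.2 ⟨δ, hδ.1, hδ.2.1, c1.symm, c2.symm, hl⟩)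
  have e2 := h.thick_fibre b c Z2 (fun δ hδ => ⟨(mem_filter.1 hδ).1, (mem_filter.1 hδ).2.1⟩)
    fun δ hδ δ' hδ' c1 c2 => by
      rw [mem_filter] at hδ hδ'
      exact le_antisymm (not_lt.1 fun hl => hδ'.2.2 ⟨δ, hδ.1, hδ.2.1, c1.symm, c2.symm, hl⟩)
        (not_lt.1 fun hl => hδ.2.2 ⟨δ', hδ'.1, hδ'.2.1, c1, c2, hl⟩)
  have e3 : #{δ ∈ A.ty b | δ ∈ A.ty c ∧ ¬ A.Reg b c δ} ≤ #Z1 + #Z2 := by
    refine le_trans (card_le_card fun δ hδ => ?_) (card_union_le _ _)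
    rw [mem_filter, Reg, not_and_or] at hδ
    rw [mem_union, mem_filter, mem_filter]
    exact hδ.2.2.imp (fun h' => ⟨hδ.1, hδ.2.1, h'⟩) fun h' => ⟨hδ.1, hδ.2.1, h'⟩
  have e4 : (#{δ ∈ A.ty b | δ ∈ A.ty c ∧ ¬ A.Reg b c δ} : ℝ) ≤ #Z1 + #Z2 := by exact_mod_cast e3
  have e5 := mul_le_mul_of_nonneg_right e4 hl
  linarith

lemma OK.thick_cells (h : A.OK k) {k' : ℝ} {T' : Finset (ℕ × Ln)} (hT : A.Clean k' T') {a b c : ℕ}
    (ha : a ∈ A.I) {η : ℝ} {δ1 : Ln} (hδ1 : A.Good T' η b c δ1) (Z : Finset Ln)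
    (hZ : ∀ δ ∈ Z, A.Good T' η b c δ ∧ A.cell b δ = A.cell b δ1 ∧ A.cell c δ = A.cell c δ1 ∧
      (a, δ) ∈ T' ∧ a ≠ b ∧ a ≠ c ∧ A.Dom a b c δ) : (#(Z.image (A.cell a)) : ℝ) ≤ 12 := by
  rcases Z.eq_empty_or_nonempty with rfl | ⟨δ2, hδ2⟩
  · simp
  obtain ⟨hb, tb⟩ : b ∈ A.I ∧ δ1 ∈ A.ty b := h.mem_T (hT.sub hδ1.1)
  obtain ⟨hc, tc⟩ : c ∈ A.I ∧ δ1 ∈ A.ty c := h.mem_T (hT.sub hδ1.2.1)
  have hcb : A.X c - A.X b ≠ 0 := sub_ne_zero.2 fun e => hδ1.2.2.1 (h.X_inj c hc b hb e).symm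
  have hab : A.X a - A.X b ≠ 0 := sub_ne_zero.2 fun e => (hZ δ2 hδ2).2.2.2.2.1 (h.X_inj a ha b hb e)
  have hD : 0 < |A.X c - A.X b| := abs_pos.2 hcb
  obtain ⟨M, hM⟩ : ∃ M, M = max (|A.X c - A.X a| * A.sz b δ1) (|A.X a - A.X b| * A.sz c δ1) :=
    ⟨_, rfl⟩
  have hM0 : 0 < M := by
    rw [hM]
    exact lt_max_of_lt_right (mul_pos (abs_pos.2 hab) (hT.pos (c, δ1) hδ1.2.1))
  have hs : 0 < M / |A.X c - A.X b| := div_pos hM0 hD
  have hin : ∀ δ ∈ Z, |A.U a δ - ((A.X c - A.X a) * A.U b δ1 + (A.X a - A.X b) * A.U c δ1) /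
      (A.X c - A.X b)| ≤ 5 * (M / |A.X c - A.X b|) ∧ M / |A.X c - A.X b| ≤ A.sz a δ := by
    intro δ hδ
    obtain ⟨g, eb, ec, -, -, -, d1, d2⟩ := hZ δ hδ
    have tb' : δ ∈ A.ty b := (h.mem_T (hT.sub g.1)).2
    have tc' : δ ∈ A.ty c := (h.mem_T (hT.sub g.2.1)).2
    have th := h.thick ha hb hc tb' tc' (hT.narrow (b, δ) g.1) (hT.narrow (c, δ) g.2.1) g.2.2.2.1
    rw [(cell_congr eb).2.2] at th d1
    rw [(cell_congr ec).2.2] at th d2
    rw [← hM] at th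
    refine ⟨?_, ?_⟩
    · have ub : |A.U b δ - A.U b δ1| ≤ A.sz b δ1 := by
        have a1 := thick_cell tb' eb
        have a2 := cmin_le tb
        rw [abs_le, sz]
        constructor <;> linarith [a1.1, a1.2, a2.1, a2.2]
      have uc : |A.U c δ - A.U c δ1| ≤ A.sz c δ1 := by
        have a1 := thick_cell tc' ec
        have a2 := cmin_le tc
        rw [abs_le, sz]
        constructor <;> linarith [a1.1, a1.2, a2.1, a2.2]
      have e : A.U a δ - ((A.X c - A.X a) * A.U b δ1 + (A.X a - A.X b) * A.U c δ1) /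
          (A.X c - A.X b) = (((A.X c - A.X b) * A.U a δ - (A.X c - A.X a) * A.U b δ -
            (A.X a - A.X b) * A.U c δ) + (A.X c - A.X a) * (A.U b δ - A.U b δ1) +
            (A.X a - A.X b) * (A.U c δ - A.U c δ1)) / (A.X c - A.X b) := by
        field_simp
        ring
      rw [e, abs_div, ← mul_div_assoc]
      refine div_le_div_of_nonneg_right ((abs_add_three _ _ _).trans ?_) hD.le
      have a1 : |(A.X c - A.X a) * (A.U b δ - A.U b δ1)| ≤ M := by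
        rw [abs_mul, hM]
        exact (mul_le_mul_of_nonneg_left ub (abs_nonneg _)).trans (le_max_left _ _)
      have a2 : |(A.X a - A.X b) * (A.U c δ - A.U c δ1)| ≤ M := by
        rw [abs_mul, hM]
        exact (mul_le_mul_of_nonneg_left uc (abs_nonneg _)).trans (le_max_right _ _)
      linarith
    · rw [div_le_iff₀ hD, mul_comm, hM]
      exact max_le d1 d2
  have key : M / |A.X c - A.X b| * #(Z.image (A.cell a)) ≤
      2 * (5 * (M / |A.X c - A.X b|)) + 2 * (M / |A.X c - A.X b|) :=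
    (h.col_ok ha one_ne_zero).big _ _ _ hs (by positivity) Z
      (fun δ hδ => (h.mem_T (hT.sub (hZ δ hδ).2.2.2.1)).2) fun δ hδ => by
        have := hin δ hδ
        simp only [AD.col, one_mul, abs_one]
        exact this
  refine le_of_mul_le_mul_left (key.trans (le_of_eq ?_)) hs
  ring

/-- Max trick.  Let `Γ'` be the set counted, `G = #Γ'`.  For a column `a ≠ b, c` put
`s = max (|X c - X a| sz b) (|X a - X b| sz c) / |X c - X b| > 0` (constant on `Γ'`).  Lines of `Γ'`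
dominated at `a` have `U a` within `5 s` of a fixed point (`thick`) and `sz a ≥ s`, so they use at
most 12 cells (`col_ok.big`).  `p5_cells`: `(G η L)³ ≤ (12 L)² k G (G + m / L) m`. -/
lemma OK.good_dom (h : A.OK k) {k' : ℝ} {T' : Finset (ℕ × Ln)} (hT : A.Clean k' T') {η : ℝ}
    (h0 : 0 < η) (h1 : η ≤ 1) (b c : ℕ) (δ0 : Ln) :
    (#{δ ∈ A.Γ | A.Good T' η b c δ ∧ A.cell b δ = A.cell b δ0 ∧ A.cell c δ = A.cell c δ0} : ℝ) *
      A.L * η ^ 3 ≤ 288 * k * A.m := by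
  set Γ' := {δ ∈ A.Γ | A.Good T' η b c δ ∧ A.cell b δ = A.cell b δ0 ∧ A.cell c δ = A.cell c δ0}
    with hΓ'
  have hk : 0 < k := by linarith [h.k2]
  have hL : 0 < A.L := by linarith [h.L1]
  have hm : (0 : ℝ) ≤ A.m := Nat.cast_nonneg _
  rcases Γ'.eq_empty_or_nonempty with he | ⟨δ1, hδ1⟩
  · rw [he, card_empty, Nat.cast_zero, zero_mul, zero_mul]
    positivity
  have hG : (0 : ℝ) < #Γ' := by exact_mod_cast card_pos.2 ⟨δ1, hδ1⟩
  set N := {x ∈ A.I ×ˢ Γ' | x ∈ T' ∧ x.1 ≠ b ∧ x.1 ≠ c ∧ A.Dom x.1 b c x.2} with hN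
  have n1 : η * A.L * #Γ' ≤ #N := by
    have e : #N = ∑ δ ∈ Γ', #{a ∈ A.I | (a, δ) ∈ T' ∧ a ≠ b ∧ a ≠ c ∧ A.Dom a b c δ} := by
      rw [hN, card_filter, sum_product_right]
      exact sum_congr rfl fun δ _ => (card_filter _ _).symm
    rw [e, Nat.cast_sum, mul_comm, ← nsmul_eq_mul, ← sum_const]
    exact sum_le_sum fun δ hδ => (mem_filter.1 hδ).2.1.2.2.2.2
  set F := N.image fun x => (x.1, A.cell x.1 x.2) with hF
  have n2 : (#F : ℝ) ≤ 12 * A.L := by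
    have e : #F = ∑ a ∈ A.I, #{y ∈ F | y.1 = a} := by
      refine card_eq_sum_card_fiberwise fun y hy => ?_
      obtain ⟨x, hx, rfl⟩ := mem_image.1 hy
      exact (mem_product.1 (mem_filter.1 hx).1).1
    have e2 : ∀ a ∈ A.I, (#{y ∈ F | y.1 = a} : ℝ) ≤ 12 := fun a ha => by
      refine le_trans ?_ (h.thick_cells hT ha (η := η) (δ1 := δ1) (b := b) (c := c)
        (mem_filter.1 hδ1).2.1
        {δ ∈ Γ' | (a, δ) ∈ T' ∧ a ≠ b ∧ a ≠ c ∧ A.Dom a b c δ} fun δ hδ => ?_)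
      · refine Nat.cast_le.2 (card_le_card_of_injOn Prod.snd (fun y hy => ?_) fun y hy y' hy' e => ?_)
        · obtain ⟨hy1, hy2⟩ := mem_filter.1 hy
          obtain ⟨x, hx, rfl⟩ := mem_image.1 hy1
          obtain ⟨hx1, hx2⟩ := mem_filter.1 hx
          obtain rfl : x.1 = a := hy2
          exact mem_coe.2 (mem_image.2 ⟨x.2, mem_filter.2 ⟨(mem_product.1 hx1).2, hx2⟩, rfl⟩)
        · exact Prod.ext ((mem_filter.1 hy).2.trans (mem_filter.1 hy').2.symm) e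
      · obtain ⟨g1, g2⟩ := mem_filter.1 hδ
        obtain ⟨-, g3, g4, g5⟩ := mem_filter.1 g1
        obtain ⟨-, -, g6, g7⟩ := mem_filter.1 hδ1
        exact ⟨g3, g4.trans g6.symm, g5.trans g7.symm, g2⟩
    rw [e, Nat.cast_sum]
    refine (sum_le_sum e2).trans ?_
    rw [sum_const, nsmul_eq_mul, mul_comm]
    exact mul_le_mul_of_nonneg_left h.I_card (by norm_num)
  have n3 := h.p5_cells 1 le_rfl Γ' (filter_subset _ _) F N fun x hx => by
    obtain ⟨hx1, hx2⟩ := mem_filter.1 hx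
    refine ⟨hT.sub hx2.1, (mem_product.1 hx1).2, mem_image.2 ⟨x, hx, ?_⟩⟩
    rw [one_mul]
    rfl
  rw [Nat.cast_one, one_pow, mul_one] at n3
  rcases le_total (A.m / A.L) #Γ' with hc | hc
  · have n4 : (η * A.L * #Γ') ^ 3 ≤ (12 * A.L) ^ 2 * (k * #Γ' * (#Γ' + #Γ') * A.m) := by
      refine (pow_le_pow_left₀ (by positivity) n1 3).trans (n3.trans ?_)
      gcongr
    have n5 : (#Γ' * A.L * η ^ 3) * (#Γ' * A.L) ^ 2 ≤ (288 * k * A.m) * (#Γ' * A.L) ^ 2 := by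
      refine le_trans (le_of_eq ?_) (n4.trans (le_of_eq ?_)) <;> ring
    exact le_of_mul_le_mul_right n5 (by positivity)
  · rw [le_div_iff₀ hL] at hc
    have := h.k2
    calc (#Γ' : ℝ) * A.L * η ^ 3 ≤ A.m * 1 := by
          gcongr
          exact pow_le_one₀ h0.le h1
      _ ≤ 288 * k * A.m := by nlinarith

end AD

end Crest.Agent.R051
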