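import Crest.Agent.R051.AP5

/-! Row 51: cells whose heights vary by more than a factor two are rare. -/

set_option autoImplicit false

open Finset
open scoped Classical Pointwise

namespace Crest.Agent.R051

/-- counting pairs column by column -/
lemma AWide_col {β : Type} (F : Finset (ℕ × β)) (I : Finset ℕ) (g : ℕ → Finset β)
    (h : ∀ x ∈ F, x.1 ∈ I ∧ x.2 ∈ g x.1) {c : ℝ} (hc : ∀ i ∈ I, (#(g i) : ℝ) ≤ c) :
    (#F : ℝ) ≤ #I * c := by
  have h1 : F ⊆ I.biUnion fun i => (g i).image (Prod.mk i) := fun x hx =>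
    mem_biUnion.2 ⟨x.1, (h x hx).1, mem_image.2 ⟨x.2, (h x hx).2, rfl⟩⟩
  have h2 : #F ≤ ∑ i ∈ I, #(g i) :=
    ((card_le_card h1).trans card_biUnion_le).trans (sum_le_sum fun i _ => card_image_le)
  have h3 : (#F : ℝ) ≤ ∑ i ∈ I, (#(g i) : ℝ) := by exact_mod_cast h2
  rw [← nsmul_eq_mul]
  exact h3.trans (sum_le_card_nsmul _ _ _ hc)

/-- few elements of a fibre have few larger elements in the fibre -/
lemma AWide_top {α β : Type} [DecidableEq β] (W : Finset α) (G : Finset β) (f : α → β) (ρ : α → ℝ)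
    (hf : ∀ x ∈ W, f x ∈ G) {s : ℝ} (hs : 0 ≤ s) :
    (#{x ∈ W | (#{y ∈ W | f y = f x ∧ ρ x ≤ ρ y} : ℝ) < s} : ℝ) ≤ #G * s := by
  rw [card_eq_sum_card_fiberwise (f := f) (t := G) fun x hx => hf x (mem_filter.1 hx).1,
    Nat.cast_sum, ← nsmul_eq_mul]
  refine sum_le_card_nsmul _ _ _ fun b _ => ?_
  rcases ({x ∈ {x ∈ W | (#{y ∈ W | f y = f x ∧ ρ x ≤ ρ y} : ℝ) < s} | f x = b} :
    Finset α).eq_empty_or_nonempty with e | hne
  · rw [e, card_empty, Nat.cast_zero]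
    exact hs
  · obtain ⟨x, hx, hmin⟩ := exists_min_image _ ρ hne
    refine le_trans (Nat.cast_le.2 (card_le_card fun y hy => ?_))
      (mem_filter.1 (mem_filter.1 hx).1).2.le
    exact mem_filter.2 ⟨(mem_filter.1 (mem_filter.1 hy).1).1,
      (mem_filter.1 hy).2.trans (mem_filter.1 hx).2.symm, hmin y hy⟩

namespace AD

variable {A : AD} {k : ℝ}

/-- column `i` is near (`b = true`) or far (`b = false`) for the line `δ` -/
def Side (A : AD) (b : Bool) (i : ℕ) (δ : Ln) : Prop :=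
  if b then A.Xs - A.X i ≤ A.lo (A.w δ) - A.Xs else A.hi (A.w δ) - A.Xs ≤ A.Xs - A.X i

/-- on columns of the same side the ratio of the heights is known up to a factor two (by `rel`,
`U j / U i = (c - X j) / (c - X i)`; near: `c - X ∈ [c - Xs, 2 (c - Xs)]`; far:
`c - X ∈ [Xs - X, 2 (Xs - X)]`) -/
lemma OK.side_ratio (h : A.OK k) (b : Bool) {i j : ℕ} (hi : i ∈ A.I) (hj : j ∈ A.I) :
    ∃ t : ℝ, 0 < t ∧ ∀ δ ∈ A.Γ, A.Side b i δ → A.Side b j δ →
      t * A.U i δ ≤ 2 * A.U j δ ∧ A.U j δ ≤ 2 * (t * A.U i δ) := by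
  have hxi := sub_pos.2 (h.X_lt i hi)
  have hxj := sub_pos.2 (h.X_lt j hj)
  cases b
  · refine ⟨(A.Xs - A.X j) / (A.Xs - A.X i), div_pos hxj hxi, fun δ hδ h1 h2 => ?_⟩
    obtain ⟨c, c1, c2, c3⟩ := h.rel δ hδ i hi j hj
    have c4 := h.Xs_le δ hδ
    have u1 := h.U_pos i hi δ hδ
    have u2 := h.U_pos j hj δ hδ
    change A.hi (A.w δ) - A.Xs ≤ _ at h1 h2
    rw [div_mul_eq_mul_div, ← mul_div_assoc, div_le_iff₀ hxi, le_div_iff₀ hxi]
    have a1 := mul_le_mul_of_nonneg_left (by linarith : A.Xs - A.X j ≤ c - A.X j) u1.le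
    have a2 := mul_le_mul_of_nonneg_left (by linarith : c - A.X i ≤ 2 * (A.Xs - A.X i)) u2.le
    have a3 := mul_le_mul_of_nonneg_left (by linarith : A.Xs - A.X i ≤ c - A.X i) u2.le
    have a4 := mul_le_mul_of_nonneg_left (by linarith : c - A.X j ≤ 2 * (A.Xs - A.X j)) u1.le
    constructor <;> linarith
  · refine ⟨1, one_pos, fun δ hδ h1 h2 => ?_⟩
    obtain ⟨c, c1, c2, c3⟩ := h.rel δ hδ i hi j hj
    have c4 := h.Xs_le δ hδ
    have u1 := h.U_pos i hi δ hδ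
    have u2 := h.U_pos j hj δ hδ
    change _ ≤ A.lo (A.w δ) - A.Xs at h1 h2
    have c5 : 0 < c - A.Xs := by linarith
    have a1 := mul_le_mul_of_nonneg_left (by linarith : c - A.Xs ≤ c - A.X j) u1.le
    have a2 := mul_le_mul_of_nonneg_left (by linarith : c - A.X i ≤ 2 * (c - A.Xs)) u2.le
    have a3 := mul_le_mul_of_nonneg_left (by linarith : c - A.Xs ≤ c - A.X i) u2.le
    have a4 := mul_le_mul_of_nonneg_left (by linarith : c - A.X j ≤ 2 * (c - A.Xs)) u1.le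
    rw [one_mul]
    constructor <;> refine le_of_mul_le_mul_right ?_ c5 <;> linarith

/-- lines on neither side have `2 Xs - X i` inside their window: one window per column -/
lemma OK.mid_card (h : A.OK k) (i : ℕ) :
    (#{δ ∈ A.Γ | ¬ A.Side true i δ ∧ ¬ A.Side false i δ} : ℝ) * A.lam ^ 24 ≤ k * A.m := by
  rcases ({δ ∈ A.Γ | ¬ A.Side true i δ ∧ ¬ A.Side false i δ} : Finset Ln).eq_empty_or_nonempty
    with e | ⟨δ, hδ⟩
  · rw [e, card_empty, Nat.cast_zero, zero_mul]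
    exact mul_nonneg (by linarith [h.k2]) (Nat.cast_nonneg _)
  · refine le_trans (mul_le_mul_of_nonneg_right (Nat.cast_le.2 (card_le_card fun δ' hδ' => ?_))
      (pow_nonneg (by linarith [h.lam1]) _)) (h.w_card (A.w δ))
    obtain ⟨a1, a2, a3⟩ := mem_filter.1 hδ
    obtain ⟨b1, b2, b3⟩ := mem_filter.1 hδ'
    change ¬ _ ≤ A.lo _ - A.Xs at a2 b2
    change ¬ A.hi _ - A.Xs ≤ _ at a3 b3
    refine mem_filter.2 ⟨b1, ?_⟩
    rcases lt_trichotomy (A.w δ') (A.w δ) with c | c | c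
    · exact absurd (h.ord δ' b1 δ a1 c) (by linarith [not_le.1 a2, not_le.1 b3])
    · exact c
    · exact absurd (h.ord δ a1 δ' b1 c) (by linarith [not_le.1 b2, not_le.1 a3])

/-- at most five cells of ratio `≥ r ≥ 2` meet an interval of ratio `4 r` -/
lemma OK.AWide_five (h : A.OK k) {j : ℕ} (hj : j ∈ A.I) {a r : ℝ} (ha : 0 < a) (hr : 2 ≤ r)
    (Z : Finset Ln) (hZ : ∀ δ ∈ Z, δ ∈ A.ty j ∧ r ≤ A.cmax j δ / A.cmin j δ ∧ a ≤ A.U j δ ∧
      A.U j δ ≤ 4 * r * a) : (#(Z.image (A.cell j)) : ℝ) ≤ 5 := by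
  have hr0 : 0 < r := by linarith
  have hs : 0 < Real.log r := Real.log_pos (by linarith)
  have h4 : Real.log 4 ≤ 2 * Real.log r := by
    rw [show (4 : ℝ) = 2 ^ 2 by norm_num, Real.log_pow, Nat.cast_ofNat]
    exact mul_le_mul_of_nonneg_left (Real.log_le_log two_pos hr) two_pos.le
  have h1 := card_intervals (Z.image (A.cell j))
    (fun q => Real.log (sInf (A.U j '' (({δ' ∈ A.ty j | A.cell j δ' = q} : Finset Ln) : Set Ln))))
    (fun q => Real.log (sSup (A.U j '' (({δ' ∈ A.ty j | A.cell j δ' = q} : Finset Ln) : Set Ln))))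
    (Real.log a + 3 / 2 * Real.log r) (3 / 2 * Real.log r) (Real.log r) hs (by positivity)
    (fun q hq q' hq' hqq => ?_) fun q hq => ?_
  · refine le_of_mul_le_mul_left ?_ hs
    linarith
  · obtain ⟨δ, hδ, rfl⟩ := mem_image.1 hq
    obtain ⟨δ', hδ', rfl⟩ := mem_image.1 hq'
    have t1 := (hZ δ hδ).1
    exact Real.log_le_log ((h.cmin_pos hj t1).trans_le ((cmin_le t1).1.trans (cmin_le t1).2))
      (cell_ord t1 (hZ δ' hδ').1 hqq).le
  · obtain ⟨δ, hδ, rfl⟩ := mem_image.1 hq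
    obtain ⟨t1, t2, t3, t4⟩ := hZ δ hδ
    have p1 := h.cmin_pos hj t1
    obtain ⟨p2, p3⟩ := cmin_le t1
    change Real.log r ≤ Real.log (A.cmax j δ) - Real.log (A.cmin j δ) ∧
      Real.log (A.cmin j δ) ≤ _ ∧ _ ≤ Real.log (A.cmax j δ)
    have q1 := Real.log_le_log hr0 t2
    have q2 := Real.log_le_log p1 (p2.trans t4)
    have q3 := Real.log_le_log ha (t3.trans p3)
    rw [Real.log_div (p1.trans_le (p2.trans p3)).ne' p1.ne'] at q1
    rw [Real.log_mul (by positivity) ha.ne', Real.log_mul (by norm_num) hr0.ne'] at q2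
    exact ⟨q1, by linarith, by linarith⟩

/-- the main step for one side -/
lemma OK.AWide_side (h : A.OK k) (hL : k ^ 32 ≤ A.L) (b : Bool) (W : Finset (ℕ × Ln))
    (hW : ∀ x ∈ W, x ∈ A.T ∧ 2 * A.cmin x.1 x.2 < A.cmax x.1 x.2 ∧ A.Side b x.1 x.2) :
    6 * k * #W ≤ A.m * A.L ^ 2 := by
  by_contra hlt
  rw [not_le] at hlt
  have hk := h.k2
  have hk0 : 0 < k := by linarith
  have hL0 : 0 < A.L := one_pos.trans_le h.L1
  have hm0 : (0 : ℝ) < A.m := by exact_mod_cast (by linarith [h.m2] : 0 < A.m)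
  have hWT : ∀ x ∈ W, x.1 ∈ A.I ∧ x.2 ∈ A.ty x.1 := fun x hx => h.mem_T (hW x hx).1
  obtain ⟨ρ, hρ⟩ : ∃ ρ : ℕ × Ln → ℝ, ∀ x, ρ x = A.cmax x.1 x.2 / A.cmin x.1 x.2 :=
    ⟨_, fun _ => rfl⟩
  obtain ⟨s, hs⟩ : ∃ s, s = A.L / (12 * k ^ 2) := ⟨_, rfl⟩
  have hs0 : 0 < s := by rw [hs]; positivity
  have h1 := AWide_top W A.Γ Prod.snd ρ (fun x hx => (mem_ty.1 (hWT x hx).2).1) hs0.le
  obtain ⟨V, hV⟩ : ∃ V : Finset (ℕ × Ln),
      V = {x ∈ W | ¬ (#{y ∈ W | y.2 = x.2 ∧ ρ x ≤ ρ y} : ℝ) < s} := ⟨_, rfl⟩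
  have hVW : ∀ x ∈ V, x ∈ W ∧ s ≤ (#{y ∈ W | y.2 = x.2 ∧ ρ x ≤ ρ y} : ℝ) := fun x hx => by
    rw [hV, mem_filter, not_lt] at hx
    exact hx
  have h2 : A.m * A.L ^ 2 < 12 * k * #V := by
    have e := card_filter_add_card_filter_not (s := W)
      fun x => (#{y ∈ W | y.2 = x.2 ∧ ρ x ≤ ρ y} : ℝ) < s
    rw [← hV] at e
    have e' := congrArg (Nat.cast (R := ℝ)) e
    rw [Nat.cast_add] at e'
    have a1 := h1.trans (mul_le_mul_of_nonneg_right h.Γ_card hs0.le)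
    have a2 : 12 * k * (k * A.m * A.L * s) = A.m * A.L ^ 2 := by
      rw [hs]
      field_simp
    have a3 := mul_le_mul_of_nonneg_left a1 (by positivity : 0 ≤ 12 * k)
    rw [← e'] at hlt
    linarith
  have hVne : V.Nonempty := by
    rw [← card_pos, ← Nat.cast_pos (α := ℝ)]
    exact (pos_iff_pos_of_mul_pos ((mul_pos hm0 (pow_pos hL0 2)).trans h2)).1 (by positivity)
  have h3 : (#(V.image fun x => (x.1, A.cell x.1 x.2)) : ℝ) ≤ A.L * (2 * k * A.L) := by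
    refine (AWide_col _ A.I (fun i => (A.ty i).image (A.cell i)) (fun y hy => ?_)
      fun i _ => h.cells_card i).trans (mul_le_mul_of_nonneg_right h.I_card (by positivity))
    obtain ⟨x, hx, rfl⟩ := mem_image.1 hy
    exact ⟨(hWT x (hVW x hx).1).1, mem_image_of_mem _ (hWT x (hVW x hx).1).2⟩
  obtain ⟨y, hy, h4⟩ := exists_le_card_fiber_of_nsmul_le_card_of_maps_to
    (f := fun x : ℕ × Ln => (x.1, A.cell x.1 x.2)) (b := (A.m : ℝ) / (24 * k ^ 2))
    (fun x hx => mem_image_of_mem _ hx) (hVne.image _) (by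
      rw [nsmul_eq_mul]
      refine (mul_le_mul_of_nonneg_right h3 (by positivity)).trans ?_
      refine le_of_mul_le_mul_left (le_trans (le_of_eq ?_) h2.le) (by positivity)
      field_simp
      norm_num)
  obtain ⟨⟨i, δ0⟩, hx0, rfl⟩ := mem_image.1 hy
  obtain ⟨hi, hδ0⟩ := hWT _ (hVW _ hx0).1
  obtain ⟨G, hG⟩ : ∃ G : Finset Ln, G = {δ ∈ A.Γ | (i, δ) ∈ V ∧ A.cell i δ = A.cell i δ0} :=
    ⟨_, rfl⟩
  have hGm : ∀ δ, δ ∈ G ↔ δ ∈ A.Γ ∧ (i, δ) ∈ V ∧ A.cell i δ = A.cell i δ0 := fun δ => by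
    rw [hG, mem_filter]
  have h5 : (A.m : ℝ) / (24 * k ^ 2) ≤ #G := by
    refine h4.trans (Nat.cast_le.2 (le_trans (card_le_card (t := G.image (Prod.mk i))
      fun x hx => ?_) card_image_le))
    obtain ⟨j, δ⟩ := x
    obtain ⟨a1, a2⟩ := mem_filter.1 hx
    obtain ⟨rfl, a3⟩ := Prod.mk.inj a2
    exact mem_image_of_mem _ ((hGm δ).2 ⟨(mem_ty.1 (hWT _ (hVW _ a1).1).2).1, a1, a3⟩)
  have hρG : ∀ δ ∈ G, ρ (i, δ) = ρ (i, δ0) := fun δ hδ => by
    have := cell_congr ((hGm δ).1 hδ).2.2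
    rw [hρ, hρ, this.1, this.2.1]
  obtain ⟨N, hN⟩ : ∃ N : Finset (ℕ × Ln), N = {x ∈ W | x.2 ∈ G ∧ ρ (i, δ0) ≤ ρ x} := ⟨_, rfl⟩
  have hNm : ∀ x, x ∈ N ↔ x ∈ W ∧ x.2 ∈ G ∧ ρ (i, δ0) ≤ ρ x := fun x => by rw [hN, mem_filter]
  have h6 : #G * s ≤ #N := by
    rw [card_eq_sum_card_fiberwise (f := Prod.snd) (s := N) (t := G)
      fun x hx => ((hNm x).1 hx).2.1, Nat.cast_sum, ← nsmul_eq_mul]
    refine card_nsmul_le_sum _ _ _ fun δ hδ => ?_
    refine (hVW _ ((hGm δ).1 hδ).2.1).2.trans (Nat.cast_le.2 (card_le_card fun x hx => ?_))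
    obtain ⟨a1, a2, a3⟩ := mem_filter.1 hx
    exact mem_filter.2 ⟨(hNm x).2 ⟨a1, a2 ▸ hδ, hρG δ hδ ▸ a3⟩, a2⟩
  have p1 := h.cmin_pos hi hδ0
  have hr : 2 ≤ ρ (i, δ0) := by
    rw [hρ, le_div_iff₀ p1]
    exact (hW _ (hVW _ hx0).1).2.1.le
  have h7 : (#(N.image fun x => (x.1, A.cell x.1 x.2)) : ℝ) ≤ A.L * 5 := by
    refine (AWide_col _ A.I (fun j => ({δ ∈ G | (j, δ) ∈ N} : Finset Ln).image (A.cell j))
      (fun y hy => ?_) fun j hj => ?_).trans (mul_le_mul_of_nonneg_right h.I_card (by norm_num))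
    · obtain ⟨x, hx, rfl⟩ := mem_image.1 hy
      exact ⟨(hWT x ((hNm x).1 hx).1).1,
        mem_image_of_mem _ (mem_filter.2 ⟨((hNm x).1 hx).2.1, hx⟩)⟩
    · obtain ⟨t, ht, ht'⟩ := h.side_ratio b hi hj
      refine h.AWide_five hj (a := t * A.cmin i δ0 / 2) (by positivity) hr _ fun δ hδ => ?_
      obtain ⟨a1, a2⟩ := mem_filter.1 hδ
      obtain ⟨a3, -, a4⟩ := (hNm _).1 a2
      obtain ⟨a5, a6, a7⟩ := (hGm δ).1 a1
      obtain ⟨b1, b2⟩ := ht' δ a5 (hW _ (hVW _ a6).1).2.2 (hW _ a3).2.2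
      obtain ⟨b3, b4⟩ := cmin_le (hWT _ (hVW _ a6).1).2
      rw [(cell_congr a7).1] at b3
      rw [(cell_congr a7).2.1] at b4
      have b5 := mul_le_mul_of_nonneg_left b3 ht.le
      have b6 := mul_le_mul_of_nonneg_left b4 ht.le
      refine ⟨(hWT _ a3).2, a4.trans_eq (hρ _), by linarith, ?_⟩
      have e : 4 * ρ (i, δ0) * (t * A.cmin i δ0 / 2) = 2 * (t * A.cmax i δ0) := by
        rw [hρ]
        field_simp
        ring
      linarith
  have h8 := h.p5_cells 1 le_rfl G (fun δ hδ => ((hGm δ).1 hδ).1)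
    (N.image fun x => (x.1, A.cell x.1 x.2)) N fun x hx =>
      ⟨(hW x ((hNm x).1 hx).1).1, ((hNm x).1 hx).2.1, by
        rw [one_mul]
        exact mem_image_of_mem (fun x : ℕ × Ln => (x.1, A.cell x.1 x.2)) hx⟩
  have hG0 : (0 : ℝ) < #G := lt_of_lt_of_le (by positivity) h5
  have k1 : (2 : ℝ) ^ 21 * k ^ 9 ≤ A.L := by
    refine le_trans ?_ ((pow_le_pow_right₀ (by linarith) (by norm_num : 21 + 9 ≤ 32)).trans hL)
    rw [pow_add]
    exact mul_le_mul_of_nonneg_right (pow_le_pow_left₀ two_pos.le hk 21) (by positivity)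
  have k2 : 24 * k ^ 2 ≤ A.L := by
    refine le_trans ?_ k1
    exact mul_le_mul (by norm_num) (pow_le_pow_right₀ (by linarith) (by norm_num))
      (by positivity) (by positivity)
  have h9 : (A.m : ℝ) / A.L ≤ #G := (div_le_div_of_nonneg_left hm0.le (by positivity) k2).trans h5
  have h10 : (#G * s) ^ 3 ≤ (A.L * 5) ^ 2 * (k * #G * (#G + #G) * A.m) := by
    refine (pow_le_pow_left₀ (by positivity) h6 3).trans (h8.trans ?_)
    rw [Nat.cast_one, one_pow, mul_one]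
    gcongr
  have h11 : #G * s ^ 3 ≤ 50 * A.L ^ 2 * k * A.m := by
    refine le_of_mul_le_mul_left ?_ (by positivity : (0 : ℝ) < #G ^ 2)
    calc _ = (#G * s) ^ 3 := by ring
      _ ≤ _ := h10
      _ = _ := by ring
  have h12 := (mul_le_mul_of_nonneg_right h5 (pow_pos hs0 3).le).trans h11
  rw [hs, div_pow, div_mul_div_comm, div_le_iff₀ (by positivity)] at h12
  have h13 : A.L ≤ 2073600 * k ^ 9 := by
    refine le_of_mul_le_mul_left ?_ (by positivity : (0 : ℝ) < A.m * A.L ^ 2)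
    calc _ = A.m * A.L ^ 3 := by ring
      _ ≤ _ := h12
      _ = _ := by ring
  have : 0 < k ^ 9 := by positivity
  linarith

/-- Suppose more than `m L² / (2 k)` incidences are wide.  Remove the mid ones; one side `b`
keeps `≥ m L² / (6 k)`.  Lines with at least `κ L` wide columns of side `b`, `κ = 1 / (12 k²)`,
carry `≥ m L² / (12 k)` of them; order the columns of such a line by `cmax / cmin`: half of them
have `≥ κ L / 2` columns with a ratio at least as large.  Pigeonhole over the `≤ 2 k L²` pairs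
(column `i`, cell): a set `Γ'` of `G ≥ m / (48 k²)` lines.  At another column `j` such a line has
`U j ∈ [t cmin / 2, 2 t cmax]`, an interval of log-length `≤ 3 log (cmax / cmin)`, so at most 5
cells of at least this ratio occur (`card_intervals` for logarithms).  `p5_cells` with `a = 1`:
`(G κ L / 2)³ ≤ (5 L)² k G (2 G) m`, i.e. `L ≤ k ^ C`. -/
theorem wide : ∃ C : ℕ, ∀ (A : AD) (k : ℝ), A.OK k → k ^ C ≤ A.lam →
    2 * k * #{x ∈ A.T | 2 * A.cmin x.1 x.2 < A.cmax x.1 x.2} ≤ A.m * A.L ^ 2 := by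
  refine ⟨2, fun A k h hk => ?_⟩
  have hk2 := h.k2
  have hk0 : 0 < k := by linarith
  have hL : k ^ 32 ≤ A.L := by
    rw [show 32 = 2 * 16 by norm_num, pow_mul]
    exact pow_le_pow_left₀ (by positivity) hk 16
  have hL0 : 0 < A.L := one_pos.trans_le h.L1
  obtain ⟨W, hW⟩ : ∃ W : Finset (ℕ × Ln),
      W = {x ∈ A.T | 2 * A.cmin x.1 x.2 < A.cmax x.1 x.2} := ⟨_, rfl⟩
  rw [← hW]
  have hs : ∀ b, 6 * k * #{x ∈ W | A.Side b x.1 x.2} ≤ A.m * A.L ^ 2 := fun b =>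
    h.AWide_side hL b _ fun x hx => by
      rw [mem_filter, hW, mem_filter] at hx
      exact ⟨hx.1.1, hx.1.2, hx.2⟩
  have h1 : (#{x ∈ W | ¬ A.Side true x.1 x.2 ∧ ¬ A.Side false x.1 x.2} : ℝ) ≤
      A.L * (k * A.m) := by
    refine (AWide_col _ A.I (fun i => {δ ∈ A.Γ | ¬ A.Side true i δ ∧ ¬ A.Side false i δ})
      (fun x hx => ?_) fun i _ => ?_).trans (mul_le_mul_of_nonneg_right h.I_card (by positivity))
    · rw [mem_filter, hW, mem_filter] at hx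
      exact ⟨(h.mem_T hx.1.1).1, mem_filter.2 ⟨(mem_ty.1 (h.mem_T hx.1.1).2).1, hx.2⟩⟩
    · exact (le_mul_of_one_le_right (Nat.cast_nonneg _) (one_le_pow₀ h.lam1)).trans (h.mid_card i)
  have h2 : #W ≤ #{x ∈ W | A.Side true x.1 x.2} + #{x ∈ W | A.Side false x.1 x.2} +
      #{x ∈ W | ¬ A.Side true x.1 x.2 ∧ ¬ A.Side false x.1 x.2} := by
    refine le_trans (card_le_card fun x hx => ?_)
      ((card_union_le _ _).trans (Nat.add_le_add_right (card_union_le _ _) _))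
    simp only [mem_union, mem_filter]
    tauto
  have h3 : 6 * k ^ 2 ≤ A.L := by
    refine le_trans ?_ ((pow_le_pow_right₀ (by linarith) (by norm_num : 3 + 2 ≤ 32)).trans hL)
    rw [pow_add]
    exact mul_le_mul_of_nonneg_right
      (le_trans (by norm_num) (pow_le_pow_left₀ two_pos.le hk2 3)) (by positivity)
  have h4 := mul_le_mul_of_nonneg_left (Nat.cast_le (α := ℝ).2 h2) hk0.le
  have h5 := mul_le_mul_of_nonneg_left h1 hk0.le
  have h6 := mul_le_mul_of_nonneg_left h3 (by positivity : 0 ≤ A.m * A.L)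
  push_cast at h4
  linarith [hs true, hs false]

/-- at most one typical line of a column lies in a cell of size zero -/
lemma OK.AWide_zero (h : A.OK k) {i : ℕ} (hi : i ∈ A.I) :
    #{δ ∈ A.ty i | ¬ 0 < A.sz i δ} ≤ 1 := by
  have h1 : ∀ δ ∈ A.ty i, ¬ 0 < A.sz i δ → ∀ δ' ∈ A.cl i δ, δ' = δ := by
    intro δ hδ h0 δ' hδ'
    obtain ⟨a1, a2⟩ := mem_filter.1 hδ'
    obtain ⟨b1, b2⟩ := cmin_le hδ
    obtain ⟨b3, b4⟩ := cmin_le a1
    rw [(cell_congr a2).1] at b3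
    rw [(cell_congr a2).2.1] at b4
    rw [sz, not_lt] at h0
    exact h.U_inj i hi δ' (mem_ty.1 a1).1 δ (mem_ty.1 hδ).1 (by linarith)
  have h2 : ∀ δ ∈ A.ty i, ¬ 0 < A.sz i δ → ∀ δ' ∈ A.ty i, A.cell i δ' ≤ A.cell i δ := by
    intro δ hδ h0 δ' hδ'
    by_contra hlt
    have a1 := h.cl_full hi hδ' (not_le.1 hlt)
    have a2 : #(A.cl i δ) ≤ 1 := card_le_one.2 fun a ha b hb =>
      (h1 δ hδ h0 a ha).trans (h1 δ hδ h0 b hb).symm
    have := h.m2
    omega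
  refine card_le_one.2 fun a ha b hb => ?_
  obtain ⟨a1, a2⟩ := mem_filter.1 ha
  obtain ⟨b1, b2⟩ := mem_filter.1 hb
  exact h1 b b1 b2 a (mem_filter.2 ⟨a1, le_antisymm (h2 b b1 b2 a a1) (h2 a a1 a2 b b1)⟩)

/-- remove wide cells, cells of size zero (singletons, hence last cells: one incidence per column)
and the `≤ k lam ^ 15` columns with `far i > m² lam ^ 15` -/
theorem clean : ∃ C : ℕ, ∀ (A : AD) (k : ℝ), A.OK k → k ^ C ≤ A.lam →
    ∃ T', A.Clean (4 * k) T' := by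
  obtain ⟨C, hC⟩ := wide
  refine ⟨C + 6, fun A k h hk => ?_⟩
  have hk2 := h.k2
  have hk0 : 0 < k := by linarith
  have hk1 : 1 ≤ k := by linarith
  have hl0 : 0 < A.lam := one_pos.trans_le h.lam1
  have hL0 : 0 < A.L := one_pos.trans_le h.L1
  have hm1 : (1 : ℝ) ≤ A.m := by exact_mod_cast (by linarith [h.m2] : 1 ≤ A.m)
  have h1 := hC A k h ((pow_le_pow_right₀ hk1 (by omega)).trans hk)
  have h2 : (#{x ∈ A.T | ¬ 0 < A.sz x.1 x.2} : ℝ) ≤ A.L * 1 := by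
    refine (AWide_col _ A.I (fun i => {δ ∈ A.ty i | ¬ 0 < A.sz i δ}) (fun x hx => ?_)
      fun i hi => ?_).trans (mul_le_mul_of_nonneg_right h.I_card zero_le_one)
    · obtain ⟨a1, a2⟩ := mem_filter.1 hx
      exact ⟨(h.mem_T a1).1, mem_filter.2 ⟨(h.mem_T a1).2, a2⟩⟩
    · exact_mod_cast h.AWide_zero hi
  have h3 : (#{i ∈ A.I | ¬ A.far i ≤ A.m ^ 2 * A.lam ^ 15} : ℝ) ≤ k * A.lam ^ 15 := by
    have a1 := card_nsmul_le_sum {i ∈ A.I | ¬ A.far i ≤ A.m ^ 2 * A.lam ^ 15} A.far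
      (A.m ^ 2 * A.lam ^ 15) fun i hi => (not_le.1 (mem_filter.1 hi).2).le
    have a2 := (a1.trans (sum_le_sum_of_subset_of_nonneg (filter_subset _ _)
      fun i _ _ => Nat.cast_nonneg _)).trans h.far_sum
    rw [nsmul_eq_mul] at a2
    refine le_of_mul_le_mul_right (a2.trans_eq ?_) (by positivity)
    ring
  have h4 : (#{x ∈ A.T | ¬ A.far x.1 ≤ A.m ^ 2 * A.lam ^ 15} : ℝ) ≤
      k * A.lam ^ 15 * (k * A.m * A.L) := by
    refine (AWide_col _ {i ∈ A.I | ¬ A.far i ≤ A.m ^ 2 * A.lam ^ 15} A.ty (fun x hx => ?_)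
      fun i _ => h.ty_card i).trans (mul_le_mul_of_nonneg_right h3 (by positivity))
    obtain ⟨a1, a2⟩ := mem_filter.1 hx
    exact ⟨mem_filter.2 ⟨(h.mem_T a1).1, a2⟩, (h.mem_T a1).2⟩
  refine ⟨{x ∈ A.T | 0 < A.sz x.1 x.2 ∧ A.cmax x.1 x.2 ≤ 2 * A.cmin x.1 x.2 ∧
    A.far x.1 ≤ A.m ^ 2 * A.lam ^ 15}, filter_subset _ _, ?_, fun x hx => (mem_filter.1 hx).2.1,
    fun x hx => (mem_filter.1 hx).2.2.1, fun x hx => (mem_filter.1 hx).2.2.2⟩
  have h5 : #A.T ≤ #{x ∈ A.T | 0 < A.sz x.1 x.2 ∧ A.cmax x.1 x.2 ≤ 2 * A.cmin x.1 x.2 ∧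
      A.far x.1 ≤ A.m ^ 2 * A.lam ^ 15} + #{x ∈ A.T | 2 * A.cmin x.1 x.2 < A.cmax x.1 x.2} +
      #{x ∈ A.T | ¬ 0 < A.sz x.1 x.2} + #{x ∈ A.T | ¬ A.far x.1 ≤ A.m ^ 2 * A.lam ^ 15} := by
    refine le_trans (card_le_card fun x hx => ?_) ((card_union_le _ _).trans
      (Nat.add_le_add_right ((card_union_le _ _).trans
        (Nat.add_le_add_right (card_union_le _ _) _)) _))
    simp only [mem_union, mem_filter, ← not_le (a := A.cmax x.1 x.2)]
    tauto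
  have h6 := mul_le_mul_of_nonneg_left (Nat.cast_le (α := ℝ).2 h5) hk0.le
  have h7 : 8 * k ^ 3 ≤ A.lam := by
    refine le_trans ?_ ((pow_le_pow_right₀ hk1 (by omega : 3 + 3 ≤ C + 6)).trans hk)
    rw [pow_add]
    exact mul_le_mul_of_nonneg_right
      (le_trans (by norm_num) (pow_le_pow_left₀ two_pos.le hk2 3)) (by positivity)
  have h8 : k * (A.L * 1) ≤ k ^ 3 * (A.m * A.lam ^ 15 * A.L) := by
    refine mul_le_mul (le_self_pow₀ hk1 (by norm_num)) ?_ (by positivity) (by positivity)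
    rw [mul_comm]
    exact mul_le_mul_of_nonneg_right (one_le_mul_of_one_le_of_one_le hm1 (one_le_pow₀ h.lam1)) hL0.le
  have h9 := mul_le_mul_of_nonneg_right h7 (by positivity : 0 ≤ A.m * A.lam ^ 15 * A.L)
  have h10 : A.lam * (A.m * A.lam ^ 15 * A.L) = A.m * A.L ^ 2 := by
    rw [L]
    ring
  have h11 := mul_le_mul_of_nonneg_left h2 hk0.le
  have h12 := mul_le_mul_of_nonneg_left h4 hk0.le
  push_cast at h6
  linarith [h.T_big]

end AD

end Crest.Agent.R051
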