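import Crest.Agent.R051.Arcs1

/-! Row 51: crossing budgets for arcs (edges and chords) on pieces. -/

set_option autoImplicit false

open Finset
open scoped Classical

namespace Crest.Agent.R051

variable {Q : Proc} (G : Paths Q)

lemma h69_sib_ne (a : ℕ) : sib a ≠ a := by
  unfold sib
  split_ifs <;> omega

lemma h69_sib_sib (a : ℕ) : sib (sib a) = a := by
  unfold sib
  split_ifs <;> omega

lemma h69_sib_lt {a m : ℕ} (hm : 0 < m) (ha : a < 2 ^ m) : sib a < 2 ^ m := by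
  obtain ⟨m, rfl⟩ := Nat.exists_eq_succ_of_ne_zero hm.ne'
  have := sib_div a
  rw [Nat.succ_eq_add_one, pow_succ] at *
  omega

lemma h69_sib_div {a m : ℕ} (hm : 0 < m) : sib a / 2 ^ m = a / 2 ^ m := by
  obtain ⟨m, rfl⟩ := Nat.exists_eq_succ_of_ne_zero hm.ne'
  rw [Nat.succ_eq_add_one, pow_succ', ← Nat.div_div_eq_div_mul, ← Nat.div_div_eq_div_mul, sib_div]

lemma Paths.h69_sum_Lam (c : ℕ → Prop) (jT : ℕ) (Γ : Finset (ℕ × ℕ)) :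
    ∑ γ ∈ Γ, G.Lam c jT γ = ∑ j ∈ range jT,
      ∑ t ∈ Q.E with G.pc c t ∈ Γ ∧ (c t ∨ j < G.lev t), (Q.K j (sib (t / 2 ^ j)) : ℝ) := by
  unfold Paths.Lam
  rw [sum_comm]
  refine sum_congr rfl fun j _ => ?_
  rw [← sum_fiberwise_of_maps_to (s := Q.E.filter fun t => G.pc c t ∈ Γ ∧ (c t ∨ j < G.lev t))
    (t := Γ) (g := G.pc c) fun t ht => (mem_filter.1 ht).2.1]
  refine sum_congr rfl fun γ hγ => sum_congr ?_ fun _ _ => rfl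
  ext t
  simp only [mem_filter]
  constructor
  · rintro ⟨h1, h2, h3⟩
    exact ⟨⟨h1, h2 ▸ hγ, h3⟩, h2⟩
  · rintro ⟨⟨h1, -, h3⟩, h2⟩
    exact ⟨h1, h2, h3⟩

lemma Paths.h69_fst_inj {c : ℕ → Prop} {jf : ℕ} {A : Finset (ℕ × ℕ)}
    (hA : ∀ a ∈ A, G.IsArc c jf a) (hD : ∀ a ∈ A, ∀ a' ∈ A, a ≠ a' → G.Disj a a')
    {a a' : ℕ × ℕ} (ha : a ∈ A) (ha' : a' ∈ A) (h : a.1 = a'.1) : a = a' := by
  by_contra hne
  have h1 := (hA a ha).2.2.2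
  have h2 := (hA a' ha').2.2.2
  have h3 := hD a ha a' ha' hne (by rw [h])
  rw [h] at h1 h3
  omega

lemma Paths.h69_fine {c : ℕ → Prop} {jf : ℕ} (A : Finset (ℕ × ℕ))
    (hA : ∀ a ∈ A, G.IsArc c jf a) (hD : ∀ a ∈ A, ∀ a' ∈ A, a ≠ a' → G.Disj a a') :
    #{x ∈ A ×ˢ A | Q.ACross x.1 x.2 ∧ x.1.1 / 2 ^ jf = x.2.1 / 2 ^ jf} ≤ (2 ^ jf - 1) * #A := by
  refine card_le_mul_card_image_of_maps_to (f := Prod.fst)
    (fun x hx => (mem_product.1 (mem_filter.1 hx).1).1) _ fun a ha => ?_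
  have hm : a.1 ∈ Ico (a.1 / 2 ^ jf * 2 ^ jf) ((a.1 / 2 ^ jf + 1) * 2 ^ jf) := win_mem.1 rfl
  have e : #((Ico (a.1 / 2 ^ jf * 2 ^ jf) ((a.1 / 2 ^ jf + 1) * 2 ^ jf)).erase a.1) =
      2 ^ jf - 1 := by
    rw [card_erase_of_mem hm, Nat.card_Ico, add_mul, one_mul, Nat.add_sub_cancel_left]
  rw [← e]
  refine card_le_card_of_injOn (fun x => x.2.1) (fun x hx => ?_) fun x hx y hy hxy => ?_
  · simp only [coe_filter, mem_filter, mem_product, Set.mem_ofPred_eq] at hx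
    obtain ⟨⟨⟨h1, h2⟩, h3, h4⟩, h5⟩ := hx
    refine mem_coe.2 (mem_erase.2 ⟨fun h => h3.1 ?_, win_mem.1 (by rw [← h4, h5])⟩)
    rw [h5]
    exact congrArg Q.u h.symm
  · simp only [coe_filter, mem_filter, mem_product, Set.mem_ofPred_eq] at hx hy
    exact Prod.ext (hx.2.trans hy.2.symm) (G.h69_fst_inj hA hD hx.1.1.2 hy.1.1.2 hxy)

lemma Paths.h69_mid {c : ℕ → Prop} {jf jT : ℕ} (h1 : jf ≤ jT) (hj : jT ≤ Q.μ)
    (A : Finset (ℕ × ℕ)) (hA : ∀ a ∈ A, G.IsArc c jf a)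
    (hD : ∀ a ∈ A, ∀ a' ∈ A, a ≠ a' → G.Disj a a')
    (Γ : Finset (ℕ × ℕ)) (hΓ : ∀ a ∈ A, G.pc c a.1 ∈ Γ) :
    #{x ∈ A ×ˢ A | Q.ACross x.1 x.2 ∧ x.1.1 / 2 ^ jT = x.2.1 / 2 ^ jT ∧
        x.1.1 / 2 ^ jf ≠ x.2.1 / 2 ^ jf} ≤
      ∑ j ∈ range jT, ∑ t ∈ Q.E with G.pc c t ∈ Γ ∧ (c t ∨ j < G.lev t),
        Q.K j (sib (t / 2 ^ j)) := by
  refine le_trans (card_le_card_of_forall_subsingleton
    (t := (range jT).sigma fun j =>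
      (Q.E.filter fun t => G.pc c t ∈ Γ ∧ (c t ∨ j < G.lev t)).sigma fun t =>
        Q.E.filter fun t' => t' / 2 ^ j = sib (t / 2 ^ j) ∧ j < G.lev t')
    (fun x y => jf ≤ y.1 ∧ x.2.1 / 2 ^ y.1 = sib (x.1.1 / 2 ^ y.1) ∧
      G.pc (fun t => c t ∨ y.1 < G.lev t) y.2.1 = G.pc (fun t => c t ∨ y.1 < G.lev t) x.1.1 ∧
      G.pc (fun t => y.1 < G.lev t) y.2.2 = G.pc (fun t => y.1 < G.lev t) x.2.1)
    (fun x hx => ?_) fun y hy x hx x' hx' => ?_) ?_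
  · simp only [mem_filter, mem_product] at hx
    obtain ⟨⟨ha, ha'⟩, -, h3, h4⟩ := hx
    obtain ⟨i, i1, i2, i3⟩ := exists_sib h4 h3 h1
    have hi : i ≤ Q.μ := by omega
    obtain ⟨t, ht, p1, p2, -⟩ := G.exists_last (c := fun t => c t ∨ i < G.lev t) hi
      (fun _ _ h => Or.inr h) (hA _ ha).1
    obtain ⟨t', ht', p1', p2', -⟩ := G.exists_last (c := fun t => i < G.lev t) hi
      (fun _ _ h => h) (hA _ ha').1
    refine ⟨⟨i, t, t'⟩, ?_, i1, i3, p1, p1'⟩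
    simp only [mem_sigma, mem_filter, mem_range]
    refine ⟨i2, ⟨ht, ?_, p2⟩, ht', ?_, p2'⟩
    · rw [G.pc_mono (fun _ _ h => Or.inl h) ht (hA _ ha).1 p1]
      exact hΓ _ ha
    · rw [G.pc_win (fun _ _ h => h) ht' (hA _ ha').1 p1',
        G.pc_win (fun _ _ h => Or.inr h) ht (hA _ ha).1 p1, i3]
  · simp only [mem_filter, mem_product, Set.mem_ofPred_eq] at hx hx'
    obtain ⟨⟨⟨ha, ha'⟩, h3, -⟩, r1, r2, r3, r4⟩ := hx
    obtain ⟨⟨⟨hb, hb'⟩, h3', -⟩, -, -, r3', r4'⟩ := hx'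
    have hi : y.1 ≤ Q.μ := by
      have := mem_range.1 (mem_sigma.1 hy).1
      omega
    have := G.arc_unique r1 hi (fun _ _ h => Or.inr h) (fun _ _ h => h) (hA _ ha) (hA _ hb)
      (hA _ ha') (hA _ hb') ((eq_or_ne _ _).imp id (hD _ ha _ hb))
      ((eq_or_ne _ _).imp id (hD _ ha' _ hb')) (r3.symm.trans r3') (r4.symm.trans r4')
      (by rw [r2]; exact (h69_sib_ne _).symm) h3 h3'
    exact Prod.ext this.1 this.2
  · rw [card_sigma]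
    refine sum_le_sum fun j hj' => ?_
    rw [card_sigma]
    refine sum_le_sum fun t _ => G.count j ?_ _
    have := mem_range.1 hj'
    omega

/-- Same-window crossings.  Same fine window: at most `2 ^ jf - 1` partners per arc (first edges
of distinct arcs differ).  Otherwise `exists_sib` gives a level `i ∈ [jf, jT)`; map the pair to
(`i`, last edge of the piece of `a.1` for `c ∨ i < lev`, last edge of the piece of `a'.1` for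
`i < lev`), which is injective by `arc_unique`; the third entry ranges over at most
`K i (sib ..)` edges by `Paths.count`. -/
theorem Paths.cb_same {c : ℕ → Prop} {jf jT : ℕ} (h1 : jf ≤ jT) (hj : jT ≤ Q.μ)
    (hc : ∀ t < 2 ^ Q.μ, jT < G.lev t → c t) (A : Finset (ℕ × ℕ))
    (hA : ∀ a ∈ A, G.IsArc c jf a) (hD : ∀ a ∈ A, ∀ a' ∈ A, a ≠ a' → G.Disj a a')
    (Γ : Finset (ℕ × ℕ)) (hΓ : ∀ a ∈ A, G.pc c a.1 ∈ Γ) :
    (#{x ∈ A ×ˢ A | Q.ACross x.1 x.2 ∧ x.1.1 / 2 ^ jT = x.2.1 / 2 ^ jT} : ℝ) ≤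
      ∑ γ ∈ Γ, G.Lam c jT γ + (2 ^ jf - 1) * #A := by
  have e1 := G.h69_fine A hA hD
  have e2 := G.h69_mid h1 hj A hA hD Γ hΓ
  have e3 : #{x ∈ A ×ˢ A | Q.ACross x.1 x.2 ∧ x.1.1 / 2 ^ jT = x.2.1 / 2 ^ jT} ≤
      #{x ∈ A ×ˢ A | Q.ACross x.1 x.2 ∧ x.1.1 / 2 ^ jT = x.2.1 / 2 ^ jT ∧
        x.1.1 / 2 ^ jf ≠ x.2.1 / 2 ^ jf} +
      #{x ∈ A ×ˢ A | Q.ACross x.1 x.2 ∧ x.1.1 / 2 ^ jf = x.2.1 / 2 ^ jf} := by
    refine le_trans (card_le_card fun x hx => ?_) (card_union_le _ _)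
    simp only [mem_filter, mem_union] at hx ⊢
    by_cases h : x.1.1 / 2 ^ jf = x.2.1 / 2 ^ jf
    · exact Or.inr ⟨hx.1, hx.2.1, h⟩
    · exact Or.inl ⟨hx.1, hx.2.1, hx.2.2, h⟩
  have e4 := e3.trans (add_le_add e2 e1)
  rw [G.h69_sum_Lam]
  have e5 : ((2 ^ jf - 1 : ℕ) : ℝ) = 2 ^ jf - 1 := by
    rw [Nat.cast_sub Nat.one_le_two_pow]
    simp
  rw [← e5]
  exact_mod_cast e4

/-- all crossings: pairs from different level-`jT` windows inject into `Γ ×ˢ Γ` -/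
theorem Paths.cb_all {c : ℕ → Prop} {jf jT : ℕ} (h1 : jf ≤ jT) (hj : jT ≤ Q.μ)
    (hc : ∀ t < 2 ^ Q.μ, jT < G.lev t → c t) (A : Finset (ℕ × ℕ))
    (hA : ∀ a ∈ A, G.IsArc c jf a) (hD : ∀ a ∈ A, ∀ a' ∈ A, a ≠ a' → G.Disj a a')
    (Γ : Finset (ℕ × ℕ)) (hΓ : ∀ a ∈ A, G.pc c a.1 ∈ Γ) :
    (#{x ∈ A ×ˢ A | Q.ACross x.1 x.2} : ℝ) ≤
      (#Γ : ℝ) ^ 2 + ∑ γ ∈ Γ, G.Lam c jT γ + (2 ^ jf - 1) * #A := by
  have e1 := G.cb_same h1 hj hc A hA hD Γ hΓ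
  have e2 : #{x ∈ A ×ˢ A | Q.ACross x.1 x.2 ∧ x.1.1 / 2 ^ jT ≠ x.2.1 / 2 ^ jT} ≤ #Γ ^ 2 := by
    rw [sq, ← card_product]
    refine card_le_card_of_injOn (fun x => (G.pc c x.1.1, G.pc c x.2.1)) (fun x hx => ?_)
      fun x hx x' hx' h => ?_
    · simp only [coe_filter, mem_product, Set.mem_ofPred_eq] at hx
      exact mem_coe.2 (mem_product.2 ⟨hΓ _ hx.1.1, hΓ _ hx.1.2⟩)
    · simp only [coe_filter, mem_product, Set.mem_ofPred_eq] at hx hx'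
      obtain ⟨⟨ha, ha'⟩, h3, h4⟩ := hx
      obtain ⟨⟨hb, hb'⟩, h3', -⟩ := hx'
      have := G.arc_unique h1 hj hc hc (hA _ ha) (hA _ hb)
        (hA _ ha') (hA _ hb') ((eq_or_ne _ _).imp id (hD _ ha _ hb))
        ((eq_or_ne _ _).imp id (hD _ ha' _ hb')) (congrArg Prod.fst h) (congrArg Prod.snd h)
        h4 h3 h3'
      exact Prod.ext this.1 this.2
  have e3 : #{x ∈ A ×ˢ A | Q.ACross x.1 x.2} ≤
      #{x ∈ A ×ˢ A | Q.ACross x.1 x.2 ∧ x.1.1 / 2 ^ jT ≠ x.2.1 / 2 ^ jT} +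
      #{x ∈ A ×ˢ A | Q.ACross x.1 x.2 ∧ x.1.1 / 2 ^ jT = x.2.1 / 2 ^ jT} := by
    refine le_trans (card_le_card fun x hx => ?_) (card_union_le _ _)
    simp only [mem_filter, mem_union] at hx ⊢
    by_cases h : x.1.1 / 2 ^ jT = x.2.1 / 2 ^ jT
    · exact Or.inr ⟨hx.1, hx.2, h⟩
    · exact Or.inl ⟨hx.1, hx.2, h⟩
  have e4 : (#{x ∈ A ×ˢ A | Q.ACross x.1 x.2} : ℝ) ≤ (#Γ : ℝ) ^ 2 +
      #{x ∈ A ×ˢ A | Q.ACross x.1 x.2 ∧ x.1.1 / 2 ^ jT = x.2.1 / 2 ^ jT} := by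
    exact_mod_cast e3.trans (Nat.add_le_add_right e2 _)
  linarith

/-- Total budget of the pieces lying in windows with `K ≤ n σ³`.  For each level `j < jT` the
terms with `c t` give at most `#{c} n σ³` (`K_mono`, `sib_div`); the terms with `j < lev t` give
at most `∑ K j a * K j (sib a) ≤ ∑ (K j a)²` over windows with `K ≤ n σ³`, which is `g1b`. -/
theorem Paths.lam_sum {k d : ℝ} (hB : Base Q k d) {c : ℕ → Prop} {jT : ℕ} (hj : jT ≤ Q.μ)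
    (hc : ∀ t < 2 ^ Q.μ, jT < G.lev t → c t) (σ : ℝ) (hσ : 0 < σ) (Γ : Finset (ℕ × ℕ))
    (hΓ : ∀ t < 2 ^ Q.μ, G.pc c t ∈ Γ → (Q.K jT (t / 2 ^ jT) : ℝ) ≤ #Q.P * σ ^ 3) :
    ∑ γ ∈ Γ, G.Lam c jT γ ≤
      k * (#{t ∈ Q.E | c t} * (#Q.P * σ ^ 3) + k * (#Q.P : ℝ) ^ 2 * σ ^ 2) := by
  rw [G.h69_sum_Lam]
  have hk : 0 ≤ k := by linarith [hB.k2]
  refine (sum_le_card_nsmul _ _
    (#{t ∈ Q.E | c t} * (#Q.P * σ ^ 3) + k * (#Q.P : ℝ) ^ 2 * σ ^ 2) fun j hj' => ?_).trans ?_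
  swap
  · rw [card_range, nsmul_eq_mul]
    refine mul_le_mul_of_nonneg_right ?_ (by positivity)
    have : (jT : ℝ) ≤ Q.μ := by exact_mod_cast hj
    linarith [hB.mu]
  have hjT : j < jT := mem_range.1 hj'
  have hjμ : j ≤ Q.μ := by omega
  have key : ∀ t < 2 ^ Q.μ, G.pc c t ∈ Γ → (Q.K j (t / 2 ^ j) : ℝ) ≤ #Q.P * σ ^ 3 ∧
      (Q.K j (sib (t / 2 ^ j)) : ℝ) ≤ #Q.P * σ ^ 3 := fun t ht h => by
    have w := win_lt hjμ ht
    have k1 := Q.K_mono hjT.le hj w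
    have k2 := Q.K_mono hjT.le hj (h69_sib_lt (by omega) w)
    rw [h69_sib_div (by omega)] at k2
    rw [win_div hjT.le] at k1 k2
    exact ⟨le_trans (by exact_mod_cast k1) (hΓ t ht h), le_trans (by exact_mod_cast k2) (hΓ t ht h)⟩
  have s1 : ∑ t ∈ Q.E with G.pc c t ∈ Γ ∧ c t, (Q.K j (sib (t / 2 ^ j)) : ℝ) ≤
      #{t ∈ Q.E | c t} * (#Q.P * σ ^ 3) := by
    refine (sum_le_card_nsmul _ _ (#Q.P * σ ^ 3) fun t ht => ?_).trans ?_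
    · obtain ⟨q1, q2, -⟩ := mem_filter.1 ht
      exact (key t (mem_range.1 q1) q2).2
    · rw [nsmul_eq_mul]
      refine mul_le_mul_of_nonneg_right ?_ (by positivity)
      refine Nat.cast_le.2 (card_le_card fun t ht => ?_)
      exact mem_filter.2 ⟨(mem_filter.1 ht).1, (mem_filter.1 ht).2.2⟩
  have s2 : ∑ t ∈ Q.E with G.pc c t ∈ Γ ∧ j < G.lev t, (Q.K j (sib (t / 2 ^ j)) : ℝ) ≤
      k * (#Q.P : ℝ) ^ 2 * σ ^ 2 := by
    set W := (range (2 ^ (Q.μ - j))).filter fun a =>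
      (Q.K j a : ℝ) ≤ #Q.P * σ ^ 3 ∧ (Q.K j (sib a) : ℝ) ≤ #Q.P * σ ^ 3 with hW
    have g := hB.g1b j hjμ σ hσ
    have w1 : ∑ a ∈ W, (Q.K j a : ℝ) ^ 2 ≤ k * (#Q.P : ℝ) ^ 2 * σ ^ 2 :=
      le_trans (sum_le_sum_of_subset_of_nonneg (fun a ha =>
        mem_filter.2 ⟨(mem_filter.1 ha).1, (mem_filter.1 ha).2.1⟩) fun _ _ _ => sq_nonneg _) g
    have w2 : ∑ a ∈ W, (Q.K j (sib a) : ℝ) ^ 2 ≤ k * (#Q.P : ℝ) ^ 2 * σ ^ 2 := by
      rw [← sum_image (g := sib) (f := fun a => (Q.K j a : ℝ) ^ 2) fun a _ b _ h => by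
        rw [← h69_sib_sib a, h, h69_sib_sib]]
      refine le_trans (sum_le_sum_of_subset_of_nonneg (fun b hb => ?_) fun _ _ _ => sq_nonneg _) g
      obtain ⟨a, ha, rfl⟩ := mem_image.1 hb
      obtain ⟨q1, -, q2⟩ := mem_filter.1 ha
      exact mem_filter.2 ⟨mem_range.2 (h69_sib_lt (by omega) (mem_range.1 q1)), q2⟩
    rw [← sum_fiberwise_of_maps_to (t := W) (g := fun t => t / 2 ^ j) fun t ht => by
      obtain ⟨q1, q2, -⟩ := mem_filter.1 ht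
      exact mem_filter.2 ⟨mem_range.2 (win_lt hjμ (mem_range.1 q1)), key t (mem_range.1 q1) q2⟩]
    have w3 : ∀ a ∈ W, ∑ t ∈ (Q.E.filter fun t => G.pc c t ∈ Γ ∧ j < G.lev t) with t / 2 ^ j = a,
        (Q.K j (sib (t / 2 ^ j)) : ℝ) ≤
          (Q.K j a : ℝ) ^ 2 / 2 + (Q.K j (sib a) : ℝ) ^ 2 / 2 := fun a _ => by
      rw [sum_congr rfl fun t ht => by rw [(mem_filter.1 ht).2], sum_const, nsmul_eq_mul]
      have q1 : #{t ∈ (Q.E.filter fun t => G.pc c t ∈ Γ ∧ j < G.lev t) | t / 2 ^ j = a} ≤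
          Q.K j a := by
        refine le_trans (card_le_card fun t ht => ?_) (G.count j hjμ a)
        simp only [mem_filter] at ht ⊢
        exact ⟨ht.1.1, ht.2, ht.1.2.2⟩
      have q2 : (#{t ∈ (Q.E.filter fun t => G.pc c t ∈ Γ ∧ j < G.lev t) | t / 2 ^ j = a} : ℝ) ≤
          Q.K j a := by exact_mod_cast q1
      refine (mul_le_mul_of_nonneg_right q2 (Nat.cast_nonneg _)).trans ?_
      nlinarith [sq_nonneg ((Q.K j a : ℝ) - Q.K j (sib a))]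
    refine (sum_le_sum w3).trans ?_
    rw [sum_add_distrib, ← sum_div, ← sum_div]
    linarith
  refine le_trans ?_ (add_le_add s1 s2)
  rw [sum_filter, sum_filter, sum_filter, ← sum_add_distrib]
  refine sum_le_sum fun t _ => ?_
  have : (0 : ℝ) ≤ Q.K j (sib (t / 2 ^ j)) := Nat.cast_nonneg _
  by_cases q1 : G.pc c t ∈ Γ <;> by_cases q2 : c t <;> by_cases q3 : j < G.lev t <;>
    simp [q1, q2, q3]

end Crest.Agent.R051
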