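import Crest.Agent.R051.Piece

/-! Row 51: crossing budgets for arcs (edges and chords) on pieces. -/

set_option autoImplicit false

open Finset
open scoped Classical

namespace Crest.Agent.R051

variable {Q : Proc} (G : Paths Q)

lemma Paths.isArc_edge (c : ℕ → Prop) (jf : ℕ) {t : ℕ} (ht : t < 2 ^ Q.μ) : G.IsArc c jf (t, t) :=
  ⟨ht, ht, rfl, le_rfl⟩

lemma Paths.disj_edge {t t' : ℕ} (ht : t < 2 ^ Q.μ) (ht' : t' < 2 ^ Q.μ) (h : t ≠ t') :
    G.Disj (t, t) (t', t') := by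
  intro hp
  exact lt_or_gt_of_ne fun e => h (G.inj t ht t' ht' hp e)

/-- an arc lies in the cone of its window of any level `j ∈ [jf, μ]` -/
lemma Paths.arc_cone {c : ℕ → Prop} {jf j : ℕ} (h1 : jf ≤ j) (hj : j ≤ Q.μ) {a : ℕ × ℕ}
    (ha : G.IsArc c jf a) :
    Cone (Q.s (a.1 / 2 ^ j * 2 ^ j)) (Q.s ((a.1 / 2 ^ j + 1) * 2 ^ j)) (Q.u a.1) (Q.v a.2) := by
  exact (G.chain_cone hj (fun t _ h => Or.inr (lt_of_le_of_lt h1 h)) ha.1 ha.2.1 ha.2.2.1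
    ha.2.2.2).1

lemma arcs1_irrefl {lo hi : ℝ} {z : Pt} : ¬ Cone lo hi z z := fun h => lt_irrefl _ h.1

lemma arcs1_cone_ne {j t t' : ℕ} (hj : j ≤ Q.μ) (ht : t < 2 ^ Q.μ) (ht' : t' < 2 ^ Q.μ)
    (hw : t / 2 ^ j ≠ t' / 2 ^ j) {p q : Pt}
    (h : Cone (Q.s (t / 2 ^ j * 2 ^ j)) (Q.s ((t / 2 ^ j + 1) * 2 ^ j)) p q) :
    ¬ Cone (Q.s (t' / 2 ^ j * 2 ^ j)) (Q.s ((t' / 2 ^ j + 1) * 2 ^ j)) p q ∧
      ¬ Cone (Q.s (t' / 2 ^ j * 2 ^ j)) (Q.s ((t' / 2 ^ j + 1) * 2 ^ j)) q p := by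
  have a1 := Q.s_win hj (win_lt hj ht)
  have a2 := Q.s_win hj (win_lt hj ht')
  rcases lt_or_gt_of_ne hw with h1 | h1
  · exact h.not_both a1 a2 (Q.s_le (Nat.mul_le_mul_right _ h1)
      ((Nat.div_mul_le_self _ _).trans ht'.le))
  · have a3 := Q.s_le (Nat.mul_le_mul_right (2 ^ j) (Nat.succ_le_of_lt h1))
      ((Nat.div_mul_le_self _ _).trans ht.le)
    exact ⟨fun h' => (h'.not_both a2 a1 a3).1 h, fun h' => (h'.not_both a2 a1 a3).2 h⟩

/-- arcs with the same endpoints start in the same fine window -/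
lemma Paths.arc_mult {c : ℕ → Prop} {jf : ℕ} (hj : jf ≤ Q.μ) (A : Finset (ℕ × ℕ))
    (hA : ∀ a ∈ A, G.IsArc c jf a) (hD : ∀ a ∈ A, ∀ a' ∈ A, a ≠ a' → G.Disj a a')
    {a : ℕ × ℕ} (ha : a ∈ A) :
    #{a' ∈ A | Q.u a'.1 = Q.u a.1 ∧ Q.v a'.2 = Q.v a.2} ≤ 2 ^ jf := by
  have h1 : 2 ^ jf = #(Ico (a.1 / 2 ^ jf * 2 ^ jf) ((a.1 / 2 ^ jf + 1) * 2 ^ jf)) := by
    rw [Nat.card_Ico, add_mul, one_mul, Nat.add_sub_cancel_left]
  rw [h1]
  refine card_le_card_of_injOn Prod.fst (fun a' ha' => ?_) fun a' ha' a'' ha'' e => ?_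
  · obtain ⟨b1, b2, b3⟩ := mem_filter.1 (mem_coe.1 ha')
    refine mem_coe.2 (win_mem.1 ?_)
    by_contra hw
    have c1 := G.arc_cone le_rfl hj (hA a' b1)
    rw [b2, b3] at c1
    exact (arcs1_cone_ne hj (hA a' b1).1 (hA a ha).1 hw c1).1 (G.arc_cone le_rfl hj (hA a ha))
  · have b1 := (mem_filter.1 (mem_coe.1 ha')).1
    have b2 := (mem_filter.1 (mem_coe.1 ha'')).1
    by_contra hne
    have c1 := (hA a' b1).2.2.2
    have c2 := (hA a'' b2).2.2.2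
    have c3 := hD a' b1 a'' b2 hne (by rw [e])
    rw [e] at c1 c3
    omega

lemma arcs1_ord {c : ℕ → Prop} {jf j : ℕ} (h1 : jf ≤ j) (hj : j ≤ Q.μ) {a b : ℕ × ℕ}
    (ha : G.IsArc c jf a) (hb : G.IsArc c jf b)
    (hp : G.pc (fun t => j < G.lev t) a.1 = G.pc (fun t => j < G.lev t) b.1)
    (hlt : G.pos a.2 < G.pos b.1) {z z' : Pt} (hz : z ∈ segment ℝ (Q.u a.1) (Q.v a.2))
    (hz' : z' ∈ segment ℝ (Q.u b.1) (Q.v b.2)) :
    (z = z' ∧ z = Q.v a.2 ∧ z = Q.u b.1) ∨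
      Cone (Q.s (a.1 / 2 ^ j * 2 ^ j)) (Q.s ((a.1 / 2 ^ j + 1) * 2 ^ j)) z z' := by
  have e1 : G.pc (fun t => j < G.lev t) a.1 = G.pc (fun t => j < G.lev t) a.2 :=
    G.pc_mono (fun t _ h => Or.inr (lt_of_le_of_lt h1 h)) ha.1 ha.2.1 ha.2.2.1
  have w1 := G.pc_win (fun _ _ h => h) ha.1 ha.2.1 e1
  have w2 := G.pc_win (fun _ _ h => h) ha.1 hb.1 hp
  have c1 := (G.arc_cone h1 hj ha).seg_right hz
  have c2 := (G.arc_cone h1 hj hb).seg_left hz'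
  have c3 := (G.chain_cone hj (fun _ _ h => h) ha.2.1 hb.1 (e1.symm.trans hp) hlt.le).2 hlt
  rw [← w2] at c2
  rw [← w1] at c3
  rcases c1 with c1 | c1 <;> rcases c2 with c2 | c2 <;> rcases c3 with c3 | c3
  · exact Or.inl ⟨c1.trans (c3.trans c2.symm), c1, c1.trans c3⟩
  · exact Or.inr (by rw [c1, c2]; exact c3)
  · exact Or.inr (by rw [c1, c3]; exact c2)
  · exact Or.inr (by rw [c1]; exact c3.trans c2)
  · exact Or.inr (by rw [c2, ← c3]; exact c1)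
  · exact Or.inr (by rw [c2]; exact c1.trans c3)
  · exact Or.inr (c1.trans (by rw [c3]; exact c2))
  · exact Or.inr (c1.trans (c3.trans c2))

lemma arcs1_tot {c c1 : ℕ → Prop} {jf j : ℕ} (h1 : jf ≤ j) (hj : j ≤ Q.μ)
    (hc1 : ∀ t < 2 ^ Q.μ, j < G.lev t → c1 t) {a b : ℕ × ℕ}
    (ha : G.IsArc c jf a) (hb : G.IsArc c jf b) (hab : a = b ∨ G.Disj a b)
    (hp : G.pc c1 a.1 = G.pc c1 b.1) {z z' : Pt} (hz : z ∈ segment ℝ (Q.u a.1) (Q.v a.2))
    (hz' : z' ∈ segment ℝ (Q.u b.1) (Q.v b.2)) :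
    (z = z' ∧ (a = b ∨ z = Q.u a.1 ∨ z = Q.v a.2)) ∨
      Cone (Q.s (a.1 / 2 ^ j * 2 ^ j)) (Q.s ((a.1 / 2 ^ j + 1) * 2 ^ j)) z z' ∨
      Cone (Q.s (a.1 / 2 ^ j * 2 ^ j)) (Q.s ((a.1 / 2 ^ j + 1) * 2 ^ j)) z' z := by
  have hp' : G.pc (fun t => j < G.lev t) a.1 = G.pc (fun t => j < G.lev t) b.1 :=
    G.pc_mono hc1 ha.1 hb.1 hp
  rcases hab with rfl | hab
  · rcases (G.arc_cone h1 hj ha).seg_total hz hz' with h | h
    · exact Or.inl ⟨h, Or.inl rfl⟩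
    · exact Or.inr h
  · rcases hab (G.pc_pid hp) with h | h
    · rcases arcs1_ord G h1 hj ha hb hp' h hz hz' with h | h
      · exact Or.inl ⟨h.1, Or.inr (Or.inr h.2.1)⟩
      · exact Or.inr (Or.inl h)
    · rcases arcs1_ord G h1 hj hb ha hp'.symm h hz' hz with h | h
      · exact Or.inl ⟨h.1.symm, Or.inr (Or.inl (h.1.symm.trans h.2.2))⟩
      · rw [← G.pc_win (fun _ _ h => h) ha.1 hb.1 hp'] at h
        exact Or.inr (Or.inr h)

lemma arcs1_seg {c : ℕ → Prop} {jf j : ℕ} (h1 : jf ≤ j) (hj : j ≤ Q.μ) {a : ℕ × ℕ}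
    (ha : G.IsArc c jf a) {p : Pt} (hp : p ∈ Q.P) (h : p ∈ segment ℝ (Q.u a.1) (Q.v a.2)) :
    p = Q.u a.1 ∨ p = Q.v a.2 := by
  refine Q.gp.seg (Q.u_P ha.1) (Q.v_mem _ ha.2.1) hp (fun e => ?_) h
  have := G.arc_cone h1 hj ha
  rw [e] at this
  exact arcs1_irrefl this

/-- Two pieces (for cut sets `c1`, `c2` refining level `j`) of different level-`j` windows carry
at most one crossing pair of arcs.  The points of the arcs of one piece are totally ordered by the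
cone of its window (`chain_cone`, `Cone.seg_left/right/total`), so the two crossing points agree
(`Cone.not_both`); if `a ≠ b` the common point is the end of one and the start of the other, a
vertex lying on the segment of `a'` without being an endpoint, against `GP.seg`. -/
lemma Paths.arc_unique {c c1 c2 : ℕ → Prop} {jf j : ℕ} (h1 : jf ≤ j) (hj : j ≤ Q.μ)
    (hc1 : ∀ t < 2 ^ Q.μ, j < G.lev t → c1 t) (hc2 : ∀ t < 2 ^ Q.μ, j < G.lev t → c2 t)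
    {a b a' b' : ℕ × ℕ} (ha : G.IsArc c jf a) (hb : G.IsArc c jf b) (ha' : G.IsArc c jf a')
    (hb' : G.IsArc c jf b') (hab : a = b ∨ G.Disj a b) (hab' : a' = b' ∨ G.Disj a' b')
    (hp : G.pc c1 a.1 = G.pc c1 b.1) (hp' : G.pc c2 a'.1 = G.pc c2 b'.1)
    (hw : a.1 / 2 ^ j ≠ a'.1 / 2 ^ j) (hx : Q.ACross a a') (hy : Q.ACross b b') :
    a = b ∧ a' = b' := by
  obtain ⟨n1, n2, n3, n4, z, hz, hz'⟩ := hx
  obtain ⟨-, -, -, -, w, hw1, hw2⟩ := hy
  have T1 := arcs1_tot G h1 hj hc1 ha hb hab hp hz hw1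
  have T2 := arcs1_tot G h1 hj hc2 ha' hb' hab' hp' hz' hw2
  rcases T1 with ⟨rfl, T1⟩ | T1 | T1
  · rcases T2 with ⟨-, T2⟩ | T2 | T2
    · constructor
      · rcases T1 with T1 | rfl | rfl
        · exact T1
        · exact ((arcs1_seg G h1 hj ha' (Q.u_P ha.1) hz').elim n1 n2).elim
        · exact ((arcs1_seg G h1 hj ha' (Q.v_mem _ ha.2.1) hz').elim n3 n4).elim
      · rcases T2 with T2 | rfl | rfl
        · exact T2
        · exact ((arcs1_seg G h1 hj ha (Q.u_P ha'.1) hz).elim n1.symm n3.symm).elim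
        · exact ((arcs1_seg G h1 hj ha (Q.v_mem _ ha'.2.1) hz).elim n2.symm n4.symm).elim
    · exact (arcs1_irrefl T2).elim
    · exact (arcs1_irrefl T2).elim
  · have := arcs1_cone_ne hj ha.1 ha'.1 hw T1
    rcases T2 with ⟨rfl, -⟩ | T2 | T2
    · exact (arcs1_irrefl T1).elim
    · exact (this.1 T2).elim
    · exact (this.2 T2).elim
  · have := arcs1_cone_ne hj ha.1 ha'.1 hw T1
    rcases T2 with ⟨rfl, -⟩ | T2 | T2
    · exact (arcs1_irrefl T1).elim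
    · exact (this.2 T2).elim
    · exact (this.1 T2).elim

/-- Chords between consecutive selected edges of the same fine piece: for `t ∈ I` having a later
element of `I` in its piece (for `c ∨ jf < lev`), let `t'` be the first one and take the arc
`(t, t'')` with `t''` the predecessor of `t'` (so `v t'' = u t'`).  The other `t ∈ I` are the last
selected edges of their pieces, at most one for every subpiece counted by `Phi`. -/
theorem Paths.exists_chords {c : ℕ → Prop} {jf : ℕ} (hj : jf ≤ Q.μ) (I : Finset ℕ) (hI : I ⊆ Q.E)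
    (Γ : Finset (ℕ × ℕ)) (hΓ : ∀ t ∈ I, G.pc c t ∈ Γ) :
    ∃ A : Finset (ℕ × ℕ), (∀ a ∈ A, G.IsArc c jf a ∧ a.1 ∈ I ∧ ∃ t' ∈ I, Q.v a.2 = Q.u t' ∧
        G.pc c t' = G.pc c a.1) ∧
      (∀ a ∈ A, ∀ a' ∈ A, a ≠ a' → G.Disj a a') ∧ #A ≤ #I ∧
      #I ≤ #A + ∑ γ ∈ Γ, G.Phi c jf γ := by
  set cf : ℕ → Prop := fun t => c t ∨ jf < G.lev t with hcf
  have hlt : ∀ t ∈ I, t < 2 ^ Q.μ := fun t ht => mem_range.1 (hI ht)
  set p : ℕ → Prop := fun t => ∃ t' ∈ I, G.pc cf t' = G.pc cf t ∧ G.pos t < G.pos t' with hp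
  have hex : ∀ t, ∃ t'', t ∈ I → p t → G.IsArc c jf (t, t'') ∧
      (∃ t' ∈ I, Q.v t'' = Q.u t' ∧ G.pc c t' = G.pc c t) ∧
      ∀ r ∈ I, G.pid r = G.pid t → G.pos t < G.pos r → G.pos t'' < G.pos r := by
    intro t
    by_cases h : t ∈ I ∧ p t
    swap
    · exact ⟨0, fun h1 h2 => (h ⟨h1, h2⟩).elim⟩
    obtain ⟨ht, t0, b1, b2⟩ := h
    obtain ⟨t', ht', hmin⟩ := exists_min_image
      {t' ∈ I | G.pc cf t' = G.pc cf t ∧ G.pos t < G.pos t'} G.pos ⟨t0, mem_filter.2 ⟨b1, b2⟩⟩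
    obtain ⟨d1, d2, d3⟩ := mem_filter.1 ht'
    obtain ⟨t'', e1, e2, e3⟩ := G.down t' (hlt t' d1) (G.pos t' - 1) (by omega)
    have e4 : G.pid t'' = G.pid t := e2.trans (G.pc_pid d2)
    have e5 := (G.pc_between (hlt t ht) (hlt t' d1) e1 d2.symm e4 (by omega) (by omega)).1
    refine ⟨t'', fun _ _ => ⟨⟨hlt t ht, e1, e5.symm, by simp only; omega⟩,
      ⟨t', d1, (G.link t'' e1 t' (hlt t' d1) e2 (by omega)).1,
        G.pc_mono (fun _ _ h => Or.inl h) (hlt t' d1) (hlt t ht) d2⟩, fun r hr f1 f2 => ?_⟩⟩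
    by_contra hc
    have f3 := (G.pc_between (hlt t ht) (hlt t' d1) (hlt r hr) d2.symm f1 f2.le (by omega)).1
    have := hmin r (mem_filter.2 ⟨hr, f3, f2⟩)
    omega
  choose f hf using hex
  have hinj : Function.Injective fun t => (t, f t) := fun t r e => congrArg Prod.fst e
  refine ⟨(I.filter p).image fun t => (t, f t), fun a ha => ?_, fun a ha a' ha' hne hpid => ?_,
    card_image_le.trans (card_filter_le _ _), ?_⟩
  · obtain ⟨t, ht, rfl⟩ := mem_image.1 ha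
    obtain ⟨h1, h2⟩ := mem_filter.1 ht
    exact ⟨(hf t h1 h2).1, h1, (hf t h1 h2).2.1⟩
  · obtain ⟨t, ht, rfl⟩ := mem_image.1 ha
    obtain ⟨r, hr, rfl⟩ := mem_image.1 ha'
    obtain ⟨h1, h2⟩ := mem_filter.1 ht
    obtain ⟨h3, h4⟩ := mem_filter.1 hr
    have h5 : G.pos t ≠ G.pos r := fun e =>
      hne (by rw [G.inj t (hlt t h1) r (hlt r h3) hpid e])
    rcases lt_or_gt_of_ne h5 with h | h
    · exact Or.inl ((hf t h1 h2).2.2 r h3 hpid.symm h)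
    · exact Or.inr ((hf r h3 h4).2.2 t h1 hpid h)
  · rw [card_image_of_injective _ hinj, ← card_filter_add_card_filter_not (s := I) p]
    refine Nat.add_le_add_left ?_ _
    have h1 : Set.InjOn (G.pc cf) (I.filter fun t => ¬ p t) := by
      intro t ht r hr e
      obtain ⟨a1, a2⟩ := mem_filter.1 (mem_coe.1 ht)
      obtain ⟨a3, a4⟩ := mem_filter.1 (mem_coe.1 hr)
      refine G.inj t (hlt t a1) r (hlt r a3) (G.pc_pid e) ?_
      by_contra hne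
      rcases lt_or_gt_of_ne hne with h | h
      · exact a2 ⟨r, a3, e.symm, h⟩
      · exact a4 ⟨t, a1, e, h⟩
    rw [← card_image_of_injOn h1]
    refine (G.card_pc (c := cf) hj (fun _ _ h => Or.inr h) _ {t ∈ Q.E | G.pc c t ∈ Γ}
      ((filter_subset _ _).trans hI) fun t ht t' ht' e => ?_).trans ?_
    · have a1 := (mem_filter.1 ht).1
      refine mem_filter.2 ⟨mem_range.2 ht', ?_⟩
      rw [G.pc_mono (c := c) (fun _ _ h => Or.inl h) ht' (hlt t a1) e]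
      exact hΓ t a1
    · unfold Paths.Phi
      refine le_trans (card_le_card fun t ht => ?_) card_biUnion_le
      simp only [mem_filter] at ht
      obtain ⟨⟨a3, a4⟩, a2⟩ := ht
      exact mem_biUnion.2 ⟨_, a4, mem_filter.2 ⟨a3, rfl, a2⟩⟩

end Crest.Agent.R051
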