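import Crest.Agent.R051.BasicA

/-! Row 51: elementary facts on processes. -/

set_option autoImplicit false

open Finset
open scoped Classical

namespace Crest.Agent.R051

lemma Proc.u_P (Q : Proc) {t : ℕ} (ht : t < 2 ^ Q.μ) : Q.u t ∈ Q.P :=
  Q.S_sub t ht.le (Q.u_mem t ht)

lemma Proc.s_le (Q : Proc) {t t' : ℕ} (h : t ≤ t') (ht' : t' ≤ 2 ^ Q.μ) : Q.s t ≤ Q.s t' := by
  rcases h.lt_or_eq with h | h
  · exact (Q.s_lt t t' h ht').le
  · rw [h]

lemma Proc.x_lt (Q : Proc) {t : ℕ} (ht : t < 2 ^ Q.μ) : (Q.u t).1 < (Q.v t).1 := by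
  exact (Q.cone t ht).x_lt (Q.s_lt t (t + 1) (Nat.lt_succ_self t) ht)

/-- distinct edges have distinct pairs of endpoints (their slopes differ) -/
lemma Proc.edge_inj (Q : Proc) {t t' : ℕ} (ht : t < 2 ^ Q.μ) (ht' : t' < 2 ^ Q.μ)
    (hu : Q.u t = Q.u t') (hv : Q.v t = Q.v t') : t = t' := by
  have h1 := (Q.cone t ht).slp_mem (Q.s_lt t (t + 1) (Nat.lt_succ_self t) ht)
  have h2 := (Q.cone t' ht').slp_mem (Q.s_lt t' (t' + 1) (Nat.lt_succ_self t') ht')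
  rw [hu, hv] at h1
  rcases lt_trichotomy t t' with h | h | h
  · have := Q.s_le (t := t + 1) (t' := t') h ht'.le
    linarith [h1.2, h2.1]
  · exact h
  · have := Q.s_le (t := t' + 1) (t' := t) h ht.le
    linarith [h1.1, h2.2]

lemma Proc.m_le (Q : Proc) : 2 ^ Q.μ ≤ #Q.P ^ 2 := by
  have h : #(range (2 ^ Q.μ)) ≤ #(Q.P ×ˢ Q.P) := by
    refine card_le_card_of_injOn (fun t => (Q.u t, Q.v t)) ?_ ?_
    · intro t ht
      have ht' : t < 2 ^ Q.μ := by simpa using ht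
      simp only [coe_product, Set.mem_prod, mem_coe]
      exact ⟨Q.u_P ht', Q.v_mem t ht'⟩
    · intro t ht t' ht' h
      have h1 : t < 2 ^ Q.μ := by simpa using ht
      have h2 : t' < 2 ^ Q.μ := by simpa using ht'
      simp only [Prod.mk.injEq] at h
      exact Q.edge_inj h1 h2 h.1 h.2
  rwa [card_range, card_product, ← sq] at h

/-- telescoping count for an arbitrary predicate -/
lemma Proc.bas_count (Q : Proc) (A : Pt → Prop) [DecidablePred A] {t0 t1 : ℕ} (h : t0 ≤ t1) (h1 : t1 ≤ 2 ^ Q.μ) :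
    #{t ∈ Ico t0 t1 | A (Q.u t)} + #{p ∈ Q.S t1 | A p} =
      #{t ∈ Ico t0 t1 | A (Q.v t)} + #{p ∈ Q.S t0 | A p} := by
  induction t1, h using Nat.le_induction with
  | base => simp
  | succ b hb ih =>
    have hb' : b < 2 ^ Q.μ := h1
    have ih := ih hb'.le
    have hn : b ∉ Ico t0 b := by simp
    have e1 : ∀ f : ℕ → Pt, #{t ∈ Ico t0 (b + 1) | A (f t)} =
        #{t ∈ Ico t0 b | A (f t)} + if A (f b) then 1 else 0 := by
      intro f
      rw [Nat.Ico_succ_right_eq_insert_Ico hb, card_filter, card_filter, sum_insert hn, add_comm]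
    have hv : Q.v b ∉ (Q.S b).erase (Q.u b) := fun h => Q.v_not b hb' (mem_of_mem_erase h)
    have e2 : #{p ∈ Q.S (b + 1) | A p} + (if A (Q.u b) then 1 else 0) =
        #{p ∈ Q.S b | A p} + if A (Q.v b) then 1 else 0 := by
      rw [Q.S_succ b hb', card_filter, card_filter, sum_insert hv,
        ← add_sum_erase (Q.S b) _ (Q.u_mem b hb')]
      ring
    rw [e1 Q.u, e1 Q.v]
    omega

lemma Proc.bas_flux (Q : Proc) (A : Pt → Prop) [DecidablePred A] {t0 t1 : ℕ} (h : t0 ≤ t1) (h1 : t1 ≤ 2 ^ Q.μ)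
    (hA : ∀ t ∈ Ico t0 t1, A (Q.v t) → A (Q.u t)) :
    #{t ∈ Ico t0 t1 | A (Q.u t) ∧ ¬ A (Q.v t)} + #{p ∈ Q.S t1 | A p} = #{p ∈ Q.S t0 | A p} := by
  have e := Q.bas_count A h h1
  have e1 : #{t ∈ Ico t0 t1 | A (Q.u t)} =
      #{t ∈ Ico t0 t1 | A (Q.v t)} + #{t ∈ Ico t0 t1 | A (Q.u t) ∧ ¬ A (Q.v t)} := by
    rw [card_filter, card_filter, card_filter, ← sum_add_distrib]
    refine sum_congr rfl fun t ht => ?_
    have := hA t ht
    by_cases h1 : A (Q.u t) <;> by_cases h2 : A (Q.v t) <;> simp_all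
  omega

lemma bas_filter_le (S T : Finset Pt) (A : Pt → Prop) [DecidablePred A] :
    #{p ∈ S | A p} ≤ #(S \ T) + #{p ∈ T | A p} := by
  refine le_trans (card_le_card ?_) (card_union_le _ _)
  intro p hp
  simp only [mem_filter, mem_union, mem_sdiff] at hp ⊢
  tauto

lemma Proc.bas_flux_le (Q : Proc) (A : Pt → Prop) [DecidablePred A] {t0 t1 : ℕ} (h : t0 ≤ t1) (h1 : t1 ≤ 2 ^ Q.μ)
    (hA : ∀ t ∈ Ico t0 t1, A (Q.v t) → A (Q.u t)) :
    #{t ∈ Ico t0 t1 | A (Q.u t) ∧ ¬ A (Q.v t)} ≤ #(Q.S t0 \ Q.S t1) := by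
  have e1 := Q.bas_flux A h h1 hA
  have e2 := bas_filter_le (Q.S t0) (Q.S t1) A
  omega

lemma Proc.card_S (Q : Proc) {t t' : ℕ} (ht : t ≤ 2 ^ Q.μ) (ht' : t' ≤ 2 ^ Q.μ) :
    #(Q.S t) = #(Q.S t') := by
  have key : ∀ {a b : ℕ}, a ≤ b → b ≤ 2 ^ Q.μ → #(Q.S a) = #(Q.S b) := by
    intro a b hab hb
    have := Q.bas_count (fun _ => True) hab hb
    simp only [filter_true] at this
    omega
  rcases le_total t t' with h | h
  · exact key h ht'
  · exact (key h ht).symm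

lemma Proc.card_lens (Q : Proc) {t t' : ℕ} (ht : t ≤ 2 ^ Q.μ) (ht' : t' ≤ 2 ^ Q.μ) :
    #(Q.lens t t') = 2 * #(Q.S t \ Q.S t') := by
  unfold Proc.lens
  rw [card_union_of_disjoint disjoint_sdiff_sdiff,
    card_sdiff_comm (Q.card_S ht' ht)]
  ring

lemma Proc.lens_tri (Q : Proc) (t t' t'' : ℕ) : Q.lens t t'' ⊆ Q.lens t t' ∪ Q.lens t' t'' := by
  intro p hp
  simp only [Proc.lens, mem_union, mem_sdiff] at hp ⊢
  tauto

/-- out-degree minus in-degree over a time interval -/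
lemma Proc.inout (Q : Proc) (q : Pt) {t0 t1 : ℕ} (h : t0 ≤ t1) (h1 : t1 ≤ 2 ^ Q.μ) :
    #{t ∈ Ico t0 t1 | Q.u t = q} + (if q ∈ Q.S t1 then 1 else 0) =
      #{t ∈ Ico t0 t1 | Q.v t = q} + (if q ∈ Q.S t0 then 1 else 0) := by
  have := Q.bas_count (fun p => p = q) h h1
  simp only [filter_eq'] at this
  have e : ∀ T : Finset Pt, #(if q ∈ T then ({q} : Finset Pt) else ∅) = if q ∈ T then 1 else 0 := by
    intro T
    split_ifs <;> simp
  rw [e, e] at this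
  convert this

/-- flux bound: `#(S t ∩ {g < c})` drops by one exactly at the counted edges and never grows -/
lemma Proc.flux (Q : Proc) (g : Pt → ℝ) (c : ℝ) {t0 t1 : ℕ} (h : t0 ≤ t1) (h1 : t1 ≤ 2 ^ Q.μ)
    (hg : ∀ t ∈ Ico t0 t1, g (Q.u t) < g (Q.v t)) :
    #{t ∈ Ico t0 t1 | g (Q.u t) < c ∧ c ≤ g (Q.v t)} ≤ #(Q.S t0 \ Q.S t1) := by
  have := Q.bas_flux_le (fun p => g p < c) h h1 (fun t ht hv => (hg t ht).trans hv)
  simp only [not_lt] at this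
  convert this

lemma Proc.flux' (Q : Proc) (g : Pt → ℝ) (c : ℝ) {t0 t1 : ℕ} (h : t0 ≤ t1) (h1 : t1 ≤ 2 ^ Q.μ)
    (hg : ∀ t ∈ Ico t0 t1, g (Q.u t) < g (Q.v t)) :
    #{t ∈ Ico t0 t1 | g (Q.u t) ≤ c ∧ c < g (Q.v t)} ≤ #(Q.S t0 \ Q.S t1) := by
  have := Q.bas_flux_le (fun p => g p ≤ c) h h1 (fun t ht hv => (hg t ht).le.trans hv)
  simp only [not_le] at this
  convert this

lemma Proc.lens_cone (Q : Proc) {t t' : ℕ} (h : t < t') (h1 : t' ≤ 2 ^ Q.μ) {p q : Pt}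
    (hp : p ∈ Q.S t \ Q.S t') (hq : q ∈ Q.S t' \ Q.S t) : Cone (Q.s t) (Q.s t') p q := by
  rw [mem_sdiff] at hp hq
  have ht : t ≤ 2 ^ Q.μ := h.le.trans h1
  exact ⟨Q.sep t ht p hp.1 q (Q.S_sub t' h1 hq.1) hq.2,
    Q.sep t' h1 q hq.1 p (Q.S_sub t ht hp.1) hp.2⟩

/-- the net change of a subinterval is at most that of the interval: by `lens_cone` a vertical
line `x = c` separates `S t \ S t'` from `S t' \ S t`; the drop of `#(S ∩ {x < c})` over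
`[t, t']` is `#(S t \ S t')`, this count is antitone in time, and its drop over `[t0, t1]` is
at most `#(S t0 \ S t1)` -/
lemma Proc.sdiff_mono (Q : Proc) {t0 t t' t1 : ℕ} (h0 : t0 ≤ t) (h : t ≤ t') (h1 : t' ≤ t1)
    (h2 : t1 ≤ 2 ^ Q.μ) : #(Q.S t \ Q.S t') ≤ #(Q.S t0 \ Q.S t1) := by
  rcases h.lt_or_eq with hlt | rfl
  swap
  · simp
  have ht' : t' ≤ 2 ^ Q.μ := h1.trans h2
  have ht : t ≤ 2 ^ Q.μ := h.trans ht'
  set A : Pt → Prop := fun p => ∀ q ∈ Q.S t' \ Q.S t, p.1 < q.1 with hAdef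
  have hA : ∀ {a b : ℕ}, b ≤ 2 ^ Q.μ → ∀ τ ∈ Ico a b, A (Q.v τ) → A (Q.u τ) := by
    intro a b hb τ hτ hv q hq
    exact (Q.x_lt ((mem_Ico.1 hτ).2.trans_le hb)).trans (hv q hq)
  have e1 := Q.bas_flux A h0 ht (hA ht)
  have e2 := Q.bas_flux A h1 h2 (hA h2)
  have e3 := bas_filter_le (Q.S t0) (Q.S t1) A
  have e4 : #(Q.S t \ Q.S t') + #{p ∈ Q.S t' | A p} ≤ #{p ∈ Q.S t | A p} := by
    rw [← card_union_of_disjoint]
    · refine card_le_card ?_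
      intro p hp
      rw [mem_union] at hp
      rw [mem_filter]
      rcases hp with hp | hp
      · refine ⟨(mem_sdiff.1 hp).1, fun q hq => ?_⟩
        exact (Q.lens_cone hlt ht' hp hq).x_lt (Q.s_lt t t' hlt ht')
      · rw [mem_filter] at hp
        refine ⟨?_, hp.2⟩
        by_contra hn
        exact lt_irrefl _ (hp.2 p (mem_sdiff.2 ⟨hp.1, hn⟩))
    · rw [disjoint_left]
      intro p hp hp'
      exact (mem_sdiff.1 hp).2 (mem_filter.1 hp').1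
  omega

lemma Proc.K_mono (Q : Proc) {j j' a : ℕ} (h : j ≤ j') (hj : j' ≤ Q.μ)
    (ha : a < 2 ^ (Q.μ - j)) : Q.K j a ≤ Q.K j' (a / 2 ^ (j' - j)) := by
  unfold Proc.K
  obtain ⟨d, rfl⟩ := Nat.exists_eq_add_of_le h
  rw [Nat.add_sub_cancel_left]
  have hd : 0 < 2 ^ d := by positivity
  refine Q.sdiff_mono ?_ ?_ ?_ ?_
  · rw [pow_add, mul_comm (2 ^ j), ← mul_assoc]
    exact Nat.mul_le_mul_right _ (Nat.div_mul_le_self a _)
  · exact Nat.mul_le_mul_right _ (Nat.le_succ a)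
  · rw [pow_add, mul_comm (2 ^ j), ← mul_assoc]
    refine Nat.mul_le_mul_right _ ?_
    exact Nat.lt_div_mul_add hd |>.trans_eq (by ring)
  · refine win_le hj ?_
    have h3 : d ≤ Q.μ - j := by omega
    have := win_lt h3 ha
    rwa [Nat.sub_sub] at this

lemma Proc.K_le (Q : Proc) {j a : ℕ} (hj : j ≤ Q.μ) (ha : a < 2 ^ (Q.μ - j)) :
    Q.K j a ≤ #Q.P := by
  unfold Proc.K
  refine card_le_card (sdiff_subset.trans (Q.S_sub _ ?_))
  exact (Nat.mul_le_mul_right _ (Nat.le_succ a)).trans (win_le hj ha)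

lemma Proc.K_zero (Q : Proc) {a : ℕ} (ha : a < 2 ^ Q.μ) : Q.K 0 a = 1 := by
  unfold Proc.K
  rw [pow_zero, mul_one, mul_one, Q.S_succ a ha, card_eq_one]
  refine ⟨Q.u a, ?_⟩
  have h1 := Q.u_mem a ha
  have h2 := Q.v_not a ha
  ext p
  simp only [mem_sdiff, mem_insert, mem_erase, mem_singleton]
  constructor
  · rintro ⟨hp, hn⟩
    by_contra hne
    exact hn (Or.inr ⟨hne, hp⟩)
  · rintro rfl
    refine ⟨h1, ?_⟩
    rintro (h | h)
    · exact h2 (h ▸ h1)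
    · exact h.1 rfl

lemma Proc.s_win (Q : Proc) {j a : ℕ} (hj : j ≤ Q.μ) (ha : a < 2 ^ (Q.μ - j)) :
    Q.s (a * 2 ^ j) < Q.s ((a + 1) * 2 ^ j) := by
  refine Q.s_lt _ _ ?_ (win_le hj ha)
  exact Nat.mul_lt_mul_of_pos_right (Nat.lt_succ_self a) (by positivity)

lemma Proc.cone_win (Q : Proc) {j t : ℕ} (hj : j ≤ Q.μ) (ht : t < 2 ^ Q.μ) :
    Cone (Q.s (t / 2 ^ j * 2 ^ j)) (Q.s ((t / 2 ^ j + 1) * 2 ^ j)) (Q.u t) (Q.v t) := by
  have hw := mem_Ico.1 ((win_mem (j := j) (t := t) (a := t / 2 ^ j)).1 rfl)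
  refine (Q.cone t ht).mono (Q.s_lt t (t + 1) (Nat.lt_succ_self t) ht) (Q.s_le hw.1 ht.le)
    (Q.s_le hw.2 (win_le hj (win_lt hj ht)))

/-- dyadic decomposition of `[start of the level-j window of t, t)` -/
lemma Proc.lens_dyadic (Q : Proc) (j t : ℕ) {q : Pt} (hq : q ∈ Q.lens (t / 2 ^ j * 2 ^ j) t) :
    ∃ i < j, t / 2 ^ i % 2 = 1 ∧
      q ∈ Q.lens ((t / 2 ^ i - 1) * 2 ^ i) ((t / 2 ^ i - 1 + 1) * 2 ^ i) := by
  induction j with
  | zero => simp [Proc.lens] at hq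
  | succ j ih =>
    have hdiv : t / 2 ^ (j + 1) = t / 2 ^ j / 2 := by
      rw [pow_succ, Nat.div_div_eq_div_mul]
    rcases Nat.mod_two_eq_zero_or_one (t / 2 ^ j) with h0 | h1
    · have e : t / 2 ^ (j + 1) * 2 ^ (j + 1) = t / 2 ^ j * 2 ^ j := by
        rw [hdiv, pow_succ, mul_comm (2 ^ j) 2, ← mul_assoc]
        congr 1
        omega
      rw [e] at hq
      obtain ⟨i, hi, h⟩ := ih hq
      exact ⟨i, by omega, h⟩
    · have e : t / 2 ^ (j + 1) * 2 ^ (j + 1) = (t / 2 ^ j - 1) * 2 ^ j := by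
        have e0 : t / 2 ^ j / 2 * 2 = t / 2 ^ j - 1 := by omega
        rw [hdiv, pow_succ, mul_comm (2 ^ j) 2, ← mul_assoc, e0]
      have e' : (t / 2 ^ j - 1 + 1) = t / 2 ^ j := by
        generalize t / 2 ^ j = m at h1
        omega
      rw [e] at hq
      rcases mem_union.1 (Q.lens_tri _ (t / 2 ^ j * 2 ^ j) _ hq) with h | h
      · exact ⟨j, by omega, h1, by rwa [e']⟩
      · obtain ⟨i, hi, h⟩ := ih h
        exact ⟨i, by omega, h⟩

/-- decomposition of `[a 2^j, a' 2^j)` into level-`j` windows -/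
lemma Proc.lens_chain (Q : Proc) (j : ℕ) {a a' : ℕ} (h : a ≤ a') {q : Pt}
    (hq : q ∈ Q.lens (a * 2 ^ j) (a' * 2 ^ j)) :
    ∃ i, a ≤ i ∧ i < a' ∧ q ∈ Q.lens (i * 2 ^ j) ((i + 1) * 2 ^ j) := by
  induction a', h using Nat.le_induction with
  | base => simp [Proc.lens] at hq
  | succ b hb ih =>
    rcases mem_union.1 (Q.lens_tri _ (b * 2 ^ j) _ hq) with h | h
    · obtain ⟨i, h1, h2, h3⟩ := ih h
      exact ⟨i, h1, by omega, h3⟩
    · exact ⟨b, hb, by omega, h⟩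

end Crest.Agent.R051
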