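import Crest.Agent.R051.Defs

/-! Row 51: elementary facts on cones, processes and windows. -/

set_option autoImplicit false

open Finset
open scoped Classical

namespace Crest.Agent.R051

lemma Cone.trans {lo hi : ℝ} {a b c : Pt} (h1 : Cone lo hi a b) (h2 : Cone lo hi b c) :
    Cone lo hi a c := ⟨h1.1.trans h2.1, h2.2.trans h1.2⟩

lemma Cone.x_lt {lo hi : ℝ} {a b : Pt} (h : Cone lo hi a b) (hl : lo < hi) : a.1 < b.1 := by
  obtain ⟨h1, h2⟩ := h
  unfold hh at h1 h2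
  by_contra hx
  have := mul_nonneg (sub_pos.2 hl).le (sub_nonneg.2 (not_lt.1 hx))
  linarith only [this, h1, h2]

lemma Cone.hh_lt {lo hi s : ℝ} {a b : Pt} (h : Cone lo hi a b) (hl : lo < hi) (hs : s ≤ lo) :
    hh s a < hh s b := by
  have := mul_nonneg (sub_nonneg.2 hs) (sub_pos.2 (h.x_lt hl)).le
  have h1 := h.1
  unfold hh at h1 ⊢
  linarith only [this, h1]

lemma Cone.hh_gt {lo hi s : ℝ} {a b : Pt} (h : Cone lo hi a b) (hl : lo < hi) (hs : hi ≤ s) :
    hh s b < hh s a := by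
  have := mul_nonneg (sub_nonneg.2 hs) (sub_pos.2 (h.x_lt hl)).le
  have h1 := h.2
  unfold hh at h1 ⊢
  linarith only [this, h1]

lemma Cone.mono {lo hi lo' hi' : ℝ} {a b : Pt} (h : Cone lo hi a b) (hl : lo < hi)
    (h1 : lo' ≤ lo) (h2 : hi ≤ hi') : Cone lo' hi' a b :=
  ⟨h.hh_lt hl h1, h.hh_gt hl h2⟩

lemma Cone.slp_mem {lo hi : ℝ} {a b : Pt} (h : Cone lo hi a b) (hl : lo < hi) :
    lo < slp a b ∧ slp a b < hi := by
  have hx := sub_pos.2 (h.x_lt hl)
  obtain ⟨h1, h2⟩ := h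
  unfold hh at h1 h2
  unfold slp
  rw [lt_div_iff₀ hx, div_lt_iff₀ hx]
  constructor <;> linarith only [h1, h2]

/-- cones of separated slope intervals are incompatible -/
lemma Cone.not_both {lo hi lo' hi' : ℝ} {a b : Pt} (h : Cone lo hi a b) (hl : lo < hi)
    (hl' : lo' < hi') (hs : hi ≤ lo') : ¬ Cone lo' hi' a b ∧ ¬ Cone lo' hi' b a :=
  ⟨fun h' => lt_asymm h'.1 (h.hh_gt hl hs), fun h' => lt_asymm (h.x_lt hl) (h'.x_lt hl')⟩

lemma basA_hh (s θ : ℝ) (a b : Pt) :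
    hh s ((1 - θ) • a + θ • b) = hh s a + θ * (hh s b - hh s a) := by
  simp only [hh, Prod.fst_add, Prod.snd_add, Prod.smul_fst, Prod.smul_snd, smul_eq_mul]
  ring

lemma basA_cone {lo hi θ θ' : ℝ} {a b : Pt} (h : Cone lo hi a b) (hθ : θ < θ') :
    Cone lo hi ((1 - θ) • a + θ • b) ((1 - θ') • a + θ' • b) := by
  constructor
  · rw [basA_hh, basA_hh]
    have := mul_lt_mul_of_pos_right hθ (sub_pos.2 h.1)
    linarith only [this]
  · rw [basA_hh, basA_hh]
    have := mul_lt_mul_of_pos_right hθ (sub_pos.2 h.2)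
    linarith only [this]

lemma Cone.seg_left {lo hi : ℝ} {a b z : Pt} (h : Cone lo hi a b) (hz : z ∈ segment ℝ a b) :
    z = a ∨ Cone lo hi a z := by
  rw [segment_eq_image] at hz
  obtain ⟨θ, hθ, rfl⟩ := hz
  rcases hθ.1.eq_or_lt with rfl | h0
  · left
    simp
  · right
    simpa using basA_cone h h0

lemma Cone.seg_right {lo hi : ℝ} {a b z : Pt} (h : Cone lo hi a b) (hz : z ∈ segment ℝ a b) :
    z = b ∨ Cone lo hi z b := by
  rw [segment_eq_image] at hz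
  obtain ⟨θ, hθ, rfl⟩ := hz
  rcases hθ.2.eq_or_lt with rfl | h0
  · left
    simp
  · right
    simpa using basA_cone h h0

lemma Cone.seg_total {lo hi : ℝ} {a b z z' : Pt} (h : Cone lo hi a b) (hz : z ∈ segment ℝ a b)
    (hz' : z' ∈ segment ℝ a b) : z = z' ∨ Cone lo hi z z' ∨ Cone lo hi z' z := by
  rw [segment_eq_image] at hz hz'
  obtain ⟨θ, -, rfl⟩ := hz
  obtain ⟨θ', -, rfl⟩ := hz'
  rcases lt_trichotomy θ θ' with h0 | rfl | h0
  · exact Or.inr (Or.inl (basA_cone h h0))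
  · exact Or.inl rfl
  · exact Or.inr (Or.inr (basA_cone h h0))

/-- a level of `hh s` between the endpoints is attained on the segment -/
lemma seg_level {a b : Pt} {s c : ℝ} (h1 : hh s a ≤ c) (h2 : c ≤ hh s b) :
    ∃ z ∈ segment ℝ a b, hh s z = c := by
  rcases (h1.trans h2).eq_or_lt with h | h
  · exact ⟨a, left_mem_segment _ _ _, le_antisymm h1 (h ▸ h2)⟩
  · have hp := sub_pos.2 h
    refine ⟨_, (segment_eq_image ℝ a b).ge ⟨(c - hh s a) / (hh s b - hh s a),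
      ⟨div_nonneg (sub_nonneg.2 h1) hp.le, (div_le_one hp).2 (by linarith only [h2])⟩, rfl⟩, ?_⟩
    rw [basA_hh, div_mul_cancel₀ _ hp.ne']
    ring

lemma seg_xlevel {a b : Pt} {c : ℝ} (h1 : a.1 ≤ c) (h2 : c ≤ b.1) :
    ∃ z ∈ segment ℝ a b, z.1 = c := by
  rcases (h1.trans h2).eq_or_lt with h | h
  · exact ⟨a, left_mem_segment _ _ _, le_antisymm h1 (h ▸ h2)⟩
  · have hp := sub_pos.2 h
    refine ⟨_, (segment_eq_image ℝ a b).ge ⟨(c - a.1) / (b.1 - a.1),
      ⟨div_nonneg (sub_nonneg.2 h1) hp.le, (div_le_one hp).2 (by linarith only [h2])⟩, rfl⟩, ?_⟩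
    simp only [Prod.fst_add, Prod.smul_fst, smul_eq_mul]
    field_simp
    ring

/-- points of a non-vertical segment are on its line -/
lemma seg_hh_slp {a b z : Pt} (hab : a.1 < b.1) (hz : z ∈ segment ℝ a b) :
    hh (slp a b) z = hh (slp a b) a := by
  rw [segment_eq_image] at hz
  obtain ⟨θ, -, rfl⟩ := hz
  have hp := (sub_pos.2 hab).ne'
  have : hh (slp a b) b - hh (slp a b) a = 0 := by
    unfold hh slp
    field_simp
    ring
  beta_reduce
  rw [basA_hh, this, mul_zero, add_zero]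

lemma GP.seg {P : Finset Pt} (hP : GP P) {a b p : Pt} (ha : a ∈ P) (hb : b ∈ P) (hp : p ∈ P)
    (hab : a ≠ b) (h : p ∈ segment ℝ a b) : p = a ∨ p = b := by
  by_contra hne
  rw [not_or] at hne
  refine hP a ha b hb p hp hab (Ne.symm hne.1) (Ne.symm hne.2) ?_
  rw [segment_eq_image] at h
  obtain ⟨θ, -, rfl⟩ := h
  simp only [Prod.fst_add, Prod.snd_add, Prod.smul_fst, Prod.smul_snd, smul_eq_mul]
  ring

lemma GP.subset {P V : Finset Pt} (hP : GP P) (h : V ⊆ P) : GP V :=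
  fun p hp q hq r hr => hP p (h hp) q (h hq) r (h hr)

lemma XInj.subset {P V : Finset Pt} (hP : XInj P) (h : V ⊆ P) : XInj V :=
  fun p hp q hq => hP p (h hp) q (h hq)

lemma win_le {μ j a : ℕ} (hj : j ≤ μ) (ha : a < 2 ^ (μ - j)) : (a + 1) * 2 ^ j ≤ 2 ^ μ := by
  calc (a + 1) * 2 ^ j ≤ 2 ^ (μ - j) * 2 ^ j := Nat.mul_le_mul_right _ ha
    _ = 2 ^ μ := by rw [← pow_add, Nat.sub_add_cancel hj]

lemma win_lt {μ j t : ℕ} (hj : j ≤ μ) (ht : t < 2 ^ μ) : t / 2 ^ j < 2 ^ (μ - j) := by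
  rw [Nat.div_lt_iff_lt_mul (by positivity), ← pow_add, Nat.sub_add_cancel hj]
  exact ht

lemma win_mem {j t a : ℕ} : t / 2 ^ j = a ↔ t ∈ Ico (a * 2 ^ j) ((a + 1) * 2 ^ j) := by
  have hp : 0 < 2 ^ j := by positivity
  rw [mem_Ico, ← Nat.le_div_iff_mul_le hp, ← Nat.div_lt_iff_lt_mul hp]
  omega

lemma win_div {j j' : ℕ} (h : j ≤ j') (t : ℕ) : t / 2 ^ j / 2 ^ (j' - j) = t / 2 ^ j' := by
  rw [Nat.div_div_eq_div_mul, ← pow_add, Nat.add_sub_cancel' h]

lemma sib_div (a : ℕ) : sib a / 2 = a / 2 := by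
  unfold sib
  split_ifs <;> omega

/-- two different times in one level-`j` window are in sibling windows at some lower level -/
lemma exists_sib {j0 j t t' : ℕ} (h0 : t / 2 ^ j0 ≠ t' / 2 ^ j0) (h : t / 2 ^ j = t' / 2 ^ j)
    (hj : j0 ≤ j) : ∃ i, j0 ≤ i ∧ i < j ∧ t' / 2 ^ i = sib (t / 2 ^ i) := by
  induction j, hj using Nat.le_induction with
  | base => exact absurd h h0
  | succ j hj ih =>
    by_cases he : t / 2 ^ j = t' / 2 ^ j
    · obtain ⟨i, h1, h2, h3⟩ := ih he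
      exact ⟨i, h1, h2.trans (Nat.lt_succ_self j), h3⟩
    · refine ⟨j, hj, Nat.lt_succ_self j, ?_⟩
      rw [pow_succ, ← Nat.div_div_eq_div_mul, ← Nat.div_div_eq_div_mul] at h
      clear h0 ih
      generalize t / 2 ^ j = x at h he ⊢
      generalize t' / 2 ^ j = y at h he ⊢
      unfold sib
      split_ifs <;> omega

lemma rho_lt {μ j j' : ℕ} (h : j < j') : rho μ j < rho μ j' := by
  refine lt_of_pow_lt_pow_left₀ 4 (rho_pos μ j').le ?_
  rw [rho_pow, rho_pow]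
  gcongr
  norm_num

lemma rho_le {μ j j' : ℕ} (h : j ≤ j') : rho μ j ≤ rho μ j' := by
  rcases h.eq_or_lt with rfl | h
  · exact le_rfl
  · exact (rho_lt h).le

lemma rho_self (μ : ℕ) : rho μ μ = 1 := by
  unfold rho
  rw [div_self (by positivity), Real.one_rpow]

/-- a level for every scale -/
lemma exists_level (μ : ℕ) {r : ℝ} (h0 : 0 < r) (h1 : r ≤ 1) (h2 : 1 ≤ r ^ 4 * 2 ^ μ) :
    ∃ j ≤ μ, r / 2 ≤ rho μ j ∧ rho μ j ≤ r := by
  have hz : rho μ 0 ≤ r := by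
    refine le_of_pow_le_pow_left₀ (n := 4) (by norm_num) h0.le ?_
    rw [rho_pow, pow_zero, div_le_iff₀ (by positivity)]
    exact h2
  have hj := Nat.findGreatest_spec (P := fun j => rho μ j ≤ r) (Nat.zero_le μ) hz
  have hle : Nat.findGreatest (fun j => rho μ j ≤ r) μ ≤ μ := Nat.findGreatest_le μ
  have hmax := fun k => Nat.findGreatest_is_greatest (P := fun j => rho μ j ≤ r) (n := μ) (k := k)
  generalize Nat.findGreatest (fun j => rho μ j ≤ r) μ = j at hj hle hmax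
  refine ⟨j, hle, ?_, hj⟩
  rcases hle.eq_or_lt with rfl | hlt
  · rw [rho_self]
    linarith only [h1]
  · have h3 := not_le.1 (hmax (j + 1) (Nat.lt_succ_self j) hlt)
    have h4 : rho μ (j + 1) ≤ 2 * rho μ j := by
      refine le_of_pow_le_pow_left₀ (n := 4) (by norm_num) (by have := rho_pos μ j; positivity) ?_
      rw [mul_pow, rho_pow, rho_pow, pow_succ, mul_comm, mul_div_assoc]
      gcongr
      norm_num
    linarith only [h3, h4]

end Crest.Agent.R051
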