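import Crest.Agent.R051.CL1
import Crest.Agent.R051.Basic

/-! Row 51: the crossing lemma for straight segments (with a logarithmic loss, no planarity). -/

set_option autoImplicit false

open Finset
open scoped Classical

namespace Crest.Agent.R051

/-- delete the first edge of every ordered crossing pair -/
theorem cl_del (c : ℕ) (V : Finset Pt) (hx : XInj V) (hg : GP V) (hc : #V ≤ 2 ^ c)
    (E : Finset (Pt × Pt)) (hE : ∀ e ∈ E, e.1 ∈ V ∧ e.2 ∈ V ∧ e.1.1 < e.2.1) :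
    #E ≤ 3 * c * #V + #{x ∈ E ×ˢ E | Cross x.1.1 x.1.2 x.2.1 x.2.2} := by
  set X := {x ∈ E ×ˢ E | Cross x.1.1 x.1.2 x.2.1 x.2.2} with hX
  have h1 : #(E \ X.image Prod.fst) ≤ 3 * c * #V := by
    refine cl_free c V hx hg hc _ (fun e he => hE e (mem_sdiff.1 he).1) ?_
    intro e he e' he' hcr
    refine (mem_sdiff.1 he).2 (mem_image.2 ⟨(e, e'), ?_, rfl⟩)
    rw [hX, mem_filter, mem_product]
    exact ⟨⟨(mem_sdiff.1 he).1, (mem_sdiff.1 he').1⟩, hcr⟩
  have h2 : #(X.image Prod.fst) ≤ #X := card_image_le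
  have h3 : #E ≤ #(E \ X.image Prod.fst) + #(X.image Prod.fst) := card_le_card_sdiff_add_card
  omega

/-- `∑_{S ⊆ V} p^|S| (1-p)^(|V|-|S|) 1[F ⊆ S] = p^|F|` -/
theorem sample_sum {α : Type*} (V F : Finset α) (hF : F ⊆ V) (p : ℝ) :
    ∑ S ∈ V.powerset with F ⊆ S, p ^ #S * (1 - p) ^ (#V - #S) = p ^ #F := by
  have h := Finset.sum_pow_mul_eq_add_pow p (1 - p) (V \ F)
  have h2 : ∑ S ∈ V.powerset with F ⊆ S, p ^ #S * (1 - p) ^ (#V - #S) =
      ∑ T ∈ (V \ F).powerset, p ^ #F * (p ^ #T * (1 - p) ^ (#(V \ F) - #T)) := by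
    refine Finset.sum_nbij' (fun S => S \ F) (fun T => T ∪ F) ?_ ?_ ?_ ?_ ?_
    · intro S hS
      simp only [mem_filter, mem_powerset] at hS ⊢
      exact sdiff_subset_sdiff hS.1 Subset.rfl
    · intro T hT
      simp only [mem_filter, mem_powerset] at hT ⊢
      exact ⟨union_subset (hT.trans sdiff_subset) hF, subset_union_right⟩
    · intro S hS
      simp only [mem_filter, mem_powerset] at hS
      exact sdiff_union_of_subset hS.2
    · intro T hT
      simp only [mem_powerset] at hT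
      ext x
      simp only [mem_sdiff, mem_union]
      constructor
      · rintro ⟨h1 | h1, h2⟩
        · exact h1
        · exact absurd h1 h2
      · intro h1
        exact ⟨Or.inl h1, (mem_sdiff.1 (hT h1)).2⟩
    · intro S hS
      simp only [mem_filter, mem_powerset] at hS
      have e1 : #(S \ F) + #F = #S := card_sdiff_add_card_eq_card hS.2
      have e2 : #(V \ F) + #F = #V := card_sdiff_add_card_eq_card hF
      have e3 : #V - #S = #(V \ F) - #(S \ F) := by omega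
      rw [e3, ← e1, pow_add]
      ring
  rw [h2, ← mul_sum, h]
  simp

/-- expectation of the number of surviving members of a uniform family -/
theorem cl_sample_fam {α ι : Type*} [DecidableEq α] (V : Finset α) (I : Finset ι) (F : ι → Finset α) (m : ℕ)
    (p : ℝ) (hF : ∀ i ∈ I, F i ⊆ V) (hm : ∀ i ∈ I, #(F i) = m) :
    (#I : ℝ) * p ^ m =
      ∑ S ∈ V.powerset, p ^ #S * (1 - p) ^ (#V - #S) * (#{i ∈ I | F i ⊆ S} : ℝ) := by
  have h1 : (#I : ℝ) * p ^ m = ∑ i ∈ I, ∑ S ∈ V.powerset with F i ⊆ S,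
      p ^ #S * (1 - p) ^ (#V - #S) := by
    rw [← nsmul_eq_mul, ← sum_const]
    refine sum_congr rfl fun i hi => ?_
    rw [← hm i hi]
    convert (sample_sum V (F i) (hF i hi) p).symm
  rw [h1]
  simp only [sum_filter, card_filter]
  rw [sum_comm]
  refine sum_congr rfl fun S _ => ?_
  push_cast
  rw [mul_sum]
  refine sum_congr rfl fun i _ => ?_
  split_ifs <;> simp

/-- random sampling of the vertices with probability `p`: an edge survives with probability
`p ^ 2`, a crossing pair (four distinct endpoints) with probability `p ^ 4` -/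
theorem cl_simple (c : ℕ) (V : Finset Pt) (hx : XInj V) (hg : GP V) (hc : #V ≤ 2 ^ c)
    (E : Finset (Pt × Pt)) (hE : ∀ e ∈ E, e.1 ∈ V ∧ e.2 ∈ V ∧ e.1.1 < e.2.1)
    (p : ℝ) (hp0 : 0 < p) (hp1 : p ≤ 1) :
    (#E : ℝ) ≤ 3 * c * #V / p + p ^ 2 * #{x ∈ E ×ˢ E | Cross x.1.1 x.1.2 x.2.1 x.2.2} := by
  set X := {x ∈ E ×ˢ E | Cross x.1.1 x.1.2 x.2.1 x.2.2} with hX
  have hw : ∀ S : Finset Pt, 0 ≤ p ^ #S * (1 - p) ^ (#V - #S) := fun S =>
    mul_nonneg (pow_nonneg hp0.le _) (pow_nonneg (by linarith) _)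
  have e1 := cl_sample_fam V E (fun e => {e.1, e.2}) 2 p
    (fun e he => by
      intro z hz
      simp only [mem_insert, mem_singleton] at hz
      rcases hz with rfl | rfl
      · exact (hE e he).1
      · exact (hE e he).2.1)
    (fun e he => card_pair (fun h => by
      have := (hE e he).2.2
      rw [h] at this
      exact lt_irrefl _ this))
  have e2 := cl_sample_fam V V (fun v => {v}) 1 p
    (fun v hv => singleton_subset_iff.2 hv) (fun v _ => card_singleton v)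
  have e3 := cl_sample_fam V X (fun x => {x.1.1, x.1.2, x.2.1, x.2.2}) 4 p
    (fun x hx' => by
      rw [hX, mem_filter, mem_product] at hx'
      intro z hz
      simp only [mem_insert, mem_singleton] at hz
      rcases hz with rfl | rfl | rfl | rfl
      · exact (hE _ hx'.1.1).1
      · exact (hE _ hx'.1.1).2.1
      · exact (hE _ hx'.1.2).1
      · exact (hE _ hx'.1.2).2.1)
    (fun x hx' => by
      rw [hX, mem_filter, mem_product] at hx'
      obtain ⟨⟨h1, h2⟩, h3, h4, h5, h6, -⟩ := hx'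
      have n1 : x.1.1 ≠ x.1.2 := fun h => by
        have := (hE _ h1).2.2
        rw [h] at this
        exact lt_irrefl _ this
      have n2 : x.2.1 ≠ x.2.2 := fun h => by
        have := (hE _ h2).2.2
        rw [h] at this
        exact lt_irrefl _ this
      rw [card_insert_of_notMem (by simp [n1, h3, h4]), card_insert_of_notMem (by simp [h5, h6]),
        card_pair n2])
  have key : (#E : ℝ) * p ^ 2 ≤ 3 * c * (#V * p ^ 1) + #X * p ^ 4 := by
    rw [e1, e2, e3, mul_sum, ← sum_add_distrib]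
    refine sum_le_sum fun S hS => ?_
    have hSV : S ⊆ V := mem_powerset.1 hS
    have h1 := cl_del c S (hx.subset hSV) (hg.subset hSV) ((card_le_card hSV).trans hc)
      {e ∈ E | ({e.1, e.2} : Finset Pt) ⊆ S} (fun e he => by
        rw [mem_filter] at he
        exact ⟨he.2 (by simp), he.2 (by simp), (hE e he.1).2.2⟩)
    have h2 : #{v ∈ V | ({v} : Finset Pt) ⊆ S} = #S := by
      congr 1
      ext v
      simp only [mem_filter, singleton_subset_iff]
      exact ⟨fun h => h.2, fun h => ⟨hSV h, h⟩⟩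
    have h3 : #{x ∈ {e ∈ E | ({e.1, e.2} : Finset Pt) ⊆ S} ×ˢ
          {e ∈ E | ({e.1, e.2} : Finset Pt) ⊆ S} | Cross x.1.1 x.1.2 x.2.1 x.2.2} ≤
        #{x ∈ X | ({x.1.1, x.1.2, x.2.1, x.2.2} : Finset Pt) ⊆ S} := by
      refine card_le_card fun x hx' => ?_
      simp only [mem_filter, mem_product, hX] at hx' ⊢
      obtain ⟨⟨⟨a1, a2⟩, a3, a4⟩, a5⟩ := hx'
      refine ⟨⟨⟨a1, a3⟩, a5⟩, ?_⟩
      intro z hz
      simp only [mem_insert, mem_singleton] at hz
      rcases hz with rfl | rfl | rfl | rfl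
      · exact a2 (by simp)
      · exact a2 (by simp)
      · exact a4 (by simp)
      · exact a4 (by simp)
    rw [h2]
    have h4 : (#{e ∈ E | ({e.1, e.2} : Finset Pt) ⊆ S} : ℝ) ≤ 3 * c * #S +
        #{x ∈ X | ({x.1.1, x.1.2, x.2.1, x.2.2} : Finset Pt) ⊆ S} := by
      exact_mod_cast h1.trans (Nat.add_le_add_left h3 _)
    have h5 := mul_le_mul_of_nonneg_left h4 (hw S)
    calc _ ≤ _ := h5
      _ = _ := by ring
  have hp2 : 0 < p ^ 2 := by positivity
  refine le_of_mul_le_mul_right (key.trans (le_of_eq ?_)) hp2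
  field_simp

/-- indexed version with multiplicity at most `β` (apply `cl_simple` to the image; crossing
pairs of the image lift injectively to crossing pairs of indices) -/
theorem cl_idx {ι : Type*} (c : ℕ) (V : Finset Pt) (hx : XInj V) (hg : GP V) (hc : #V ≤ 2 ^ c)
    (I : Finset ι) (A B : ι → Pt) (hA : ∀ i ∈ I, A i ∈ V ∧ B i ∈ V ∧ (A i).1 < (B i).1)
    (β : ℝ) (hβ : 0 ≤ β) (hm : ∀ i ∈ I, (#{i' ∈ I | A i' = A i ∧ B i' = B i} : ℝ) ≤ β)
    (p : ℝ) (hp0 : 0 < p) (hp1 : p ≤ 1) :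
    (#I : ℝ) ≤ β * (3 * c * #V / p +
      p ^ 2 * #{x ∈ I ×ˢ I | Cross (A x.1) (B x.1) (A x.2) (B x.2)}) := by
  set E := I.image (fun i => (A i, B i)) with hEdef
  have hE : ∀ e ∈ E, e.1 ∈ V ∧ e.2 ∈ V ∧ e.1.1 < e.2.1 := by
    intro e he
    obtain ⟨i, hi, rfl⟩ := mem_image.1 he
    exact hA i hi
  have h1 := cl_simple c V hx hg hc E hE p hp0 hp1
  have h2 : #{x ∈ E ×ˢ E | Cross x.1.1 x.1.2 x.2.1 x.2.2} ≤
      #{x ∈ I ×ˢ I | Cross (A x.1) (B x.1) (A x.2) (B x.2)} := by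
    refine le_trans (card_le_card ?_) (card_image_le
      (f := fun x : ι × ι => ((A x.1, B x.1), (A x.2, B x.2))))
    intro x hx'
    rw [mem_filter, mem_product] at hx'
    obtain ⟨⟨a1, a2⟩, a3⟩ := hx'
    obtain ⟨i, hi, e1⟩ := mem_image.1 a1
    obtain ⟨j, hj, e2⟩ := mem_image.1 a2
    refine mem_image.2 ⟨(i, j), ?_, ?_⟩
    · rw [mem_filter, mem_product]
      refine ⟨⟨hi, hj⟩, ?_⟩
      rw [← e1, ← e2] at a3
      exact a3
    · exact Prod.ext e1 e2
  have h3 : (#I : ℝ) ≤ β * #E := by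
    have e := card_eq_sum_card_image (fun i => (A i, B i)) I
    rw [e]
    push_cast
    calc _ ≤ ∑ _e ∈ E, β := by
          refine sum_le_sum fun e he => ?_
          obtain ⟨i, hi, rfl⟩ := mem_image.1 he
          refine le_trans (le_of_eq ?_) (hm i hi)
          congr 2
          ext i'
          simp [Prod.ext_iff]
      _ = β * #E := by rw [sum_const, nsmul_eq_mul, mul_comm]
  refine h3.trans (mul_le_mul_of_nonneg_left (h1.trans ?_) hβ)
  have h4 : (#{x ∈ E ×ˢ E | Cross x.1.1 x.1.2 x.2.1 x.2.2} : ℝ) ≤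
      #{x ∈ I ×ˢ I | Cross (A x.1) (B x.1) (A x.2) (B x.2)} := by exact_mod_cast h2
  gcongr

/-- the form used for a near-extremal process -/
theorem Base.cl {Q : Proc} {k d : ℝ} (h : Base Q k d) {ι : Type*} (V : Finset Pt) (hV : V ⊆ Q.P)
    (I : Finset ι) (A B : ι → Pt) (hA : ∀ i ∈ I, A i ∈ V ∧ B i ∈ V ∧ (A i).1 < (B i).1)
    (β : ℝ) (hβ : 0 ≤ β) (hm : ∀ i ∈ I, (#{i' ∈ I | A i' = A i ∧ B i' = B i} : ℝ) ≤ β)
    (p : ℝ) (hp0 : 0 < p) (hp1 : p ≤ 1) :
    (#I : ℝ) ≤ β * (3 * k * #V / p +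
      p ^ 2 * #{x ∈ I ×ˢ I | Cross (A x.1) (B x.1) (A x.2) (B x.2)}) := by
  obtain ⟨c, hc1, hc2⟩ := h.lg
  refine (cl_idx c V (Q.xinj.subset hV) (Q.gp.subset hV) ((card_le_card hV).trans hc1) I A B hA
    β hβ hm p hp0 hp1).trans ?_
  gcongr

/-- edges of the process inside a vertex set -/
theorem Base.cl_edges {Q : Proc} {k d : ℝ} (h : Base Q k d) (V : Finset Pt) (hV : V ⊆ Q.P)
    (I : Finset ℕ) (hI : ∀ t ∈ I, t < 2 ^ Q.μ ∧ Q.u t ∈ V ∧ Q.v t ∈ V)
    (p : ℝ) (hp0 : 0 < p) (hp1 : p ≤ 1) :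
    (#I : ℝ) ≤ 3 * k * #V / p +
      p ^ 2 * #{x ∈ I ×ˢ I | Cross (Q.u x.1) (Q.v x.1) (Q.u x.2) (Q.v x.2)} := by
  have h1 := h.cl V hV I Q.u Q.v
    (fun t ht => ⟨(hI t ht).2.1, (hI t ht).2.2, Q.x_lt (hI t ht).1⟩) 1 zero_le_one
    (fun t ht => by
      have : #{t' ∈ I | Q.u t' = Q.u t ∧ Q.v t' = Q.v t} ≤ 1 := by
        refine card_le_one.2 fun a ha b hb => ?_
        rw [mem_filter] at ha hb
        exact Q.edge_inj (hI a ha.1).1 (hI b hb.1).1 (ha.2.1.trans hb.2.1.symm)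
          (ha.2.2.trans hb.2.2.symm)
      exact_mod_cast this) p hp0 hp1
  rwa [one_mul] at h1

end Crest.Agent.R051
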