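import Crest.Agent.R051.BasicA

/-! Row 51: the crossing lemma for straight segments (with a logarithmic loss, no planarity). -/

set_option autoImplicit false

open Finset
open scoped Classical

namespace Crest.Agent.R051

/-- height of the line of the edge `e` at the abscissa `x` -/
noncomputable def CL1_L (e : Pt × Pt) (x : ℝ) : ℝ := e.1.2 + slp e.1 e.2 * (x - e.1.1)

lemma CL1_left (e : Pt × Pt) : CL1_L e e.1.1 = e.1.2 := by simp [CL1_L]

lemma CL1_right {e : Pt × Pt} (h : e.1.1 < e.2.1) : CL1_L e e.2.1 = e.2.2 := by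
  have : e.2.1 - e.1.1 ≠ 0 := (sub_pos.2 h).ne'
  unfold CL1_L slp
  field_simp
  ring

lemma CL1_seg {e : Pt × Pt} (h : e.1.1 < e.2.1) {x : ℝ} (h1 : e.1.1 ≤ x) (h2 : x ≤ e.2.1) :
    (x, CL1_L e x) ∈ segment ℝ e.1 e.2 := by
  have hd : 0 < e.2.1 - e.1.1 := sub_pos.2 h
  refine ⟨(e.2.1 - x) / (e.2.1 - e.1.1), (x - e.1.1) / (e.2.1 - e.1.1),
    div_nonneg (by linarith) hd.le, div_nonneg (by linarith) hd.le, by field_simp; ring, ?_⟩
  ext
  · simp only [Prod.fst_add, Prod.smul_fst, smul_eq_mul]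
    field_simp
    ring
  · simp only [Prod.snd_add, Prod.smul_snd, smul_eq_mul, CL1_L, slp]
    field_simp
    ring

lemma CL1_aff (e e' : Pt × Pt) (x y : ℝ) :
    CL1_L e y - CL1_L e' y = CL1_L e x - CL1_L e' x + (slp e.1 e.2 - slp e'.1 e'.2) * (y - x) := by
  unfold CL1_L
  ring

section line

variable {V : Finset Pt} {c : ℝ} {E : Finset (Pt × Pt)}

/-- two different edges meet only in a common endpoint -/
lemma CL1_nc (hg : GP V) (hE : ∀ e ∈ E, e.1 ∈ V ∧ e.2 ∈ V ∧ e.1.1 < c ∧ c < e.2.1)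
    (hn : ∀ e ∈ E, ∀ e' ∈ E, ¬ Cross e.1 e.2 e'.1 e'.2) {e e' : Pt × Pt} (he : e ∈ E)
    (he' : e' ∈ E) (hne : e ≠ e') {x : ℝ} (h1 : e.1.1 < x) (h2 : x < e.2.1) (h1' : e'.1.1 ≤ x)
    (h2' : x ≤ e'.2.1) : CL1_L e x ≠ CL1_L e' x := by
  intro hx
  obtain ⟨a1, a2, a3, a4⟩ := hE e he
  obtain ⟨b1, b2, b3, b4⟩ := hE e' he'
  have n12 : e.1 ≠ e.2 := fun h => by rw [h] at a3; linarith
  have n12' : e.1 ≠ e'.2 := fun h => by rw [h] at a3; linarith
  have n21' : e.2 ≠ e'.1 := fun h => by rw [h] at a4; linarith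
  have hd : e.2.1 - e.1.1 ≠ 0 := (sub_pos.2 (a3.trans a4)).ne'
  have hd' : e'.2.1 - e'.1.1 ≠ 0 := (sub_pos.2 (b3.trans b4)).ne'
  by_cases c1 : e.1 = e'.1
  · have c2 : e.2 ≠ e'.2 := fun h => hne (Prod.ext c1 h)
    have h3 := CL1_aff e e' e.1.1 x
    rw [hx, CL1_left, c1, CL1_left, ← c1, sub_self, sub_self, zero_add] at h3
    have h4 : slp e.1 e.2 - slp e.1 e'.2 = 0 :=
      (mul_eq_zero.1 h3.symm).resolve_right (sub_pos.2 h1).ne'
    apply hg e.1 a1 e.2 a2 e'.2 b2 n12 n12' c2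
    rw [← c1] at hd'
    unfold slp at h4
    field_simp at h4
    linarith
  by_cases c2 : e.2 = e'.2
  · have h3 := CL1_aff e e' e.2.1 x
    rw [hx, CL1_right (a3.trans a4), c2, CL1_right (b3.trans b4), ← c2, sub_self, sub_self,
      zero_add] at h3
    have h4 : slp e.1 e.2 - slp e'.1 e.2 = 0 :=
      (mul_eq_zero.1 h3.symm).resolve_right (sub_neg.2 h2).ne
    apply hg e.2 a2 e.1 a1 e'.1 b1 n12.symm n21' c1
    rw [← c2] at hd'
    unfold slp at h4
    field_simp at h4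
    linarith
  · exact hn e he e' he' ⟨c1, n12', n21', c2, (x, CL1_L e x), CL1_seg (a3.trans a4) h1.le h2.le,
      hx ▸ CL1_seg (b3.trans b4) h1' h2'⟩

lemma CL1_ord (hg : GP V) (hE : ∀ e ∈ E, e.1 ∈ V ∧ e.2 ∈ V ∧ e.1.1 < c ∧ c < e.2.1)
    (hn : ∀ e ∈ E, ∀ e' ∈ E, ¬ Cross e.1 e.2 e'.1 e'.2) {e e' : Pt × Pt} (he : e ∈ E)
    (he' : e' ∈ E) (h : CL1_L e c < CL1_L e' c) {x : ℝ} (h1 : e.1.1 ≤ x) (h2 : x ≤ e.2.1)
    (h1' : e'.1.1 ≤ x) (h2' : x ≤ e'.2.1) : CL1_L e x ≤ CL1_L e' x := by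
  by_contra hx
  have hx := not_le.1 hx
  obtain ⟨-, -, a3, a4⟩ := hE e he
  obtain ⟨-, -, b3, b4⟩ := hE e' he'
  have hne : e ≠ e' := fun h' => by rw [h'] at h; exact lt_irrefl _ h
  obtain ⟨p, hp⟩ : ∃ p, p = CL1_L e x - CL1_L e' x := ⟨_, rfl⟩
  obtain ⟨q, hq⟩ : ∃ q, q = CL1_L e' c - CL1_L e c := ⟨_, rfl⟩
  have hp0 : 0 < p := by linarith
  have hq0 : 0 < q := by linarith
  obtain ⟨t, ht⟩ : ∃ t, t = p / (p + q) := ⟨_, rfl⟩
  have ht0 : 0 < t := by rw [ht]; positivity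
  have ht1 : t < 1 := by rw [ht, div_lt_one (by linarith)]; linarith
  have ht2 : t * (p + q) = p := by rw [ht]; field_simp
  refine CL1_nc hg hE hn he he' hne (x := x + t * (c - x)) (by nlinarith) (by nlinarith)
    (by nlinarith) (by nlinarith) ?_
  have h3 := CL1_aff e e' x c
  have h4 := CL1_aff e e' x (x + t * (c - x))
  have h5 : (slp e.1 e.2 - slp e'.1 e'.2) * (c - x) = -(p + q) := by linarith
  have h6 : (slp e.1 e.2 - slp e'.1 e'.2) * (x + t * (c - x) - x) = -p := by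
    linear_combination t * h5 - ht2
  linarith

lemma CL1_at (hE : ∀ e ∈ E, e.1 ∈ V ∧ e.2 ∈ V ∧ e.1.1 < c ∧ c < e.2.1) {e : Pt × Pt} (he : e ∈ E)
    {p : Pt} (h : e.1 = p ∨ e.2 = p) : e.1.1 ≤ p.1 ∧ p.1 ≤ e.2.1 ∧ CL1_L e p.1 = p.2 := by
  obtain ⟨-, -, a3, a4⟩ := hE e he
  rcases h with rfl | rfl
  · exact ⟨le_rfl, (a3.trans a4).le, CL1_left e⟩
  · exact ⟨(a3.trans a4).le, le_rfl, CL1_right (a3.trans a4)⟩

lemma CL1_squeeze (hg : GP V) (hE : ∀ e ∈ E, e.1 ∈ V ∧ e.2 ∈ V ∧ e.1.1 < c ∧ c < e.2.1)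
    (hn : ∀ e ∈ E, ∀ e' ∈ E, ¬ Cross e.1 e.2 e'.1 e'.2) {e e₁ e₂ : Pt × Pt} (he : e ∈ E)
    (he₁ : e₁ ∈ E) (he₂ : e₂ ∈ E) {p : Pt} (h₁ : e₁.1 = p ∨ e₁.2 = p) (h₂ : e₂.1 = p ∨ e₂.2 = p)
    (l : e.1.1 < p.1) (r : p.1 < e.2.1) (y₁ : CL1_L e₁ c < CL1_L e c)
    (y₂ : CL1_L e c < CL1_L e₂ c) : False := by
  obtain ⟨a1, a2, a3⟩ := CL1_at hE he₁ h₁
  obtain ⟨b1, b2, b3⟩ := CL1_at hE he₂ h₂
  have i1 := CL1_ord hg hE hn he₁ he y₁ a1 a2 l.le r.le
  have i2 := CL1_ord hg hE hn he he₂ y₂ l.le r.le b1 b2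
  refine CL1_nc hg hE hn he he₁ (fun h' => ?_) l r a1 a2 (by linarith)
  rw [h'] at y₁
  exact lt_irrefl _ y₁

end line

/-- a vertical line with a prescribed number of points on its left -/
lemma CL1_split (V : Finset Pt) (hx : XInj V) (k : ℕ) (hk : k ≤ #V) :
    ∃ c : ℝ, (∀ p ∈ V, p.1 ≠ c) ∧ #{p ∈ V | p.1 < c} = k := by
  induction k with
  | zero =>
    obtain ⟨c, hc⟩ := (V.image Prod.fst).bddBelow
    have h : ∀ p ∈ V, c ≤ p.1 := fun p hp => hc (mem_coe.2 (mem_image_of_mem _ hp))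
    refine ⟨c - 1, fun p hp => (by linarith [h p hp] : c - 1 < p.1).ne', ?_⟩
    rw [card_eq_zero, filter_eq_empty_iff]
    intro p hp
    linarith [h p hp]
  | succ k ih =>
    obtain ⟨c, hc, hk'⟩ := ih (by omega)
    have hne : ({p ∈ V | ¬ p.1 < c} : Finset Pt).Nonempty := by
      rw [← card_pos]
      have := card_filter_add_card_filter_not (s := V) (fun p : Pt => p.1 < c)
      omega
    obtain ⟨p, hp, hmin⟩ := exists_min_image _ Prod.fst hne
    obtain ⟨hpV, hpc⟩ := mem_filter.1 hp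
    have hev : ∀ᶠ c' in nhdsWithin p.1 (Set.Ioi p.1), ∀ q ∈ V, p.1 < q.1 → c' < q.1 := by
      rw [Filter.eventually_all_finset]
      intro q _
      by_cases h : p.1 < q.1
      · exact ((gt_mem_nhds h).filter_mono nhdsWithin_le_nhds).mono fun _ h' _ => h'
      · exact Filter.Eventually.of_forall fun _ h' => absurd h' h
    obtain ⟨c', h1, h2⟩ := (hev.and self_mem_nhdsWithin).exists
    have h2 : p.1 < c' := h2
    refine ⟨c', fun q hq h => ?_, ?_⟩
    · have := h1 q hq (by rw [h]; exact h2)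
      linarith
    · have : ({q ∈ V | q.1 < c'} : Finset Pt) = insert p {q ∈ V | q.1 < c} := by
        ext q
        simp only [mem_filter, mem_insert]
        constructor
        · rintro ⟨hq, hq'⟩
          by_cases h : q.1 < c
          · exact Or.inr ⟨hq, h⟩
          · left
            refine hx q hq p hpV (le_antisymm ?_ (hmin q (mem_filter.2 ⟨hq, h⟩)))
            by_contra h'
            linarith [h1 q hq (not_le.1 h')]
        · rintro (rfl | ⟨hq, hq'⟩)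
          · exact ⟨hpV, h2⟩
          · exact ⟨hq, by linarith [not_lt.1 hpc]⟩
      have hnot : p ∉ ({q ∈ V | q.1 < c} : Finset Pt) := fun h => hpc (mem_filter.1 h).2
      rw [this, card_insert_of_notMem hnot, hk']

/-- Crossing-free edges over one vertical line `x = c` (`c` is no abscissa of `V`).
Order the edges by their height at `x = c` (heights are distinct: two edges through one point of
the line either `Cross` or share an endpoint and then three points are collinear).  Two edges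
adjacent in this order differ in the left or in the right endpoint.  If the left endpoints
`a ≠ a'` differ, charge the adjacent pair to the one with the larger abscissa, say `a'`: the edge
at `a'` is then the lowest (or highest) edge at `a'` (otherwise the edge at `a` is squeezed at
`x = c` between two edges leaving `a'`, hence meets one of them for some `x ∈ [a'.1, c)`, by the
intermediate value theorem for affine functions).  So every vertex is charged at most twice. -/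
theorem cl_line (V : Finset Pt) (hx : XInj V) (hg : GP V) (c : ℝ) (hc : ∀ p ∈ V, p.1 ≠ c)
    (E : Finset (Pt × Pt)) (hE : ∀ e ∈ E, e.1 ∈ V ∧ e.2 ∈ V ∧ e.1.1 < c ∧ c < e.2.1)
    (hn : ∀ e ∈ E, ∀ e' ∈ E, ¬ Cross e.1 e.2 e'.1 e'.2) : #E ≤ 2 * #V + 1 := by
  have hinj : ∀ e ∈ E, ∀ e' ∈ E, CL1_L e c = CL1_L e' c → e = e' := by
    intro e he e' he' h
    by_contra hne
    exact CL1_nc hg hE hn he he' hne (hE e he).2.2.1 (hE e he).2.2.2 (hE e' he').2.2.1.le
      (hE e' he').2.2.2.le h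
  let rH : Pt × Pt → Pt → Prop := fun e p => (e.1 = p ∨ e.2 = p) ∧
    ∀ f ∈ E, (f.1 = p ∨ f.2 = p) → CL1_L f c ≤ CL1_L e c
  let rL : Pt × Pt → Pt → Prop := fun e p => ∃ e' ∈ E, CL1_L e c < CL1_L e' c ∧
    (∀ f ∈ E, CL1_L e c < CL1_L f c → CL1_L e' c ≤ CL1_L f c) ∧ (e'.1 = p ∨ e'.2 = p) ∧
    ∀ f ∈ E, (f.1 = p ∨ f.2 = p) → CL1_L e' c ≤ CL1_L f c
  have hH : #{e ∈ E | ∃ p ∈ V, rH e p} ≤ #V := by
    refine card_le_card_of_forall_subsingleton rH (fun e he => ?_) (fun p _ e he e' he' => ?_)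
    · obtain ⟨p, hp, h⟩ := (mem_filter.1 he).2
      exact ⟨p, hp, h⟩
    · have h1 := (mem_filter.1 he.1).1
      have h2 := (mem_filter.1 he'.1).1
      exact hinj e h1 e' h2 (le_antisymm (he'.2.2 e h1 he.2.1) (he.2.2 e' h2 he'.2.1))
  have hL : #{e ∈ E | ∃ p ∈ V, rL e p} ≤ #V := by
    refine card_le_card_of_forall_subsingleton rL (fun e he => ?_) (fun p _ e he e' he' => ?_)
    · obtain ⟨p, hp, h⟩ := (mem_filter.1 he).2
      exact ⟨p, hp, h⟩
    · have h1 := (mem_filter.1 he.1).1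
      have h2 := (mem_filter.1 he'.1).1
      obtain ⟨f, hf, a1, a2, a3, a4⟩ := he.2
      obtain ⟨f', hf', b1, b2, b3, b4⟩ := he'.2
      have e1 : CL1_L f c = CL1_L f' c := le_antisymm (a4 f' hf' b3) (b4 f hf a3)
      refine hinj e h1 e' h2 (le_antisymm ?_ ?_)
      · by_contra h
        linarith [b2 e h1 (not_le.1 h)]
      · by_contra h
        linarith [a2 e' h2 (not_le.1 h)]
  have hT : #{e ∈ E | ∀ f ∈ E, CL1_L f c ≤ CL1_L e c} ≤ 1 := by
    refine card_le_one.2 fun e he e' he' => ?_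
    obtain ⟨h1, h2⟩ := mem_filter.1 he
    obtain ⟨h3, h4⟩ := mem_filter.1 he'
    exact hinj e h1 e' h3 (le_antisymm (h4 e h1) (h2 e' h3))
  have hsub : E ⊆ ({e ∈ E | ∃ p ∈ V, rH e p} ∪ {e ∈ E | ∃ p ∈ V, rL e p}) ∪
      {e ∈ E | ∀ f ∈ E, CL1_L f c ≤ CL1_L e c} := by
    intro e he
    simp only [mem_union, mem_filter]
    by_cases ht : ∀ f ∈ E, CL1_L f c ≤ CL1_L e c
    · exact Or.inr ⟨he, ht⟩
    left
    push Not at ht
    obtain ⟨f₀, hf₀, hf₀'⟩ := ht
    obtain ⟨e', he', hmin⟩ := exists_min_image {f ∈ E | CL1_L e c < CL1_L f c}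
      (fun f => CL1_L f c) ⟨f₀, mem_filter.2 ⟨hf₀, hf₀'⟩⟩
    obtain ⟨he', hlt⟩ := mem_filter.1 he'
    have hmin' : ∀ f ∈ E, CL1_L e c < CL1_L f c → CL1_L e' c ≤ CL1_L f c :=
      fun f hf h => hmin f (mem_filter.2 ⟨hf, h⟩)
    obtain ⟨a1, a2, a3, a4⟩ := hE e he
    obtain ⟨b1, b2, b3, b4⟩ := hE e' he'
    have kL : ∀ p ∈ V, (e'.1 = p ∨ e'.2 = p) → e.1.1 < p.1 → p.1 < e.2.1 → rL e p := by
      intro p _ h1 h2 h3
      refine ⟨e', he', hlt, hmin', h1, fun f hf h4 => ?_⟩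
      rcases lt_trichotomy (CL1_L e c) (CL1_L f c) with h | h | h
      · exact hmin' f hf h
      · rw [← hinj e he f hf h] at h4
        rcases h4 with rfl | rfl
        · exact absurd h2 (lt_irrefl _)
        · exact absurd h3 (lt_irrefl _)
      · exact (CL1_squeeze hg hE hn he hf he' h4 h1 h2 h3 h hlt).elim
    have kH : ∀ p ∈ V, (e.1 = p ∨ e.2 = p) → e'.1.1 < p.1 → p.1 < e'.2.1 → rH e p := by
      intro p _ h1 h2 h3
      refine ⟨h1, fun f hf h4 => ?_⟩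
      by_contra h5
      rcases (hmin' f hf (not_le.1 h5)).eq_or_lt with h | h
      · rw [← hinj e' he' f hf h] at h4
        rcases h4 with rfl | rfl
        · exact absurd h2 (lt_irrefl _)
        · exact absurd h3 (lt_irrefl _)
      · exact CL1_squeeze hg hE hn he' he hf h1 h4 h2 h3 hlt h
    rcases lt_trichotomy e.1.1 e'.1.1 with h | h | h
    · exact Or.inr ⟨he, _, b1, kL _ b1 (Or.inl rfl) h (b3.trans a4)⟩
    · rcases lt_trichotomy e.2.1 e'.2.1 with h' | h' | h'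
      · exact Or.inl ⟨he, _, a2, kH _ a2 (Or.inr rfl) (b3.trans a4) h'⟩
      · rw [Prod.ext (hx _ a1 _ b1 h) (hx _ a2 _ b2 h')] at hlt
        exact absurd hlt (lt_irrefl _)
      · exact Or.inr ⟨he, _, b2, kL _ b2 (Or.inr rfl) (a3.trans b4) h'⟩
    · exact Or.inl ⟨he, _, a1, kH _ a1 (Or.inl rfl) h (a3.trans b4)⟩
  have h1 := (card_le_card hsub).trans (card_union_le _ _)
  have h2 := card_union_le {e ∈ E | ∃ p ∈ V, rH e p} {e ∈ E | ∃ p ∈ V, rL e p}
  omega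

/-- crossing-free straight graphs: induction on `c`, splitting `V` by a vertical line into
two halves of size `≤ 2 ^ (c - 1)` (for `#V ≥ 1`, `2 #V + 1 ≤ 3 #V`) -/
theorem cl_free (c : ℕ) (V : Finset Pt) (hx : XInj V) (hg : GP V) (hc : #V ≤ 2 ^ c)
    (E : Finset (Pt × Pt)) (hE : ∀ e ∈ E, e.1 ∈ V ∧ e.2 ∈ V ∧ e.1.1 < e.2.1)
    (hn : ∀ e ∈ E, ∀ e' ∈ E, ¬ Cross e.1 e.2 e'.1 e'.2) : #E ≤ 3 * c * #V := by
  induction c generalizing V E with
  | zero =>
    have : E = ∅ := by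
      refine eq_empty_of_forall_notMem fun e he => ?_
      obtain ⟨h1, h2, h3⟩ := hE e he
      rw [card_le_one.1 (by simpa using hc) _ h1 _ h2] at h3
      exact lt_irrefl _ h3
    simp [this]
  | succ c ih =>
    by_cases hV : #V ≤ 2 ^ c
    · refine (ih V hx hg hV E hE hn).trans ?_
      gcongr
      omega
    have hV := not_le.1 hV
    obtain ⟨x, hx1, hx2⟩ := CL1_split V hx (2 ^ c) hV.le
    have hadd := card_filter_add_card_filter_not (s := V) (fun p : Pt => p.1 < x)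
    have i1 := ih {p ∈ V | p.1 < x} (hx.subset (filter_subset _ _)) (hg.subset (filter_subset _ _))
      hx2.le {e ∈ E | e.2.1 < x} (fun e he => by
        obtain ⟨h0, h4⟩ := mem_filter.1 he
        obtain ⟨h1, h2, h3⟩ := hE e h0
        exact ⟨mem_filter.2 ⟨h1, h3.trans h4⟩, mem_filter.2 ⟨h2, h4⟩, h3⟩)
      fun e he e' he' => hn e (mem_filter.1 he).1 e' (mem_filter.1 he').1
    have i2 := ih {p ∈ V | ¬ p.1 < x} (hx.subset (filter_subset _ _))
      (hg.subset (filter_subset _ _)) (by rw [pow_succ] at hc; omega) {e ∈ E | x < e.1.1}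
      (fun e he => by
        obtain ⟨h0, h4⟩ := mem_filter.1 he
        obtain ⟨h1, h2, h3⟩ := hE e h0
        exact ⟨mem_filter.2 ⟨h1, not_lt.2 h4.le⟩, mem_filter.2 ⟨h2, not_lt.2 (h4.trans h3).le⟩, h3⟩)
      fun e he e' he' => hn e (mem_filter.1 he).1 e' (mem_filter.1 he').1
    have i3 := cl_line V hx hg x hx1 {e ∈ E | e.1.1 < x ∧ x < e.2.1}
      (fun e he => by
        obtain ⟨h0, h4⟩ := mem_filter.1 he
        obtain ⟨h1, h2, -⟩ := hE e h0
        exact ⟨h1, h2, h4⟩)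
      fun e he e' he' => hn e (mem_filter.1 he).1 e' (mem_filter.1 he').1
    have hsub : E ⊆ ({e ∈ E | e.2.1 < x} ∪ {e ∈ E | x < e.1.1}) ∪
        {e ∈ E | e.1.1 < x ∧ x < e.2.1} := by
      intro e he
      obtain ⟨h1, h2, -⟩ := hE e he
      simp only [mem_union, mem_filter]
      rcases lt_or_gt_of_ne (hx1 _ h1) with h | h
      · rcases lt_or_gt_of_ne (hx1 _ h2) with h' | h'
        · exact Or.inl (Or.inl ⟨he, h'⟩)
        · exact Or.inr ⟨he, h, h'⟩
      · exact Or.inl (Or.inr ⟨he, h⟩)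
    have h1 := (card_le_card hsub).trans (card_union_le _ _)
    have h2 := card_union_le {e ∈ E | e.2.1 < x} {e ∈ E | x < e.1.1}
    have h3 : 1 ≤ #V := le_trans (Nat.one_le_two_pow) hV.le
    have h4 : 3 * c * #{p ∈ V | p.1 < x} + 3 * c * #{p ∈ V | ¬ p.1 < x} = 3 * c * #V := by
      rw [← mul_add, hadd]
    have h5 : 3 * (c + 1) * #V = 3 * c * #V + 3 * #V := by ring
    omega

end Crest.Agent.R051
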