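import Mathlib

/-!
Row 51 (S0070, planar k-sets): shared definitions for the geometric part.

A `Proc` is the rotating-line process of the `κ`-edges of a point set, truncated to `2 ^ μ` edges:
edge `t` goes from `u t` (left) to `v t` (right), `s t < slope < s (t+1)`, and `S t` is the set of
the `κ + 1` lowest points in direction `s t`.  Windows are dyadic intervals of times:
window `a` of level `j` is `[a 2^j, (a+1) 2^j)`.
-/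

set_option autoImplicit false

open Finset
open scoped Classical

namespace Crest.Agent.R051

abbrev Pt := ℝ × ℝ

/-- height in direction `s` -/
def hh (s : ℝ) (z : Pt) : ℝ := z.2 - s * z.1

/-- for `lo < hi`: `z'` is to the right of `z` and the slope from `z` to `z'` is in `(lo, hi)` -/
def Cone (lo hi : ℝ) (z z' : Pt) : Prop := hh lo z < hh lo z' ∧ hh hi z' < hh hi z

/-- no three points on a line -/
def GP (P : Finset Pt) : Prop :=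
  ∀ p ∈ P, ∀ q ∈ P, ∀ r ∈ P, p ≠ q → p ≠ r → q ≠ r →
    (q.1 - p.1) * (r.2 - p.2) - (q.2 - p.2) * (r.1 - p.1) ≠ 0

/-- distinct `x`-coordinates -/
def XInj (P : Finset Pt) : Prop := ∀ p ∈ P, ∀ q ∈ P, p.1 = q.1 → p = q

noncomputable def slp (p q : Pt) : ℝ := (q.2 - p.2) / (q.1 - p.1)

/-- the segments `a b` and `a' b'` have no common endpoint and meet -/
def Cross (a b a' b' : Pt) : Prop :=
  a ≠ a' ∧ a ≠ b' ∧ b ≠ a' ∧ b ≠ b' ∧ ∃ z, z ∈ segment ℝ a b ∧ z ∈ segment ℝ a' b'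

/-- pairs (left point, right point) with exactly `κ` points strictly below their line -/
noncomputable def kedges (P : Finset Pt) (κ : ℕ) : Finset (Pt × Pt) :=
  {e ∈ P ×ˢ P | e.1.1 < e.2.1 ∧ #{r ∈ P | hh (slp e.1 e.2) r < hh (slp e.1 e.2) e.1} = κ}

structure Proc where
  P : Finset Pt
  μ : ℕ
  u : ℕ → Pt
  v : ℕ → Pt
  S : ℕ → Finset Pt
  s : ℕ → ℝ
  xinj : XInj P
  gp : GP P
  s_lt : ∀ t t', t < t' → t' ≤ 2 ^ μ → s t < s t'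
  S_sub : ∀ t ≤ 2 ^ μ, S t ⊆ P
  u_mem : ∀ t < 2 ^ μ, u t ∈ S t
  v_mem : ∀ t < 2 ^ μ, v t ∈ P
  v_not : ∀ t < 2 ^ μ, v t ∉ S t
  S_succ : ∀ t < 2 ^ μ, S (t + 1) = insert (v t) ((S t).erase (u t))
  cone : ∀ t < 2 ^ μ, Cone (s t) (s (t + 1)) (u t) (v t)
  sep : ∀ t ≤ 2 ^ μ, ∀ p ∈ S t, ∀ q ∈ P, q ∉ S t → hh (s t) p < hh (s t) q
  below : ∀ t < 2 ^ μ, ∀ p ∈ S t, p ≠ u t →
    hh (slp (u t) (v t)) p < hh (slp (u t) (v t)) (u t)
  above : ∀ t < 2 ^ μ, ∀ p ∈ P, p ∉ S t → p ≠ v t →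
    hh (slp (u t) (v t)) (u t) < hh (slp (u t) (v t)) p
  gen : ∀ p ∈ P, ∀ τ ≤ 2 ^ μ, ∀ t < 2 ^ μ, ∀ t' < 2 ^ μ, t ≠ t' → ∀ z : Pt,
    z ∈ segment ℝ (u t) (v t) → z ∈ segment ℝ (u t') (v t') → p.1 < z.1 →
    hh (s τ) z ≠ hh (s τ) p

/-- all times -/
abbrev Proc.E (Q : Proc) : Finset ℕ := range (2 ^ Q.μ)

/-- the closed segment of edge `t` -/
abbrev Proc.seg (Q : Proc) (t : ℕ) : Set Pt := segment ℝ (Q.u t) (Q.v t)

/-- net change over window `a` of level `j` -/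
noncomputable def Proc.K (Q : Proc) (j a : ℕ) : ℕ := #(Q.S (a * 2 ^ j) \ Q.S ((a + 1) * 2 ^ j))

/-- points whose membership differs at times `t` and `t'` -/
noncomputable def Proc.lens (Q : Proc) (t t' : ℕ) : Finset Pt :=
  (Q.S t \ Q.S t') ∪ (Q.S t' \ Q.S t)

/-- number of other edges meeting edge `t` -/
noncomputable def Proc.meet (Q : Proc) (t : ℕ) : ℕ :=
  #{t' ∈ Q.E | t' ≠ t ∧ ∃ z, z ∈ Q.seg t ∧ z ∈ Q.seg t'}

/-- number of edges leaving `u t` in the level-`j` window of `t` -/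
noncomputable def Proc.out (Q : Proc) (j t : ℕ) : ℕ :=
  #{t' ∈ Q.E | t' / 2 ^ j = t / 2 ^ j ∧ Q.u t' = Q.u t}

/-- scale of level `j`: `rho ^ 4 = 2 ^ j / 2 ^ μ` -/
noncomputable def rho (μ j : ℕ) : ℝ := ((2 : ℝ) ^ j / 2 ^ μ) ^ ((1 : ℝ) / 4)

/-- sibling window -/
def sib (a : ℕ) : ℕ := if a % 2 = 0 then a + 1 else a - 1

/-- nested decomposition of the edges into monotone paths: edge `t` is at position `pos t` of
path `pid t`; the link from `t` to its successor has level `lev t` -/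
structure Paths (Q : Proc) where
  pid : ℕ → ℕ
  pos : ℕ → ℕ
  lev : ℕ → ℕ
  inj : ∀ t < 2 ^ Q.μ, ∀ t' < 2 ^ Q.μ, pid t = pid t' → pos t = pos t' → t = t'
  down : ∀ t < 2 ^ Q.μ, ∀ i, pos t = i + 1 → ∃ t' < 2 ^ Q.μ, pid t' = pid t ∧ pos t' = i
  link : ∀ t < 2 ^ Q.μ, ∀ t' < 2 ^ Q.μ, pid t = pid t' → pos t' = pos t + 1 →
    Q.v t = Q.u t' ∧ t / 2 ^ lev t = t' / 2 ^ lev t
  last : ∀ t < 2 ^ Q.μ, lev t ≤ Q.μ → ∃ t' < 2 ^ Q.μ, pid t' = pid t ∧ pos t' = pos t + 1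
  count : ∀ j ≤ Q.μ, ∀ a, #{t ∈ Q.E | t / 2 ^ j = a ∧ j < lev t} ≤ Q.K j a

variable {Q : Proc}

/-- name of the piece containing edge `t` when the links leaving the edges with `c` are cut -/
noncomputable def Paths.pc (G : Paths Q) (c : ℕ → Prop) (t : ℕ) : ℕ × ℕ :=
  (G.pid t, #{t' ∈ Q.E | G.pid t' = G.pid t ∧ G.pos t' < G.pos t ∧ c t'})

/-- same-window crossing budget of the piece `γ` -/
noncomputable def Paths.Lam (G : Paths Q) (c : ℕ → Prop) (jT : ℕ) (γ : ℕ × ℕ) : ℝ :=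
  ∑ j ∈ range jT, ∑ t ∈ Q.E with G.pc c t = γ ∧ (c t ∨ j < G.lev t),
    (Q.K j (sib (t / 2 ^ j)) : ℝ)

/-- number of level-`jf` subpieces of the piece `γ` -/
noncomputable def Paths.Phi (G : Paths Q) (c : ℕ → Prop) (jf : ℕ) (γ : ℕ × ℕ) : ℕ :=
  #{t ∈ Q.E | G.pc c t = γ ∧ (c t ∨ jf < G.lev t)}

/-- an arc `(t, t')` is the chord from `u t` to `v t'` inside one level-`jf` subpiece -/
def Paths.IsArc (G : Paths Q) (c : ℕ → Prop) (jf : ℕ) (a : ℕ × ℕ) : Prop :=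
  a.1 < 2 ^ Q.μ ∧ a.2 < 2 ^ Q.μ ∧
    G.pc (fun t => c t ∨ jf < G.lev t) a.1 = G.pc (fun t => c t ∨ jf < G.lev t) a.2 ∧
    G.pos a.1 ≤ G.pos a.2

/-- two arcs with disjoint spans -/
def Paths.Disj (G : Paths Q) (a a' : ℕ × ℕ) : Prop :=
  G.pid a.1 = G.pid a'.1 → G.pos a.2 < G.pos a'.1 ∨ G.pos a'.2 < G.pos a.1

/-- two arcs cross -/
def Proc.ACross (Q : Proc) (a a' : ℕ × ℕ) : Prop :=
  Cross (Q.u a.1) (Q.v a.2) (Q.u a'.1) (Q.v a'.2)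

/-- the numerical facts valid for a near-extremal process; `d ^ 3 = n` -/
structure Base (Q : Proc) (k d : ℝ) : Prop where
  k2 : 2 ≤ k
  d1 : 1 ≤ d
  hd : d ^ 3 = #Q.P
  lg : ∃ c : ℕ, #Q.P ≤ 2 ^ c ∧ (c : ℝ) ≤ k
  mu : (Q.μ : ℝ) + 1 ≤ k
  lower : #Q.P * d ≤ k * 2 ^ Q.μ
  upper : (2 : ℝ) ^ Q.μ ≤ k * (#Q.P * d)
  g1a : ∀ j ≤ Q.μ, ∑ a ∈ range (2 ^ (Q.μ - j)), (Q.K j a : ℝ) ≤ k * #Q.P / rho Q.μ j
  g1b : ∀ j ≤ Q.μ, ∀ σ : ℝ, 0 < σ →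
    ∑ a ∈ range (2 ^ (Q.μ - j)) with (Q.K j a : ℝ) ≤ #Q.P * σ ^ 3, (Q.K j a : ℝ) ^ 2 ≤
      k * (#Q.P : ℝ) ^ 2 * σ ^ 2
  meet : ∑ t ∈ Q.E, (Q.meet t : ℝ) ≤ k * (#Q.P : ℝ) ^ 2

lemma rho_pos (μ j : ℕ) : 0 < rho μ j := by unfold rho; positivity

lemma rho_pow (μ j : ℕ) : rho μ j ^ 4 = (2 : ℝ) ^ j / 2 ^ μ := by
  unfold rho
  rw [← Real.rpow_natCast, ← Real.rpow_mul (by positivity)]
  norm_num

lemma Base.mono {k k' d : ℝ} (h : Base Q k d) (hk : k ≤ k') : Base Q k' d := by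
  have hk0 : 0 ≤ k := by linarith [h.k2]
  have hd0 : 0 ≤ d := by linarith [h.d1]
  refine ⟨h.k2.trans hk, h.d1, h.hd, ?_, h.mu.trans hk, h.lower.trans (by gcongr),
    h.upper.trans (by gcongr), fun j hj => (h.g1a j hj).trans ?_,
    fun j hj σ hσ => (h.g1b j hj σ hσ).trans (by gcongr), h.meet.trans (by gcongr)⟩
  · obtain ⟨c, h1, h2⟩ := h.lg
    exact ⟨c, h1, h2.trans hk⟩
  · have := rho_pos Q.μ j
    gcongr

/-- every real constant is at most a power of `k ≥ 2` -/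
lemma le_pow_of_two_le (a : ℝ) : ∃ c : ℕ, ∀ k : ℝ, 2 ≤ k → a ≤ k ^ c := by
  obtain ⟨c, hc⟩ := pow_unbounded_of_one_lt a (by norm_num : (1 : ℝ) < 2)
  exact ⟨c, fun k hk => hc.le.trans (pow_le_pow_left₀ (by norm_num) hk c)⟩

end Crest.Agent.R051
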