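import Crest.Agent.R051.Basic

/-! Row 51: Dey's bound for the crossings of convex chains. -/

set_option autoImplicit false

open Finset
open scoped Classical

namespace Crest.Agent.R051

/-- a convex chain -/
structure DeyCh (T : ℕ) (s : ℕ → ℝ) (c : ℕ → Pt) : Prop where
  hs : ∀ t t', t < t' → t' ≤ T → s t < s t'
  mv : ∀ t < T, c (t + 1) = c t ∨ Cone (s t) (s (t + 1)) (c t) (c (t + 1))

namespace DeyCh
variable {T : ℕ} {s : ℕ → ℝ} {c : ℕ → Pt}

lemma s_le (h : DeyCh T s c) {t t' : ℕ} (htt : t ≤ t') (ht' : t' ≤ T) : s t ≤ s t' := by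
  rcases htt.eq_or_lt with rfl | hlt
  · exact le_rfl
  · exact (h.hs _ _ hlt ht').le

lemma far (h : DeyCh T s c) {t t' : ℕ} (htt : t ≤ t') (ht' : t' ≤ T) :
    c t' = c t ∨ (s t < s t' ∧ Cone (s t) (s t') (c t) (c t')) := by
  induction t', htt using Nat.le_induction with
  | base => exact Or.inl rfl
  | succ n hn ih =>
    have h1 : s n < s (n + 1) := h.hs _ _ (Nat.lt_succ_self n) ht'
    have h2 : s t ≤ s n := h.s_le hn (by omega)
    rcases ih (by omega) with e | ⟨l, e⟩ <;> rcases h.mv n (by omega) with e' | e'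
    · exact Or.inl (e'.trans e)
    · rw [e] at e'
      exact Or.inr ⟨by linarith, e'.mono h1 h2 le_rfl⟩
    · rw [e']
      exact Or.inr ⟨by linarith, e.mono l le_rfl h1.le⟩
    · exact Or.inr ⟨by linarith, (e.mono l le_rfl h1.le).trans (e'.mono h1 h2 le_rfl)⟩

lemma x_le (h : DeyCh T s c) {t t' : ℕ} (htt : t ≤ t') (ht' : t' ≤ T) : (c t).1 ≤ (c t').1 := by
  rcases h.far htt ht' with e | ⟨l, e⟩
  · rw [e]
  · exact (e.x_lt l).le

lemma up (h : DeyCh T s c) {t t' : ℕ} (htt : t ≤ t') (ht' : t' ≤ T) {σ : ℝ} (hσ : σ ≤ s t) :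
    hh σ (c t) ≤ hh σ (c t') := by
  rcases h.far htt ht' with e | ⟨l, e⟩
  · rw [e]
  · exact (e.hh_lt l hσ).le

lemma down (h : DeyCh T s c) {t t' : ℕ} (htt : t ≤ t') (ht' : t' ≤ T) {σ : ℝ} (hσ : s t' ≤ σ) :
    hh σ (c t') ≤ hh σ (c t) := by
  rcases h.far htt ht' with e | ⟨l, e⟩
  · rw [e]
  · exact (e.hh_gt l hσ).le

lemma cone (h : DeyCh T s c) {j : ℕ} (hj : j < T) (hne : c (j + 1) ≠ c j) :
    s j < s (j + 1) ∧ Cone (s j) (s (j + 1)) (c j) (c (j + 1)) :=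
  ⟨h.hs _ _ (Nat.lt_succ_self j) hj, (h.mv j hj).resolve_left hne⟩

/-- the lower envelope of the chain -/
noncomputable def env (T : ℕ) (c : ℕ → Pt) (σ : ℝ) : ℝ :=
  (range (T + 1)).inf' nonempty_range_add_one fun t => hh σ (c t)

lemma env_le (c : ℕ → Pt) (σ : ℝ) {t : ℕ} (ht : t ≤ T) : env T c σ ≤ hh σ (c t) :=
  inf'_le (fun t => hh σ (c t)) (mem_range.2 (Nat.lt_succ_of_le ht))

lemma env_cont (T : ℕ) (c : ℕ → Pt) : Continuous (env T c) :=
  Continuous.finset_inf'_apply (f := fun t σ => hh σ (c t)) _ fun t _ => by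
    unfold hh; fun_prop

lemma env_eq (h : DeyCh T s c) {τ : ℕ} (hτ : τ < T) {σ : ℝ} (h1 : s τ ≤ σ) (h2 : σ ≤ s (τ + 1)) :
    env T c σ = min (hh σ (c τ)) (hh σ (c (τ + 1))) := by
  refine le_antisymm (le_min (env_le c σ hτ.le) (env_le c σ hτ)) ?_
  refine (le_inf'_iff _ _).2 fun t ht => ?_
  have ht' : t ≤ T := Nat.lt_succ_iff.1 (mem_range.1 ht)
  rcases le_or_gt t τ with l | l
  · exact (min_le_left _ _).trans (h.down l hτ.le h1)
  · exact (min_le_right _ _).trans (h.up l ht' h2)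

end DeyCh

lemma dey_cone_lt {lo hi : ℝ} {a b : Pt} (h : Cone lo hi a b) (hx : a.1 < b.1) : lo < hi := by
  obtain ⟨h1, h2⟩ := h
  unfold hh at h1 h2
  by_contra hn
  push Not at hn
  nlinarith

lemma dey_lt_slp {σ : ℝ} {a b : Pt} (hx : a.1 < b.1) (h : σ < slp a b) : hh σ a < hh σ b := by
  unfold slp at h
  unfold hh
  rw [lt_div_iff₀ (by linarith)] at h
  linarith

lemma dey_slp_lt {σ : ℝ} {a b : Pt} (hx : a.1 < b.1) (h : slp a b < σ) : hh σ b < hh σ a := by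
  unfold slp at h
  unfold hh
  rw [div_lt_iff₀ (by linarith)] at h
  linarith

namespace DeyCh
variable {T : ℕ} {s : ℕ → ℝ} {c : ℕ → Pt}

lemma seg_x (h : DeyCh T s c) {j : ℕ} (hj : j < T) (hne : c (j + 1) ≠ c j) {z : Pt}
    (hz : z ∈ segment ℝ (c j) (c (j + 1))) :
    (c j).1 ≤ z.1 ∧ z.1 ≤ (c (j + 1)).1 ∧ (z ≠ c j → (c j).1 < z.1) ∧
      (z ≠ c (j + 1) → z.1 < (c (j + 1)).1) := by
  obtain ⟨l, e⟩ := h.cone hj hne
  refine ⟨?_, ?_, fun hn => ((e.seg_left hz).resolve_left hn).x_lt l,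
    fun hn => ((e.seg_right hz).resolve_left hn).x_lt l⟩
  · rcases e.seg_left hz with r | r
    · rw [r]
    · exact (r.x_lt l).le
  · rcases e.seg_right hz with r | r
    · rw [r]
    · exact (r.x_lt l).le

lemma inc (h : DeyCh T s c) {j j' : ℕ} (hj : j < T) (hj' : j' < T) (hne : c (j + 1) ≠ c j)
    (hne' : c (j' + 1) ≠ c j') {z z' : Pt} (hz : z ∈ segment ℝ (c j) (c (j + 1)))
    (hz' : z' ∈ segment ℝ (c j') (c (j' + 1))) (hn : z' ≠ c j') {σ : ℝ}
    (h1 : hh σ (c j) < hh σ (c (j + 1))) (h1' : hh σ (c j') < hh σ (c (j' + 1)))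
    (hx : z.1 < z'.1) : hh σ z < hh σ z' := by
  obtain ⟨l, e⟩ := h.cone hj hne
  obtain ⟨l', e'⟩ := h.cone hj' hne'
  have k : Cone σ (s (j + 1)) (c j) (c (j + 1)) := ⟨h1, e.2⟩
  have k' : Cone σ (s (j' + 1)) (c j') (c (j' + 1)) := ⟨h1', e'.2⟩
  have hσ := dey_cone_lt k (e.x_lt l)
  rcases lt_trichotomy j j' with r | rfl | r
  · have a1 : hh σ z ≤ hh σ (c (j + 1)) := by
      rcases k.seg_right hz with r | r
      · rw [r]
      · exact r.1.le
    have a2 := h.up (show j + 1 ≤ j' from r) hj'.le hσ.le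
    have a3 := ((k'.seg_left hz').resolve_left hn).1
    linarith
  · rcases k.seg_total hz hz' with r | r | r
    · rw [r] at hx; exact absurd hx (lt_irrefl _)
    · exact r.1
    · exact absurd (r.x_lt hσ) (not_lt.2 hx.le)
  · have a1 := (h.seg_x hj' hne' hz').2.1
    have a2 := h.x_le (show j' + 1 ≤ j from r) hj.le
    have a3 := (h.seg_x hj hne hz).1
    linarith

lemma dec (h : DeyCh T s c) {j j' : ℕ} (hj : j < T) (hj' : j' < T) (hne : c (j + 1) ≠ c j)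
    (hne' : c (j' + 1) ≠ c j') {z z' : Pt} (hz : z ∈ segment ℝ (c j) (c (j + 1)))
    (hz' : z' ∈ segment ℝ (c j') (c (j' + 1))) (hn : z ≠ c (j + 1)) {σ : ℝ}
    (h1 : hh σ (c (j + 1)) < hh σ (c j)) (h1' : hh σ (c (j' + 1)) < hh σ (c j'))
    (hx : z.1 < z'.1) : hh σ z' < hh σ z := by
  obtain ⟨l, e⟩ := h.cone hj hne
  obtain ⟨l', e'⟩ := h.cone hj' hne'
  have k : Cone (s j) σ (c j) (c (j + 1)) := ⟨e.1, h1⟩
  have k' : Cone (s j') σ (c j') (c (j' + 1)) := ⟨e'.1, h1'⟩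
  have hσ := dey_cone_lt k' (e'.x_lt l')
  rcases lt_trichotomy j j' with r | rfl | r
  · have a1 : hh σ z' ≤ hh σ (c j') := by
      rcases k'.seg_left hz' with r | r
      · rw [r]
      · exact r.2.le
    have a2 := h.down (show j + 1 ≤ j' from r) hj'.le hσ.le
    have a3 := ((k.seg_right hz).resolve_left hn).2
    linarith
  · rcases k.seg_total hz hz' with r | r | r
    · rw [r] at hx; exact absurd hx (lt_irrefl _)
    · exact r.2
    · exact absurd (r.x_lt hσ) (not_lt.2 hx.le)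
  · have a1 := (h.seg_x hj' hne' hz').2.1
    have a2 := h.x_le (show j' + 1 ≤ j from r) hj.le
    have a3 := (h.seg_x hj hne hz).1
    linarith

lemma idx_left (h : DeyCh T s c) {j j' : ℕ} (hj : j < T) (hj' : j' < T) (hne : c (j + 1) ≠ c j)
    (hne' : c (j' + 1) ≠ c j') {z z' : Pt} (hz : z ∈ segment ℝ (c j) (c (j + 1)))
    (hz' : z' ∈ segment ℝ (c j') (c (j' + 1))) (hn : z' ≠ c j') (hx : z.1 = z'.1) : j' ≤ j := by
  by_contra r
  push Not at r
  have a1 := (h.seg_x hj hne hz).2.1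
  have a2 := h.x_le (show j + 1 ≤ j' from r) hj'.le
  have a3 := (h.seg_x hj' hne' hz').2.2.1 hn
  linarith

lemma idx_right (h : DeyCh T s c) {j j' : ℕ} (hj : j < T) (hj' : j' < T) (hne : c (j + 1) ≠ c j)
    (hne' : c (j' + 1) ≠ c j') {z z' : Pt} (hz : z ∈ segment ℝ (c j) (c (j + 1)))
    (hz' : z' ∈ segment ℝ (c j') (c (j' + 1))) (hn : z ≠ c (j + 1)) (hx : z.1 = z'.1) :
    j' ≤ j := by
  by_contra r
  push Not at r
  have a1 := (h.seg_x hj hne hz).2.2.2 hn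
  have a2 := h.x_le (show j + 1 ≤ j' from r) hj'.le
  have a3 := (h.seg_x hj' hne' hz').1
  linarith

lemma exists_time (_h : DeyCh T s c) {i j : ℕ} (hij : i ≤ j) (hj : j < T) {σ : ℝ} (h1 : s i ≤ σ)
    (h2 : σ < s (j + 1)) : ∃ τ, i ≤ τ ∧ τ ≤ j ∧ s τ ≤ σ ∧ σ < s (τ + 1) := by
  induction j, hij using Nat.le_induction with
  | base => exact ⟨i, le_rfl, le_rfl, h1, h2⟩
  | succ n hn ih =>
    rcases lt_or_ge σ (s (n + 1)) with r | r
    · obtain ⟨τ, a, b, c⟩ := ih (by omega) r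
      exact ⟨τ, a, by omega, c⟩
    · exact ⟨n + 1, by omega, le_rfl, r, h2⟩

/-- the common lower tangent below a crossing -/
lemma tangent {a b : ℕ → Pt} (ha : DeyCh T s a) (hb : DeyCh T s b) {i j : ℕ} (hij : i < j)
    (hj : j < T) (hbi : b (i + 1) ≠ b i) (haj : a (j + 1) ≠ a j) {z : Pt}
    (hz : z ∈ segment ℝ (b i) (b (i + 1))) (hz' : z ∈ segment ℝ (a j) (a (j + 1)))
    (hn : z ≠ b (i + 1)) (hn' : z ≠ a j) :
    ∃ σ τ, τ < T ∧ s τ ≤ σ ∧ σ < s (τ + 1) ∧ hh σ (a j) < hh σ (a (j + 1)) ∧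
      hh σ (b (i + 1)) < hh σ (b i) ∧ ∃ u < 2, ∃ v < 2,
        (a (τ + u)).1 < (b (τ + v)).1 ∧ hh σ (a (τ + u)) = hh σ (b (τ + v)) := by
  have hi : i < T := hij.trans hj
  obtain ⟨l, e⟩ := hb.cone hi hbi
  obtain ⟨l', e'⟩ := ha.cone hj haj
  have x1 := e.x_lt l
  have x2 := e'.x_lt l'
  obtain ⟨m1, m2⟩ := e.slp_mem l
  obtain ⟨m3, m4⟩ := e'.slp_mem l'
  have m5 : s (i + 1) ≤ s j := ha.s_le hij hj.le
  set σ₀ := slp (b i) (b (i + 1)) with hσ₀
  set σ₁ := slp (a j) (a (j + 1)) with hσ₁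
  have c1 : Cone (s j) (s (j + 1)) (a j) z := (e'.seg_left hz').resolve_left hn'
  have c2 : Cone (s i) (s (i + 1)) z (b (i + 1)) := (e.seg_right hz).resolve_left hn
  have f0 : env T a σ₀ - env T b σ₀ < 0 := by
    have q1 := env_le a σ₀ hj.le
    have q2 := c1.hh_lt l' (s := σ₀) (by linarith)
    have q3 := hb.env_eq hi m1.le m2.le
    have q4 : hh σ₀ z = hh σ₀ (b i) := seg_hh_slp x1 hz
    have q5 : hh σ₀ (b (i + 1)) = hh σ₀ (b i) := seg_hh_slp x1 (right_mem_segment _ _ _)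
    rw [q5, min_self] at q3
    linarith
  have f1 : 0 < env T a σ₁ - env T b σ₁ := by
    have q1 := env_le b σ₁ (show i + 1 ≤ T from hi)
    have q2 := c2.hh_gt l (s := σ₁) (by linarith)
    have q3 := ha.env_eq hj m3.le m4.le
    have q4 : hh σ₁ z = hh σ₁ (a j) := seg_hh_slp x2 hz'
    have q5 : hh σ₁ (a (j + 1)) = hh σ₁ (a j) := seg_hh_slp x2 (right_mem_segment _ _ _)
    rw [q5, min_self] at q3
    linarith
  obtain ⟨σ, ⟨s0, s1⟩, hσ⟩ := intermediate_value_Ioo (show σ₀ ≤ σ₁ by linarith)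
    ((env_cont T a).sub (env_cont T b)).continuousOn (show (0 : ℝ) ∈ Set.Ioo _ _ from ⟨f0, f1⟩)
  have hσ' : env T a σ = env T b σ := sub_eq_zero.1 hσ
  obtain ⟨τ, t1, t2, t3, t4⟩ := ha.exists_time hij.le hj (σ := σ) (by linarith) (by linarith)
  have hτ : τ < T := by omega
  have g1 := dey_lt_slp x2 s1
  have g2 := dey_slp_lt x1 s0
  have xa := c1.x_lt l'
  have xb := c2.x_lt l
  have ua : ∃ u < 2, τ + u ≤ j ∧ env T a σ = hh σ (a (τ + u)) := by
    rw [ha.env_eq hτ t3 t4.le]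
    rcases le_total (hh σ (a τ)) (hh σ (a (τ + 1))) with r | r
    · exact ⟨0, by omega, t2, min_eq_left r⟩
    · refine ⟨1, by omega, ?_, min_eq_right r⟩
      rcases t2.eq_or_lt with rfl | r'
      · exact absurd g1 (not_lt.2 r)
      · exact r'
  have ub : ∃ v < 2, i + 1 ≤ τ + v ∧ env T b σ = hh σ (b (τ + v)) := by
    rw [hb.env_eq hτ t3 t4.le]
    rcases le_total (hh σ (b τ)) (hh σ (b (τ + 1))) with r | r
    · refine ⟨0, by omega, ?_, min_eq_left r⟩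
      rcases t1.eq_or_lt with rfl | r'
      · exact absurd g2 (not_lt.2 r)
      · exact r'
    · exact ⟨1, by omega, by omega, min_eq_right r⟩
  obtain ⟨u, u1, u2, u3⟩ := ua
  obtain ⟨v, v1, v2, v3⟩ := ub
  refine ⟨σ, τ, hτ, t3, t4, g1, g2, u, u1, v, v1, ?_, by rw [← u3, ← v3, hσ']⟩
  have y1 := ha.x_le u2 hj.le
  have y2 := hb.x_le v2 (show τ + v ≤ T by omega)
  linarith

end DeyCh

/-- positions of the tokens -/
def deyPos (mv : ℕ → Pt → Pt) (a : Pt) : ℕ → Pt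
  | 0 => a
  | t + 1 => mv t (deyPos mv a t)

/-- Tokens `a ∈ A` sit at distinct points; at step `t` a token stays or moves along a segment
with slope in `(s t, s (t+1))`.  Count the pairs (move `f = (b, i)`, move `e = (a, j)`), `i < j`,
with a common point `z` that is not the end of `f` and not the start of `e`.
Proof: among `p ∈ {pos a τ : τ ≤ j}` (left of `z`) and `q ∈ {pos b τ : i < τ ≤ T}` (right of `z`)
choose the pair whose segment is lowest over `z.1`; let `σ = slp p q`, `h = hh σ`.  Then all those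
points have `h ≥ h p = h q`, and `h z > h p` (already the segment from the start of `e` to the end
of `f` passes below `z` since slope `f` < slope `e`).  Hence slope `f` < `σ` < slope `e` (otherwise
`h` would decrease along the chain of `a` from `p` to `z`, etc.), so `s τ ≤ σ < s (τ+1)` for a
unique `τ ∈ [i, j]`, and `p ∈ {pos a τ, pos a (τ+1)}`, `q ∈ {pos b τ, pos b (τ+1)}` (`h` strictly
decreases along moves before `τ`, strictly increases along moves after `τ`).  So `(p, q)` and two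
bits determine `a, b`.  For two counted pairs with the same data and points `z, z'`,
`z.1 < z'.1` would give `h z < h z'` along `a` and `h z > h z'` along `b`; so `z.1 = z'.1`, and the
half-open ranges `(start, end]` of the moves of `a`, `[start, end)` of `b` give `j = j'`,
`i = i'`. -/
theorem dey_tok {τ : Type*} (P : Finset Pt) (T : ℕ) (s : ℕ → ℝ)
    (hs : ∀ t t', t < t' → t' ≤ T → s t < s t') (A : Finset τ) (pos : τ → ℕ → Pt)
    (hP : ∀ a ∈ A, ∀ t ≤ T, pos a t ∈ P)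
    (hinj : ∀ a ∈ A, ∀ b ∈ A, ∀ t ≤ T, pos a t = pos b t → a = b)
    (hmv : ∀ a ∈ A, ∀ t < T, pos a (t + 1) = pos a t ∨
      Cone (s t) (s (t + 1)) (pos a t) (pos a (t + 1))) :
    #{x ∈ (A ×ˢ range T) ×ˢ (A ×ˢ range T) | x.1.2 < x.2.2 ∧
      pos x.1.1 (x.1.2 + 1) ≠ pos x.1.1 x.1.2 ∧ pos x.2.1 (x.2.2 + 1) ≠ pos x.2.1 x.2.2 ∧
      ∃ z, z ∈ segment ℝ (pos x.1.1 x.1.2) (pos x.1.1 (x.1.2 + 1)) ∧
        z ∈ segment ℝ (pos x.2.1 x.2.2) (pos x.2.1 (x.2.2 + 1)) ∧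
        z ≠ pos x.1.1 (x.1.2 + 1) ∧ z ≠ pos x.2.1 x.2.2} ≤ 4 * #P ^ 2 := by
  have hc : ∀ a ∈ A, DeyCh T s (pos a) := fun a ha => ⟨hs, hmv a ha⟩
  have hcard : #((P ×ˢ P) ×ˢ (range 2 ×ˢ range 2)) = 4 * #P ^ 2 := by
    simp only [card_product, card_range]; ring
  rw [← hcard]
  refine card_le_card_of_forall_subsingleton
    (fun (x : (τ × ℕ) × (τ × ℕ)) (y : (Pt × Pt) × (ℕ × ℕ)) => ∃ σ t, t < T ∧ s t ≤ σ ∧
      σ < s (t + 1) ∧ hh σ (pos x.2.1 x.2.2) < hh σ (pos x.2.1 (x.2.2 + 1)) ∧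
      hh σ (pos x.1.1 (x.1.2 + 1)) < hh σ (pos x.1.1 x.1.2) ∧ y.1.1 = pos x.2.1 (t + y.2.1) ∧
      y.1.2 = pos x.1.1 (t + y.2.2) ∧ y.1.1.1 < y.1.2.1 ∧ hh σ y.1.1 = hh σ y.1.2) ?_ ?_
  · rintro ⟨⟨b, i⟩, a, j⟩ hx
    simp only [mem_filter, mem_product, mem_range] at hx
    obtain ⟨⟨⟨hb, hi⟩, ha, hj⟩, hij, n1, n2, z, z1, z2, z3, z4⟩ := hx
    obtain ⟨σ, t, t1, t2, t3, t4, t5, u, u1, v, v1, t6, t7⟩ :=
      DeyCh.tangent (hc a ha) (hc b hb) hij hj n1 n2 z1 z2 z3 z4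
    refine ⟨((pos a (t + u), pos b (t + v)), (u, v)), ?_, σ, t, t1, t2, t3, t4, t5, rfl, rfl, t6, t7⟩
    simp only [mem_product, mem_range]
    exact ⟨⟨hP a ha _ (by omega), hP b hb _ (by omega)⟩, u1, v1⟩
  · rintro ⟨⟨p, q⟩, u, v⟩ hy ⟨⟨b, i⟩, a, j⟩ ⟨hx, σ, t, t1, t2, t3, t4, t5, t6, t7, t8, t9⟩
      ⟨⟨b', i'⟩, a', j'⟩ ⟨hx', σ', t', r1, r2, r3, r4, r5, r6, r7, -, r9⟩
    simp only [mem_product, mem_range] at hy
    simp only [mem_product, mem_range, mem_filter] at hx hx'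
    obtain ⟨⟨⟨hb, hi⟩, ha, hj⟩, hij, n1, n2, z, z1, z2, z3, z4⟩ := hx
    obtain ⟨⟨⟨hb', hi'⟩, ha', hj'⟩, hij', n1', n2', z', z1', z2', z3', z4'⟩ := hx'
    dsimp only at *
    have eσ : σ = σ' := by
      unfold hh at t9 r9
      have : (σ - σ') * (q.1 - p.1) = 0 := by linarith
      rcases mul_eq_zero.1 this with r | r <;> linarith
    subst eσ
    have et : t = t' := by
      rcases lt_trichotomy t t' with r | r | r
      · have := (hc a ha).s_le (show t + 1 ≤ t' from r) r1.le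
        linarith
      · exact r
      · have := (hc a ha).s_le (show t' + 1 ≤ t from r) t1.le
        linarith
    subst et
    have ea : a = a' := hinj a ha a' ha' (t + u) (by omega) (t6.symm.trans r6)
    have eb : b = b' := hinj b hb b' hb' (t + v) (by omega) (t7.symm.trans r7)
    subst ea eb
    have ex : z.1 = z'.1 := by
      rcases lt_trichotomy z.1 z'.1 with r | r | r
      · have k1 := (hc a ha).inc hj hj' n2 n2' z2 z2' z4' t4 r4 r
        have k2 := (hc b hb).dec hi hi' n1 n1' z1 z1' z3 t5 r5 r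
        linarith
      · exact r
      · have k1 := (hc a ha).inc hj' hj n2' n2 z2' z2 z4 r4 t4 r
        have k2 := (hc b hb).dec hi' hi n1' n1 z1' z1 z3' r5 t5 r
        linarith
    have ej : j = j' := le_antisymm ((hc a ha).idx_left hj' hj n2' n2 z2' z2 z4 ex.symm)
      ((hc a ha).idx_left hj hj' n2 n2' z2 z2' z4' ex)
    have ei : i = i' := le_antisymm ((hc b hb).idx_right hi' hi n1' n1 z1' z1 z3' ex.symm)
      ((hc b hb).idx_right hi hi' n1 n1' z1 z1' z3 ex)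
    rw [ej, ei]

/-- the same for bijections `mv t : S t → S (t+1)` (tokens are the points of `S 0`,
`pos a (t+1) = mv t (pos a t)`; every `p ∈ S t` carries a token) -/
theorem dey (P : Finset Pt) (T : ℕ) (s : ℕ → ℝ) (hs : ∀ t t', t < t' → t' ≤ T → s t < s t')
    (S : ℕ → Finset Pt) (hS : ∀ t ≤ T, S t ⊆ P) (mv : ℕ → Pt → Pt)
    (hb : ∀ t < T, Set.BijOn (mv t) (S t) (S (t + 1)))
    (hmv : ∀ t < T, ∀ p ∈ S t, mv t p = p ∨ Cone (s t) (s (t + 1)) p (mv t p)) :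
    #{x ∈ (range T ×ˢ P) ×ˢ (range T ×ˢ P) | x.1.1 < x.2.1 ∧ x.1.2 ∈ S x.1.1 ∧ x.2.2 ∈ S x.2.1 ∧
      mv x.1.1 x.1.2 ≠ x.1.2 ∧ mv x.2.1 x.2.2 ≠ x.2.2 ∧
      ∃ z, z ∈ segment ℝ x.1.2 (mv x.1.1 x.1.2) ∧ z ∈ segment ℝ x.2.2 (mv x.2.1 x.2.2) ∧
        z ≠ mv x.1.1 x.1.2 ∧ z ≠ x.2.2} ≤ 4 * #P ^ 2 := by
  have hmem : ∀ a ∈ S 0, ∀ t ≤ T, deyPos mv a t ∈ S t := by
    intro a ha t
    induction t with
    | zero => exact fun _ => ha
    | succ n ih => exact fun hn => (hb n hn).mapsTo (ih (by omega))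
  have hinj : ∀ a ∈ S 0, ∀ b ∈ S 0, ∀ t ≤ T, deyPos mv a t = deyPos mv b t → a = b := by
    intro a ha b hb' t
    induction t with
    | zero => exact fun _ h => h
    | succ n ih =>
      exact fun hn h => ih (by omega)
        ((hb n hn).injOn (hmem a ha n (by omega)) (hmem b hb' n (by omega)) h)
  have hsurj : ∀ t ≤ T, ∀ p ∈ S t, ∃ a ∈ S 0, deyPos mv a t = p := by
    intro t
    induction t with
    | zero => exact fun _ p hp => ⟨p, hp, rfl⟩
    | succ n ih =>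
      intro hn p hp
      obtain ⟨p', hp', rfl⟩ := (hb n hn).surjOn hp
      obtain ⟨a, ha, rfl⟩ := ih (by omega) p' hp'
      exact ⟨a, ha, rfl⟩
  refine le_trans ?_ (dey_tok P T s hs (S 0) (deyPos mv)
    (fun a ha t ht => hS t ht (hmem a ha t ht)) hinj
    (fun a ha t ht => hmv t ht _ (hmem a ha t ht.le)))
  refine card_le_card_of_surjOn
    (fun x : (Pt × ℕ) × (Pt × ℕ) =>
      ((x.1.2, deyPos mv x.1.1 x.1.2), (x.2.2, deyPos mv x.2.1 x.2.2))) ?_
  rintro ⟨⟨i, p⟩, j, q⟩ hx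
  simp only [coe_filter, Set.mem_ofPred_eq, mem_product, mem_range] at hx
  obtain ⟨⟨⟨hi, -⟩, hj, -⟩, hij, hp, hq, rest⟩ := hx
  obtain ⟨b, hb', rfl⟩ := hsurj i hi.le p hp
  obtain ⟨a, ha', rfl⟩ := hsurj j hj.le q hq
  refine ⟨((b, i), (a, j)), ?_, rfl⟩
  simp only [coe_filter, Set.mem_ofPred_eq, mem_product, mem_range]
  exact ⟨⟨⟨hb', hi⟩, ha', hj⟩, hij, rest⟩

end Crest.Agent.R051
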