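import Crest.Agent.R051.Dey

/-! Row 51: total number of meeting pairs of edges. -/

set_option autoImplicit false

open Finset
open scoped Classical

namespace Crest.Agent.R051

lemma Meet_uv (Q : Proc) {t : ℕ} (ht : t < 2 ^ Q.μ) : Q.u t ≠ Q.v t := fun h =>
  Q.v_not t ht (h ▸ Q.u_mem t ht)

lemma Meet_prod {α β : Type*} (s : Finset α) (t : Finset β) (p : α → β → Prop)
    [DecidablePred fun x : α × β => p x.1 x.2] [∀ a, DecidablePred (p a)] :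
    #{x ∈ s ×ˢ t | p x.1 x.2} = ∑ a ∈ s, #{b ∈ t | p a b} := by
  simp only [card_filter, sum_product]

lemma Meet_sq (O : Finset ℕ) : #O ^ 2 ≤ #O + 2 * #{x ∈ O ×ˢ O | x.1 < x.2} := by
  have hsub : O ×ˢ O ⊆ O.diag ∪ ({x ∈ O ×ˢ O | x.1 < x.2} ∪
      ({x ∈ O ×ˢ O | x.1 < x.2}).image Prod.swap) := by
    rintro ⟨a, b⟩ hx
    rw [mem_product] at hx
    rcases lt_trichotomy a b with h | h | h
    · exact mem_union_right _ (mem_union_left _ (mem_filter.2 ⟨mem_product.2 hx, h⟩))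
    · exact mem_union_left _ (mem_diag.2 ⟨hx.1, h⟩)
    · exact mem_union_right _ (mem_union_right _ (mem_image.2
        ⟨(b, a), mem_filter.2 ⟨mem_product.2 ⟨hx.2, hx.1⟩, h⟩, rfl⟩))
  have h1 := card_le_card hsub
  have h2 := card_union_le O.diag ({x ∈ O ×ˢ O | x.1 < x.2} ∪
      ({x ∈ O ×ˢ O | x.1 < x.2}).image Prod.swap)
  have h3 := card_union_le ({x ∈ O ×ˢ O | x.1 < x.2})
      (({x ∈ O ×ˢ O | x.1 < x.2}).image Prod.swap)
  have h4 : #(({x ∈ O ×ˢ O | x.1 < x.2}).image Prod.swap) ≤ #{x ∈ O ×ˢ O | x.1 < x.2} :=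
    card_image_le
  rw [card_product] at h1
  rw [diag_card] at h2
  rw [sq]
  omega

lemma Meet_sum_eq (Q : Proc) : ∑ t ∈ Q.E, Q.meet t =
    #{x ∈ Q.E ×ˢ Q.E | x.2 ≠ x.1 ∧ ∃ z, z ∈ Q.seg x.1 ∧ z ∈ Q.seg x.2} :=
  (Meet_prod Q.E Q.E fun t t' => t' ≠ t ∧ ∃ z, z ∈ Q.seg t ∧ z ∈ Q.seg t').symm

/-- `dey` for the process itself: `mv t p = if p = u t then v t else p` -/
theorem Proc.dey_real (Q : Proc) :
    #{x ∈ Q.E ×ˢ Q.E | x.1 < x.2 ∧ ∃ z, z ∈ Q.seg x.1 ∧ z ∈ Q.seg x.2 ∧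
      z ≠ Q.v x.1 ∧ z ≠ Q.u x.2} ≤ 4 * #Q.P ^ 2 := by
  have key := dey Q.P (2 ^ Q.μ) Q.s Q.s_lt Q.S Q.S_sub
    (fun t p => if p = Q.u t then Q.v t else p) ?_ ?_
  · refine le_trans ?_ key
    refine card_le_card_of_injOn (fun x => ((x.1, Q.u x.1), (x.2, Q.u x.2))) ?_ ?_
    · rintro ⟨t, t'⟩ hx
      simp only [coe_filter, mem_product, mem_range, Set.mem_ofPred_eq] at hx
      obtain ⟨⟨ht, ht'⟩, hlt, z, hz1, hz2, hz3, hz4⟩ := hx
      simp only [coe_filter, mem_product, mem_range, Set.mem_ofPred_eq, if_true]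
      exact ⟨⟨⟨ht, Q.u_P ht⟩, ht', Q.u_P ht'⟩, hlt, Q.u_mem t ht, Q.u_mem t' ht',
        (Meet_uv Q ht).symm, (Meet_uv Q ht').symm, z, hz1, hz2, hz3, hz4⟩
    · rintro ⟨t, t'⟩ - ⟨r, r'⟩ - h
      simp only [Prod.mk.injEq] at h
      exact Prod.ext h.1.1 h.2.1
  · intro t ht
    rw [Q.S_succ t ht]
    refine ⟨?_, ?_, ?_⟩
    · intro p hp
      by_cases h : p = Q.u t
      · simp [h]
      · simp only [if_neg h, coe_insert, coe_erase]
        exact Or.inr ⟨hp, h⟩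
    · intro p hp p' hp' h
      by_cases h1 : p = Q.u t <;> by_cases h2 : p' = Q.u t
      · rw [h1, h2]
      · simp only [if_pos h1, if_neg h2] at h
        exact absurd (h ▸ hp' : Q.v t ∈ Q.S t) (Q.v_not t ht)
      · simp only [if_neg h1, if_pos h2] at h
        exact absurd (h ▸ hp : Q.v t ∈ Q.S t) (Q.v_not t ht)
      · simpa only [if_neg h1, if_neg h2] using h
    · intro y hy
      rw [mem_coe, mem_insert, mem_erase] at hy
      rcases hy with rfl | ⟨h1, h2⟩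
      · exact ⟨Q.u t, Q.u_mem t ht, by simp⟩
      · exact ⟨y, h2, by simp [h1]⟩
  · intro t ht p _
    by_cases h : p = Q.u t
    · right
      simp only [if_pos h]
      rw [h]
      exact Q.cone t ht
    · left
      simp only [if_neg h]

/-- At a vertex `q` with `o` out-edges: after an out-edge `q ∉ S`, so by `inout` the in-edges
after it are at least as many as the out-edges after it; the pairs (out-edge, later in-edge) are
counted by `dey_real` with `z = q`.  So `∑ o (o - 1) / 2 ≤ 4 n²`, `∑ o ≤ n²`, `deg ≤ 2 o + 1`. -/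
theorem Proc.deg_sq (Q : Proc) :
    ∑ q ∈ Q.P, #{t ∈ Q.E | Q.u t = q ∨ Q.v t = q} ^ 2 ≤ 80 * #Q.P ^ 2 := by
  have hA : #{x ∈ Q.E ×ˢ Q.E | x.1 < x.2 ∧ Q.v x.2 = Q.u x.1} ≤ 4 * #Q.P ^ 2 := by
    refine le_trans (card_le_card ?_) Q.dey_real
    rintro ⟨t, t'⟩ hx
    simp only [mem_filter, mem_product, mem_range] at hx ⊢
    obtain ⟨⟨ht, ht'⟩, hlt, he⟩ := hx
    refine ⟨⟨ht, ht'⟩, hlt, Q.u t, left_mem_segment _ _ _, ?_, Meet_uv Q ht, ?_⟩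
    · rw [← he]
      exact right_mem_segment _ _ _
    · rw [← he]
      exact (Meet_uv Q ht').symm
  have hB : #{x ∈ Q.E ×ˢ Q.E | x.1 < x.2 ∧ Q.u x.2 = Q.u x.1} ≤ 4 * #Q.P ^ 2 := by
    refine le_trans ?_ hA
    rw [Meet_prod Q.E Q.E fun t t' => t < t' ∧ Q.u t' = Q.u t,
      Meet_prod Q.E Q.E fun t t' => t < t' ∧ Q.v t' = Q.u t]
    refine sum_le_sum fun t ht => ?_
    rw [mem_range] at ht
    have h := Q.inout (Q.u t) (t0 := t + 1) (t1 := 2 ^ Q.μ) ht le_rfl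
    have hn : Q.u t ∉ Q.S (t + 1) := by
      rw [Q.S_succ t ht, mem_insert, mem_erase]
      rintro (h | h)
      · exact Meet_uv Q ht h
      · exact h.1 rfl
    rw [if_neg hn] at h
    have e1 : {t' ∈ Q.E | t < t' ∧ Q.u t' = Q.u t} =
        {t' ∈ Ico (t + 1) (2 ^ Q.μ) | Q.u t' = Q.u t} := by
      ext x
      simp only [mem_filter, mem_range, mem_Ico, Nat.add_one_le_iff]
      tauto
    have e2 : {t' ∈ Q.E | t < t' ∧ Q.v t' = Q.u t} =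
        {t' ∈ Ico (t + 1) (2 ^ Q.μ) | Q.v t' = Q.u t} := by
      ext x
      simp only [mem_filter, mem_range, mem_Ico, Nat.add_one_le_iff]
      tauto
    rw [e1, e2]
    omega
  have hO : ∑ q ∈ Q.P, #{t ∈ Q.E | Q.u t = q} ≤ #Q.P ^ 2 := by
    rw [← card_eq_sum_card_fiberwise (f := Q.u) (s := Q.E) (t := Q.P)
      (fun t ht => Q.u_P (mem_range.1 ht)), card_range]
    exact Q.m_le
  have hB' : ∑ q ∈ Q.P, #{x ∈ {t ∈ Q.E | Q.u t = q} ×ˢ {t ∈ Q.E | Q.u t = q} | x.1 < x.2} ≤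
      4 * #Q.P ^ 2 := by
    refine le_trans ?_ hB
    rw [card_eq_sum_card_fiberwise (f := fun x : ℕ × ℕ => Q.u x.1)
      (s := {x ∈ Q.E ×ˢ Q.E | x.1 < x.2 ∧ Q.u x.2 = Q.u x.1}) (t := Q.P)
      (fun x hx => Q.u_P (mem_range.1 (mem_product.1 (mem_filter.1 hx).1).1))]
    refine sum_le_sum fun q _ => card_le_card ?_
    rintro ⟨t, t'⟩ hx
    simp only [mem_filter, mem_product, mem_range] at hx ⊢
    obtain ⟨⟨⟨ht, h1⟩, ht', h2⟩, hlt⟩ := hx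
    exact ⟨⟨⟨ht, ht'⟩, hlt, h2.trans h1.symm⟩, h1⟩
  have hq : ∀ q ∈ Q.P, #{t ∈ Q.E | Q.u t = q ∨ Q.v t = q} ^ 2 ≤
      8 * #{t ∈ Q.E | Q.u t = q} + 8 * #{x ∈ {t ∈ Q.E | Q.u t = q} ×ˢ {t ∈ Q.E | Q.u t = q} |
        x.1 < x.2} + 1 := by
    intro q _
    have h := Q.inout q (t0 := 0) (t1 := 2 ^ Q.μ) (Nat.zero_le _) le_rfl
    rw [← range_eq_Ico] at h
    have h1 : #{t ∈ Q.E | Q.u t = q ∨ Q.v t = q} ≤
        #{t ∈ Q.E | Q.u t = q} + #{t ∈ Q.E | Q.v t = q} := by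
      rw [filter_or]
      exact card_union_le _ _
    have h2 : #{t ∈ Q.E | Q.v t = q} ≤ #{t ∈ Q.E | Q.u t = q} + 1 := by
      change #{t ∈ Q.E | Q.u t = q} + _ = #{t ∈ Q.E | Q.v t = q} + _ at h
      split_ifs at h <;> omega
    have h3 := Meet_sq {t ∈ Q.E | Q.u t = q}
    have h4 : #{t ∈ Q.E | Q.u t = q ∨ Q.v t = q} ^ 2 ≤ (2 * #{t ∈ Q.E | Q.u t = q} + 1) ^ 2 :=
      Nat.pow_le_pow_left (by omega) 2
    generalize #{t ∈ Q.E | Q.u t = q ∨ Q.v t = q} = d at *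
    generalize #{x ∈ {t ∈ Q.E | Q.u t = q} ×ˢ {t ∈ Q.E | Q.u t = q} | x.1 < x.2} = b at *
    generalize #{t ∈ Q.E | Q.u t = q} = o at *
    nlinarith
  refine (sum_le_sum hq).trans ?_
  rw [sum_add_distrib, sum_add_distrib, ← mul_sum, ← mul_sum, sum_const, smul_eq_mul, mul_one]
  have h5 : #Q.P ≤ #Q.P ^ 2 := Nat.le_self_pow two_ne_zero _
  omega

/-- a meeting pair `t < t'` is counted by `dey_real` or shares a vertex (`GP.seg`) -/
theorem Proc.meet_sum (Q : Proc) : ∑ t ∈ Q.E, Q.meet t ≤ 100 * #Q.P ^ 2 := by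
  rw [Meet_sum_eq]
  set D := {x ∈ Q.E ×ˢ Q.E | x.1 < x.2 ∧ ∃ z, z ∈ Q.seg x.1 ∧ z ∈ Q.seg x.2 ∧
      z ≠ Q.v x.1 ∧ z ≠ Q.u x.2} with hD
  set W := Q.P.biUnion fun q => {t ∈ Q.E | Q.u t = q ∨ Q.v t = q} ×ˢ
    {t ∈ Q.E | Q.u t = q ∨ Q.v t = q} with hW
  have hD4 : #D ≤ 4 * #Q.P ^ 2 := Q.dey_real
  have hW80 : #W ≤ 80 * #Q.P ^ 2 := by
    refine card_biUnion_le.trans (le_trans (le_of_eq ?_) Q.deg_sq)
    refine sum_congr rfl fun q _ => ?_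
    rw [card_product, sq]
  have key : ∀ t t', t < 2 ^ Q.μ → t' < 2 ^ Q.μ → t < t' → ∀ z, z ∈ Q.seg t → z ∈ Q.seg t' →
      (t, t') ∈ D ∨ ∃ q ∈ Q.P, (Q.u t = q ∨ Q.v t = q) ∧ (Q.u t' = q ∨ Q.v t' = q) := by
    intro t t' ht ht' hlt z hz hz'
    by_cases h1 : z = Q.v t
    · right
      rw [h1] at hz'
      refine ⟨Q.v t, Q.v_mem t ht, Or.inr rfl, ?_⟩
      rcases Q.gp.seg (Q.u_P ht') (Q.v_mem t' ht') (Q.v_mem t ht) (Meet_uv Q ht') hz' with h | h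
      · exact Or.inl h.symm
      · exact Or.inr h.symm
    by_cases h2 : z = Q.u t'
    · right
      rw [h2] at hz
      refine ⟨Q.u t', Q.u_P ht', ?_, Or.inl rfl⟩
      rcases Q.gp.seg (Q.u_P ht) (Q.v_mem t ht) (Q.u_P ht') (Meet_uv Q ht) hz with h | h
      · exact Or.inl h.symm
      · exact Or.inr h.symm
    left
    rw [hD]
    exact mem_filter.2 ⟨mem_product.2 ⟨mem_range.2 ht, mem_range.2 ht'⟩, hlt, z, hz, hz', h1, h2⟩
  have hWm : ∀ t t', t < 2 ^ Q.μ → t' < 2 ^ Q.μ → ∀ q ∈ Q.P, (Q.u t = q ∨ Q.v t = q) →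
      (Q.u t' = q ∨ Q.v t' = q) → (t, t') ∈ W := by
    intro t t' ht ht' q hq h1 h2
    rw [hW]
    exact mem_biUnion.2 ⟨q, hq, mem_product.2 ⟨mem_filter.2 ⟨mem_range.2 ht, h1⟩,
      mem_filter.2 ⟨mem_range.2 ht', h2⟩⟩⟩
  have hsub : {x ∈ Q.E ×ˢ Q.E | x.2 ≠ x.1 ∧ ∃ z, z ∈ Q.seg x.1 ∧ z ∈ Q.seg x.2} ⊆
      (D ∪ D.image Prod.swap) ∪ W := by
    rintro ⟨t, t'⟩ hx
    simp only [mem_filter, mem_product, mem_range] at hx
    obtain ⟨⟨ht, ht'⟩, hne, z, hz, hz'⟩ := hx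
    rcases lt_or_gt_of_ne hne with h | h
    · rcases key t' t ht' ht h z hz' hz with h' | ⟨q, hq, h1, h2⟩
      · exact mem_union_left _ (mem_union_right _ (mem_image.2 ⟨_, h', rfl⟩))
      · exact mem_union_right _ (hWm t t' ht ht' q hq h2 h1)
    · rcases key t t' ht ht' h z hz hz' with h' | ⟨q, hq, h1, h2⟩
      · exact mem_union_left _ (mem_union_left _ h')
      · exact mem_union_right _ (hWm t t' ht ht' q hq h1 h2)
  have h1 := card_le_card hsub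
  have h2 := card_union_le (D ∪ D.image Prod.swap) W
  have h3 := card_union_le D (D.image Prod.swap)
  have h4 : #(D.image Prod.swap) ≤ #D := card_image_le
  omega

/-- crossing pairs inside any set of edges -/
theorem Proc.cross_le_meet (Q : Proc) (I : Finset ℕ) (hI : I ⊆ Q.E) :
    #{x ∈ I ×ˢ I | Cross (Q.u x.1) (Q.v x.1) (Q.u x.2) (Q.v x.2)} ≤ ∑ t ∈ Q.E, Q.meet t := by
  rw [Meet_sum_eq]
  refine card_le_card ?_
  rintro ⟨t, t'⟩ hx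
  simp only [mem_filter, mem_product] at hx ⊢
  obtain ⟨⟨ht, ht'⟩, h1, -, -, -, hz⟩ := hx
  exact ⟨⟨hI ht, hI ht'⟩, fun h => h1 (by rw [h]), hz⟩

end Crest.Agent.R051
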