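import Crest.Agent.R051.Mk1

/-! Row 51: from a point set with many `κ`-edges to a process. -/

set_option autoImplicit false

open Finset
open scoped Classical

namespace Crest.Agent.R051

/-- the points below an edge -/
private noncomputable def mkB (P : Finset Pt) (e : Pt × Pt) : Finset Pt :=
  {r ∈ P | hh (slp e.1 e.2) r < hh (slp e.1 e.2) e.1}

private lemma mk_diff {a b : Pt} (h : a.1 < b.1) (s : ℝ) :
    hh s b - hh s a = (slp a b - s) * (b.1 - a.1) := by
  have : b.1 - a.1 ≠ 0 := (sub_pos.2 h).ne'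
  unfold hh slp
  field_simp
  ring

private lemma mk_mem {P : Finset Pt} {κ : ℕ} {e : Pt × Pt} (he : e ∈ kedges P κ) :
    e.1 ∈ P ∧ e.2 ∈ P ∧ e.1.1 < e.2.1 ∧ #(mkB P e) = κ := by
  simp only [kedges, mem_filter, mem_product] at he
  exact ⟨he.1.1, he.1.2, he.2.1, he.2.2⟩

private lemma mk_eq {a b : Pt} (h : a.1 < b.1) : hh (slp a b) b = hh (slp a b) a := by
  have := mk_diff h (slp a b)
  rw [sub_self, zero_mul] at this
  linarith

private lemma mk_above {P : Finset Pt} (hg : GP P) {κ : ℕ} {e : Pt × Pt} (he : e ∈ kedges P κ)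
    {q : Pt} (hq : q ∈ P) (h0 : q ∉ mkB P e) (h1 : q ≠ e.1) (h2 : q ≠ e.2) :
    hh (slp e.1 e.2) e.1 < hh (slp e.1 e.2) q := by
  obtain ⟨a1, a2, a3, -⟩ := mk_mem he
  have h3 : hh (slp e.1 e.2) e.1 ≤ hh (slp e.1 e.2) q :=
    not_lt.1 fun h => h0 (mem_filter.2 ⟨hq, h⟩)
  refine lt_of_le_of_ne h3 fun h => hg e.1 a1 e.2 a2 q hq (fun h => a3.ne (congrArg _ h)) h1.symm
    h2.symm ?_
  have h4 : e.2.1 - e.1.1 ≠ 0 := (sub_pos.2 a3).ne'
  have h5 : slp e.1 e.2 * (e.2.1 - e.1.1) = e.2.2 - e.1.2 := div_mul_cancel₀ _ h4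
  unfold hh at h
  linear_combination (e.1.1 - e.2.1) * h + (q.1 - e.1.1) * h5

private lemma mk_not {P : Finset Pt} {κ : ℕ} {e : Pt × Pt} (he : e ∈ kedges P κ) :
    e.1 ∉ mkB P e ∧ e.2 ∉ mkB P e :=
  ⟨fun h => (mem_filter.1 h).2.false, fun h => (mem_filter.1 h).2.ne (mk_eq (mk_mem he).2.2.1)⟩

private lemma mk_ev {σ : ℝ} {p q : Pt} (h : hh σ p < hh σ q) :
    ∀ᶠ s in nhds σ, hh s p < hh s q :=
  ContinuousAt.eventually_lt (f := fun s => hh s p) (g := fun s => hh s q)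
    (by unfold hh; fun_prop) (by unfold hh; fun_prop) h

private lemma mk_left {P : Finset Pt} (hx : XInj P) (hg : GP P) {κ : ℕ} {e : Pt × Pt}
    (he : e ∈ kedges P κ) {s : ℝ} (hs : s < slp e.1 e.2)
    (hn : ∀ e' ∈ kedges P κ, s ≤ slp e'.1 e'.2 → slp e.1 e.2 ≤ slp e'.1 e'.2) :
    Sep P (insert e.1 (mkB P e)) s := by
  obtain ⟨a1, a2, a3, a4⟩ := mk_mem he
  have hev : ∀ᶠ s' in nhdsWithin (slp e.1 e.2) (Set.Iio (slp e.1 e.2)),
      Sep P (insert e.1 (mkB P e)) s' := by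
    refine (Filter.eventually_all_finset _).2 fun p hp => (Filter.eventually_all_finset _).2
      fun q hq => Filter.eventually_imp_distrib_left.2 fun hq' => ?_
    rw [mem_insert, not_or] at hq'
    by_cases h : q = e.2
    · subst h
      rcases mem_insert.1 hp with rfl | hp
      · filter_upwards [self_mem_nhdsWithin] with s' hs'
        have := mul_pos (sub_pos.2 (Set.mem_Iio.1 hs')) (sub_pos.2 a3)
        linarith [mk_diff a3 s']
      · exact nhdsWithin_le_nhds (mk_ev ((mem_filter.1 hp).2.trans_eq (mk_eq a3).symm))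
    · refine nhdsWithin_le_nhds (mk_ev (lt_of_le_of_lt ?_ (mk_above hg he hq hq'.2 hq'.1 h)))
      rcases mem_insert.1 hp with rfl | hp
      · exact le_rfl
      · exact (mem_filter.1 hp).2.le
  obtain ⟨s', h1, h2⟩ := (hev.and (Ioo_mem_nhdsLT hs)).exists
  by_contra h
  obtain ⟨e', b1, b2, b3, -⟩ := Sep.edge_left (Z := insert e.1 (mkB P e)) (κ := κ) hx hg
    (insert_subset a1 (filter_subset _ _)) (by rw [card_insert_of_notMem (mk_not he).1, a4]) h2.1 h1 h
  linarith [hn e' b1 b2, h2.2]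

private lemma mk_right {P : Finset Pt} (hx : XInj P) (hg : GP P) {κ : ℕ} {e : Pt × Pt}
    (he : e ∈ kedges P κ) {s : ℝ} (hs : slp e.1 e.2 < s)
    (hn : ∀ e' ∈ kedges P κ, slp e'.1 e'.2 ≤ s → slp e'.1 e'.2 ≤ slp e.1 e.2) :
    Sep P (insert e.2 (mkB P e)) s := by
  obtain ⟨a1, a2, a3, a4⟩ := mk_mem he
  have hev : ∀ᶠ s' in nhdsWithin (slp e.1 e.2) (Set.Ioi (slp e.1 e.2)),
      Sep P (insert e.2 (mkB P e)) s' := by
    refine (Filter.eventually_all_finset _).2 fun p hp => (Filter.eventually_all_finset _).2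
      fun q hq => Filter.eventually_imp_distrib_left.2 fun hq' => ?_
    rw [mem_insert, not_or] at hq'
    by_cases h : q = e.1
    · subst h
      rcases mem_insert.1 hp with rfl | hp
      · filter_upwards [self_mem_nhdsWithin] with s' hs'
        have := mul_pos (sub_pos.2 (Set.mem_Ioi.1 hs')) (sub_pos.2 a3)
        linarith [mk_diff a3 s']
      · exact nhdsWithin_le_nhds (mk_ev (mem_filter.1 hp).2)
    · refine nhdsWithin_le_nhds (mk_ev (lt_of_le_of_lt ?_ (mk_above hg he hq hq'.2 h hq'.1)))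
      rcases mem_insert.1 hp with rfl | hp
      · exact (mk_eq a3).le
      · exact (mem_filter.1 hp).2.le
  obtain ⟨s', h1, h2⟩ := (hev.and (Ioo_mem_nhdsGT hs)).exists
  by_contra h
  obtain ⟨e', b1, b2, b3, -⟩ := Sep.edge_right (Z := insert e.2 (mkB P e)) (κ := κ) hx hg
    (insert_subset a2 (filter_subset _ _)) (by rw [card_insert_of_notMem (mk_not he).2, a4]) h2.2 h1 h
  linarith [hn e' b1 b3, h2.1]

private lemma mk_sort {P : Finset Pt} (hx : XInj P) (hg : GP P) (κ : ℕ) :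
    ∃ e : ℕ → Pt × Pt, (∀ t < #(kedges P κ), e t ∈ kedges P κ) ∧
      (∀ t t', t < t' → t' < #(kedges P κ) → slp (e t).1 (e t).2 < slp (e t').1 (e t').2) ∧
      ∀ e' ∈ kedges P κ, ∃ t < #(kedges P κ), slp e'.1 e'.2 = slp (e t).1 (e t).2 := by
  have hc := card_image_of_injOn (kedges_slp_inj hx hg κ)
  set f := orderEmbOfFin _ hc with hf
  have h1 : ∀ t : ℕ, ∃ e : Pt × Pt, ∀ h : t < #(kedges P κ),
      e ∈ kedges P κ ∧ slp e.1 e.2 = f ⟨t, h⟩ := fun t => by
    by_cases h : t < #(kedges P κ)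
    · obtain ⟨e, a1, a2⟩ := mem_image.1 (orderEmbOfFin_mem _ hc ⟨t, h⟩)
      exact ⟨e, fun _ => ⟨a1, a2⟩⟩
    · exact ⟨0, fun h' => absurd h' h⟩
  choose e he using h1
  refine ⟨e, fun t ht => (he t ht).1, fun t t' h h' => ?_, fun e' he' => ?_⟩
  · rw [(he t (h.trans h')).2, (he t' h').2]
    exact f.strictMono h
  · have : slp e'.1 e'.2 ∈ Set.range f := by
      rw [hf, range_orderEmbOfFin]
      exact mem_coe.2 (mem_image_of_mem _ he')
    obtain ⟨i, hi⟩ := this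
    exact ⟨i, i.2, by rw [(he i i.2).2, hi]⟩

private lemma mk_gap {σ : ℕ → ℝ} {N : ℕ} (h : ∀ t t', t < t' → t' < N → σ t < σ t')
    (F : Finset ℝ) {t : ℕ} (ht : t ≤ N) :
    ∃ s, s ∉ F ∧ (∀ i < t, σ i < s) ∧ ∀ i, t ≤ i → i < N → s < σ i := by
  have h' : ∀ t t', t ≤ t' → t' < N → σ t ≤ σ t' := fun t t' h1 h2 => by
    rcases h1.eq_or_lt with rfl | h1
    · exact le_rfl
    · exact (h t t' h1 h2).le
  have key : ∃ lo hi, lo < hi ∧ (∀ i < t, σ i ≤ lo) ∧ ∀ i, t ≤ i → i < N → hi ≤ σ i := by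
    rcases t with _ | t
    · exact ⟨σ 0 - 1, σ 0, by linarith, by simp, h' 0⟩
    · have h1 : ∀ i < t + 1, σ i ≤ σ t := fun i hi => h' i t (by omega) (by omega)
      rcases ht.eq_or_lt with h2 | h2
      · exact ⟨σ t, σ t + 1, by linarith, h1, fun i a b => by omega⟩
      · exact ⟨σ t, σ (t + 1), h _ _ (by omega) h2, h1, h' _⟩
  obtain ⟨lo, hi, h1, h2, h3⟩ := key
  obtain ⟨s, a1, a2⟩ := (Set.Ioo_infinite h1).exists_notMem_finset F
  exact ⟨s, a2, fun i hi => (h2 i hi).trans_lt a1.1, fun i b1 b2 => a1.2.trans_le (h3 i b1 b2)⟩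

/-- Sort the `κ`-edges by slope and keep the first `2 ^ μ`; choose `s t` strictly between
consecutive slopes outside the finite set of slopes `slp p z` (`p ∈ P`, `z` the common point of two
edges).  `S t = below (e t) ∪ {u t}` for `t < 2 ^ μ` and `S (2 ^ μ) = below ∪ {v}` of the last
edge.  `below ∪ {u t}` is separated slightly to the left of the slope of `e t`, hence at `s t` by
`edge_left` (no edge slope in `[s t, slope)`), and `below ∪ {v t}` at `s (t+1)` by `edge_right`;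
`Sep.unique` glues consecutive steps. -/
theorem exists_proc (P : Finset Pt) (hx : XInj P) (hg : GP P) (κ μ : ℕ)
    (h : 2 ^ μ ≤ #(kedges P κ)) : ∃ Q : Proc, Q.P = P ∧ Q.μ = μ := by
  obtain ⟨e, he, hlt, hsur⟩ := mk_sort hx hg κ
  set N := #(kedges P κ) with hN
  have hm : 0 < 2 ^ μ := by positivity
  have hz : ∀ t t' : ℕ, ∃ z₀ : Pt, t < N → t' < N → t ≠ t' → ∀ z, z ∈ segment ℝ (e t).1 (e t).2 →
      z ∈ segment ℝ (e t').1 (e t').2 → z = z₀ := fun t t' => by
    by_cases h0 : ∃ z, z ∈ segment ℝ (e t).1 (e t).2 ∧ z ∈ segment ℝ (e t').1 (e t').2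
    swap
    · exact ⟨0, fun _ _ _ z a b => absurd ⟨z, a, b⟩ h0⟩
    obtain ⟨z₀, a0, b0⟩ := h0
    refine ⟨z₀, fun ht ht' hne z a b => ?_⟩
    have c1 := (seg_hh_slp (mk_mem (he t ht)).2.2.1 a).trans
      (seg_hh_slp (mk_mem (he t ht)).2.2.1 a0).symm
    have c2 := (seg_hh_slp (mk_mem (he t' ht')).2.2.1 b).trans
      (seg_hh_slp (mk_mem (he t' ht')).2.2.1 b0).symm
    have c3 : slp (e t).1 (e t).2 - slp (e t').1 (e t').2 ≠ 0 := by
      rcases hne.lt_or_gt with h1 | h1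
      · exact (sub_neg.2 (hlt _ _ h1 ht')).ne
      · exact (sub_pos.2 (hlt _ _ h1 ht)).ne'
    unfold hh at c1 c2
    have c4 : z.1 = z₀.1 := mul_left_cancel₀ c3 (by linear_combination c2 - c1)
    exact Prod.ext c4 (by rw [c4] at c1; linarith)
  choose zz hzz using hz
  have hs : ∀ t : ℕ, ∃ s : ℝ, t ≤ N →
      s ∉ (P ×ˢ range N ×ˢ range N).image (fun x => slp x.1 (zz x.2.1 x.2.2)) ∧
      (∀ i < t, slp (e i).1 (e i).2 < s) ∧ ∀ i, t ≤ i → i < N → s < slp (e i).1 (e i).2 :=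
    fun t => by
      by_cases ht : t ≤ N
      · obtain ⟨s, hs⟩ := mk_gap hlt
          ((P ×ˢ range N ×ˢ range N).image fun x => slp x.1 (zz x.2.1 x.2.2)) ht
        exact ⟨s, fun _ => hs⟩
      · exact ⟨0, fun h' => absurd h' ht⟩
  choose s hs using hs
  have hle : ∀ t t', t ≤ t' → t' < N → slp (e t).1 (e t).2 ≤ slp (e t').1 (e t').2 :=
    fun t t' h1 h2 => by
      rcases h1.eq_or_lt with rfl | h1
      · exact le_rfl
      · exact (hlt t t' h1 h2).le
  have hL : ∀ t < N, Sep P (insert (e t).1 (mkB P (e t))) (s t) := fun t ht => by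
    refine mk_left hx hg (he t ht) ((hs t ht.le).2.2 t le_rfl ht) fun e' he' h1 => ?_
    obtain ⟨i, hi, h2⟩ := hsur e' he'
    rw [h2] at h1 ⊢
    exact hle t i (not_lt.1 fun h3 => ((hs t ht.le).2.1 i h3).not_ge h1) hi
  have hR : ∀ t < N, Sep P (insert (e t).2 (mkB P (e t))) (s (t + 1)) := fun t ht => by
    refine mk_right hx hg (he t ht) ((hs (t + 1) ht).2.1 t t.lt_succ_self) fun e' he' h1 => ?_
    obtain ⟨i, hi, h2⟩ := hsur e' he'
    rw [h2] at h1 ⊢
    exact hle i t (not_lt.1 fun h3 => ((hs (t + 1) ht).2.2 i h3 hi).not_ge h1) ht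
  have sL : ∀ t < N, insert (e t).1 (mkB P (e t)) ⊆ P := fun t ht =>
    insert_subset (mk_mem (he t ht)).1 (filter_subset _ _)
  have sR : ∀ t < N, insert (e t).2 (mkB P (e t)) ⊆ P := fun t ht =>
    insert_subset (mk_mem (he t ht)).2.1 (filter_subset _ _)
  obtain ⟨S, hS1, hS2⟩ : ∃ S : ℕ → Finset Pt, (∀ t < 2 ^ μ, S t = insert (e t).1 (mkB P (e t))) ∧
      ∀ t < 2 ^ μ, S (t + 1) = insert (e t).2 (mkB P (e t)) := by
    refine ⟨fun t => if t < 2 ^ μ then insert (e t).1 (mkB P (e t)) else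
      insert (e (t - 1)).2 (mkB P (e (t - 1))), fun t ht => if_pos ht, fun t ht => ?_⟩
    by_cases h1 : t + 1 < 2 ^ μ
    · have h2 : t + 1 < N := h1.trans_le h
      have h3 : t < N := ht.trans_le h
      refine (if_pos h1).trans ((hL _ h2).unique (hR _ h3) (sL _ h2) (sR _ h3) ?_)
      rw [card_insert_of_notMem (mk_not (he _ h2)).1, card_insert_of_notMem (mk_not (he _ h3)).2,
        (mk_mem (he _ h2)).2.2.2, (mk_mem (he _ h3)).2.2.2]
    · exact if_neg h1
  have hS : ∀ t ≤ 2 ^ μ, S t ⊆ P ∧ Sep P (S t) (s t) := fun t ht => by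
    rcases t with _ | t
    · rw [hS1 0 hm]
      exact ⟨sL 0 (hm.trans_le h), hL 0 (hm.trans_le h)⟩
    · rw [hS2 t ht]
      exact ⟨sR t (lt_of_lt_of_le ht h), hR t (lt_of_lt_of_le ht h)⟩
  refine ⟨⟨P, μ, fun t => (e t).1, fun t => (e t).2, S, s, hx, hg, fun t t' h1 h2 => ?_,
    fun t ht => (hS t ht).1, fun t ht => ?_, fun t ht => (mk_mem (he t (ht.trans_le h))).2.1,
    fun t ht => ?_, fun t ht => ?_, fun t ht => ?_, fun t ht => (hS t ht).2, fun t ht p hp h1 => ?_,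
    fun t ht p hp h1 h2 => ?_, fun p hp τ hτ t ht t' ht' hne z a b h1 h2 => ?_⟩, rfl, rfl⟩
  · have h3 : t < N := h1.trans_le (h2.trans h)
    exact ((hs t h3.le).2.2 t le_rfl h3).trans ((hs t' (h2.trans h)).2.1 t h1)
  · rw [hS1 t ht]
    exact mem_insert_self _ _
  · rw [hS1 t ht, mem_insert, not_or]
    exact ⟨fun h1 => (mk_mem (he t (ht.trans_le h))).2.2.1.ne' (congrArg _ h1),
      (mk_not (he t (ht.trans_le h))).2⟩
  · rw [hS2 t ht, hS1 t ht, erase_insert (mk_not (he t (ht.trans_le h))).1]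
  · have h3 : t < N := ht.trans_le h
    have a3 := (mk_mem (he t h3)).2.2.1
    have b1 := mul_pos (sub_pos.2 ((hs t h3.le).2.2 t le_rfl h3)) (sub_pos.2 a3)
    have b2 := mul_pos (sub_pos.2 ((hs (t + 1) h3).2.1 t t.lt_succ_self)) (sub_pos.2 a3)
    exact ⟨by linarith [mk_diff a3 (s t)], by linarith [mk_diff a3 (s (t + 1))]⟩
  · rw [hS1 t ht] at hp
    exact (mem_filter.1 ((mem_insert.1 hp).resolve_left h1)).2
  · rw [hS1 t ht, mem_insert, not_or] at h1
    exact mk_above hg (he t (ht.trans_le h)) hp h1.2 h1.1 h2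
  · have h3 := hzz t t' (ht.trans_le h) (ht'.trans_le h) hne z a b
    refine (hs τ (hτ.trans h)).1 (mem_image.2 ⟨(p, t, t'), ?_, ?_⟩)
    · simp only [mem_product, mem_range]
      exact ⟨hp, ht.trans_le h, ht'.trans_le h⟩
    · have h4 := mk_diff h1 (s τ)
      rw [h2, sub_self] at h4
      have h5 := (mul_eq_zero.1 h4.symm).resolve_right (sub_pos.2 h1).ne'
      show slp p (zz t t') = s τ
      rw [← h3]
      linarith

end Crest.Agent.R051
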