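import Crest.Agent.R051.Red1

/-! Row 51: reductions from `k`-sets to `κ`-edges of small point sets. -/

set_option autoImplicit false

open Finset
open scoped Classical

namespace Crest.Agent.R051

/-- sets cut off from below by a non-vertical line: at most one is separated in all very negative
directions, the others are determined by an edge (`Sep.edge_left`) -/
lemma card_sep (P : Finset Pt) (hx : XInj P) (hg : GP P) (κ : ℕ) :
    #{Z ∈ P.powersetCard (κ + 1) | ∃ s, Sep P Z s} ≤ #(kedges P κ) + 1 := by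
  set A := {Z ∈ P.powersetCard (κ + 1) | ∃ s, Sep P Z s} with hA
  have hex : ∀ Z ∈ A, ∃ s, Sep P Z s := fun Z hZ => (mem_filter.1 hZ).2
  choose! s hs using hex
  obtain ⟨m, hm⟩ := (A.image s).finite_toSet.bddBelow
  have hm' : ∀ Z ∈ A, m - 1 < s Z := fun Z hZ => by
    have := hm (mem_coe.2 (mem_image_of_mem s hZ))
    linarith
  have hP : ∀ Z ∈ A, Z ⊆ P ∧ #Z = κ + 1 := fun Z hZ => mem_powersetCard.1 (mem_filter.1 hZ).1
  have h1 : #{Z ∈ A | Sep P Z (m - 1)} ≤ 1 := by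
    refine card_le_one.2 fun Z hZ Z' hZ' => ?_
    obtain ⟨a1, a2⟩ := mem_filter.1 hZ
    obtain ⟨b1, b2⟩ := mem_filter.1 hZ'
    exact a2.unique b2 (hP Z a1).1 (hP Z' b1).1 ((hP Z a1).2.trans (hP Z' b1).2.symm)
  have h2 : #{Z ∈ A | ¬ Sep P Z (m - 1)} ≤ #(kedges P κ) := by
    refine le_trans (card_le_card ?_) (card_image_le (s := kedges P κ) (f := fun e : Pt × Pt =>
      insert e.2 {r ∈ P | hh (slp e.1 e.2) r < hh (slp e.1 e.2) e.1}))
    intro Z hZ
    obtain ⟨a1, a2⟩ := mem_filter.1 hZ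
    obtain ⟨e, he, -, -, h⟩ := Sep.edge_left hx hg (hP Z a1).1 (hP Z a1).2 (hm' Z a1) (hs Z a1) a2
    exact mem_image.2 ⟨e, he, h.symm⟩
  have h3 := card_filter_add_card_filter_not (s := A) (fun Z => Sep P Z (m - 1))
  omega

lemma red_half (Q : Finset Pt) (hg : GP Q) (κ : ℕ) (B : ℝ)
    (hB : ∀ P : Finset Pt, XInj P → GP P → #P = #Q → (#(kedges P κ) : ℝ) ≤ B) {l ε : ℝ}
    (hl : ∀ p ∈ Q, ∀ q ∈ Q, p.1 + l * p.2 = q.1 + l * q.2 → p = q) (hε : ε ≠ 0) :
    (#{S ∈ Q.powersetCard (κ + 1) | ∃ a b : ℝ, 0 < b ∧ ∀ p ∈ S, ∀ q ∈ Q, q ∉ S →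
      a * (p.1 + l * p.2) + b * (ε * p.2) < a * (q.1 + l * q.2) + b * (ε * q.2)} : ℝ) ≤ B + 1 := by
  let T : Pt → Pt := fun p => (p.1 + l * p.2, ε * p.2)
  have hT : Function.Injective T := by
    intro p q h
    have h1 : p.1 + l * p.2 = q.1 + l * q.2 := congrArg Prod.fst h
    have h2 : p.2 = q.2 := mul_left_cancel₀ hε (congrArg Prod.snd h)
    refine Prod.ext ?_ h2
    rw [h2] at h1
    linarith
  have hx : XInj (Q.image T) := by
    intro p' hp' q' hq' h
    obtain ⟨p, hp, rfl⟩ := mem_image.1 hp'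
    obtain ⟨q, hq, rfl⟩ := mem_image.1 hq'
    rw [hl p hp q hq h]
  have hg' : GP (Q.image T) := by
    intro p' hp' q' hq' r' hr' h1 h2 h3
    obtain ⟨p, hp, rfl⟩ := mem_image.1 hp'
    obtain ⟨q, hq, rfl⟩ := mem_image.1 hq'
    obtain ⟨r, hr, rfl⟩ := mem_image.1 hr'
    have := mul_ne_zero hε (hg p hp q hq r hr (fun h => h1 (congrArg T h))
      (fun h => h2 (congrArg T h)) (fun h => h3 (congrArg T h)))
    intro h
    apply this
    simp only [T] at h
    linarith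
  have h1 := hB _ hx hg' (card_image_of_injective Q hT)
  have h2 := card_sep _ hx hg' κ
  have h3 : #{S ∈ Q.powersetCard (κ + 1) | ∃ a b : ℝ, 0 < b ∧ ∀ p ∈ S, ∀ q ∈ Q, q ∉ S →
      a * (p.1 + l * p.2) + b * (ε * p.2) < a * (q.1 + l * q.2) + b * (ε * q.2)} ≤
      #{Z ∈ (Q.image T).powersetCard (κ + 1) | ∃ s, Sep (Q.image T) Z s} := by
    refine card_le_card_of_injOn (fun S => S.image T) (fun S hS => ?_)
      (fun S _ S' _ h => image_injective hT h)
    obtain ⟨hS, a, b, hb, h⟩ := mem_filter.1 hS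
    obtain ⟨s1, s2⟩ := mem_powersetCard.1 hS
    refine mem_filter.2 ⟨mem_powersetCard.2 ⟨image_subset_image s1, ?_⟩, -(a / b), ?_⟩
    · rw [card_image_of_injective S hT, s2]
    · intro p' hp0 q' hq0 hq'
      obtain ⟨p, hp, rfl⟩ := mem_image.1 hp0
      obtain ⟨q, hq, rfl⟩ := mem_image.1 hq0
      have := h p hp q hq fun hq'' => hq' (mem_image_of_mem T hq'')
      refine lt_of_mul_lt_mul_left ?_ hb.le
      simp only [hh, T]
      have e : ∀ x y : ℝ, b * (y - -(a / b) * x) = a * x + b * y := fun x y => by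
        field_simp
        ring
      rw [e, e]
      exact this
  have h4 := h3.trans h2
  have h5 : ((#{S ∈ Q.powersetCard (κ + 1) | ∃ a b : ℝ, 0 < b ∧ ∀ p ∈ S, ∀ q ∈ Q, q ∉ S →
      a * (p.1 + l * p.2) + b * (ε * p.2) < a * (q.1 + l * q.2) + b * (ε * q.2)} : ℕ) : ℝ) ≤
      #(kedges (Q.image T) κ) + 1 := by exact_mod_cast h4
  linarith

/-- From edges to `k`-sets.  Shear `(x, y) ↦ (x + l y, y)` with `l` outside a finite set to get
distinct abscissae; a separating form with `b = 0` can be perturbed (strict inequalities, finitely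
many points); `b > 0` gives `Sep`, `b < 0` gives `Sep` after the reflection `y ↦ -y`. -/
theorem ksets_le (Q : Finset Pt) (hg : GP Q) (κ : ℕ) (B : ℝ)
    (hB : ∀ P : Finset Pt, XInj P → GP P → #P = #Q → (#(kedges P κ) : ℝ) ≤ B) :
    (((Q.powersetCard (κ + 1)).filter (fun S => ∃ a b c : ℝ, (a ≠ 0 ∨ b ≠ 0) ∧
        (∀ p ∈ S, a * p.1 + b * p.2 + c < 0) ∧
        (∀ p ∈ Q, p ∉ S → 0 < a * p.1 + b * p.2 + c))).card : ℝ) ≤ 2 * (B + 1) := by
  obtain ⟨l, hl⟩ := Infinite.exists_notMem_finset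
    ((Q ×ˢ Q).image fun e : Pt × Pt => (e.2.1 - e.1.1) / (e.1.2 - e.2.2))
  have hl' : ∀ p ∈ Q, ∀ q ∈ Q, p.1 + l * p.2 = q.1 + l * q.2 → p = q := by
    intro p hp q hq h
    by_cases h2 : p.2 = q.2
    · refine Prod.ext ?_ h2
      rw [h2] at h
      linarith
    · exfalso
      refine hl (mem_image.2 ⟨(p, q), mem_product.2 ⟨hp, hq⟩, ?_⟩)
      have : p.2 - q.2 ≠ 0 := sub_ne_zero.2 h2
      field_simp
      linarith
  have h1 := red_half Q hg κ B hB hl' (ε := 1) (by norm_num)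
  have h2 := red_half Q hg κ B hB hl' (ε := -1) (by norm_num)
  refine le_trans ?_ ((add_le_add h1 h2).trans (le_of_eq (by ring)))
  rw [← Nat.cast_add, Nat.cast_le]
  refine le_trans (card_le_card ?_) (card_union_le _ _)
  intro S hS
  obtain ⟨hS, a, b, c, -, ha, hb⟩ := mem_filter.1 hS
  have hev : ∀ᶠ b' in nhds (b - a * l), ∀ p ∈ S, ∀ q ∈ Q.filter (· ∉ S),
      a * (p.1 + l * p.2) + b' * p.2 < a * (q.1 + l * q.2) + b' * q.2 := by
    rw [Filter.eventually_all_finset]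
    intro p hp
    rw [Filter.eventually_all_finset]
    intro q hq
    refine ContinuousAt.eventually_lt (by fun_prop) (by fun_prop) ?_
    have := ha p hp
    have := hb q (mem_filter.1 hq).1 (mem_filter.1 hq).2
    linarith
  obtain ⟨b', hb0, hb'⟩ := (dense_compl_singleton (0 : ℝ)).inter_nhds_nonempty hev
  have hb0' : b' ≠ 0 := hb0
  have hb'' : ∀ p ∈ S, ∀ q ∈ Q, q ∉ S →
      a * (p.1 + l * p.2) + b' * p.2 < a * (q.1 + l * q.2) + b' * q.2 :=
    fun p hp q hq hq' => hb' p hp q (mem_filter.2 ⟨hq, hq'⟩)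
  rcases lt_or_gt_of_ne hb0' with h | h
  · refine mem_union_right _ (mem_filter.2 ⟨hS, a, -b', by linarith, fun p hp q hq hq' => ?_⟩)
    have := hb'' p hp q hq hq'
    linarith
  · refine mem_union_left _ (mem_filter.2 ⟨hS, a, b', h, fun p hp q hq hq' => ?_⟩)
    have := hb'' p hp q hq hq'
    linarith

end Crest.Agent.R051
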