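import Crest.Agent.R051.Mk1

/-! Row 51: reductions from `k`-sets to `κ`-edges of small point sets. -/

set_option autoImplicit false

open Finset
open scoped Classical

namespace Crest.Agent.R051

lemma red1_right {p r : Pt} (h : p.1 < r.1) (s : ℝ) : hh s r < hh s p ↔ slp p r < s := by
  unfold hh slp
  rw [div_lt_iff₀ (by linarith)]
  constructor <;> intro h' <;> nlinarith

lemma red1_left {p r : Pt} (h : r.1 < p.1) (s : ℝ) : hh s r < hh s p ↔ s < slp r p := by
  unfold hh slp
  rw [lt_div_iff₀ (by linarith)]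
  constructor <;> intro h' <;> nlinarith

lemma red1_hh_eq {p q : Pt} (h : p.1 < q.1) : hh (slp p q) q = hh (slp p q) p := by
  unfold hh slp
  have : q.1 - p.1 ≠ 0 := (sub_pos.2 h).ne'
  field_simp
  ring

lemma red1_slp_right {P : Finset Pt} (hg : GP P) {p q r : Pt} (hp : p ∈ P) (hq : q ∈ P)
    (hr : r ∈ P) (h1 : p.1 < q.1) (h2 : p.1 < r.1) (h : slp p q = slp p r) : q = r := by
  by_contra hne
  have hpq : p ≠ q := fun e => by rw [e] at h1; exact lt_irrefl _ h1
  have hpr : p ≠ r := fun e => by rw [e] at h2; exact lt_irrefl _ h2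
  apply hg p hp q hq r hr hpq hpr hne
  unfold slp at h
  rw [div_eq_div_iff (sub_pos.2 h1).ne' (sub_pos.2 h2).ne'] at h
  linarith

lemma red1_slp_left {P : Finset Pt} (hg : GP P) {p q r : Pt} (hp : p ∈ P) (hq : q ∈ P)
    (hr : r ∈ P) (h1 : q.1 < p.1) (h2 : r.1 < p.1) (h : slp q p = slp r p) : q = r := by
  by_contra hne
  have hpq : p ≠ q := fun e => by rw [e] at h1; exact lt_irrefl _ h1
  have hpr : p ≠ r := fun e => by rw [e] at h2; exact lt_irrefl _ h2
  apply hg p hp q hq r hr hpq hpr hne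
  unfold slp at h
  rw [div_eq_div_iff (sub_pos.2 h1).ne' (sub_pos.2 h2).ne'] at h
  linarith

/-- the rank of an element of a finset with respect to an injective real key is injective -/
lemma red1_rank_inj {α : Type*} (T : Finset α) (f : α → ℝ) (hf : Set.InjOn f T) {x y : α}
    (hx : x ∈ T) (hy : y ∈ T) (h : #{z ∈ T | f z < f x} = #{z ∈ T | f z < f y}) : x = y := by
  have key : ∀ x ∈ T, ∀ y ∈ T, f x < f y → #{z ∈ T | f z < f x} < #{z ∈ T | f z < f y} := by
    intro x hx y _ hlt
    apply card_lt_card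
    refine ⟨fun z hz => ?_, fun hsub => ?_⟩
    · rw [mem_filter] at hz ⊢
      exact ⟨hz.1, hz.2.trans hlt⟩
    · have : x ∈ ({z ∈ T | f z < f x} : Finset α) := hsub (mem_filter.2 ⟨hx, hlt⟩)
      exact lt_irrefl _ (mem_filter.1 this).2
  rcases lt_trichotomy (f x) (f y) with hlt | heq | hlt
  · exact absurd h (key x hx y hy hlt).ne
  · exact hf hx hy heq
  · exact absurd h (key y hy x hx hlt).ne'

/-- a point is the left endpoint of at most `J` edges with fewer than `J` points below: the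
`i`-th right neighbour in the order of slopes has at least `i` points below -/
lemma kedges_sum (P : Finset Pt) (hx : XInj P) (hg : GP P) (J : ℕ) :
    ∑ j ∈ range J, #(kedges P j) ≤ J * #P := by
  rw [← card_sigma, ← card_range J, ← card_product, card_range]
  refine card_le_card_of_injOn
    (fun x => (#{r ∈ {r ∈ P | x.2.1.1 < r.1} | slp x.2.1 r < slp x.2.1 x.2.2}, x.2.1)) ?_ ?_
  · rintro ⟨j, e⟩ he
    simp only [coe_sigma, Set.mem_sigma_iff, mem_coe, mem_range, kedges, mem_filter,
      mem_product] at he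
    obtain ⟨hj, ⟨h1, h2⟩, h3, h4⟩ := he
    simp only [coe_product, coe_range, Set.mem_prod, Set.mem_Iio, mem_coe]
    refine ⟨lt_of_le_of_lt ?_ hj, h1⟩
    rw [← h4]
    apply card_le_card
    intro r hr
    simp only [mem_filter] at hr ⊢
    exact ⟨hr.1.1, (red1_right hr.1.2 _).2 hr.2⟩
  · rintro ⟨j, p, q⟩ he ⟨j', p', q'⟩ he' hee
    simp only [coe_sigma, Set.mem_sigma_iff, mem_coe, mem_range, kedges, mem_filter,
      mem_product] at he he'
    obtain ⟨hj, ⟨h1, h2⟩, h3, h4⟩ := he
    obtain ⟨hj', ⟨h1', h2'⟩, h3', h4'⟩ := he'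
    simp only [Prod.mk.injEq] at hee
    obtain ⟨hr, hpp⟩ := hee
    subst hpp
    have hq : q = q' := by
      refine red1_rank_inj {r ∈ P | p.1 < r.1} (fun r => slp p r) ?_ (mem_filter.2 ⟨h2, h3⟩)
        (mem_filter.2 ⟨h2', h3'⟩) hr
      intro a ha b hb hab
      simp only [coe_filter, Set.mem_ofPred_eq] at ha hb
      exact red1_slp_right hg h1 ha.1 hb.1 ha.2 hb.2 hab
    subst hq
    rw [← h4, ← h4']

/-- number of points strictly below `p` in direction `s` -/
noncomputable def lowc (P : Finset Pt) (s : ℝ) (p : Pt) : ℕ := #{r ∈ P | hh s r < hh s p}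

lemma card_lowc (P : Finset Pt) (hx : XInj P) (hg : GP P) (s : ℝ) (j : ℕ) :
    #{p ∈ P | lowc P s p ≤ j} ≤ j + 2 := by
  rcases (({p ∈ P | lowc P s p ≤ j} : Finset Pt)).eq_empty_or_nonempty with he | hne
  · rw [he]; simp
  obtain ⟨p, hp, hmax⟩ := exists_max_image _ (hh s) hne
  rw [mem_filter] at hp
  have h2 : #{r ∈ P | hh s r = hh s p} ≤ 2 := by
    by_contra hlt
    push Not at hlt
    obtain ⟨a, b, c, ha, hb, hc, hab, hac, hbc⟩ := two_lt_card_iff.1 hlt
    rw [mem_filter] at ha hb hc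
    apply hg a ha.1 b hb.1 c hc.1 hab hac hbc
    have e1 := ha.2
    have e2 := hb.2
    have e3 := hc.2
    unfold hh at e1 e2 e3
    have f1 : c.2 - a.2 = s * (c.1 - a.1) := by linarith
    have f2 : b.2 - a.2 = s * (b.1 - a.1) := by linarith
    rw [f1, f2]; ring
  calc #{p ∈ P | lowc P s p ≤ j}
      ≤ #(({r ∈ P | hh s r < hh s p} : Finset Pt) ∪ {r ∈ P | hh s r = hh s p}) := by
        apply card_le_card
        intro r hr
        have := hmax r hr
        rw [mem_filter] at hr
        rw [mem_union, mem_filter, mem_filter]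
        rcases this.lt_or_eq with h | h
        · exact Or.inl ⟨hr.1, h⟩
        · exact Or.inr ⟨hr.1, h⟩
    _ ≤ lowc P s p + 2 := (card_union_le _ _).trans (Nat.add_le_add_left h2 _)
    _ ≤ j + 2 := Nat.add_le_add_right hp.2 _

/-- if the number of points below `p` drops from `> j` to `≤ j`, then `p` is an endpoint of a
`j`-edge with slope in between (the slopes from `p` are distinct; look at the supremum of the
directions in `[a, σ]` with `lowc > j`, or induct on the number of slopes from `p` in `(a, σ]`) -/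
lemma lowc_drop (P : Finset Pt) (hx : XInj P) (hg : GP P) {p : Pt} (hp : p ∈ P) {a σ : ℝ}
    (h : a ≤ σ) (j : ℕ) (h1 : j < lowc P a p) (h2 : lowc P σ p ≤ j) :
    ∃ e ∈ kedges P j, (e.1 = p ∨ e.2 = p) ∧ a ≤ slp e.1 e.2 ∧ slp e.1 e.2 ≤ σ := by
  induction hn : #{r ∈ P | r.1 < p.1 ∧ a < slp r p ∧ slp r p ≤ σ} using Nat.strong_induction_on
    generalizing a with
  | _ n ih =>
  rcases (({r ∈ P | r.1 < p.1 ∧ a < slp r p ∧ slp r p ≤ σ} : Finset Pt)).eq_empty_or_nonempty
    with he | hne
  · exfalso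
    have : lowc P a p ≤ lowc P σ p := by
      apply card_le_card
      intro r hr
      rw [mem_filter] at hr ⊢
      refine ⟨hr.1, ?_⟩
      rcases lt_trichotomy r.1 p.1 with hlt | heq | hlt
      · rw [red1_left hlt]
        by_contra hle
        push Not at hle
        have : r ∈ ({r ∈ P | r.1 < p.1 ∧ a < slp r p ∧ slp r p ≤ σ} : Finset Pt) :=
          mem_filter.2 ⟨hr.1, hlt, (red1_left hlt _).1 hr.2, hle⟩
        rw [he] at this
        exact notMem_empty _ this
      · have := hx r hr.1 p hp heq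
        rw [this] at hr
        exact absurd hr.2 (lt_irrefl _)
      · rw [red1_right hlt]
        exact ((red1_right hlt _).1 hr.2).trans_le h
    omega
  obtain ⟨r0, hr0, hmin⟩ := exists_min_image _ (fun r => slp r p) hne
  have hr0' := mem_filter.1 hr0
  obtain ⟨hr0P, hr0x, hr0a, hr0s⟩ := hr0'
  have hstep : lowc P a p ≤ lowc P (slp r0 p) p + 1 := by
    refine le_trans (card_le_card ?_) (card_insert_le r0 _)
    intro r hr
    rw [mem_filter] at hr
    rw [mem_insert, mem_filter]
    rcases lt_trichotomy r.1 p.1 with hlt | heq | hlt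
    · rcases lt_trichotomy (slp r0 p) (slp r p) with h3 | h3 | h3
      · exact Or.inr ⟨hr.1, (red1_left hlt _).2 h3⟩
      · exact Or.inl (red1_slp_left hg hp hr.1 hr0P hlt hr0x h3.symm)
      · exact absurd (hmin r (mem_filter.2 ⟨hr.1, hlt, (red1_left hlt _).1 hr.2,
          h3.le.trans hr0s⟩)) (not_le.2 h3)
    · have := hx r hr.1 p hp heq
      rw [this] at hr
      exact absurd hr.2 (lt_irrefl _)
    · exact Or.inr ⟨hr.1, (red1_right hlt _).2 (((red1_right hlt _).1 hr.2).trans hr0a)⟩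
  by_cases hj : lowc P (slp r0 p) p ≤ j
  · refine ⟨(r0, p), ?_, Or.inr rfl, hr0a.le, hr0s⟩
    simp only [kedges, mem_filter, mem_product]
    refine ⟨⟨hr0P, hp⟩, hr0x, ?_⟩
    rw [← red1_hh_eq hr0x]
    change lowc P (slp r0 p) p = j
    omega
  · push Not at hj
    have hlt : #{r ∈ P | r.1 < p.1 ∧ slp r0 p < slp r p ∧ slp r p ≤ σ} < n := by
      rw [← hn]
      apply card_lt_card
      refine ⟨fun r hr => ?_, fun hsub => ?_⟩
      · rw [mem_filter] at hr ⊢
        exact ⟨hr.1, hr.2.1, hr0a.trans hr.2.2.1, hr.2.2.2⟩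
      · exact lt_irrefl _ (mem_filter.1 (hsub hr0)).2.2.1
    obtain ⟨e, he, h3, h4, h5⟩ := ih _ hlt hr0s hj rfl
    exact ⟨e, he, h3, hr0a.le.trans h4, h5⟩

/-- Localisation.  With `k = κ + 1` pick `j ∈ [k, 2k)` with at most `2 n` `j`-edges; group the
`κ`-edges by `#{j-edges of smaller slope} / k ≤ 2 n / k`.  For a group with extreme slopes
`a ≤ b`, let `V` = points with `lowc a ≤ j` and endpoints of the (at most `k`) `j`-edges with slope
in `[a, b]`; `#V ≤ 5 k`, and every edge of the group is a `κ`-edge of `V` (`lowc_drop`). -/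
theorem kedges_local (P : Finset Pt) (hx : XInj P) (hg : GP P) (κ : ℕ) (B : ℝ)
    (hB : ∀ V ⊆ P, #V ≤ 5 * (κ + 1) → (#(kedges V κ) : ℝ) ≤ B) :
    (#(kedges P κ) : ℝ) ≤ (2 * #P / (κ + 1) + 1) * B := by
  have hB0 : 0 ≤ B := le_trans (Nat.cast_nonneg _) (hB ∅ (empty_subset _) (by simp))
  set k := κ + 1 with hk
  have hk0 : 0 < k := Nat.succ_pos _
  -- choice of `j`
  obtain ⟨j, hj, hjn⟩ : ∃ j ∈ Ico k (2 * k), #(kedges P j) ≤ 2 * #P := by
    apply exists_le_of_sum_le (nonempty_Ico.2 (by omega))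
    calc ∑ j ∈ Ico k (2 * k), #(kedges P j) ≤ ∑ j ∈ range (2 * k), #(kedges P j) := by
          apply sum_le_sum_of_subset
          intro i hi
          rw [mem_Ico] at hi
          exact mem_range.2 hi.2
      _ ≤ 2 * k * #P := kedges_sum P hx hg _
      _ = ∑ j ∈ Ico k (2 * k), 2 * #P := by
          rw [sum_const, Nat.card_Ico, smul_eq_mul, show 2 * k - k = k by omega]; ring
  rw [mem_Ico] at hj
  set cnt : ℝ → ℕ := fun s => #{f ∈ kedges P j | slp f.1 f.2 < s} with hcnt
  have hmono : ∀ s s', s ≤ s' → cnt s ≤ cnt s' := by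
    intro s s' hs
    apply card_le_card
    intro f hf
    rw [mem_filter] at hf ⊢
    exact ⟨hf.1, hf.2.trans_le hs⟩
  have hF : ∀ i, #{f ∈ kedges P j | cnt (slp f.1 f.2) / k = i} ≤ k := by
    intro i
    conv_rhs => rw [← card_range k]
    refine card_le_card_of_injOn (fun f => cnt (slp f.1 f.2) % k) ?_ ?_
    · intro f _
      simp only [coe_range, Set.mem_Iio]
      exact Nat.mod_lt _ hk0
    · intro f hf f' hf' hff
      simp only [coe_filter, Set.mem_ofPred_eq] at hf hf' hff
      refine red1_rank_inj (kedges P j) (fun f => slp f.1 f.2) (kedges_slp_inj hx hg j) hf.1 hf'.1 ?_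
      change cnt (slp f.1 f.2) = cnt (slp f'.1 f'.2)
      rw [← Nat.div_add_mod (cnt (slp f.1 f.2)) k, ← Nat.div_add_mod (cnt (slp f'.1 f'.2)) k,
        hf.2, hf'.2, hff]
  have hgrp : ∀ i, (#{e ∈ kedges P κ | cnt (slp e.1 e.2) / k = i} : ℝ) ≤ B := by
    intro i
    rcases (({e ∈ kedges P κ | cnt (slp e.1 e.2) / k = i} : Finset (Pt × Pt))).eq_empty_or_nonempty
      with he | hne
    · rw [he]; simpa using hB0
    obtain ⟨e0, he0, hmin⟩ := exists_min_image _ (fun e : Pt × Pt => slp e.1 e.2) hne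
    set a := slp e0.1 e0.2 with ha
    set F : Finset (Pt × Pt) := {f ∈ kedges P j | cnt (slp f.1 f.2) / k = i} with hFdef
    set V : Finset Pt := {p ∈ P | lowc P a p ≤ j} ∪ (F.image Prod.fst ∪ F.image Prod.snd) with hV
    have hVP : V ⊆ P := by
      intro p hp
      simp only [hV, mem_union, mem_image, hFdef, kedges, mem_filter, mem_product] at hp
      rcases hp with hp | ⟨f, hf, rfl⟩ | ⟨f, hf, rfl⟩
      · exact hp.1
      · exact hf.1.1.1
      · exact hf.1.1.2
    have hVc : #V ≤ 5 * k := by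
      have h1 := card_lowc P hx hg a j
      have h2 : #(F.image Prod.fst) ≤ k := card_image_le.trans (hF i)
      have h3 : #(F.image Prod.snd) ≤ k := card_image_le.trans (hF i)
      have h4 := card_union_le (F.image Prod.fst) (F.image Prod.snd)
      have h5 := card_union_le ({p ∈ P | lowc P a p ≤ j} : Finset Pt)
        (F.image Prod.fst ∪ F.image Prod.snd)
      rw [← hV] at h5
      omega
    refine le_trans ?_ (hB V hVP hVc)
    rw [Nat.cast_le]
    apply card_le_card
    intro e he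
    have hae : a ≤ slp e.1 e.2 := hmin e he
    have hmem : ∀ p ∈ P, lowc P (slp e.1 e.2) p ≤ j → p ∈ V := by
      intro p hp hl
      by_cases h0 : lowc P a p ≤ j
      · exact mem_union_left _ (mem_filter.2 ⟨hp, h0⟩)
      · push Not at h0
        obtain ⟨f, hf, hfp, hf1, hf2⟩ := lowc_drop P hx hg hp hae j h0 hl
        have hfF : f ∈ F := by
          refine mem_filter.2 ⟨hf, le_antisymm ?_ ?_⟩
          · rw [← (mem_filter.1 he).2]
            exact Nat.div_le_div_right (hmono _ _ hf2)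
          · rw [← (mem_filter.1 he0).2]
            exact Nat.div_le_div_right (hmono _ _ hf1)
        apply mem_union_right
        rcases hfp with hfp | hfp
        · exact mem_union_left _ (mem_image.2 ⟨f, hfF, hfp⟩)
        · exact mem_union_right _ (mem_image.2 ⟨f, hfF, hfp⟩)
    have he' := (mem_filter.1 he).1
    simp only [kedges, mem_filter, mem_product] at he' ⊢
    obtain ⟨⟨h1, h2⟩, h3, h4⟩ := he'
    have hl1 : lowc P (slp e.1 e.2) e.1 = κ := h4
    have hl2 : lowc P (slp e.1 e.2) e.2 = κ := by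
      unfold lowc
      rw [red1_hh_eq h3]; exact h4
    refine ⟨⟨hmem _ h1 (by omega), hmem _ h2 (by omega)⟩, h3, ?_⟩
    rw [← h4]
    congr 1
    ext r
    simp only [mem_filter]
    refine ⟨fun hr => ⟨hVP hr.1, hr.2⟩, fun hr => ⟨hmem r hr.1 ?_, hr.2⟩⟩
    have : lowc P (slp e.1 e.2) r ≤ lowc P (slp e.1 e.2) e.1 := by
      apply card_le_card
      intro z hz
      rw [mem_filter] at hz ⊢
      exact ⟨hz.1, hz.2.trans hr.2⟩
    omega
  have hsum : #(kedges P κ) =
      ∑ i ∈ range (2 * #P / k + 1), #{e ∈ kedges P κ | cnt (slp e.1 e.2) / k = i} := by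
    apply card_eq_sum_card_fiberwise
    intro e _
    simp only [coe_range, Set.mem_Iio]
    refine Nat.lt_succ_of_le (Nat.div_le_div_right ?_)
    exact (card_filter_le _ _).trans hjn
  rw [hsum]
  push_cast
  refine (sum_le_sum fun i _ => hgrp i).trans ?_
  rw [sum_const, card_range, nsmul_eq_mul]
  apply mul_le_mul_of_nonneg_right _ hB0
  push_cast
  have := @Nat.cast_div_le ℝ _ _ _ (2 * #P) k
  rw [hk] at this ⊢
  push_cast at this
  linarith

end Crest.Agent.R051
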