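import Crest.Agent.R051.G1
import Crest.Agent.R051.Meet
import Crest.Agent.R051.Mk
import Crest.Agent.R051.Red
import Crest.Agent.R051.Red1

/-! Row 51: from the process to the number of k-edges and k-sets. -/

set_option autoImplicit false

open Finset
open scoped Classical

namespace Crest.Agent.R051

/-- `m_le` gives `μ ≤ 2 c`; `g1a` at level `0` (`K_zero`, `rho_pow`) gives
`(2 ^ μ) ^ 3 ≤ (14 (c+1)² n) ^ 4`, hence `upper`; `g1a`, `g1b`, `meet_sum` -/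
theorem base_of (Q : Proc) {c : ℕ} (hc : #Q.P ≤ 2 ^ c) {k d : ℝ}
    (hk : (14 * ((c : ℝ) + 1) ^ 2) ^ 2 ≤ k) (hd : d ^ 3 = #Q.P) (hl : #Q.P * d ≤ k * 2 ^ Q.μ) :
    Base Q k d := by
  have hc0 : (0 : ℝ) ≤ c := Nat.cast_nonneg c
  have hm := Q.m_le
  have hn : 1 ≤ #Q.P := by
    rcases Nat.eq_zero_or_pos #Q.P with h | h
    · rw [h] at hm
      exact absurd hm (by simp)
    · exact h
  have hn' : (1 : ℝ) ≤ #Q.P := by exact_mod_cast hn
  have hd1 : 1 ≤ d := by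
    by_contra h
    rw [not_le] at h
    rcases le_total d 0 with h0 | h0
    · nlinarith [mul_nonneg (neg_nonneg.mpr h0) (sq_nonneg d)]
    · have := pow_lt_one₀ h0 h (n := 3) (by norm_num)
      linarith
  have hmu : Q.μ ≤ 2 * c := by
    have : 2 ^ Q.μ ≤ 2 ^ (2 * c) := by
      rw [mul_comm, pow_mul]
      exact hm.trans (Nat.pow_le_pow_left hc 2)
    exact (Nat.pow_le_pow_iff_right (by norm_num)).mp this
  have hmu' : (Q.μ : ℝ) ≤ 2 * c := by exact_mod_cast hmu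
  set A : ℝ := 14 * ((c : ℝ) + 1) ^ 2 with hA
  have hA1 : 14 ≤ A := by nlinarith
  have hA2 : 14 * A ≤ k := by nlinarith
  have hA3 : 2 * (c : ℝ) + 1 ≤ A := by nlinarith
  have hk0 : 0 ≤ k := by linarith
  refine ⟨by linarith, hd1, hd, ⟨c, hc, by linarith⟩, by linarith, hl, ?_, fun j hj => ?_,
    fun j hj σ hσ => ?_, ?_⟩
  · have h1 := Q.g1a hc (Nat.zero_le Q.μ)
    rw [Nat.sub_zero, Finset.sum_congr rfl (g := fun _ => (1 : ℝ))
      (fun a ha => by rw [Q.K_zero (mem_range.mp ha), Nat.cast_one]), sum_const, card_range,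
      nsmul_eq_mul, mul_one, le_div_iff₀ (rho_pos _ _), ← hA] at h1
    push_cast at h1
    have h2 := pow_le_pow_left₀ (mul_nonneg (by positivity) (rho_pos _ _).le) h1 4
    have h3 : ((2 : ℝ) ^ Q.μ * rho Q.μ 0) ^ 4 = ((2 : ℝ) ^ Q.μ) ^ 3 := by
      rw [mul_pow, rho_pow]
      field_simp
    have h4 : A ^ 4 ≤ k ^ 3 := by
      calc A ^ 4 ≤ A ^ 6 := pow_le_pow_right₀ (by linarith) (by norm_num)
        _ = (A ^ 2) ^ 3 := by ring
        _ ≤ k ^ 3 := pow_le_pow_left₀ (by positivity) hk 3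
    refine le_of_pow_le_pow_left₀ (n := 3) (by norm_num) (by positivity) ?_
    rw [← h3, mul_pow k, mul_pow _ d, hd]
    calc _ ≤ (A * #Q.P) ^ 4 := h2
      _ = A ^ 4 * ((#Q.P : ℝ) ^ 3 * #Q.P) := by ring
      _ ≤ _ := mul_le_mul_of_nonneg_right h4 (by positivity)
  · refine (Q.g1a hc hj).trans ?_
    have := rho_pos Q.μ j
    rw [← hA]
    gcongr
    linarith
  · refine (Q.g1b hc hj σ hσ).trans ?_
    gcongr
    linarith
  · have h1 : ((∑ t ∈ Q.E, Q.meet t : ℕ) : ℝ) ≤ ((100 * #Q.P ^ 2 : ℕ) : ℝ) := by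
      exact_mod_cast Q.meet_sum
    push_cast at h1
    refine h1.trans ?_
    gcongr
    linarith

lemma Fin_grow {r : ℝ} (hr : 1 < r) :
    ∃ c0 : ℕ, ∀ m : ℕ, c0 ≤ m → (14 * (((m + 1 : ℕ) : ℝ) + 1) ^ 2) ^ 2 ≤ r ^ m := by
  have h := (tendsto_pow_const_div_const_pow_of_one_lt 4 hr).eventually
    (gt_mem_nhds (show (0 : ℝ) < 1 / 3136 by norm_num))
  obtain ⟨c0, hc0⟩ := Filter.eventually_atTop.mp (h.and (Filter.eventually_ge_atTop 2))
  refine ⟨c0, fun m hm => ?_⟩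
  obtain ⟨h1, h2⟩ := hc0 m hm
  have h3 : (2 : ℝ) ≤ m := by exact_mod_cast h2
  rw [div_lt_div_iff₀ (by positivity) (by norm_num)] at h1
  calc (14 * (((m + 1 : ℕ) : ℝ) + 1) ^ 2) ^ 2 ≤ (14 * (2 * (m : ℝ)) ^ 2) ^ 2 := by
        gcongr
        push_cast
        linarith
    _ = (m : ℝ) ^ 4 * 3136 := by ring
    _ ≤ _ := by linarith

/-- With `C ≥ 1`, `ε = 1 / (3 C)`, `k = n ^ ε`, `d = n ^ (1/3) = k ^ C`, `c = Nat.clog 2 n`.  For
large `n`, `(14 (c+1)²)² ≤ n ^ ε`; if `#kedges ≥ 2 n d / k` take `μ = Nat.log 2 #kedges`,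
`exists_proc`, `base_of`.  For small `n` use `#kedges ≤ n²`. -/
theorem kedges_bound_of (C : ℕ)
    (hC : ∀ (Q : Proc) (k d : ℝ), Base Q k d → k ^ C ≤ d → False) :
    ∃ ε : ℝ, 0 < ε ∧ ε ≤ 1 / 3 ∧ ∃ C0 : ℝ, 0 ≤ C0 ∧ ∀ P : Finset Pt, XInj P → GP P → ∀ κ : ℕ,
      (#(kedges P κ) : ℝ) ≤ C0 * (#P : ℝ) ^ (4 / 3 - ε) := by
  set ε : ℝ := 1 / (3 * ((C : ℝ) + 1)) with hε
  have hC0 : (0 : ℝ) ≤ C := Nat.cast_nonneg C
  have hε0 : 0 < ε := by positivity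
  have hε1 : ε ≤ 1 / 3 := one_div_le_one_div_of_le (by norm_num) (by linarith)
  obtain ⟨c0, hc0⟩ := Fin_grow (r := (2 : ℝ) ^ ε) (Real.one_lt_rpow (by norm_num) hε0)
  refine ⟨ε, hε0, hε1, 2 ^ c0 + 2, by positivity, fun P hx hg κ => ?_⟩
  rcases lt_or_ge #P (2 ^ c0) with hn | hn
  · have h1 : #(kedges P κ) ≤ #P * #P := by
      rw [← card_product]
      exact card_filter_le _ _
    have h2 : (#(kedges P κ) : ℝ) ≤ 2 ^ c0 * #P := by
      exact_mod_cast h1.trans (Nat.mul_le_mul_right _ hn.le)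
    have h3 : (#P : ℝ) ≤ (#P : ℝ) ^ (4 / 3 - ε) := by
      rcases Nat.eq_zero_or_pos #P with h0 | h0
      · rw [h0, Nat.cast_zero]
        positivity
      · exact Real.self_le_rpow_of_one_le (by exact_mod_cast h0) (by linarith)
    calc _ ≤ 2 ^ c0 * (#P : ℝ) := h2
      _ ≤ _ := mul_le_mul (by linarith) h3 (by positivity) (by positivity)
  · by_contra hE
    rw [not_le] at hE
    have hn0 : 0 < #P := lt_of_lt_of_le (by positivity) hn
    have hn1 : (0 : ℝ) < #P := by exact_mod_cast hn0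
    have hp : 0 < (#P : ℝ) ^ (4 / 3 - ε) := Real.rpow_pos_of_pos hn1 _
    have hE1 : 2 * (#P : ℝ) ^ (4 / 3 - ε) < #(kedges P κ) :=
      lt_of_le_of_lt (mul_le_mul_of_nonneg_right (le_add_of_nonneg_left (by positivity)) hp.le) hE
    have hE0 : #(kedges P κ) ≠ 0 := by
      intro h0
      rw [h0, Nat.cast_zero] at hE1
      linarith
    obtain ⟨Q, hP, hμ⟩ := exists_proc P hx hg κ _ (Nat.pow_log_le_self 2 hE0)
    have hE2 : (#(kedges P κ) : ℝ) < 2 * 2 ^ Q.μ := by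
      have := Nat.lt_pow_succ_log_self (b := 2) (by norm_num) #(kedges P κ)
      rw [← hμ, Nat.succ_eq_add_one, pow_succ'] at this
      exact_mod_cast this
    subst hP
    have hk0 : 0 < (#Q.P : ℝ) ^ ε := Real.rpow_pos_of_pos hn1 _
    have hB : Base Q ((#Q.P : ℝ) ^ ε) ((#Q.P : ℝ) ^ (1 / 3 : ℝ)) := by
      refine base_of Q (c := Nat.log 2 #Q.P + 1)
        (Nat.lt_pow_succ_log_self (by norm_num) _).le ?_ ?_ ?_
      · refine (hc0 _ (Nat.le_log_of_pow_le (by norm_num) hn)).trans ?_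
        rw [← Real.rpow_mul_natCast (by norm_num), mul_comm, Real.rpow_natCast_mul (by norm_num)]
        refine Real.rpow_le_rpow (by positivity) ?_ hε0.le
        exact_mod_cast Nat.pow_log_le_self 2 hn0.ne'
      · rw [← Real.rpow_mul_natCast hn1.le]
        norm_num
      · have : (#Q.P : ℝ) * (#Q.P : ℝ) ^ (1 / 3 : ℝ) =
            (#Q.P : ℝ) ^ ε * (#Q.P : ℝ) ^ (4 / 3 - ε) := by
          rw [← Real.rpow_add hn1, ← Real.rpow_one_add' hn1.le (by norm_num)]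
          congr 1
          ring
        rw [this]
        exact mul_le_mul_of_nonneg_left (by linarith) hk0.le
    refine hC Q _ _ hB ?_
    have h1 : ((#Q.P : ℝ) ^ ε) ^ (C + 1) = (#Q.P : ℝ) ^ (1 / 3 : ℝ) := by
      rw [← Real.rpow_mul_natCast hn1.le]
      congr 1
      rw [hε]
      push_cast
      field_simp
    rw [← h1]
    exact pow_le_pow_right₀ (by linarith [hB.k2]) (Nat.le_succ C)

/-- `k = κ + 1`; `kedges_local` with `B = C0 (5 k) ^ (4/3 - ε)`, `2 n / k + 1 ≤ 3 n / k`, and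
`ksets_le` -/
theorem ksets_of {ε C0 : ℝ} (h0 : 0 < ε) (h1 : ε ≤ 1 / 3) (hC : 0 ≤ C0)
    (h : ∀ P : Finset Pt, XInj P → GP P → ∀ κ : ℕ,
      (#(kedges P κ) : ℝ) ≤ C0 * (#P : ℝ) ^ (4 / 3 - ε)) :
    ∃ C₀ : ℝ, ∀ n : ℕ, 2 ≤ n → ∀ k : ℕ, 1 ≤ k → 2 * k ≤ n →
      ∀ Q : Finset (ℝ × ℝ), Q.card = n →
        (∀ p ∈ Q, ∀ q ∈ Q, ∀ r ∈ Q, p ≠ q → p ≠ r → q ≠ r →
          (q.1 - p.1) * (r.2 - p.2) - (q.2 - p.2) * (r.1 - p.1) ≠ 0) →
        (((Q.powersetCard k).filter (fun S => ∃ a b c : ℝ, (a ≠ 0 ∨ b ≠ 0) ∧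
            (∀ p ∈ S, a * p.1 + b * p.2 + c < 0) ∧
            (∀ p ∈ Q, p ∉ S → 0 < a * p.1 + b * p.2 + c))).card : ℝ)
          ≤ C₀ * (n : ℝ) * ((k : ℝ) + 1) ^ ((1 : ℝ) / 3 - ε) := by
  refine ⟨2 * (75 * C0 + 1), fun n hn k hk hkn Q hQ hg => ?_⟩
  obtain ⟨κ, rfl⟩ : ∃ κ, k = κ + 1 := ⟨k - 1, by omega⟩
  have hn' : (2 : ℝ) ≤ n := by exact_mod_cast hn
  have hκ : (0 : ℝ) < (κ : ℝ) + 1 := by positivity
  have hkn' : 2 * ((κ : ℝ) + 1) ≤ n := by exact_mod_cast hkn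
  set X : ℝ := (((κ + 1 : ℕ) : ℝ) + 1) ^ ((1 : ℝ) / 3 - ε) with hX
  have hX1 : 1 ≤ X := Real.one_le_rpow (le_add_of_nonneg_left (Nat.cast_nonneg _)) (by linarith)
  have hX2 : ((κ : ℝ) + 1) ^ ((1 : ℝ) / 3 - ε) ≤ X :=
    Real.rpow_le_rpow hκ.le (by push_cast; linarith) (by linarith)
  have key := ksets_le Q hg κ (75 * C0 * (n * X)) fun P hx hP hc => by
    have h2 := kedges_local P hx hP κ (C0 * (5 * ((κ : ℝ) + 1)) ^ (4 / 3 - ε)) fun V hV hc' => by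
      refine (h V (hx.subset hV) (hP.subset hV) κ).trans (mul_le_mul_of_nonneg_left ?_ hC)
      refine Real.rpow_le_rpow (by positivity) ?_ (by linarith)
      exact_mod_cast hc'
    rw [hc, hQ] at h2
    refine h2.trans ?_
    have h3 : 2 * (n : ℝ) / (κ + 1) + 1 ≤ 3 * n / (κ + 1) := by
      rw [div_add_one hκ.ne']
      exact div_le_div_of_nonneg_right (by linarith) hκ.le
    have h4 : (5 * ((κ : ℝ) + 1)) ^ (4 / 3 - ε) ≤ 25 * ((κ + 1) * X) := by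
      rw [Real.mul_rpow (by norm_num) hκ.le]
      refine mul_le_mul ?_ ?_ (by positivity) (by norm_num)
      · calc (5 : ℝ) ^ (4 / 3 - ε) ≤ 5 ^ ((2 : ℕ) : ℝ) :=
              Real.rpow_le_rpow_of_exponent_le (by norm_num) (by push_cast; linarith)
          _ = 25 := by rw [Real.rpow_natCast]; norm_num
      · have : (4 / 3 - ε : ℝ) = 1 + (1 / 3 - ε) := by ring
        rw [this, Real.rpow_add hκ, Real.rpow_one]
        exact mul_le_mul_of_nonneg_left hX2 hκ.le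
    calc _ ≤ (3 * n / (κ + 1)) * (C0 * (25 * ((κ + 1) * X))) :=
          mul_le_mul h3 (mul_le_mul_of_nonneg_left h4 hC) (by positivity) (by positivity)
      _ = _ := by
          field_simp
          ring
  refine key.trans ?_
  have h5 : 1 ≤ (n : ℝ) * X := by nlinarith
  nlinarith

end Crest.Agent.R051
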