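import Crest.Agent.R051.G1v
import Crest.Agent.R051.CL

/-! Row 51: few windows have a large net change (virtual tokens + crossing lemma). -/

set_option autoImplicit false

open Finset
open scoped Classical

namespace Crest.Agent.R051

lemma g1_cross_symm {a b a' b' : Pt} (h : Cross a b a' b') : Cross a' b' a b := by
  obtain ⟨h1, h2, h3, h4, z, h5, h6⟩ := h
  exact ⟨h1.symm, h3.symm, h2.symm, h4.symm, z, h6, h5⟩

lemma g1_num {C n T D X : ℝ} (hC : 1 ≤ C) (hD : 1 ≤ D) (hDn : D ≤ n) (hT : 1 ≤ T)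
    (hX : X ≤ 8 * n ^ 2 * D ^ 2 + T * D ^ 4)
    (h : ∀ p : ℝ, 0 < p → p ≤ 1 → T * D ^ 2 ≤ 3 * C * n / p + p ^ 2 * X) :
    T ^ 3 * D ^ 4 ≤ 1728 * C ^ 3 * n ^ 4 := by
  have hn : 1 ≤ n := hD.trans hDn
  have hm : 0 < T * D ^ 2 := by positivity
  rcases le_or_gt (T * D ^ 2) (6 * C * n) with h1 | h1
  · calc T ^ 3 * D ^ 4 ≤ T ^ 3 * D ^ 6 := by gcongr; norm_num
      _ = (T * D ^ 2) ^ 3 := by ring
      _ ≤ (6 * C * n) ^ 3 := by gcongr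
      _ = 216 * C ^ 3 * n ^ 3 := by ring
      _ ≤ 1728 * C ^ 3 * n ^ 4 := by gcongr <;> norm_num
  · have h2 := h (6 * C * n / (T * D ^ 2)) (by positivity) ((div_le_one hm).2 h1.le)
    have e1 : 3 * C * n / (6 * C * n / (T * D ^ 2)) = T * D ^ 2 / 2 := by
      field_simp
      norm_num
    rw [e1, div_pow, div_mul_eq_mul_div] at h2
    have h3 : T * D ^ 2 / 2 ≤ (6 * C * n) ^ 2 * X / (T * D ^ 2) ^ 2 := by linarith
    rw [le_div_iff₀ (by positivity)] at h3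
    have h4 : (T ^ 3 * D ^ 4) * D ^ 2 ≤
        (576 * C ^ 2 * n ^ 4 + 72 * C ^ 2 * n ^ 2 * (T * D ^ 2)) * D ^ 2 := by
      have := mul_le_mul_of_nonneg_left hX (by positivity : 0 ≤ (6 * C * n) ^ 2)
      nlinarith
    have h5 := le_of_mul_le_mul_right h4 (by positivity)
    rcases le_or_gt (T * D) (12 * C * n) with h6 | h6
    · calc T ^ 3 * D ^ 4 = (T * D) ^ 3 * D := by ring
        _ ≤ (12 * C * n) ^ 3 * n := by gcongr
        _ = 1728 * C ^ 3 * n ^ 4 := by ring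
    · have h7 : (12 * C * n) ^ 2 ≤ (T * D) ^ 2 := by gcongr
      have h8 := mul_le_mul_of_nonneg_right h7 hm.le
      have h9 : C ^ 2 * n ^ 4 ≤ C ^ 3 * n ^ 4 := by gcongr; norm_num
      have h10 : 0 ≤ C ^ 3 * n ^ 4 := by positivity
      nlinarith

lemma g1_dyadic {K c : ℕ} (h0 : K ≠ 0) (hc : K ≤ 2 ^ c) :
    ∃ i ∈ range (c + 1), 2 ^ i ≤ K ∧ K ≤ 2 * 2 ^ i := by
  refine ⟨Nat.log 2 K, mem_range.2 (Nat.lt_succ_of_le ?_), Nat.pow_log_le_self 2 h0, ?_⟩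
  · exact (Nat.log_mono_right hc).trans_eq (Nat.log_pow one_lt_two c)
  · rw [← pow_succ']
    exact (Nat.lt_pow_succ_log_self one_lt_two K).le

/-- `cl_idx` for the `T D²` virtual edges (`T` = number of windows with `K ≥ D`; multiplicity one
since the slope determines the window), with at most `8 n² D² + T D⁴` ordered crossing pairs and
`p = min 1 (6 c n / (T D²))`.  Cases: `T D² ≤ 6 c n`; else `(T D²)³ ≤ 72 c² n² (8 n² D² + T D⁴)`,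
so `T³ D⁴ ≤ 1152 c² n⁴` or `T D ≤ 12 c n` (use `D ≤ n`). -/
theorem Proc.g1 (Q : Proc) {c : ℕ} (hc : #Q.P ≤ 2 ^ c) {j : ℕ} (hj : j ≤ Q.μ) (D : ℕ)
    (hD : 1 ≤ D) :
    #{a ∈ range (2 ^ (Q.μ - j)) | D ≤ Q.K j a} ^ 3 * D ^ 4 ≤ 1728 * (c + 1) ^ 3 * #Q.P ^ 4 := by
  obtain ⟨W, hW⟩ : ∃ W, W = {a ∈ range (2 ^ (Q.μ - j)) | D ≤ Q.K j a} := ⟨_, rfl⟩
  rw [← hW]
  have hWs : W ⊆ range (2 ^ (Q.μ - j)) := hW ▸ filter_subset _ _
  have hWa : ∀ a ∈ W, a < 2 ^ (Q.μ - j) := fun a ha => mem_range.1 (hWs ha)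
  have hWK : ∀ a ∈ W, D ≤ Q.K j a := fun a ha => by
    rw [hW] at ha
    exact (mem_filter.1 ha).2
  rcases W.eq_empty_or_nonempty with rfl | ⟨a₀, ha₀⟩
  · simp
  have hlt : ∀ a, a * 2 ^ j < (a + 1) * 2 ^ j := fun a =>
    Nat.mul_lt_mul_of_pos_right (Nat.lt_succ_self a) (by positivity)
  have h1 : ∀ a, ∃ L : Finset Pt, a ∈ W →
      L ⊆ Q.S (a * 2 ^ j) \ Q.S ((a + 1) * 2 ^ j) ∧ #L = D := by
    intro a
    by_cases ha : a ∈ W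
    · obtain ⟨L, hL⟩ := exists_subset_card_eq (hWK a ha)
      exact ⟨L, fun _ => hL⟩
    · exact ⟨∅, fun h => absurd h ha⟩
  have h2 : ∀ a, ∃ L : Finset Pt, a ∈ W →
      L ⊆ Q.S ((a + 1) * 2 ^ j) \ Q.S (a * 2 ^ j) ∧ #L = D := by
    intro a
    by_cases ha : a ∈ W
    · have hw := win_le hj (hWa a ha)
      have hK := hWK a ha
      unfold Proc.K at hK
      rw [card_sdiff_comm (Q.card_S ((hlt a).le.trans hw) hw)] at hK
      obtain ⟨L, hL⟩ := exists_subset_card_eq hK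
      exact ⟨L, fun _ => hL⟩
    · exact ⟨∅, fun h => absurd h ha⟩
  choose Lf hL using h1
  choose Rt hR using h2
  have hv := Q.virt_cross hj D hD W hWs Lf Rt hL hR
  obtain ⟨I, hI⟩ : ∃ I, I = W.sigma fun a => Lf a ×ˢ Rt a := ⟨_, rfl⟩
  have hcard : #I = #W * D ^ 2 := by
    rw [hI, card_sigma, sum_congr rfl (g := fun _ => D ^ 2), sum_const, smul_eq_mul]
    intro a ha
    rw [card_product, (hL a ha).2, (hR a ha).2, sq]
  have hmem : ∀ i ∈ I, i.1 ∈ W ∧ i.2.1 ∈ Lf i.1 ∧ i.2.2 ∈ Rt i.1 := by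
    intro i hi
    rw [hI, mem_sigma, mem_product] at hi
    exact hi
  have hcone : ∀ i ∈ I, Cone (Q.s (i.1 * 2 ^ j)) (Q.s ((i.1 + 1) * 2 ^ j)) i.2.1 i.2.2 := by
    intro i hi
    obtain ⟨ha, hp, hq⟩ := hmem i hi
    exact Q.lens_cone (hlt _) (win_le hj (hWa _ ha)) ((hL _ ha).1 hp) ((hR _ ha).1 hq)
  have hsep : ∀ i ∈ I, ∀ i' ∈ I, i.2 = i'.2 → ¬ i.1 < i'.1 := by
    intro i hi i' hi' e hlt'
    have h3 := hcone i' hi'
    rw [← e] at h3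
    refine ((hcone i hi).not_both (Q.s_win hj (hWa _ (hmem i hi).1))
      (Q.s_win hj (hWa _ (hmem i' hi').1)) (Q.s_le (Nat.mul_le_mul_right _ hlt') ?_)).1 h3
    exact (hlt _).le.trans (win_le hj (hWa _ (hmem i' hi').1))
  have hcl := cl_idx (c + 1) Q.P Q.xinj Q.gp (hc.trans (Nat.pow_le_pow_right two_pos (by omega)))
    I (fun i => i.2.1) (fun i => i.2.2) (fun i hi => by
      obtain ⟨ha, hp, hq⟩ := hmem i hi
      have hw := win_le hj (hWa _ ha)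
      exact ⟨Q.S_sub _ ((hlt _).le.trans hw) (mem_sdiff.1 ((hL _ ha).1 hp)).1,
        Q.S_sub _ hw (mem_sdiff.1 ((hR _ ha).1 hq)).1,
        (hcone i hi).x_lt (Q.s_win hj (hWa _ ha))⟩) 1 zero_le_one (fun i hi => by
      rw [← Nat.cast_one, Nat.cast_le]
      refine (card_le_card (t := {i}) fun i' hi' => ?_).trans (card_singleton i).le
      obtain ⟨hi', e1, e2⟩ := mem_filter.1 hi'
      have e : i'.2 = i.2 := Prod.ext e1 e2
      have e' : i'.1 = i.1 :=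
        le_antisymm (not_lt.1 (hsep i hi i' hi' e.symm)) (not_lt.1 (hsep i' hi' i hi e))
      exact mem_singleton.2 (Sigma.ext e' (heq_of_eq e)))
  rw [← hI] at hv
  have hX : #{x ∈ I ×ˢ I | Cross x.1.2.1 x.1.2.2 x.2.2.1 x.2.2.2} ≤
      8 * #Q.P ^ 2 * D ^ 2 + #W * D ^ 4 := by
    have s1 : {x ∈ I ×ˢ I | Cross x.1.2.1 x.1.2.2 x.2.2.1 x.2.2.2} ⊆
        ({x ∈ I ×ˢ I | x.1.1 < x.2.1 ∧ Cross x.1.2.1 x.1.2.2 x.2.2.1 x.2.2.2} ∪
          ({x ∈ I ×ˢ I | x.1.1 < x.2.1 ∧ Cross x.1.2.1 x.1.2.2 x.2.2.1 x.2.2.2}).image Prod.swap) ∪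
        (W.sigma fun a => (Lf a ×ˢ Rt a) ×ˢ (Lf a ×ˢ Rt a)).image
          fun y => (⟨y.1, y.2.1⟩, ⟨y.1, y.2.2⟩) := by
      intro x hx
      obtain ⟨hx, hcr⟩ := mem_filter.1 hx
      obtain ⟨hx1, hx2⟩ := mem_product.1 hx
      rcases lt_trichotomy x.1.1 x.2.1 with h | h | h
      · exact mem_union_left _ (mem_union_left _ (mem_filter.2 ⟨hx, h, hcr⟩))
      · refine mem_union_right _ (mem_image.2 ⟨⟨x.1.1, x.1.2, x.2.2⟩, ?_, ?_⟩)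
        · obtain ⟨ha, hp, hq⟩ := hmem _ hx1
          obtain ⟨-, hp', hq'⟩ := hmem _ hx2
          rw [← h] at hp' hq'
          exact mem_sigma.2 ⟨ha, mem_product.2 ⟨mem_product.2 ⟨hp, hq⟩, mem_product.2 ⟨hp', hq'⟩⟩⟩
        · exact Prod.ext rfl (Sigma.ext h (heq_of_eq rfl))
      · exact mem_union_left _ (mem_union_right _ (mem_image.2 ⟨x.swap,
          mem_filter.2 ⟨mem_product.2 ⟨hx2, hx1⟩, h, g1_cross_symm hcr⟩, Prod.swap_swap x⟩))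
    have s2 : #(W.sigma fun a => (Lf a ×ˢ Rt a) ×ˢ (Lf a ×ˢ Rt a)) = #W * D ^ 4 := by
      rw [card_sigma, sum_congr rfl (g := fun _ => D ^ 4), sum_const, smul_eq_mul]
      intro a ha
      rw [card_product, card_product, (hL a ha).2, (hR a ha).2]
      ring
    refine (card_le_card s1).trans ((card_union_le _ _).trans (add_le_add
      ((card_union_le _ _).trans ?_) (card_image_le.trans s2.le)))
    have := add_le_add hv ((card_image_le (f := Prod.swap)).trans hv)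
    linarith
  have hDn : D ≤ #Q.P := (hWK a₀ ha₀).trans (Q.K_le hj (hWa a₀ ha₀))
  have hT : 1 ≤ #W := card_pos.2 ⟨a₀, ha₀⟩
  have := g1_num (C := (c + 1 : ℕ)) (n := #Q.P) (T := #W) (D := D)
    (X := #{x ∈ I ×ˢ I | Cross x.1.2.1 x.1.2.2 x.2.2.1 x.2.2.2}) (by simp) (by exact_mod_cast hD)
    (by exact_mod_cast hDn) (by exact_mod_cast hT) (by exact_mod_cast hX) (fun p hp0 hp1 => by
      have h := hcl p hp0 hp1
      rw [one_mul, hcard] at h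
      exact_mod_cast h)
  exact_mod_cast this

/-- dyadic classes `2^i ≤ K < 2^(i+1)`, `i ≤ c`: with `T_i ≤ 2^(μ-j) = rho⁻⁴`,
`(T_i 2^i)^4 = T_i · T_i³ (2^i)⁴` -/
theorem Proc.g1a (Q : Proc) {c : ℕ} (hc : #Q.P ≤ 2 ^ c) {j : ℕ} (hj : j ≤ Q.μ) :
    ∑ a ∈ range (2 ^ (Q.μ - j)), (Q.K j a : ℝ) ≤ 14 * (c + 1) ^ 2 * #Q.P / rho Q.μ j := by
  have hρ := rho_pos Q.μ j
  have h1 : ∀ a ∈ range (2 ^ (Q.μ - j)), (Q.K j a : ℝ) ≤
      ∑ i ∈ range (c + 1), if 2 ^ i ≤ Q.K j a then (2 * 2 ^ i : ℝ) else 0 := by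
    intro a ha
    have hnn : ∀ i ∈ range (c + 1), 0 ≤ if 2 ^ i ≤ Q.K j a then (2 * 2 ^ i : ℝ) else 0 :=
      fun i _ => by split_ifs <;> positivity
    by_cases h0 : Q.K j a = 0
    · exact le_of_eq_of_le (by rw [h0, Nat.cast_zero]) (sum_nonneg hnn)
    · obtain ⟨i, hi, h2, h3⟩ := g1_dyadic h0 ((Q.K_le hj (mem_range.1 ha)).trans hc)
      refine le_trans ?_ (single_le_sum hnn hi)
      rw [if_pos h2]
      exact_mod_cast h3
  refine (sum_le_sum h1).trans ?_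
  rw [sum_comm]
  refine (sum_le_card_nsmul _ _ (2 * (7 * (c + 1) * #Q.P / rho Q.μ j)) fun i _ => ?_).trans_eq ?_
  · rw [← sum_filter, sum_const, nsmul_eq_mul, mul_left_comm]
    refine mul_le_mul_of_nonneg_left ?_ zero_le_two
    have h2 := Q.g1 hc hj (2 ^ i) Nat.one_le_two_pow
    have h3 : #{a ∈ range (2 ^ (Q.μ - j)) | 2 ^ i ≤ Q.K j a} ≤ 2 ^ (Q.μ - j) :=
      (card_filter_le _ _).trans (card_range _).le
    generalize #{a ∈ range (2 ^ (Q.μ - j)) | 2 ^ i ≤ Q.K j a} = T at h2 h3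
    have h2' : (T : ℝ) ^ 3 * (2 ^ i) ^ 4 ≤ 1728 * (c + 1) ^ 3 * (#Q.P : ℝ) ^ 4 := by
      exact_mod_cast h2
    have h4 : (T : ℝ) * rho Q.μ j ^ 4 ≤ 1 := by
      rw [rho_pow, ← mul_div_assoc, div_le_one (by positivity)]
      have : T * 2 ^ j ≤ 2 ^ Q.μ := by
        refine (Nat.mul_le_mul_right _ h3).trans_eq ?_
        rw [← pow_add, Nat.sub_add_cancel hj]
      exact_mod_cast this
    rw [le_div_iff₀ hρ]
    refine le_of_pow_le_pow_left₀ four_ne_zero (by positivity) ?_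
    have hc1 : (1 : ℝ) ≤ c + 1 := by simp
    calc ((T : ℝ) * 2 ^ i * rho Q.μ j) ^ 4 = (T ^ 3 * (2 ^ i) ^ 4) * (T * rho Q.μ j ^ 4) := by ring
      _ ≤ (1728 * (c + 1) ^ 3 * (#Q.P : ℝ) ^ 4) * 1 := by gcongr
      _ ≤ (2401 * (c + 1) ^ 4 * (#Q.P : ℝ) ^ 4) * 1 := by gcongr <;> norm_num
      _ = (7 * (c + 1) * #Q.P) ^ 4 := by ring
  · rw [card_range, nsmul_eq_mul]
    push_cast
    ring

/-- dyadic classes with `D = 2^i ≤ n σ³`: `(T_i D²)³ = D² · T_i³ D⁴ ≤ (12 (c+1) n² σ²)³` -/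
theorem Proc.g1b (Q : Proc) {c : ℕ} (hc : #Q.P ≤ 2 ^ c) {j : ℕ} (hj : j ≤ Q.μ) (σ : ℝ)
    (hσ : 0 < σ) :
    ∑ a ∈ range (2 ^ (Q.μ - j)) with (Q.K j a : ℝ) ≤ #Q.P * σ ^ 3, (Q.K j a : ℝ) ^ 2 ≤
      48 * (c + 1) ^ 2 * (#Q.P : ℝ) ^ 2 * σ ^ 2 := by
  have h1 : ∀ a ∈ {a ∈ range (2 ^ (Q.μ - j)) | (Q.K j a : ℝ) ≤ #Q.P * σ ^ 3}, (Q.K j a : ℝ) ^ 2 ≤
      ∑ i ∈ range (c + 1) with (2 : ℝ) ^ i ≤ #Q.P * σ ^ 3,
        if 2 ^ i ≤ Q.K j a then (4 * (2 ^ i) ^ 2 : ℝ) else 0 := by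
    intro a ha
    obtain ⟨ha, hK⟩ := mem_filter.1 ha
    have hnn : ∀ i ∈ {i ∈ range (c + 1) | (2 : ℝ) ^ i ≤ #Q.P * σ ^ 3},
        0 ≤ if 2 ^ i ≤ Q.K j a then (4 * (2 ^ i) ^ 2 : ℝ) else 0 :=
      fun i _ => by split_ifs <;> positivity
    by_cases h0 : Q.K j a = 0
    · exact le_of_eq_of_le (by rw [h0]; simp) (sum_nonneg hnn)
    · obtain ⟨i, hi, h2, h3⟩ := g1_dyadic h0 ((Q.K_le hj (mem_range.1 ha)).trans hc)
      have h2' : (2 : ℝ) ^ i ≤ Q.K j a := by exact_mod_cast h2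
      have h3' : (Q.K j a : ℝ) ≤ 2 * 2 ^ i := by exact_mod_cast h3
      refine le_trans ?_ (single_le_sum hnn (mem_filter.2 ⟨hi, h2'.trans hK⟩))
      rw [if_pos h2]
      calc (Q.K j a : ℝ) ^ 2 ≤ (2 * 2 ^ i) ^ 2 := by gcongr
        _ = 4 * (2 ^ i) ^ 2 := by ring
  refine (sum_le_sum h1).trans ((sum_le_sum_of_subset_of_nonneg (filter_subset _ _)
    fun a _ _ => sum_nonneg fun i _ => by split_ifs <;> positivity).trans ?_)
  rw [sum_comm]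
  refine (sum_le_card_nsmul _ _ (4 * (12 * (c + 1) * (#Q.P : ℝ) ^ 2 * σ ^ 2)) fun i hi => ?_).trans ?_
  · rw [← sum_filter, sum_const, nsmul_eq_mul, mul_left_comm]
    refine mul_le_mul_of_nonneg_left ?_ (by norm_num)
    have h2 := Q.g1 hc hj (2 ^ i) Nat.one_le_two_pow
    generalize #{a ∈ range (2 ^ (Q.μ - j)) | 2 ^ i ≤ Q.K j a} = T at h2
    have h2' : (T : ℝ) ^ 3 * (2 ^ i) ^ 4 ≤ 1728 * (c + 1) ^ 3 * (#Q.P : ℝ) ^ 4 := by
      exact_mod_cast h2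
    have h3 := (mem_filter.1 hi).2
    refine le_of_pow_le_pow_left₀ three_ne_zero (by positivity) ?_
    calc ((T : ℝ) * (2 ^ i) ^ 2) ^ 3 = (T ^ 3 * (2 ^ i) ^ 4) * (2 ^ i) ^ 2 := by ring
      _ ≤ (1728 * (c + 1) ^ 3 * (#Q.P : ℝ) ^ 4) * (#Q.P * σ ^ 3) ^ 2 := by gcongr
      _ = (12 * (c + 1) * (#Q.P : ℝ) ^ 2 * σ ^ 2) ^ 3 := by ring
  · rw [nsmul_eq_mul]
    have h4 : (#{i ∈ range (c + 1) | (2 : ℝ) ^ i ≤ #Q.P * σ ^ 3} : ℝ) ≤ c + 1 := by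
      exact_mod_cast (card_filter_le _ _).trans (card_range _).le
    refine (mul_le_mul_of_nonneg_right h4 (by positivity)).trans_eq ?_
    ring

end Crest.Agent.R051
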