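import Crest.Agent.R051.Dey

/-! Row 51: few windows have a large net change (virtual tokens + crossing lemma). -/

set_option autoImplicit false

open Finset
open scoped Classical

namespace Crest.Agent.R051

lemma g1v_bij (A B : Finset Pt) (h : #A = #B) : ∃ g : Pt → Pt, Set.BijOn g A B :=
  A.finite_toSet.exists_bijOn_of_encard_eq (by simp [h])

lemma g1v_g0 (S S' L R : Finset Pt) (hS : #S = #S') (hL : L ⊆ S \ S') (hR : R ⊆ S' \ S)
    (hc : #L = #R) : ∃ g : Pt → Pt, Set.BijOn g S S' ∧ (∀ p ∈ S, p ∈ S' → g p = p) ∧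
      (∀ p ∈ S, p ∉ S' → g p ∈ S' \ S) ∧ Set.SurjOn g L R := by
  obtain ⟨g1, h1⟩ := g1v_bij L R hc
  have hAB : #(S \ S') = #(S' \ S) := by
    have e1 := card_sdiff_add_card_inter S S'
    have e2 := card_sdiff_add_card_inter S' S
    rw [inter_comm] at e2
    omega
  obtain ⟨g2, h2⟩ := g1v_bij ((S \ S') \ L) ((S' \ S) \ R) (by
    rw [card_sdiff_of_subset hL, card_sdiff_of_subset hR, hAB, hc])
  set g : Pt → Pt := fun p => if p ∈ L then g1 p else if p ∈ S' then p else g2 p with hg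
  have a1 : ∀ p ∈ L, g p = g1 p := fun p hp => by simp [hg, hp]
  have a2 : ∀ p ∈ S', g p = p := fun p hp => by
    have : p ∉ L := fun h => (mem_sdiff.1 (hL h)).2 hp
    simp [hg, hp, this]
  have a3 : ∀ p, p ∉ L → p ∉ S' → g p = g2 p := fun p hp hp' => by simp [hg, hp, hp']
  have b1 : ∀ p ∈ L, g p ∈ R := fun p hp => by
    rw [a1 p hp]; exact h1.mapsTo hp
  have b3 : ∀ p ∈ S, p ∉ L → p ∉ S' → g p ∈ (S' \ S) \ R := fun p hp hp1 hp2 => by
    rw [a3 p hp1 hp2]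
    exact h2.mapsTo (by simp [hp, hp1, hp2])
  have hmaps : Set.MapsTo g S S' := by
    intro p hp
    by_cases hp1 : p ∈ L
    · exact (mem_sdiff.1 (hR (b1 p hp1))).1
    by_cases hp2 : p ∈ S'
    · rw [a2 p hp2]; exact hp2
    · exact (mem_sdiff.1 (mem_sdiff.1 (b3 p hp hp1 hp2)).1).1
  have hinj : Set.InjOn g S := by
    intro p hp q hq e
    by_cases hp1 : p ∈ L
    · have hpR := b1 p hp1
      by_cases hq1 : q ∈ L
      · rw [a1 p hp1, a1 q hq1] at e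
        exact h1.injOn hp1 hq1 e
      by_cases hq2 : q ∈ S'
      · rw [e, a2 q hq2] at hpR
        exact absurd hq (mem_sdiff.1 (hR hpR)).2
      · rw [e] at hpR
        exact absurd hpR (mem_sdiff.1 (b3 q hq hq1 hq2)).2
    by_cases hp2 : p ∈ S'
    · rw [a2 p hp2] at e
      by_cases hq1 : q ∈ L
      · have := b1 q hq1
        rw [← e] at this
        exact absurd hp (mem_sdiff.1 (hR this)).2
      by_cases hq2 : q ∈ S'
      · rwa [a2 q hq2] at e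
      · have := b3 q hq hq1 hq2
        rw [← e] at this
        exact absurd hp (mem_sdiff.1 (mem_sdiff.1 this).1).2
    · have hp3 := b3 p hp hp1 hp2
      by_cases hq1 : q ∈ L
      · rw [e] at hp3
        exact absurd (b1 q hq1) (mem_sdiff.1 hp3).2
      by_cases hq2 : q ∈ S'
      · rw [e, a2 q hq2] at hp3
        exact absurd hq (mem_sdiff.1 (mem_sdiff.1 hp3).1).2
      · rw [a3 p hp1 hp2, a3 q hq1 hq2] at e
        exact h2.injOn (by simpa [hp1, hp2] using hp) (by simpa [hq1, hq2] using hq) e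
  refine ⟨g, ⟨hmaps, hinj, surjOn_of_injOn_of_card_le g hmaps hinj hS.ge⟩, fun p _ hp => a2 p hp,
    fun p hp hp2 => ?_, fun q hq => ?_⟩
  · by_cases hp1 : p ∈ L
    · exact hR (b1 p hp1)
    · exact (mem_sdiff.1 (b3 p hp hp1 hp2)).1
  · obtain ⟨p, hp, rfl⟩ := h1.surjOn hq
    exact ⟨p, hp, a1 p hp⟩

lemma g1v_m (S S' L R : Finset Pt) (hS : #S = #S') (hL : L ⊆ S \ S') (hR : R ⊆ S' \ S)
    (hc : #L = #R) : ∃ m : ℕ → Pt → Pt, (∀ c, Set.BijOn (m c) S S') ∧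
      (∀ c, ∀ p ∈ S, m c p = p ∨ (p ∈ S \ S' ∧ m c p ∈ S' \ S)) ∧
      ∀ p ∈ L, ∀ q ∈ R, ∃ c < #L, m c p = q := by
  obtain ⟨g, h1, h2, h3, h4⟩ := g1v_g0 S S' L R hS hL hR hc
  obtain ⟨f, hf, hs⟩ := L.countable_toSet.exists_cycleOn
  have f1 : ∀ c : ℕ, ∀ p ∈ L, (f ^ c) p ∈ L := fun c p hp => (hf.1.perm_pow c).mapsTo hp
  have f2 : ∀ c : ℕ, ∀ p, p ∉ L → (f ^ c) p = p := fun c p hp =>
    Equiv.Perm.pow_apply_eq_self_of_apply_eq_self
      (by by_contra h; exact hp (hs h)) c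
  have f3 : ∀ c : ℕ, Set.BijOn (f ^ c : Equiv.Perm Pt) S S := by
    intro c
    have hm : Set.MapsTo (f ^ c : Equiv.Perm Pt) S S := by
      intro p hp
      by_cases hp1 : p ∈ L
      · exact (mem_sdiff.1 (hL (f1 c p hp1))).1
      · rw [f2 c p hp1]; exact hp
    have hi : Set.InjOn (f ^ c : Equiv.Perm Pt) S := (f ^ c).injective.injOn
    exact ⟨hm, hi, surjOn_of_injOn_of_card_le _ hm hi le_rfl⟩
  refine ⟨fun c p => g ((f ^ c) p), fun c => h1.comp (f3 c), fun c p hp => ?_,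
    fun p hp q hq => ?_⟩
  · by_cases hp1 : p ∈ L
    · right
      have := mem_sdiff.1 (hL (f1 c p hp1))
      exact ⟨hL hp1, h3 _ this.1 this.2⟩
    · simp only [f2 c p hp1]
      by_cases hp2 : p ∈ S'
      · exact Or.inl (h2 p hp hp2)
      · exact Or.inr ⟨mem_sdiff.2 ⟨hp, hp2⟩, h3 p hp hp2⟩
  · obtain ⟨p', hp', rfl⟩ := h4 hq
    obtain ⟨c, hc1, hc2⟩ := hf.exists_pow_eq hp hp'
    exact ⟨c, hc1, by simp only [hc2]⟩

/-- a `1 / D²` fraction of all shift vectors has two prescribed values -/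
lemma g1v_fib {ι : Type*} [Fintype ι] [DecidableEq ι] (D : ℕ) {a a' : ι} (h : a ≠ a') (x y : Fin D) :
    Fintype.card (ι → Fin D) ≤ D ^ 2 * #{σ : ι → Fin D | σ a = x ∧ σ a' = y} := by
  have : #(univ : Finset (ι → Fin D)) ≤
      #(((univ : Finset (Fin D)) ×ˢ (univ : Finset (Fin D))) ×ˢ
        (univ.filter fun σ : ι → Fin D => σ a = x ∧ σ a' = y)) := by
    refine card_le_card_of_injOn
      (fun σ => ((σ a, σ a'), Function.update (Function.update σ a x) a' y)) ?_ ?_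
    · intro σ _
      simp [Function.update_of_ne h]
    · intro σ _ σ' _ e
      simp only [Prod.mk.injEq] at e
      obtain ⟨⟨e1, e2⟩, e3⟩ := e
      funext b
      by_cases hb : b = a
      · rw [hb, e1]
      by_cases hb' : b = a'
      · rw [hb', e2]
      have := congrFun e3 b
      simpa [Function.update_of_ne hb, Function.update_of_ne hb'] using this
  simpa [card_product, sq] using this

/-- Crossings of virtual edges.  For each window `a ∈ W` of level `j`, `Lf a ⊆ S start \ S end` and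
`Rt a ⊆ S end \ S start` have `D` elements; all pairs in `Lf a ×ˢ Rt a` are virtual edges
(`lens_cone`).  Enumerate `Lf a`, `Rt a` by `Fin D` (or `ZMod D`), fix bijections between the
remaining parts of the two lenses (and between the lenses of the other windows); every shift vector
`σ : W → Fin D` gives bijections `mv a : S start → S end` (identity on `S start ∩ S end`) to which
`dey` applies with `T = 2 ^ (μ - j)`, `s' a = s (a 2^j)`.  A crossing pair of virtual edges of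
windows `a < a'` is present for exactly `D ^ (#W - 2)` shift vectors (its common point is no
endpoint, by `GP.seg`). -/
theorem Proc.virt_cross (Q : Proc) {j : ℕ} (hj : j ≤ Q.μ) (D : ℕ) (hD : 1 ≤ D) (W : Finset ℕ)
    (hW : W ⊆ range (2 ^ (Q.μ - j))) (Lf Rt : ℕ → Finset Pt)
    (hL : ∀ a ∈ W, Lf a ⊆ Q.S (a * 2 ^ j) \ Q.S ((a + 1) * 2 ^ j) ∧ #(Lf a) = D)
    (hR : ∀ a ∈ W, Rt a ⊆ Q.S ((a + 1) * 2 ^ j) \ Q.S (a * 2 ^ j) ∧ #(Rt a) = D) :
    #{x ∈ (W.sigma fun a => Lf a ×ˢ Rt a) ×ˢ (W.sigma fun a => Lf a ×ˢ Rt a) |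
      x.1.1 < x.2.1 ∧ Cross x.1.2.1 x.1.2.2 x.2.2.1 x.2.2.2} ≤ 4 * #Q.P ^ 2 * D ^ 2 := by
  set T := 2 ^ (Q.μ - j) with hT
  have hle : ∀ a ≤ T, a * 2 ^ j ≤ 2 ^ Q.μ := fun a ha => by
    calc a * 2 ^ j ≤ 2 ^ (Q.μ - j) * 2 ^ j := Nat.mul_le_mul_right _ ha
      _ = 2 ^ Q.μ := by rw [← pow_add, Nat.sub_add_cancel hj]
  have hlt : ∀ a a' : ℕ, a < a' → a * 2 ^ j < a' * 2 ^ j := fun a a' h =>
    Nat.mul_lt_mul_of_pos_right h (by positivity)
  have key : ∀ a : ℕ, ∃ m : ℕ → Pt → Pt, a < T →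
      (∀ c, Set.BijOn (m c) (Q.S (a * 2 ^ j)) (Q.S ((a + 1) * 2 ^ j))) ∧
      (∀ c, ∀ p ∈ Q.S (a * 2 ^ j), m c p = p ∨
        Cone (Q.s (a * 2 ^ j)) (Q.s ((a + 1) * 2 ^ j)) p (m c p)) ∧
      (a ∈ W → ∀ p ∈ Lf a, ∀ q ∈ Rt a, ∃ c < D, m c p = q) := by
    intro a
    by_cases ha : a < T
    swap
    · exact ⟨fun _ p => p, fun h => absurd h ha⟩
    have hcard := Q.card_S (hle a ha.le) (hle (a + 1) ha)
    have hcone : ∀ {p q : Pt}, p ∈ Q.S (a * 2 ^ j) \ Q.S ((a + 1) * 2 ^ j) →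
        q ∈ Q.S ((a + 1) * 2 ^ j) \ Q.S (a * 2 ^ j) →
        Cone (Q.s (a * 2 ^ j)) (Q.s ((a + 1) * 2 ^ j)) p q := fun hp hq =>
      Q.lens_cone (hlt _ _ (Nat.lt_succ_self a)) (hle (a + 1) ha) hp hq
    by_cases haW : a ∈ W
    · obtain ⟨m, h1, h2, h3⟩ := g1v_m _ _ (Lf a) (Rt a) hcard (hL a haW).1 (hR a haW).1
        (by rw [(hL a haW).2, (hR a haW).2])
      refine ⟨m, fun _ => ⟨h1, fun c p hp => (h2 c p hp).imp id fun h => hcone h.1 h.2,
        fun _ p hp q hq => ?_⟩⟩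
      rw [← (hL a haW).2]
      exact h3 p hp q hq
    · obtain ⟨m, h1, h2, -⟩ := g1v_m _ _ ∅ ∅ hcard (empty_subset _) (empty_subset _) rfl
      exact ⟨m, fun _ => ⟨h1, fun c p hp => (h2 c p hp).imp id fun h => hcone h.1 h.2,
        fun h => absurd h haW⟩⟩
  choose m hm using key
  set mv : (Fin T → Fin D) → ℕ → Pt → Pt := fun σ a =>
    if h : a < T then m a (σ ⟨a, h⟩) else id with hmv
  have mv_eq : ∀ σ a (h : a < T), mv σ a = m a (σ ⟨a, h⟩) := fun σ a h => by simp [hmv, h]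
  set X := {x ∈ (W.sigma fun a => Lf a ×ˢ Rt a) ×ˢ (W.sigma fun a => Lf a ×ˢ Rt a) |
      x.1.1 < x.2.1 ∧ Cross x.1.2.1 x.1.2.2 x.2.2.1 x.2.2.2} with hX
  set r : (Fin T → Fin D) → ((Σ _ : ℕ, Pt × Pt) × (Σ _ : ℕ, Pt × Pt)) → Prop := fun σ x =>
    mv σ x.1.1 x.1.2.1 = x.1.2.2 ∧ mv σ x.2.1 x.2.2.1 = x.2.2.2 with hr
  have hLP : ∀ a ∈ W, ∀ p ∈ Lf a, p ∈ Q.S (a * 2 ^ j) ∧ p ∈ Q.P := fun a ha p hp => by
    have := (mem_sdiff.1 ((hL a ha).1 hp)).1
    exact ⟨this, Q.S_sub _ (hle a (mem_range.1 (hW ha)).le) this⟩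
  have hRP : ∀ a ∈ W, ∀ q ∈ Rt a, q ∉ Q.S (a * 2 ^ j) ∧ q ∈ Q.P := fun a ha q hq => by
    have := mem_sdiff.1 ((hR a ha).1 hq)
    exact ⟨this.2, Q.S_sub _ (hle (a + 1) (mem_range.1 (hW ha))) this.1⟩
  have up : ∀ σ : Fin T → Fin D, #(X.bipartiteAbove r σ) ≤ 4 * #Q.P ^ 2 := by
    intro σ
    refine le_trans ?_ (dey Q.P T (fun a => Q.s (a * 2 ^ j))
      (fun t t' h h' => Q.s_lt _ _ (hlt _ _ h) (hle _ h')) (fun a => Q.S (a * 2 ^ j))
      (fun t ht => Q.S_sub _ (hle _ ht)) (mv σ)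
      (fun t ht => by rw [mv_eq σ t ht]; exact (hm t ht).1 _)
      (fun t ht p hp => by rw [mv_eq σ t ht]; exact (hm t ht).2.1 _ p hp))
    refine card_le_card_of_injOn (fun x => ((x.1.1, x.1.2.1), (x.2.1, x.2.2.1))) ?_ ?_
    · rintro ⟨⟨a, p, q⟩, ⟨a', p', q'⟩⟩ hx
      simp only [mem_coe, mem_bipartiteAbove, hX, mem_filter, mem_product, mem_sigma,
        hr] at hx
      obtain ⟨⟨⟨⟨ha, hp, hq⟩, ha', hp', hq'⟩, hlt', hc⟩, e1, e2⟩ := hx
      obtain ⟨c1, c2, c3, c4, z, hz1, hz2⟩ := hc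
      have p1 := hLP a ha p hp
      have p2 := hLP a' ha' p' hp'
      have q1 := hRP a ha q hq
      have q2 := hRP a' ha' q' hq'
      have n1 : q ≠ p := fun e => q1.1 (e ▸ p1.1)
      have n2 : q' ≠ p' := fun e => q2.1 (e ▸ p2.1)
      simp only [coe_filter, mem_product, Set.mem_ofPred_eq, e1, e2]
      refine ⟨⟨⟨hW ha, p1.2⟩, hW ha', p2.2⟩, hlt', p1.1, p2.1, n1, n2, z, hz1, hz2, ?_, ?_⟩
      · rintro rfl
        rcases Q.gp.seg p2.2 q2.2 q1.2 n2.symm hz2 with h | h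
        · exact c3 h
        · exact c4 h
      · rintro rfl
        rcases Q.gp.seg p1.2 q1.2 p2.2 n1.symm hz1 with h | h
        · exact c1 h.symm
        · exact c3 h.symm
    · rintro ⟨⟨a, p, q⟩, ⟨a', p', q'⟩⟩ hx ⟨⟨b, u, v⟩, ⟨b', u', v'⟩⟩ hy e
      simp only [mem_coe, mem_bipartiteAbove, hr] at hx hy
      simp only [Prod.mk.injEq] at e
      obtain ⟨⟨rfl, rfl⟩, rfl, rfl⟩ := e
      obtain ⟨-, rfl, rfl⟩ := hx
      obtain ⟨-, rfl, rfl⟩ := hy
      rfl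
  have lo : ∀ x ∈ X, Fintype.card (Fin T → Fin D) ≤
      D ^ 2 * #((univ : Finset (Fin T → Fin D)).bipartiteBelow r x) := by
    rintro ⟨⟨a, p, q⟩, ⟨a', p', q'⟩⟩ hx
    simp only [hX, mem_filter, mem_product, mem_sigma] at hx
    obtain ⟨⟨⟨ha, hp, hq⟩, ha', hp', hq'⟩, hlt', -⟩ := hx
    have haT : a < T := mem_range.1 (hW ha)
    have haT' : a' < T := mem_range.1 (hW ha')
    obtain ⟨c, hc, e⟩ := (hm a haT).2.2 ha p hp q hq
    obtain ⟨c', hc', e'⟩ := (hm a' haT').2.2 ha' p' hp' q' hq'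
    refine (g1v_fib D (a := (⟨a, haT⟩ : Fin T)) (a' := ⟨a', haT'⟩)
      (fun h => hlt'.ne (congrArg Fin.val h)) ⟨c, hc⟩ ⟨c', hc'⟩).trans ?_
    refine Nat.mul_le_mul_left _ (card_le_card ?_)
    intro σ hσ
    simp only [mem_filter, mem_univ, true_and] at hσ
    simp only [mem_bipartiteBelow, mem_univ, true_and, hr, mv_eq σ a haT, mv_eq σ a' haT', hσ.1,
      hσ.2, e, e', and_self]
  have hpos : 0 < Fintype.card (Fin T → Fin D) := by
    simp only [Fintype.card_pi, Fintype.card_fin, prod_const]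
    positivity
  have dc := sum_card_bipartiteAbove_eq_sum_card_bipartiteBelow r
    (s := (univ : Finset (Fin T → Fin D))) (t := X)
  have t1 : #X * Fintype.card (Fin T → Fin D) ≤
      D ^ 2 * ∑ x ∈ X, #((univ : Finset (Fin T → Fin D)).bipartiteBelow r x) := by
    rw [mul_sum, ← smul_eq_mul, ← sum_const]
    exact sum_le_sum lo
  have t2 : ∑ σ : Fin T → Fin D, #(X.bipartiteAbove r σ) ≤
      Fintype.card (Fin T → Fin D) * (4 * #Q.P ^ 2) := by
    rw [← card_univ, ← smul_eq_mul, ← sum_const]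
    exact sum_le_sum fun σ _ => up σ
  refine Nat.le_of_mul_le_mul_right ?_ hpos
  calc #X * Fintype.card (Fin T → Fin D) ≤ _ := t1
    _ ≤ D ^ 2 * (Fintype.card (Fin T → Fin D) * (4 * #Q.P ^ 2)) := by
      rw [← dc]; exact Nat.mul_le_mul_left _ t2
    _ = _ := by ring

end Crest.Agent.R051
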