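import Crest.Agent.R051.Basic

/-! Row 51: existence of the nested path decomposition. -/

set_option autoImplicit false

open Finset
open scoped Classical

namespace Crest.Agent.R051

/-- a matching of admissible links of level `j` -/
def pexValid (Q : Proc) (j : ℕ) (L : Finset (ℕ × ℕ)) : Prop :=
  (∀ x ∈ L, x.1 < 2 ^ Q.μ ∧ x.2 < 2 ^ Q.μ ∧ Q.v x.1 = Q.u x.2 ∧ x.1 / 2 ^ j = x.2 / 2 ^ j) ∧
    ∀ x ∈ L, ∀ y ∈ L, (x.1 = y.1 ∨ x.2 = y.2) → x = y

/-- no admissible link of level `j` can be added -/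
def pexMax (Q : Proc) (j : ℕ) (L : Finset (ℕ × ℕ)) : Prop :=
  ∀ t < 2 ^ Q.μ, ∀ t' < 2 ^ Q.μ, Q.v t = Q.u t' → t / 2 ^ j = t' / 2 ^ j →
    (∃ y, (t, y) ∈ L) ∨ ∃ x, (x, t') ∈ L

lemma pex_succ {Q : Proc} {j : ℕ} {L : Finset (ℕ × ℕ)} (h : pexValid Q j L) :
    pexValid Q (j + 1) L := by
  refine ⟨fun x hx => ?_, h.2⟩
  obtain ⟨h1, h2, h3, h4⟩ := h.1 x hx
  refine ⟨h1, h2, h3, ?_⟩
  rw [pow_succ, ← Nat.div_div_eq_div_mul, ← Nat.div_div_eq_div_mul, h4]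

lemma pex_ext {Q : Proc} {j : ℕ} {L₀ : Finset (ℕ × ℕ)} (h : pexValid Q j L₀) :
    ∃ L, L₀ ⊆ L ∧ pexValid Q j L ∧ pexMax Q j L := by
  have hsub : ∀ L, pexValid Q j L → L ∈ (Q.E ×ˢ Q.E).powerset := by
    intro L hL
    rw [mem_powerset]
    intro x hx
    obtain ⟨h1, h2, -, -⟩ := hL.1 x hx
    exact mem_product.2 ⟨mem_range.2 h1, mem_range.2 h2⟩
  obtain ⟨L, hL, hmax⟩ := exists_max_image
    {L ∈ (Q.E ×ˢ Q.E).powerset | L₀ ⊆ L ∧ pexValid Q j L} card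
    ⟨L₀, mem_filter.2 ⟨hsub _ h, Subset.refl _, h⟩⟩
  obtain ⟨-, h1, h2⟩ := mem_filter.1 hL
  refine ⟨L, h1, h2, fun t ht t' ht' huv hw => ?_⟩
  by_contra hc
  push Not at hc
  have h3 : pexValid Q j (insert (t, t') L) := by
    constructor
    · intro x hx
      rcases mem_insert.1 hx with rfl | hx
      · exact ⟨ht, ht', huv, hw⟩
      · exact h2.1 x hx
    · intro x hx y hy hxy
      rcases mem_insert.1 hx with rfl | hx <;> rcases mem_insert.1 hy with rfl | hy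
      · rfl
      · exfalso
        rcases hxy with e | e
        · exact hc.1 y.2 (by rw [show t = y.1 from e]; exact hy)
        · exact hc.2 y.1 (by rw [show t' = y.2 from e]; exact hy)
      · exfalso
        rcases hxy with e | e
        · exact hc.1 x.2 (by rw [show t = x.1 from e.symm]; exact hx)
        · exact hc.2 x.1 (by rw [show t' = x.2 from e.symm]; exact hx)
      · exact h2.2 x hx y hy hxy
  have h4 := hmax _ (mem_filter.2 ⟨hsub _ h3, h1.trans (subset_insert _ _), h3⟩)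
  rw [card_insert_of_notMem (hc.1 t')] at h4
  omega

lemma pex_count {Q : Proc} {j : ℕ} {L : Finset (ℕ × ℕ)} (h : pexValid Q j L) (hm : pexMax Q j L)
    (hj : j ≤ Q.μ) (a : ℕ) : #{t ∈ Q.E | t / 2 ^ j = a ∧ ∀ t', (t, t') ∉ L} ≤ Q.K j a := by
  by_cases ha : a < 2 ^ (Q.μ - j)
  swap
  · rw [filter_eq_empty_iff.2, card_empty]
    · exact Nat.zero_le _
    · rintro t ht ⟨rfl, -⟩
      exact ha (win_lt hj (mem_range.1 ht))
  have h1 := win_le hj ha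
  have h0 : a * 2 ^ j ≤ (a + 1) * 2 ^ j := Nat.mul_le_mul_right _ (Nat.le_succ a)
  set U := {t ∈ Q.E | t / 2 ^ j = a ∧ ∀ t', (t, t') ∉ L} with hU
  have key : ∀ t ∈ U, #{t' ∈ U | Q.v t' = Q.v t} + (if Q.v t ∈ Q.S (a * 2 ^ j) then 1 else 0) ≤
      if Q.v t ∈ Q.S ((a + 1) * 2 ^ j) then 1 else 0 := by
    intro t ht
    obtain ⟨ht1, ht2, ht3⟩ := mem_filter.1 ht
    have h2 := Q.inout (Q.v t) h0 h1
    have h3 : ∀ t' ∈ {t' ∈ Ico (a * 2 ^ j) ((a + 1) * 2 ^ j) | Q.u t' = Q.v t},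
        ∃ x, (x, t') ∈ L := by
      intro t' ht'
      obtain ⟨a1, a2⟩ := mem_filter.1 ht'
      refine (hm t (mem_range.1 ht1) t' ((mem_Ico.1 a1).2.trans_le h1) a2.symm
        (ht2.trans (win_mem.2 a1).symm)).resolve_left ?_
      rintro ⟨y, hy⟩
      exact ht3 y hy
    choose! φ hφ using h3
    have h4 : #{t' ∈ Ico (a * 2 ^ j) ((a + 1) * 2 ^ j) | Q.u t' = Q.v t} ≤
        #({t' ∈ Ico (a * 2 ^ j) ((a + 1) * 2 ^ j) | Q.v t' = Q.v t} \
          {t' ∈ U | Q.v t' = Q.v t}) := by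
      refine card_le_card_of_injOn φ (fun t' ht' => ?_) fun x hx y hy hxy => ?_
      · have ht'' := mem_coe.1 ht'
        obtain ⟨a1, a2⟩ := mem_filter.1 ht''
        obtain ⟨-, -, b3, b4⟩ := h.1 _ (hφ t' ht'')
        refine mem_coe.2 (mem_sdiff.2 ⟨mem_filter.2 ⟨win_mem.1 (b4.trans (win_mem.2 a1)),
          b3.trans a2⟩, fun hc => ?_⟩)
        exact (mem_filter.1 (mem_filter.1 hc).1).2.2 t' (hφ t' ht'')
      · exact (Prod.mk.inj (h.2 _ (hφ x (mem_coe.1 hx)) _ (hφ y (mem_coe.1 hy)) (Or.inl hxy))).2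
    have h5 : {t' ∈ U | Q.v t' = Q.v t} ⊆
        {t' ∈ Ico (a * 2 ^ j) ((a + 1) * 2 ^ j) | Q.v t' = Q.v t} := by
      intro t' ht'
      obtain ⟨a1, a2⟩ := mem_filter.1 ht'
      exact mem_filter.2 ⟨win_mem.1 (mem_filter.1 a1).2.1, a2⟩
    have h6 := card_sdiff_add_card_eq_card h5
    omega
  have hpos : ∀ t ∈ U, 1 ≤ #{t' ∈ U | Q.v t' = Q.v t} := fun t ht =>
    card_pos.2 ⟨t, mem_filter.2 ⟨ht, rfl⟩⟩
  rw [Proc.K, card_sdiff_comm (Q.card_S (h0.trans h1) h1)]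
  refine card_le_card_of_injOn Q.v (fun t ht => ?_) fun x hx y hy hxy => ?_
  · have a1 := key t (mem_coe.1 ht)
    have a2 := hpos t (mem_coe.1 ht)
    refine mem_coe.2 (mem_sdiff.2 ⟨?_, ?_⟩)
    · by_contra hc
      rw [if_neg hc] at a1
      omega
    · intro hc
      rw [if_pos hc] at a1
      split_ifs at a1 <;> omega
  · have a1 := key y (mem_coe.1 hy)
    have a2 : #{t' ∈ U | Q.v t' = Q.v y} ≤ 1 := by
      split_ifs at a1 <;> omega
    exact card_le_one.1 a2 x (mem_filter.2 ⟨mem_coe.1 hx, hxy⟩) y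
      (mem_filter.2 ⟨mem_coe.1 hy, rfl⟩)

/-- Nested matchings.  `Lk 0 = ∅`; `Lk (j+1)` is a maximal matching containing `Lk j` among the
pairs `(t, t')` with `v t = u t'` and `t / 2^(j+1) = t' / 2^(j+1)`.  By maximality, at a vertex `q`
and a window either all in-edges or all out-edges are matched, and matched in- and out-edges are
equally many; with `Proc.inout` at most one in-edge at `q` is unmatched, and only when
`q ∈ S end \ S start`, a set of `K j a` points (`card_S`).  (For `j = 0` use `K_zero`.) -/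
theorem Proc.exists_links (Q : Proc) : ∃ Lk : ℕ → Finset (ℕ × ℕ),
    (∀ j j', j ≤ j' → Lk j ⊆ Lk j') ∧
    (∀ j, ∀ x ∈ Lk j, x.1 < 2 ^ Q.μ ∧ x.2 < 2 ^ Q.μ ∧ Q.v x.1 = Q.u x.2 ∧
      x.1 / 2 ^ j = x.2 / 2 ^ j) ∧
    (∀ j, ∀ x ∈ Lk j, ∀ y ∈ Lk j, (x.1 = y.1 ∨ x.2 = y.2) → x = y) ∧
    (∀ j ≤ Q.μ, ∀ a, #{t ∈ Q.E | t / 2 ^ j = a ∧ ∀ t', (t, t') ∉ Lk j} ≤ Q.K j a) := by
  have h0 : pexValid Q 0 ∅ := ⟨by simp, by simp⟩
  choose! nx h1 h2 h3 using fun (j : ℕ) (L : Finset (ℕ × ℕ)) (h : pexValid Q j L) => pex_ext h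
  let Lk : ℕ → Finset (ℕ × ℕ) := fun j => Nat.rec (nx 0 ∅) (fun j L => nx (j + 1) L) j
  have hv : ∀ j, pexValid Q j (Lk j) := by
    intro j
    induction j with
    | zero => exact h2 0 ∅ h0
    | succ j ih => exact h2 (j + 1) _ (pex_succ ih)
  have hm : ∀ j, pexMax Q j (Lk j) := by
    intro j
    cases j with
    | zero => exact h3 0 ∅ h0
    | succ j => exact h3 (j + 1) _ (pex_succ (hv j))
  refine ⟨Lk, fun j j' h => ?_, fun j => (hv j).1, fun j => (hv j).2,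
    fun j hj a => pex_count (hv j) (hm j) hj a⟩
  exact monotone_nat_of_le_succ (f := Lk) (fun j => h1 (j + 1) _ (pex_succ (hv j))) h

/-- A matching along which a real function strictly increases is a disjoint union of paths:
define `pos`, `pid` by recursion along predecessors (strong induction on the rank of `f t`). -/
theorem exists_pid_pos (N : ℕ) (Lk : Finset (ℕ × ℕ)) (f : ℕ → ℝ)
    (h1 : ∀ x ∈ Lk, x.1 < N ∧ x.2 < N ∧ f x.1 < f x.2)
    (h2 : ∀ x ∈ Lk, ∀ y ∈ Lk, (x.1 = y.1 ∨ x.2 = y.2) → x = y) :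
    ∃ pid pos : ℕ → ℕ, (∀ t < N, ∀ t' < N, pid t = pid t' → pos t = pos t' → t = t') ∧
      (∀ t < N, ∀ i, pos t = i + 1 → ∃ t' < N, pid t' = pid t ∧ pos t' = i) ∧
      (∀ t < N, ∀ t' < N, ((t, t') ∈ Lk ↔ pid t = pid t' ∧ pos t' = pos t + 1)) := by
  have hwf : WellFounded fun x t => (x, t) ∈ Lk := by
    refine Subrelation.wf (r := InvImage (· < ·) fun t => #{t' ∈ range N | f t' < f t}) ?_
      (InvImage.wf _ wellFounded_lt)
    intro x t h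
    obtain ⟨a1, -, a3⟩ := h1 _ h
    refine card_lt_card ⟨fun y hy => ?_, fun hc => ?_⟩
    · exact mem_filter.2 ⟨(mem_filter.1 hy).1, (mem_filter.1 hy).2.trans a3⟩
    · exact lt_irrefl _ (mem_filter.1 (hc (mem_filter.2 ⟨mem_range.2 a1, a3⟩))).2
  let pp : ℕ → ℕ × ℕ := hwf.fix fun t ih =>
    if h : ∃ x, (x, t) ∈ Lk then ((ih h.choose h.choose_spec).1, (ih h.choose h.choose_spec).2 + 1)
    else (t, 0)
  have hpp : ∀ t, pp t =
      if h : ∃ x, (x, t) ∈ Lk then ((pp h.choose).1, (pp h.choose).2 + 1) else (t, 0) :=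
    fun t => hwf.fix_eq _ t
  have e1 : ∀ x t, (x, t) ∈ Lk → (pp t).1 = (pp x).1 ∧ (pp t).2 = (pp x).2 + 1 := by
    intro x t h
    have h' : ∃ x, (x, t) ∈ Lk := ⟨x, h⟩
    have e : h'.choose = x := (Prod.mk.inj (h2 _ h'.choose_spec _ h (Or.inr rfl))).1
    rw [hpp t, dif_pos h', e]
    exact ⟨rfl, rfl⟩
  have e2 : ∀ t, (¬ ∃ x, (x, t) ∈ Lk) → (pp t).1 = t ∧ (pp t).2 = 0 := by
    intro t h
    rw [hpp t, dif_neg h]
    exact ⟨rfl, rfl⟩
  have e3 : ∀ t i, (pp t).2 = i + 1 → ∃ x, (x, t) ∈ Lk := by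
    intro t i h
    by_contra hc
    rw [(e2 t hc).2] at h
    omega
  have inj : ∀ n t t', (pp t).2 = n → (pp t').2 = n → (pp t).1 = (pp t').1 → t = t' := by
    intro n
    induction n with
    | zero =>
      intro t t' a1 a2 a3
      have b1 : ¬ ∃ x, (x, t) ∈ Lk := fun ⟨x, hx⟩ => by have := (e1 x t hx).2; omega
      have b2 : ¬ ∃ x, (x, t') ∈ Lk := fun ⟨x, hx⟩ => by have := (e1 x t' hx).2; omega
      rw [← (e2 t b1).1, a3, (e2 t' b2).1]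
    | succ n ih =>
      intro t t' a1 a2 a3
      obtain ⟨x, hx⟩ := e3 t n a1
      obtain ⟨x', hx'⟩ := e3 t' n a2
      obtain ⟨b1, b2⟩ := e1 x t hx
      obtain ⟨b3, b4⟩ := e1 x' t' hx'
      have := ih x x' (by omega) (by omega) (by omega)
      exact (Prod.mk.inj (h2 _ hx _ hx' (Or.inl this))).2
  refine ⟨fun t => (pp t).1, fun t => (pp t).2, fun t _ t' _ a b => inj _ t t' b rfl a,
    fun t _ i h => ?_, fun t _ t' _ => ⟨fun h => ?_, fun h => ?_⟩⟩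
  · obtain ⟨x, hx⟩ := e3 t i h
    obtain ⟨b1, b2⟩ := e1 x t hx
    exact ⟨x, (h1 _ hx).1, b1.symm, by simp only at h ⊢; omega⟩
  · exact ⟨(e1 t t' h).1.symm, (e1 t t' h).2⟩
  · obtain ⟨x, hx⟩ := e3 t' _ h.2
    obtain ⟨b1, b2⟩ := e1 x t' hx
    have a1 := h.1
    have a2 := h.2
    simp only at a1 a2
    rw [inj _ t x rfl (by omega) (by omega)]
    exact hx

/-- `lev t` is the least `j ≤ μ` such that `t` has a link in `Lk j`, and `μ + 1` if there is none -/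
theorem Proc.exists_paths (Q : Proc) : Nonempty (Paths Q) := by
  obtain ⟨Lk, h1, h2, h3, h4⟩ := Q.exists_links
  obtain ⟨pid, pos, h5, h6, h7⟩ := exists_pid_pos (2 ^ Q.μ) (Lk Q.μ) (fun t => (Q.u t).1)
    (fun x hx => by
      obtain ⟨a1, a2, a3, -⟩ := h2 _ x hx
      exact ⟨a1, a2, a3 ▸ Q.x_lt a1⟩) (h3 _)
  refine ⟨⟨pid, pos, fun t => if h : ∃ j, j ≤ Q.μ ∧ ∃ t', (t, t') ∈ Lk j then Nat.find h
    else Q.μ + 1, h5, h6, fun t ht t' ht' a1 a2 => ?_, fun t ht a1 => ?_, fun j hj a => ?_⟩⟩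
  · have b1 := (h7 t ht t' ht').2 ⟨a1, a2⟩
    have h : ∃ j, j ≤ Q.μ ∧ ∃ t', (t, t') ∈ Lk j := ⟨_, le_rfl, t', b1⟩
    obtain ⟨b2, t'', b3⟩ := Nat.find_spec h
    have b4 : t'' = t' := (Prod.mk.inj (h3 _ _ (h1 _ _ b2 b3) _ b1 (Or.inl rfl))).2
    subst b4
    rw [dif_pos h]
    exact (h2 _ _ b3).2.2
  · by_cases h : ∃ j, j ≤ Q.μ ∧ ∃ t', (t, t') ∈ Lk j
    · obtain ⟨j, b2, t', b3⟩ := h
      have b4 := h1 _ _ b2 b3
      have b5 := (h2 _ _ b4).2.1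
      obtain ⟨b6, b7⟩ := (h7 t ht t' b5).1 b4
      exact ⟨t', b5, b6.symm, b7⟩
    · rw [dif_neg h] at a1
      omega
  · refine le_trans (card_le_card fun t ht => ?_) (h4 j hj a)
    obtain ⟨b1, b2, b3⟩ := mem_filter.1 ht
    refine mem_filter.2 ⟨b1, b2, fun t' hc => ?_⟩
    have h : ∃ j, j ≤ Q.μ ∧ ∃ t', (t, t') ∈ Lk j := ⟨j, hj, t', hc⟩
    rw [dif_pos h] at b3
    exact absurd (Nat.find_min' h ⟨hj, t', hc⟩) (not_le.2 b3)

end Crest.Agent.R051
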