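import Crest.Agent.R051.St4a1

/-! Row 51: the good edges. -/

set_option autoImplicit false

open Finset
open scoped Classical

namespace Crest.Agent.R051

lemma st4a_cover {E F B1 B2 B3 B4 B5 B6 B7 : Finset ℕ}
    (h : ∀ t ∈ E, t ∈ F ∨ t ∈ B1 ∨ t ∈ B2 ∨ t ∈ B3 ∨ t ∈ B4 ∨ t ∈ B5 ∨ t ∈ B6 ∨ t ∈ B7) :
    (#E : ℝ) ≤ #F + (#B1 + (#B2 + (#B3 + (#B4 + (#B5 + (#B6 + #B7)))))) := by
  have h1 : E ⊆ F ∪ (B1 ∪ (B2 ∪ (B3 ∪ (B4 ∪ (B5 ∪ (B6 ∪ B7)))))) := fun t ht => by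
    simpa only [mem_union] using h t ht
  have h2 := (card_le_card h1).trans ((card_union_le _ _).trans (Nat.add_le_add_left
    ((card_union_le _ _).trans (Nat.add_le_add_left ((card_union_le _ _).trans (Nat.add_le_add_left
    ((card_union_le _ _).trans (Nat.add_le_add_left ((card_union_le _ _).trans (Nat.add_le_add_left
    ((card_union_le _ _).trans (Nat.add_le_add_left (card_union_le _ _) _)) _)) _)) _)) _)) _))
  exact_mod_cast h2

lemma st4a_div {k N a K : ℝ} (hk : 0 < k) (hN : 0 ≤ N) (hK : 0 < K) {c : ℝ} (hc : 0 < c)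
    (h : c * k * a ≤ K) : a * N / K ≤ N / k / c := by
  rw [div_div, div_le_div_iff₀ hK (by positivity)]
  calc a * N * (k * c) = N * (c * k * a) := by ring
    _ ≤ N * K := mul_le_mul_of_nonneg_left h hN

lemma st4a_small {k n d x : ℝ} (hk : 0 < k) (hn : 0 ≤ n) (hx : 0 < x) (h : 32 * k ^ 2 ≤ x * d) :
    k * n / x ≤ n * d / k / 32 := by
  rw [div_div, div_le_div_iff₀ hx (by positivity)]
  calc k * n * (k * 32) = n * (32 * k ^ 2) := by ring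
    _ ≤ n * (x * d) := mul_le_mul_of_nonneg_left h hn
    _ = n * d * x := by ring

/-- With `K = k ^ C`, `E3` is the set of edges of `E2` with the five properties; the exceptions are
the edges of `cc` (`k n / β ≤ k n lam ^ 40`, `d ≥ lam ^ 200`), `bad_Phi` (`ρ_jf ⁴ = 2 ^ jf / 2 ^ μ`,
`2 ^ μ ≤ k d⁴`), `bad_Lam` and `heavy_label` for balls (`c`, `σ = b`) and cells (`cc`, `σ = β`), each
at most `n d / (16 k)`.  `E5` removes from `E3` the edges of `bad_long` and `bad_pre`. -/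
theorem st4a : ∃ C : ℕ, ∀ (Y : Dat3) (k η : ℝ) (jf : ℕ), Y.OK k → k ^ C ≤ Y.lam →
    Y.lam⁻¹ ≤ η → jf ≤ Y.jT → k ^ C ≤ η ^ 4 * 2 ^ jf →
    ∃ Z : Dat4, Z.toDat3 = Y ∧ Z.jf = jf ∧ Z.eta = η ∧ Z.OK (k ^ C) := by
  refine ⟨29, fun Y k η jf h hlam hη hjf hη4 => ?_⟩
  have hk := h.ok.k2
  have hk0 : 0 < k := by linarith
  have hk1 : 1 ≤ k := by linarith
  have hl1 := h.ok.lam1
  have hl0 : 0 < Y.lam := by linarith
  have hn := h.ok.n_pos
  have hd : 0 < Y.d := by linarith [h.ok.d1]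
  have hb := h.ok.b_pos
  have hη0 : 0 < η := (inv_pos.2 hl0).trans_le hη
  have hβ : 0 < Y.beta := (inv_pos.2 (pow_pos hl0 40)).trans_le h.beta_lo
  have hρ := rho_pos Y.Q.μ jf
  have pw : ∀ a b : ℕ, a + b ≤ 29 → 2 ^ a * k ^ b ≤ k ^ 29 := fun a b hab =>
    calc (2 : ℝ) ^ a * k ^ b ≤ k ^ a * k ^ b := by gcongr
      _ = k ^ (a + b) := (pow_add _ _ _).symm
      _ ≤ _ := pow_le_pow_right₀ hk1 hab
  have p1 := pw 5 2 (by norm_num)
  have p2 := pw 7 6 (by norm_num)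
  have p3 := pw 10 4 (by norm_num)
  have p4 := pw 20 9 (by norm_num)
  have p5 := pw 2 1 (by norm_num)
  generalize k ^ 29 = K at *
  have hK : 0 < K := lt_of_lt_of_le (by positivity) p5
  have hkK : k ≤ K := by linarith
  have small : ∀ x : ℝ, (Y.lam ^ 40)⁻¹ ≤ x → 32 * k ^ 2 ≤ x * Y.d := fun x hx =>
    calc 32 * k ^ 2 ≤ Y.lam := by linarith
      _ ≤ Y.lam ^ 160 := le_self_pow₀ hl1 (by norm_num)
      _ = (Y.lam ^ 40)⁻¹ * Y.lam ^ 200 := by field_simp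
      _ ≤ x * Y.d := mul_le_mul hx h.ok.big (by positivity) ((by positivity : (0 : ℝ) ≤ _).trans hx)
  have s1 := st4a_small hk0 hn.le hβ (small _ h.beta_lo)
  have s2 := st4a_small hk0 hn.le hb (small _ (h.beta_lo.trans h.beta_hi))
  have s3 := st4a_small hk0 hn.le (mul_pos hb hη0) (small _ (
    calc (Y.lam ^ 40)⁻¹ ≤ (Y.lam ^ 21)⁻¹ :=
          inv_anti₀ (by positivity) (pow_le_pow_right₀ hl1 (by norm_num))
      _ = Y.b * Y.lam⁻¹ := by unfold Dat.b; field_simp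
      _ ≤ Y.b * η := by gcongr))
  have s4 := st4a_small (d := Y.d) hk0 hn.le (mul_pos hρ hη0) (by
    refine le_of_pow_le_pow_left₀ (n := 4) (by norm_num) (by positivity) ?_
    have h1 : (2 : ℝ) ^ Y.Q.μ ≤ k * Y.d ^ 4 := by
      have := h.ok.base.upper
      rw [← h.ok.base.hd] at this
      linarith
    have h2 : (rho Y.Q.μ jf * η * Y.d) ^ 4 = η ^ 4 * 2 ^ jf * Y.d ^ 4 / 2 ^ Y.Q.μ := by
      rw [mul_pow, mul_pow, rho_pow]
      ring
    rw [h2, le_div_iff₀ (by positivity)]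
    calc (32 * k ^ 2) ^ 4 * 2 ^ Y.Q.μ ≤ (32 * k ^ 2) ^ 4 * (k * Y.d ^ 4) := by gcongr
      _ = 2 ^ 20 * k ^ 9 * Y.d ^ 4 := by ring
      _ ≤ _ := mul_le_mul_of_nonneg_right (p4.trans hη4) (by positivity))
  have hN : 0 ≤ Y.n * Y.d := by positivity
  have s5 := st4a_div (a := 4 * k ^ 5) (c := 32) hk0 hN hK (by norm_num) (by linarith)
  have s6 := st4a_div (a := 18 * k ^ 3) (c := 36) hk0 hN hK (by norm_num)
    (by linarith [pow_pos hk0 4])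
  have s7 := st4a_div (a := k) (c := 32) hk0 hN hK (by norm_num) (by linarith)
  have s8 : Y.n * Y.d / (36 * k) = Y.n * Y.d / k / 36 := by rw [div_div, mul_comm k]
  set E3 : Finset ℕ := {t ∈ Y.E2 | Y.cell (Y.Q.u t) = Y.cell (Y.Q.v t) ∧
    (Y.G.Phi Y.c jf (Y.G.pc Y.c t) : ℝ) ≤ η * Y.ell ∧
    Y.G.Lam Y.c Y.jT (Y.G.pc Y.c t) ≤ K * Y.b ^ 2 * Y.M ∧
    (#({t' ∈ Y.Q.E | Y.ball (Y.Q.u t') = Y.ball (Y.Q.u t)}.image (Y.G.pc Y.c)) : ℝ) ≤ K * Y.M ∧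
    (#({t' ∈ Y.Q.E | Y.cell (Y.Q.u t') = Y.cell (Y.Q.u t)}.image (Y.G.pc Y.cc)) : ℝ) ≤
      K * Y.n * Y.beta} with hE3
  have hsub : E3 ⊆ Y.E2 := filter_subset _ _
  set E5 : Finset ℕ := {t ∈ E3 |
    Y.beta * Y.d ≤ K * #{t' ∈ E3 | Y.G.pc Y.cc t' = Y.G.pc Y.cc t} ∧
    Y.ell ≤ K * #{t' ∈ Y.E2 | Y.G.pc Y.c t' = Y.G.pc Y.c t ∧ Y.G.pos t' < Y.G.pos t}} with hE5
  have b1 := h.cc_card
  have b2 := h.bad_Phi hjf hη0
  have b3 := h.bad_Lam hK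
  have b4 := heavy_label h.ok.base Y.G h.ok.jT_le h.c_lev Y.ball h.c_ball hb hK h.ball_card h.c_card
  have b5 := heavy_label h.ok.base Y.G h.ok.jT_le (fun t ht h' => h.cc_c t ht (h.c_lev t ht h'))
    Y.cell h.cc_cell hβ hK h.cell_card h.cc_card
  have b6 := h.bad_long E3 hsub hK
  have b7 := h.bad_pre hK
  have hc : (#Y.E2 : ℝ) ≤ #E5 + _ := le_trans (st4a_cover (F := E5) fun t ht => ?_)
    (add_le_add le_rfl (add_le_add b1 (add_le_add b2 (add_le_add b3 (add_le_add b4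
      (add_le_add b5 (add_le_add b6 b7)))))))
  · have e1 : 2 * (k * Y.n / Y.b + k * Y.n / rho Y.Q.μ jf) / η =
        2 * (k * Y.n / (Y.b * η)) + 2 * (k * Y.n / (rho Y.Q.μ jf * η)) := by
      field_simp
    have e2 : Y.n * Y.d / k ≤ #Y.E2 := by
      rw [div_le_iff₀' hk0]
      exact h.ok.E2_big
    have e3 : (#Y.Q.P : ℝ) = Y.n := rfl
    rw [e1, e3, s8] at hc
    have e4 : Y.n * Y.d / k ≤ 4 * #E5 := by linarith [div_nonneg hN hk0.le]
    refine ⟨⟨Y, E3, E5, jf, η⟩, rfl, rfl, rfl, h.mono hkK, hjf, hη0, hsub,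
      fun t ht => (mem_filter.1 ht).2.1, fun t ht => (mem_filter.1 ht).2.2.1,
      fun t ht => (mem_filter.1 ht).2.2.2.1, fun t ht => (mem_filter.1 ht).2.2.2.2.1,
      fun t ht => (mem_filter.1 ht).2.2.2.2.2, filter_subset _ _,
      fun t ht => (mem_filter.1 ht).2.1, fun t ht => (mem_filter.1 ht).2.2, ?_⟩
    rw [div_le_iff₀' hk0] at e4
    have : (0 : ℝ) ≤ #E5 := Nat.cast_nonneg _
    change Y.n * Y.d ≤ K * #E5
    nlinarith
  · have htE := h.ok.sub ht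
    have ht' : t < 2 ^ Y.Q.μ := mem_range.1 htE
    by_contra hcon
    simp only [not_or, mem_filter, not_and, not_lt] at hcon
    obtain ⟨c0, c1, c2, c3, c4, c5, c6, c7⟩ := hcon
    have hcell : Y.cell (Y.Q.u t) = Y.cell (Y.Q.v t) := by
      by_contra hne
      exact c1 htE (h.cc_cell t ht' hne)
    have h3 : t ∈ E3 := mem_filter.2 ⟨ht, hcell, c2 htE, c3 ht,
      (c4 htE (h.cb _ _ hcell)).trans_eq (mul_assoc _ _ _), c5 htE hcell⟩
    exact c0 (mem_filter.2 ⟨h3, c6 h3, c7 ht⟩)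

end Crest.Agent.R051
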