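import Crest.Agent.R051.SBasic
import Crest.Agent.R051.G1

/-! Row 51: many crossings inside cells. -/

set_option autoImplicit false

open Finset
open scoped Classical

namespace Crest.Agent.R051

/-- `cb_same` for the arcs `(t, t)` (`isArc_edge`, `disj_edge`, `jf = 0`, cut set `j < lev`) and
`lam_sum` with `σ = k ρ_j`, `#{j < lev} ≤ k n / ρ_j` -/
theorem Dat.OK.same_win {X : Dat} {k : ℝ} (h : X.OK k) {j : ℕ} (hj : j ≤ X.Q.μ) :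
    (#{x ∈ X.E2 ×ˢ X.E2 | x.1 / 2 ^ j = x.2 / 2 ^ j ∧
      Cross (X.Q.u x.1) (X.Q.v x.1) (X.Q.u x.2) (X.Q.v x.2)} : ℝ) ≤
      2 * k ^ 5 * X.n ^ 2 * rho X.Q.μ j ^ 2 := by
  have hk := h.k2
  have hρ := rho_pos X.Q.μ j
  have hn := h.n_pos
  have hE : ∀ t ∈ X.E2, t < 2 ^ X.Q.μ := fun t ht => mem_range.1 (h.sub ht)
  obtain ⟨c, hcdef⟩ : ∃ c : ℕ → Prop, ∀ t, c t ↔ j < X.G.lev t := ⟨_, fun _ => Iff.rfl⟩
  have hc : ∀ t < 2 ^ X.Q.μ, j < X.G.lev t → c t := fun _ _ h => (hcdef _).2 h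
  have h1 := X.G.cb_same (c := c) (jf := 0) (Nat.zero_le j) hj hc
    (X.E2.image fun t => (t, t)) (fun a ha => by
      obtain ⟨t, ht, rfl⟩ := mem_image.1 ha
      exact X.G.isArc_edge c 0 (hE t ht))
    (fun a ha a' ha' hne => by
      obtain ⟨t, ht, rfl⟩ := mem_image.1 ha
      obtain ⟨t', ht', rfl⟩ := mem_image.1 ha'
      exact X.G.disj_edge (hE t ht) (hE t' ht') fun e => hne (by rw [e]))
    (X.E2.image (X.G.pc c)) (fun a ha => by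
      obtain ⟨t, ht, rfl⟩ := mem_image.1 ha
      exact mem_image_of_mem _ ht)
  have h2 := X.G.lam_sum h.base hj hc (k * rho X.Q.μ j) (by positivity) (X.E2.image (X.G.pc c))
    (fun t ht hm => by
      obtain ⟨t', ht', e⟩ := mem_image.1 hm
      rw [← X.G.pc_win hc (hE t' ht') ht e]
      refine (h.nh t' ht' j hj).trans ?_
      have h3 : k ≤ k ^ 3 := le_self_pow₀ (by linarith) (by norm_num)
      calc k * X.n * rho X.Q.μ j ^ 3 ≤ k ^ 3 * X.n * rho X.Q.μ j ^ 3 := by gcongr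
        _ = #X.Q.P * (k * rho X.Q.μ j) ^ 3 := by unfold Dat.n; ring)
  have h3 : (#{t ∈ X.Q.E | c t} : ℝ) ≤ k * X.n / rho X.Q.μ j := by
    refine le_trans ?_ (h.base.g1a j hj)
    have := X.G.count_all hj
    rw [filter_congr fun t _ => hcdef t]
    exact_mod_cast this
  have h4 : #{x ∈ X.E2 ×ˢ X.E2 | x.1 / 2 ^ j = x.2 / 2 ^ j ∧
      Cross (X.Q.u x.1) (X.Q.v x.1) (X.Q.u x.2) (X.Q.v x.2)} ≤
      #{x ∈ (X.E2.image fun t => (t, t)) ×ˢ (X.E2.image fun t => (t, t)) |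
        X.Q.ACross x.1 x.2 ∧ x.1.1 / 2 ^ j = x.2.1 / 2 ^ j} := by
    refine card_le_card_of_injOn (fun x => ((x.1, x.1), (x.2, x.2))) (fun x hx => ?_)
      fun x _ y _ e => ?_
    · simp only [coe_filter, mem_product, Set.mem_ofPred_eq] at hx ⊢
      exact ⟨⟨mem_image_of_mem _ hx.1.1, mem_image_of_mem _ hx.1.2⟩, hx.2.2, hx.2.1⟩
    · simp only [Prod.mk.injEq] at e
      exact Prod.ext e.1.1 e.2.1
  have h5 := (Nat.cast_le (α := ℝ)).2 h4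
  refine h5.trans (h1.trans ?_)
  rw [pow_zero, sub_self, zero_mul, add_zero]
  refine h2.trans ?_
  have hn' : (#X.Q.P : ℝ) = X.n := rfl
  rw [hn']
  have h6 : k ^ 4 ≤ k ^ 5 := pow_le_pow_right₀ (by linarith) (by norm_num)
  calc k * (#{t ∈ X.Q.E | c t} * (X.n * (k * rho X.Q.μ j) ^ 3) +
        k * X.n ^ 2 * (k * rho X.Q.μ j) ^ 2)
      ≤ k * (k * X.n / rho X.Q.μ j * (X.n * (k * rho X.Q.μ j) ^ 3) +
        k * X.n ^ 2 * (k * rho X.Q.μ j) ^ 2) := by gcongr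
    _ = (k ^ 5 + k ^ 4) * X.n ^ 2 * rho X.Q.μ j ^ 2 := by field_simp
    _ ≤ (k ^ 5 + k ^ 5) * X.n ^ 2 * rho X.Q.μ j ^ 2 := by gcongr
    _ = _ := by ring

/-- the crossing lemma in every cell -/
lemma st4c_cells {Z : Dat4} {k : ℝ} (h : Z.OK k) {p : ℝ} (hp0 : 0 < p) (hp1 : p ≤ 1) :
    (#Z.E5 : ℝ) ≤ 3 * k * Z.n / p + p ^ 2 *
      #{x ∈ Z.E5 ×ˢ Z.E5 | Z.cell (Z.Q.u x.1) = Z.cell (Z.Q.u x.2) ∧
        Cross (Z.Q.u x.1) (Z.Q.v x.1) (Z.Q.u x.2) (Z.Q.v x.2)} := by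
  have hE : ∀ t ∈ Z.E5, t < 2 ^ Z.Q.μ := fun t ht =>
    mem_range.1 (h.ok.ok.sub (h.E3_sub (h.E5_sub ht)))
  have hu : ∀ t ∈ Z.E5, Z.cell (Z.Q.u t) ∈ Z.Q.P.image Z.cell := fun t ht =>
    mem_image_of_mem _ (Z.Q.u_P (hE t ht))
  have e1 : #Z.E5 = ∑ a ∈ Z.Q.P.image Z.cell, #{t ∈ Z.E5 | Z.cell (Z.Q.u t) = a} :=
    card_eq_sum_card_fiberwise fun t ht => hu t ht
  have e2 : #Z.Q.P = ∑ a ∈ Z.Q.P.image Z.cell, #{q ∈ Z.Q.P | Z.cell q = a} :=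
    card_eq_sum_card_fiberwise fun q hq => mem_image_of_mem _ hq
  have e3 : #{x ∈ Z.E5 ×ˢ Z.E5 | Z.cell (Z.Q.u x.1) = Z.cell (Z.Q.u x.2) ∧
        Cross (Z.Q.u x.1) (Z.Q.v x.1) (Z.Q.u x.2) (Z.Q.v x.2)} =
      ∑ a ∈ Z.Q.P.image Z.cell, #{x ∈ {t ∈ Z.E5 | Z.cell (Z.Q.u t) = a} ×ˢ
        {t ∈ Z.E5 | Z.cell (Z.Q.u t) = a} |
          Cross (Z.Q.u x.1) (Z.Q.v x.1) (Z.Q.u x.2) (Z.Q.v x.2)} := by
    rw [card_eq_sum_card_fiberwise (f := fun x : ℕ × ℕ => Z.cell (Z.Q.u x.1))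
      (t := Z.Q.P.image Z.cell) fun x hx => hu _ (mem_product.1 (mem_filter.1 hx).1).1]
    refine sum_congr rfl fun a _ => congrArg card ?_
    ext x
    simp only [mem_filter, mem_product]
    constructor
    · rintro ⟨⟨⟨h1, h2⟩, h3, h4⟩, h5⟩
      exact ⟨⟨⟨h1, h5⟩, h2, h3.symm.trans h5⟩, h4⟩
    · rintro ⟨⟨⟨h1, h5⟩, h2, h3⟩, h4⟩
      exact ⟨⟨⟨h1, h2⟩, h5.trans h3.symm, h4⟩, h5⟩
  have hn' : Z.n = (#Z.Q.P : ℝ) := rfl
  rw [e1, hn', e2, e3]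
  push_cast
  rw [mul_sum, mul_sum, sum_div, ← sum_add_distrib]
  refine sum_le_sum fun a _ => ?_
  refine h.ok.ok.base.cl_edges _ (filter_subset _ _) _ (fun t ht => ?_) p hp0 hp1
  obtain ⟨h1, h2⟩ := mem_filter.1 ht
  exact ⟨hE t h1, mem_filter.2 ⟨Z.Q.u_P (hE t h1), h2⟩,
    mem_filter.2 ⟨Z.Q.v_mem t (hE t h1), (h.E3_cell t (h.E5_sub h1)).symm.trans h2⟩⟩

/-- split by the order of the windows -/
lemma st4c_split {Z : Dat4} {k : ℝ} (h : Z.OK k) :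
    #{x ∈ Z.E5 ×ˢ Z.E5 | Z.cell (Z.Q.u x.1) = Z.cell (Z.Q.u x.2) ∧
        Cross (Z.Q.u x.1) (Z.Q.v x.1) (Z.Q.u x.2) (Z.Q.v x.2)} ≤
      #{x ∈ Z.E2 ×ˢ Z.E2 | x.1 / 2 ^ Z.js = x.2 / 2 ^ Z.js ∧
        Cross (Z.Q.u x.1) (Z.Q.v x.1) (Z.Q.u x.2) (Z.Q.v x.2)} + 2 * #Z.XX := by
  have hs : #(Z.XX.image Prod.swap) ≤ #Z.XX := card_image_le
  calc _ ≤ #({x ∈ Z.E2 ×ˢ Z.E2 | x.1 / 2 ^ Z.js = x.2 / 2 ^ Z.js ∧
        Cross (Z.Q.u x.1) (Z.Q.v x.1) (Z.Q.u x.2) (Z.Q.v x.2)} ∪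
          (Z.XX ∪ Z.XX.image Prod.swap)) := by
        refine card_le_card fun x hx => ?_
        obtain ⟨h1, h2, h3⟩ := mem_filter.1 hx
        obtain ⟨h4, h5⟩ := mem_product.1 h1
        rcases lt_trichotomy (x.1 / 2 ^ Z.js) (x.2 / 2 ^ Z.js) with h6 | h6 | h6
        · exact mem_union_right _ (mem_union_left _ (mem_filter.2 ⟨h1, h2, h6, h3⟩))
        · exact mem_union_left _ (mem_filter.2 ⟨mem_product.2
            ⟨h.E3_sub (h.E5_sub h4), h.E3_sub (h.E5_sub h5)⟩, h6, h3⟩)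
        · exact mem_union_right _ (mem_union_right _ (mem_image.2 ⟨x.swap, mem_filter.2
            ⟨mem_product.2 ⟨h5, h4⟩, h2.symm, h6, g1_cross_symm h3⟩, Prod.swap_swap x⟩))
    _ ≤ _ := (card_union_le _ _).trans (by
        have := card_union_le Z.XX (Z.XX.image Prod.swap)
        omega)

lemma st4c_num {k d n lam e A B W ρ : ℝ} (hk : 2 ≤ k) (hd : 0 < d) (hn : n = d ^ 3)
    (hl : k ^ 19 ≤ lam) (he : n * d ≤ k * e)
    (h1 : e ≤ 3 * k * n / (6 * k ^ 2 / d) + (6 * k ^ 2 / d) ^ 2 * A) (h2 : A ≤ B + 2 * W)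
    (h3 : B ≤ 2 * k ^ 5 * n ^ 2 * ρ ^ 2) (hρ0 : 0 ≤ ρ) (hρ : ρ ≤ (lam ^ 2)⁻¹) (hW : 0 ≤ W) :
    n ^ 2 ≤ k ^ 19 * W := by
  have hk0 : 0 < k := by linarith
  have hn0 : 0 < n := by rw [hn]; positivity
  have h9 : (288 : ℝ) ≤ k ^ 9 := le_trans (by norm_num) (pow_le_pow_left₀ (by norm_num) hk 9)
  have hl1 : 1 ≤ lam := le_trans (one_le_pow₀ (by linarith)) hl
  have hA : n ^ 2 ≤ 72 * k ^ 5 * A := by
    have e1 : k * (3 * k * n / (6 * k ^ 2 / d) + (6 * k ^ 2 / d) ^ 2 * A) =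
        n * d / 2 + 36 * k ^ 5 * A / d ^ 2 := by field_simp; ring
    have e2 : n * d / 2 ≤ 36 * k ^ 5 * A / d ^ 2 := by
      have := mul_le_mul_of_nonneg_left h1 hk0.le
      linarith
    rw [le_div_iff₀ (by positivity)] at e2
    have e3 : n * d / 2 * d ^ 2 = n ^ 2 / 2 := by rw [hn]; ring
    linarith
  have hρ2 : 288 * k ^ 10 * ρ ^ 2 ≤ 1 := by
    have a1 : ρ ^ 2 ≤ lam⁻¹ := by
      calc ρ ^ 2 ≤ ((lam ^ 2)⁻¹) ^ 2 := by gcongr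
        _ = (lam ^ 4)⁻¹ := by ring
        _ ≤ lam⁻¹ := inv_anti₀ (by linarith) (le_self_pow₀ hl1 (by norm_num))
    have a2 : 288 * k ^ 10 ≤ lam := by
      calc 288 * k ^ 10 ≤ k ^ 9 * k ^ 10 := by gcongr
        _ = k ^ 19 := by ring
        _ ≤ lam := hl
    calc 288 * k ^ 10 * ρ ^ 2 ≤ lam * lam⁻¹ := by gcongr
      _ = 1 := mul_inv_cancel₀ (by linarith)
  have hB : 72 * k ^ 5 * B ≤ n ^ 2 / 2 := by
    calc 72 * k ^ 5 * B ≤ 72 * k ^ 5 * (2 * k ^ 5 * n ^ 2 * ρ ^ 2) := by gcongr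
      _ = (288 * k ^ 10 * ρ ^ 2) * (n ^ 2 / 2) := by ring
      _ ≤ 1 * (n ^ 2 / 2) := by gcongr
      _ = _ := one_mul _
  have hC : 72 * k ^ 5 * A ≤ 72 * k ^ 5 * (B + 2 * W) := by gcongr
  have hD : 288 * k ^ 5 ≤ k ^ 19 := by
    calc 288 * k ^ 5 ≤ k ^ 9 * k ^ 5 := by gcongr
      _ = k ^ 14 := by ring
      _ ≤ k ^ 19 := pow_le_pow_right₀ (by linarith) (by norm_num)
  calc n ^ 2 ≤ 288 * k ^ 5 * W := by linarith
    _ ≤ _ := by gcongr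

/-- `cl_edges` in every cell with `p = 6 k² / d` gives `n² / (72 k⁵)` ordered crossing pairs in a
common cell; those in a common level-`js` window are at most `2 k⁵ n² / lam⁴` (`same_win`,
`rho_js`), the others are `2 #XX` by symmetry (`g1_cross_symm`). -/
theorem st4c : ∃ C : ℕ, ∀ (Z : Dat4) (k : ℝ), Z.OK k → k ^ C ≤ Z.lam →
    Z.n ^ 2 ≤ k ^ C * #Z.XX := by
  refine ⟨19, fun Z k h hl => ?_⟩
  have h0 := h.ok.ok
  have hk := h0.k2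
  have hd := h0.d1
  have hp1 : 6 * k ^ 2 / Z.d ≤ 1 := by
    rw [div_le_one (by linarith)]
    have h3 : (6 : ℝ) ≤ k ^ 3 := le_trans (by norm_num) (pow_le_pow_left₀ (by norm_num) hk 3)
    calc 6 * k ^ 2 ≤ k ^ 3 * k ^ 2 := by gcongr
      _ = k ^ 5 := by ring
      _ ≤ k ^ 19 := pow_le_pow_right₀ (by linarith) (by norm_num)
      _ ≤ Z.lam := hl
      _ ≤ Z.lam ^ 200 := le_self_pow₀ h0.lam1 (by norm_num)
      _ ≤ Z.d := h0.big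
  have h2 := (Nat.cast_le (α := ℝ)).2 (st4c_split h)
  push_cast at h2
  exact st4c_num hk (by linarith) h0.n_eq hl h.E5_big (st4c_cells h (by positivity) hp1) h2
    (h0.same_win h0.js_le) (rho_pos _ _).le h0.rho_js (Nat.cast_nonneg _)

end Crest.Agent.R051
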