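import Crest.Agent.R051.St5a

/-! Row 51: one ball and one vertex. -/

set_option autoImplicit false

open Finset
open scoped Classical

namespace Crest.Agent.R051

lemma st5_mem {Z : Dat4} {θ : ℝ} {p : Pt} {x : ℕ × (ℕ × ℕ)} (hx : x ∈ Z.Ap θ p) :
    (p, x) ∈ Z.AA θ := by
  obtain ⟨w, hw, rfl⟩ := mem_image.1 hx
  obtain ⟨h1, rfl⟩ := mem_filter.1 hw
  exact h1

lemma st5_edge {Z : Dat4} {θ : ℝ} {p : Pt} {δ : ℕ × ℕ} (hδ : δ ∈ (Z.Ap θ p).image Prod.snd) :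
    ∃ e ∈ Z.E5, Z.G.pc Z.c e = δ := by
  obtain ⟨x, hx, rfl⟩ := mem_image.1 hδ
  have h1 := (mem_filter.1 (st5_mem hx)).1
  exact mem_image.1 (mem_product.1 (mem_product.1 h1).2).2

lemma st5_pow {k z : ℝ} (hk : 2 ≤ k) (hz : 1 ≤ z) : 256 * k ^ 8 * z ≤ (k * z) ^ 16 := by
  have h1 : 2 ≤ k * z := by nlinarith
  have h2 : (256 : ℝ) ≤ (k * z) ^ 8 := by
    calc (256 : ℝ) = 2 ^ 8 := by norm_num
      _ ≤ _ := pow_le_pow_left₀ (by norm_num) h1 8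
  have h3 : z ≤ z ^ 8 := le_self_pow₀ hz (by norm_num)
  calc 256 * k ^ 8 * z ≤ (k * z) ^ 8 * k ^ 8 * z ^ 8 := by gcongr
    _ = (k * z) ^ 16 := by ring

lemma st5_le {k z c : ℝ} {i : ℕ} (hk : 2 ≤ k) (hz : 1 ≤ z) (hc : c ≤ 256) (hi : i ≤ 8) :
    c * k ^ i * z ≤ (k * z) ^ 16 := by
  refine le_trans ?_ (st5_pow hk hz)
  have : k ^ i ≤ k ^ 8 := pow_le_pow_right₀ (by linarith) hi
  gcongr

/-- The good points (`good_pts`) lie in at least `1 / (32 k⁴ z b²)` balls; choose one with small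
budgets (`exists_two_small`, `EB_tot` with `ρ_jr ≥ rr / 2`, `FB_tot` with `D = k n rr³`,
`σ = k rr`) and a good point `p` in it.  `VB = {q ∈ P | ball q = ball p}`, `JJ = JJp p`,
`A = Ap θ p`, `Γ0 = A.image snd`, `e0 = ⌈β d / k⌉₊`, `por x` = a subset with `e0` elements of the
portion given by `AA_por` (choice).  `nh`: an edge of a piece of `Γ0` is in the same level-`jT` and
level-`jr` windows as an edge of `E2` (`pc_win`). -/
theorem st5 : ∃ C : ℕ, ∀ (Z : Dat4) (k θ z : ℝ), Z.OK k → 2 ≤ Z.lam → 0 < θ → 1 ≤ z →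
    Z.beta * z * Z.L = Z.b → Z.n * Z.M * Z.L ≤ 4 * k ^ 2 * #(Z.AA θ) →
    ∃ W : Dat5, W.toDat = Z.toDat ∧ W.OK ((k * z) ^ C) := by
  refine ⟨16, fun Z k θ z h hlam hθ hz1 hz hA => ?_⟩
  have h0 := h.ok.ok
  have hk := h0.k2
  have hk0 : 0 < k := by linarith
  have hz0 : 0 < z := by linarith
  have hn := h0.n_pos
  have hb := h0.b_pos
  have hrr := h0.rr_pos
  have hM := h0.M_pos
  have hL : 0 < Z.L := by linarith [h0.L1]
  have hd : 0 < Z.d := by linarith [h0.d1]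
  have hK : ∀ (c : ℝ) (i : ℕ), c ≤ 256 → i ≤ 8 → c * k ^ i * z ≤ (k * z) ^ 16 :=
    fun c i hc hi => st5_le hk hz1 hc hi
  have hKz : k * z ≤ (k * z) ^ 16 := by simpa using hK 1 1 (by norm_num) (by norm_num)
  have hKk : k ≤ (k * z) ^ 16 := le_trans (by nlinarith) hKz
  have hg := h.good_pts hθ hz1 hz hA
  set GPt := {p ∈ Z.Q.P | Z.M * Z.L ≤ 8 * k ^ 2 * #(Z.Ap θ p) ∧
      (#(Z.JJp p) : ℝ) ≤ 32 * k ^ 5 * z * Z.L} with hGPt
  set S := GPt.image Z.ball with hS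
  have hcard : (#GPt : ℝ) ≤ #S * Z.y := by
    have h1 : #GPt = ∑ a ∈ S, #{q ∈ GPt | Z.ball q = a} :=
      card_eq_sum_card_image Z.ball GPt
    rw [h1, Nat.cast_sum, ← nsmul_eq_mul]
    refine sum_le_card_nsmul _ _ _ fun a _ => le_trans ?_ (h.ok.ball_card a)
    exact_mod_cast card_le_card (filter_subset_filter _ (filter_subset _ _))
  have hS1 : 1 ≤ 32 * k ^ 4 * z * Z.b ^ 2 * #S := by
    have h1 : Z.n * 1 ≤ Z.n * (32 * k ^ 4 * z * Z.b ^ 2 * #S) := by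
      calc Z.n * 1 = Z.n := mul_one _
        _ ≤ 32 * k ^ 4 * z * #GPt := hg
        _ ≤ 32 * k ^ 4 * z * (#S * Z.y) := by gcongr
        _ = _ := by rw [Dat.y]; ring
    exact le_of_mul_le_mul_left h1 hn
  have hSne : S.Nonempty := by
    rw [nonempty_iff_ne_empty]
    intro he
    rw [he] at hS1
    norm_num at hS1
  have hρ := rho_pos Z.Q.μ Z.jr
  have hD : k * Z.n * Z.rr ^ 3 ≤ #Z.Q.P * (k * Z.rr) ^ 3 := by
    have h1 : k ≤ k ^ 3 := le_self_pow₀ (by linarith) (by norm_num)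
    calc k * Z.n * Z.rr ^ 3 ≤ k ^ 3 * Z.n * Z.rr ^ 3 := by gcongr
      _ = _ := by rw [Dat.n]; ring
  have hnP : (0 : ℝ) < #Z.Q.P := hn
  obtain ⟨a, ha, hE, hF⟩ := exists_two_small S hSne _ _
    (fun _ _ => sum_nonneg fun _ _ => by positivity)
    (fun _ _ => sum_nonneg fun _ _ => sum_nonneg fun _ _ => by positivity)
    (by positivity) (by positivity)
    (h0.base.EB_tot h0.jr_le Z.ball S)
    (h0.base.FB_tot h0.jr_le Z.ball S (mul_pos hk0 hrr) hD)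
  obtain ⟨p, hp, rfl⟩ := mem_image.1 ha
  obtain ⟨hpP, hp1, hp2⟩ := mem_filter.1 hp
  have hpor : ∀ x : ℕ × (ℕ × ℕ), ∃ por : Finset ℕ, x ∈ Z.Ap θ p →
      #por = ⌈Z.beta * Z.d / k⌉₊ ∧ ∀ t ∈ por, t < 2 ^ Z.Q.μ ∧ Z.G.pc Z.c t = x.2 ∧
        Z.Q.u t ∈ {q ∈ Z.Q.P | Z.ball q = Z.ball p} ∧
        Z.Q.v t ∈ {q ∈ Z.Q.P | Z.ball q = Z.ball p} ∧
        Cone (Z.xl x.1) (Z.xh x.1) p (Z.Q.u t) ∧ Cone (Z.xl x.1) (Z.xh x.1) p (Z.Q.v t) ∧
        (x.1 + 1) * 2 ^ Z.ja ≤ t / 2 ^ Z.jr * 2 ^ Z.jr := by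
    intro x
    by_cases hx : x ∈ Z.Ap θ p
    · obtain ⟨-, por, h1, h2, h3⟩ := h.AA_por hθ (st5_mem hx)
      have h4 : ⌈Z.beta * Z.d / k⌉₊ ≤ #por := by
        rw [Nat.ceil_le, div_le_iff₀ hk0]
        linarith
      obtain ⟨por', h5, h6⟩ := exists_subset_card_eq h4
      refine ⟨por', fun _ => ⟨h6, fun t ht => ?_⟩⟩
      obtain ⟨e1, e2, e3, e4, e5, e6⟩ := h3 t (h5 ht)
      have ht' := h.st4f_E3 (h1 (h5 ht))
      exact ⟨ht', e1, mem_filter.2 ⟨Z.Q.u_P ht', e2⟩, mem_filter.2 ⟨Z.Q.v_mem t ht', e3⟩,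
        e4, e5, e6⟩
    · exact ⟨∅, fun h => absurd h hx⟩
  choose por hpor using hpor
  refine ⟨⟨Z.toDat, Z.c, {q ∈ Z.Q.P | Z.ball q = Z.ball p}, p, Z.JJp p,
    (Z.Ap θ p).image Prod.snd, Z.Ap θ p, ⌈Z.beta * Z.d / k⌉₊, por, k * Z.n * Z.rr ^ 3⟩, rfl, ?_⟩
  refine ⟨h0.mono hKk, h.ok.c_lev, filter_subset _ _, h.ok.ball_card _, hpP, ?_, ?_, ?_, ?_, ?_,
    ?_, ?_, fun x hx => (hpor x hx).1, fun x hx => (hpor x hx).2, ?_, ?_, ?_, ?_, ?_, ?_⟩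
  · intro J hJ
    obtain ⟨τ, hτ, rfl⟩ := mem_image.1 hJ
    exact mem_range.2 (win_lt h0.ja_le (mem_range.1 (h0.sub (mem_filter.1 hτ).1)))
  · exact hp2.trans (mul_le_mul_of_nonneg_right (hK 32 5 (by norm_num) (by norm_num)) hL.le)
  · exact (h.Ap_snd hθ p).trans (mul_le_mul_of_nonneg_right hKk hM.le)
  · intro x hx
    obtain ⟨⟨τ, h1, h2, h3⟩, -⟩ := h.AA_por hθ (st5_mem hx)
    exact mem_product.2 ⟨mem_image.2 ⟨τ, mem_filter.2 ⟨h1, h2⟩, h3⟩, mem_image_of_mem _ hx⟩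
  · refine hp1.trans (mul_le_mul_of_nonneg_right ?_ (Nat.cast_nonneg _))
    refine le_trans ?_ (hK 8 2 (by norm_num) (by norm_num))
    exact le_mul_of_one_le_right (by positivity) hz1
  · have h1 : Z.beta * Z.d ≤ k * ⌈Z.beta * Z.d / k⌉₊ := by
      have := Nat.le_ceil (Z.beta * Z.d / k)
      rw [div_le_iff₀ hk0] at this
      linarith
    change Z.ell ≤ (k * z) ^ 16 * Z.L * ⌈Z.beta * Z.d / k⌉₊
    calc Z.ell = z * Z.L * (Z.beta * Z.d) := by rw [Dat.ell, ← hz]; ring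
      _ ≤ z * Z.L * (k * ⌈Z.beta * Z.d / k⌉₊) := by gcongr
      _ = k * z * Z.L * ⌈Z.beta * Z.d / k⌉₊ := by ring
      _ ≤ _ := by gcongr
  · have hβ := h.h72_beta
    have h1 := (Nat.ceil_lt_add_one (a := Z.beta * Z.d / k) (by positivity)).le
    have h2 : Z.beta * Z.d / k ≤ Z.ell / 2 := by
      rw [Dat.ell]
      have := h.ok.beta_hi
      gcongr
    have h3 : 2 ≤ Z.ell :=
      le_trans (hlam.trans (le_self_pow₀ h0.lam1 (by norm_num))) h0.ell_ge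
    change ((⌈Z.beta * Z.d / k⌉₊ : ℕ) : ℝ) ≤ Z.ell
    linarith
  · intro t ht hγ
    obtain ⟨e, he, hpc⟩ := st5_edge hγ
    have he3 := h.E5_sub he
    have he2 := h.E3_sub he3
    have he' := h.st4f_E3 he3
    have w1 := Z.G.pc_win h.ok.c_lev he' ht hpc
    have w2 := Z.G.pc_win (j := Z.jr) (fun t ht hl => h.ok.c_lev t ht (h0.Tr.trans_lt hl))
      he' ht hpc
    have r1 := rho_pos Z.Q.μ Z.jT
    have n1 := h0.nh e he2 _ h0.jT_le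
    have n2 := h0.nh e he2 _ h0.jr_le
    rw [w1] at n1
    rw [w2] at n2
    have t1 := h0.T_hi
    have t2 := h0.r_hi
    refine ⟨n1.trans ?_, n2.trans ?_⟩
    · change _ ≤ (k * z) ^ 16 * Z.n * Z.b ^ 3
      gcongr
    · change _ ≤ k * Z.n * Z.rr ^ 3
      gcongr
  · change 0 ≤ k * Z.n * Z.rr ^ 3
    positivity
  · change k * Z.n * Z.rr ^ 3 ≤ (k * z) ^ 16 * Z.n * Z.rr ^ 3
    gcongr
  · intro δ hδ
    obtain ⟨e, he, rfl⟩ := st5_edge hδ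
    refine (h.E3_Lam e (h.E5_sub he)).trans ?_
    change _ ≤ (k * z) ^ 16 * Z.b ^ 2 * Z.M
    gcongr
  · refine (le_mul_of_one_le_right (sum_nonneg fun _ _ => by positivity) hS1).trans ?_
    rw [mul_comm _ (#S : ℝ), ← mul_assoc]
    refine (mul_le_mul_of_nonneg_right hE (by positivity)).trans ?_
    change _ ≤ (k * z) ^ 16 * Z.n * Z.b ^ 2 / Z.rr
    have h1 := h0.r_lo
    calc 2 * (2 * k * #Z.Q.P / rho Z.Q.μ Z.jr) * (32 * k ^ 4 * z * Z.b ^ 2)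
        ≤ 2 * (2 * k * #Z.Q.P / (Z.rr / 2)) * (32 * k ^ 4 * z * Z.b ^ 2) := by gcongr
      _ = 256 * k ^ 5 * z * Z.n * Z.b ^ 2 / Z.rr := by rw [Dat.n]; field_simp; ring
      _ ≤ _ := by
        have := hK 256 5 le_rfl (by norm_num)
        gcongr
  · refine (le_mul_of_one_le_right
      (sum_nonneg fun _ _ => sum_nonneg fun _ _ => by positivity) hS1).trans ?_
    rw [mul_comm _ (#S : ℝ), ← mul_assoc]
    refine (mul_le_mul_of_nonneg_right hF (by positivity)).trans ?_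
    change _ ≤ (k * z) ^ 16 * Z.n ^ 2 * Z.rr ^ 2 * Z.b ^ 2
    calc 2 * (4 * k ^ 2 * (#Z.Q.P : ℝ) ^ 2 * (k * Z.rr) ^ 2) * (32 * k ^ 4 * z * Z.b ^ 2)
        = 256 * k ^ 8 * z * Z.n ^ 2 * Z.rr ^ 2 * Z.b ^ 2 := by rw [Dat.n]; ring
      _ ≤ _ := by
        have := hK 256 8 le_rfl le_rfl
        gcongr

end Crest.Agent.R051
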