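import Crest.Agent.R051.St3
import Crest.Agent.R051.St4a
import Crest.Agent.R051.St4c
import Crest.Agent.R051.St5

/-! Row 51: from the scales to one fan of sectors. -/

set_option autoImplicit false

open Finset
open scoped Classical

namespace Crest.Agent.R051

lemma st45_jT {X : Dat} {k : ℝ} (h : X.OK k) : X.ell ^ 4 ≤ 16 * k * 2 ^ X.jT := by
  have h1 := rho_pow X.Q.μ X.jT
  have h2 := h.T_lo
  have h3 := h.base.lower
  have hb := h.b_pos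
  have hd : 0 < X.d := by linarith [h.d1]
  have hk : 0 < k := by linarith [h.k2]
  rw [← h.base.hd] at h3
  have h4 : (X.b / 2) ^ 4 ≤ (2 : ℝ) ^ X.jT / 2 ^ X.Q.μ := by
    rw [← h1]; gcongr
  rw [le_div_iff₀ (by positivity)] at h4
  calc X.ell ^ 4 = 16 * (X.b / 2) ^ 4 * (X.d ^ 3 * X.d) := by unfold Dat.ell; ring
    _ ≤ 16 * (X.b / 2) ^ 4 * (k * 2 ^ X.Q.μ) := by gcongr
    _ = 16 * k * ((X.b / 2) ^ 4 * 2 ^ X.Q.μ) := by ring
    _ ≤ 16 * k * 2 ^ X.jT := by gcongr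

lemma st45_rich {Z : Dat4} {K : ℝ} (h : Z.OK K) (hl : K ^ 137 ≤ Z.lam)
    (hβ : Z.beta = Z.b / (K ^ 137 * Z.L)) (hη : Z.eta = 1 / (16 * K ^ 4))
    (hB : (2 : ℝ) ^ Z.jf ≤ K ^ 34) :
    4 * K ^ 2 * (K * Z.n * Z.beta * Z.richSum (1 / (8 * K ^ 4))) ≤ Z.n ^ 2 * Z.ell := by
  have hX := h.ok.ok
  have hK : 2 ≤ K := hX.k2
  have hK0 : 0 < K := by linarith
  have hK1 : 1 ≤ K := by linarith
  have hl1 := hX.lam1
  have hb := hX.b_pos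
  have hn := hX.n_pos
  have hL : 0 < Z.L := by linarith [hX.L1]
  have hD : (0 : ℝ) < Z.D0 := by exact_mod_cast hX.D0_pos
  have hell : 0 < Z.ell := lt_of_lt_of_le (by positivity) hX.ell_ge
  have hβ0 : 0 < Z.beta := by rw [hβ]; positivity
  have hθ : (0 : ℝ) < 1 / (8 * K ^ 4) := by positivity
  set B : ℝ := 2 ^ Z.jf with hBd
  have hB0 : 0 < B := by positivity
  have hB' : 24 * K * B ^ 2 ≤ 1 / (8 * K ^ 4) * Z.D0 := by
    rw [one_div, inv_mul_eq_div, le_div_iff₀ (by positivity)]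
    calc 24 * K * B ^ 2 * (8 * K ^ 4) = 192 * K ^ 5 * B ^ 2 := by ring
      _ ≤ K ^ 8 * K ^ 5 * (K ^ 34) ^ 2 := by
          gcongr
          calc (192 : ℝ) ≤ 2 ^ 8 := by norm_num
            _ ≤ K ^ 8 := by gcongr
      _ = K ^ 81 := by ring
      _ ≤ K ^ 137 := pow_le_pow_right₀ hK1 (by norm_num)
      _ ≤ Z.lam := hl
      _ ≤ Z.lam ^ 184 := le_self_pow₀ hl1 (by norm_num)
      _ ≤ Z.D0 := hX.D0_ge
  have hr := h.rich_le hθ hB'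
  have e1 : Z.n * Z.beta / Z.L = (Z.D0 : ℝ) ^ 2 * Z.ell / K ^ 137 := by
    have := hX.D0_ell
    rw [hβ]
    have hM : Z.n * Z.b = (Z.D0 : ℝ) ^ 2 * Z.ell * Z.L ^ 2 := this.symm
    field_simp
    linarith
  have e2 : Z.b ^ 2 * Z.M ≤ (Z.D0 : ℝ) ^ 2 * Z.ell / K ^ 137 := by
    rw [← hX.D0_ell]
    have h1 : Z.b ^ 2 * ((Z.D0 : ℝ) ^ 2 * Z.ell * Z.L ^ 2) =
        (Z.D0 : ℝ) ^ 2 * Z.ell / Z.lam ^ 8 := by
      have := hX.b_L
      calc Z.b ^ 2 * ((Z.D0 : ℝ) ^ 2 * Z.ell * Z.L ^ 2)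
          = (Z.D0 : ℝ) ^ 2 * Z.ell * (Z.b * Z.L) ^ 2 := by ring
        _ = _ := by rw [this]; field_simp
    rw [h1]
    gcongr
    exact hl.trans (le_self_pow₀ hl1 (by norm_num))
  have e3 : 576 * K ^ 3 * B ^ 3 * (Z.n * Z.beta / Z.L + Z.b ^ 2 * Z.M) /
      (1 / (8 * K ^ 4) * Z.D0) ^ 2 ≤ Z.ell / (8 * K ^ 4) := by
    calc 576 * K ^ 3 * B ^ 3 * (Z.n * Z.beta / Z.L + Z.b ^ 2 * Z.M) /
          (1 / (8 * K ^ 4) * Z.D0) ^ 2
        ≤ 576 * K ^ 3 * (K ^ 34) ^ 3 * ((Z.D0 : ℝ) ^ 2 * Z.ell / K ^ 137 +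
            (Z.D0 : ℝ) ^ 2 * Z.ell / K ^ 137) / (1 / (8 * K ^ 4) * Z.D0) ^ 2 := by
          have := hX.M_pos
          rw [e1]; gcongr
      _ = 589824 / K ^ 20 * (Z.ell / (8 * K ^ 4)) := by field_simp; ring
      _ ≤ 1 * (Z.ell / (8 * K ^ 4)) := by
          gcongr
          rw [div_le_one (by positivity)]
          calc (589824 : ℝ) ≤ 2 ^ 20 := by norm_num
            _ ≤ K ^ 20 := by gcongr
      _ = _ := one_mul _
  have e4 : 2 * Z.eta * Z.ell = Z.ell / (8 * K ^ 4) := by rw [hη]; field_simp; ring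
  calc 4 * K ^ 2 * (K * Z.n * Z.beta * Z.richSum (1 / (8 * K ^ 4)))
      ≤ 4 * K ^ 2 * (K * Z.n * Z.beta * (K * Z.n / Z.beta *
          (Z.ell / (8 * K ^ 4) + Z.ell / (8 * K ^ 4)))) := by
        gcongr
        refine hr.trans ?_
        rw [e4]
        gcongr
    _ = Z.n ^ 2 * Z.ell := by field_simp; ring

/-- Let `k3 = k ^ C3` (`st3`), `k4 = k3 ^ C4` (`st4a`), `k5 = k4 ^ (C4' + 1)` (`st4c`; if an exponent
could vanish use `· + 1` and the `mono` lemmas).  Put `θ = 1 / (8 k5⁴)`, `η = 1 / (16 k5⁴)`,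
`B = 2 ^ jf ∈ [k4 / η⁴, 2 k4 / η⁴]` (so `B ≤ k5 ^ 34`), `z = k5 ^ 137`, `β = b / (z L)`;
`jf ≤ jT` since `2 ^ jT = ρ⁴ 2 ^ μ ≥ ell⁴ / (16 k)` (`ell_ge`).  In `rich_le` use `D0_ell`:
`(n β / L) / (D0² ell) = 1 / z`, `b² M / (D0² ell) = b² L² = lam ^ (-8) ≤ 1 / z`, to get the
hypothesis of `AA_big`; then `st5`. -/
theorem st45 : ∃ C : ℕ, ∀ (X : Dat) (k : ℝ), X.OK k → k ^ C ≤ X.lam →
    ∃ W : Dat5, W.toDat = X ∧ W.OK (k ^ C) := by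
  obtain ⟨C3, h3⟩ := st3
  obtain ⟨C4, h4⟩ := st4a
  obtain ⟨Cc, hc⟩ := st4c
  obtain ⟨C5, h5⟩ := st5
  obtain ⟨N, hN1, hN2, hN3⟩ : ∃ N : ℕ, 1 ≤ N ∧ C3 * C4 ≤ N ∧ C3 * C4 * Cc ≤ N :=
    ⟨1 + C3 * C4 + C3 * C4 * Cc, by omega, by omega, by omega⟩
  refine ⟨N * 137 + N * 138 * C5, fun X k hX hl => ?_⟩
  have hk : 2 ≤ k := hX.k2
  have hk1 : 1 ≤ k := by linarith
  obtain ⟨K, hK⟩ : ∃ K, K = k ^ N := ⟨_, rfl⟩
  have hkK : k ≤ K := hK ▸ le_self_pow₀ hk1 (by omega)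
  have hK2 : 2 ≤ K := hk.trans hkK
  have hK1 : 1 ≤ K := by linarith
  have hK0 : 0 < K := by linarith
  have hlK : K ^ 137 ≤ X.lam := by
    rw [hK, ← pow_mul]; exact (pow_le_pow_right₀ hk1 (by omega)).trans hl
  have hKl : K ≤ X.lam := (le_self_pow₀ hK1 (by norm_num)).trans hlK
  have hl1 := hX.lam1
  have hl0 : 0 < X.lam := by linarith
  have hb := hX.b_pos
  have hL1 := hX.L1
  have hz1 : 1 ≤ K ^ 137 := one_le_pow₀ hK1
  have hk4 : (k ^ C3) ^ C4 ≤ K := by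
    rw [hK, ← pow_mul]; exact pow_le_pow_right₀ hk1 hN2
  have hk5 : ((k ^ C3) ^ C4) ^ Cc ≤ K := by
    rw [hK, ← pow_mul, ← pow_mul, ← mul_assoc]; exact pow_le_pow_right₀ hk1 hN3
  obtain ⟨j, hj1, hj2⟩ := exists_nat_pow_near (one_le_pow₀ hK1 : 1 ≤ K ^ 33)
    (by norm_num : (1 : ℝ) < 2)
  have hB : (2 : ℝ) ^ (j + 1) ≤ K ^ 34 := by
    rw [pow_succ, pow_succ K 33]; gcongr
  have hjT : j + 1 ≤ X.jT := by
    have h1 := st45_jT hX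
    have h2 : 16 * k * (2 : ℝ) ^ (j + 1) ≤ 16 * k * 2 ^ X.jT :=
      calc 16 * k * (2 : ℝ) ^ (j + 1) ≤ K ^ 4 * K * K ^ 34 := by
            gcongr
            calc (16 : ℝ) = 2 ^ 4 := by norm_num
              _ ≤ K ^ 4 := by gcongr
        _ = K ^ 39 := by ring
        _ ≤ K ^ 137 := pow_le_pow_right₀ hK1 (by norm_num)
        _ ≤ X.lam := hlK
        _ ≤ X.lam ^ 180 := le_self_pow₀ hl1 (by norm_num)
        _ ≤ X.ell := hX.ell_ge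
        _ ≤ X.ell ^ 4 := le_self_pow₀ ((one_le_pow₀ hl1).trans hX.ell_ge) (by norm_num)
        _ ≤ _ := h1
    have h3 : (2 : ℝ) ^ (j + 1) ≤ 2 ^ X.jT := le_of_mul_le_mul_left h2 (by positivity)
    exact (pow_le_pow_iff_right₀ (by norm_num : (1 : ℝ) < 2)).1 h3
  obtain ⟨Y, rfl, hβ, hY⟩ := h3 X k (X.b / (K ^ 137 * X.L)) hX (by
      rw [le_div_iff₀ (by positivity)]
      unfold Dat.b Dat.L
      rw [inv_mul_eq_div, div_le_iff₀ (by positivity)]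
      calc K ^ 137 * X.lam ^ 16 ≤ X.lam ^ 4 * X.lam ^ 16 := by
            gcongr; exact hlK.trans (le_self_pow₀ hl1 (by norm_num))
        _ = _ := by field_simp)
    (div_le_self hb.le (by nlinarith))
  obtain ⟨Z, rfl, hjf, hη, hZ⟩ := h4 Y (k ^ C3) (1 / (16 * K ^ 4)) (j + 1) hY (hk4.trans hKl)
    (by
      rw [one_div]
      apply inv_anti₀ (by positivity)
      calc 16 * K ^ 4 ≤ K ^ 4 * K ^ 4 := by
            gcongr
            calc (16 : ℝ) = 2 ^ 4 := by norm_num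
              _ ≤ K ^ 4 := by gcongr
        _ = K ^ 8 := by ring
        _ ≤ K ^ 137 := pow_le_pow_right₀ hK1 (by norm_num)
        _ ≤ _ := hlK) hjT
    (by
      refine hk4.trans ?_
      calc K = (1 / (16 * K ^ 4)) ^ 4 * (2 ^ 16 * K ^ 17) := by field_simp; norm_num
        _ ≤ (1 / (16 * K ^ 4)) ^ 4 * (K ^ 16 * K ^ 17) := by gcongr
        _ = (1 / (16 * K ^ 4)) ^ 4 * K ^ 33 := by ring
        _ ≤ _ := by gcongr)
  have hXX := hc Z _ hZ (hk5.trans hKl)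
  have hZK : Z.OK K := hZ.mono hk4
  have hXX' : Z.n ^ 2 ≤ K * #Z.XX := hXX.trans (by gcongr)
  have hθ : (0 : ℝ) < 1 / (8 * K ^ 4) := by positivity
  have hA := hZK.AA_big hθ (le_of_eq (by field_simp)) hXX'
    (st45_rich hZK hlK hβ hη (hjf ▸ hB))
  obtain ⟨W, hW, hWo⟩ := h5 Z K _ (K ^ 137) hZK (hK2.trans hKl) hθ hz1
    (by rw [hβ]; field_simp) hA
  refine ⟨W, hW, hWo.mono ?_⟩
  rw [← pow_succ', hK, ← pow_mul, ← pow_mul]
  exact pow_le_pow_right₀ hk1 (by rw [← mul_assoc]; exact Nat.le_add_left _ _)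

end Crest.Agent.R051
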