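import Crest.Agent.R051.SBasic

/-! Row 51: typical incidences and the core. -/

set_option autoImplicit false

open Finset
open scoped Classical

namespace Crest.Agent.R051

/-- two pieces of different windows have one common point at most (`meet_unique`), which determines
the slope from `p`, hence the sector (`xh_le`) -/
theorem Dat6.Fan.nn_sum {Y : Dat6} {k : ℝ} (h : Y.Fan k) {δ : ℕ × ℕ} (hδ : δ ∈ Y.Γ) :
    ∑ J ∈ Y.I, Y.NN J δ ≤ #Y.Γ := by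
  have o := h.ok.ok
  unfold Dat6.NN
  rw [← card_biUnion]
  · exact card_le_card (biUnion_subset.2 fun J _ => filter_subset _ _)
  · have key : ∀ J ∈ Y.I, ∀ J' ∈ Y.I, ∀ δ' ∈ Y.Γ, Y.wn δ' ≠ Y.wn δ →
        ∀ s ∈ Set.Ico (Y.xl J) (Y.xh J), Y.xi δ s = Y.xi δ' s →
        ∀ s' ∈ Set.Ico (Y.xl J') (Y.xh J'), Y.xi δ s' = Y.xi δ' s' → s = s' := by
      intro J hJ J' hJ' δ' hδ' hw s hs e s' hs' e'
      obtain ⟨a1, a2, a3, a4, -⟩ := h.fan δ hδ J hJ s (Set.Ico_subset_Icc_self hs)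
      obtain ⟨b1, b2, b3, -⟩ := h.fan δ hδ J' hJ' s' (Set.Ico_subset_Icc_self hs')
      obtain ⟨c1, c2, c3, -⟩ := h.fan δ' hδ' J hJ s (Set.Ico_subset_Icc_self hs)
      obtain ⟨d1, d2, d3, -⟩ := h.fan δ' hδ' J' hJ' s' (Set.Ico_subset_Icc_self hs')
      have p1 : Y.pt δ' s = Y.pt δ s := by unfold Dat6.pt; rw [e]
      have p2 : Y.pt δ' s' = Y.pt δ s' := by unfold Dat6.pt; rw [e']
      rw [p1] at c3
      rw [p2] at d3
      have hw' : Y.et δ s / 2 ^ Y.jT ≠ Y.et δ' s / 2 ^ Y.jT := by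
        rw [h.wn_eq _ a1 (a2.symm ▸ hδ), h.wn_eq _ c1 (c2.symm ▸ hδ'), a2, c2]
        exact hw.symm
      have hz := Y.G.meet_unique o.jT_le h.ok.c_lev a1 b1 c1 d1 (a2.trans b2.symm)
        (c2.trans d2.symm) hw' a3 c3 b3 d3
      have z1 : Y.xi δ s = Y.xi δ s' := congrArg Prod.fst hz
      have z2 : Y.p.2 + s * (Y.xi δ s - Y.p.1) = Y.p.2 + s' * (Y.xi δ s' - Y.p.1) :=
        congrArg Prod.snd hz
      rw [← z1] at z2
      exact mul_right_cancel₀ (sub_pos.2 a4).ne' (add_left_cancel z2)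
    intro J hJ J' hJ' hne
    refine disjoint_left.2 fun δ' m1 m2 => ?_
    obtain ⟨g1, w1, s, hs, e⟩ := mem_filter.1 m1
    obtain ⟨-, -, s', hs', e'⟩ := mem_filter.1 m2
    have hss := key J hJ J' hJ' δ' g1 w1 s hs e s' hs' e'
    have r1 := mem_range.1 (h.ok.JJ_sub (h.I_sub hJ))
    have r2 := mem_range.1 (h.ok.JJ_sub (h.I_sub hJ'))
    rcases lt_or_gt_of_ne hne with hl | hl
    · have := o.xh_le hl r2
      linarith [hs.2, hs'.1]
    · have := o.xh_le hl r1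
      linarith [hs.1, hs'.2]

/-- Maximise `e(T', V') - α #T' - γ #V'` over `T' ⊆ T`, `V' ⊆ V`, where `e(T', V')` is the number of
pairs `x ∈ T'`, `t ∈ por x` with both ends in `V'`; compare with removing one element, and with
`(T, V)`. -/
theorem core_select {ι : Type*} (T : Finset ι) (V : Finset Pt) (por : ι → Finset ℕ) (u v : ℕ → Pt)
    (e0 : ℕ) (hc : ∀ x ∈ T, #(por x) = e0) (hV : ∀ x ∈ T, ∀ t ∈ por x, u t ∈ V ∧ v t ∈ V)
    (α γ : ℝ) (hγ : 0 ≤ γ) :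
    ∃ T' ⊆ T, ∃ V' ⊆ V, (∀ x ∈ T', α ≤ #{t ∈ por x | u t ∈ V' ∧ v t ∈ V'}) ∧
      (∀ q ∈ V', γ ≤ ∑ x ∈ T', (#{t ∈ por x | u t = q ∨ v t = q} : ℝ)) ∧
      (e0 - α) * #T - γ * #V ≤ (e0 - α) * #T' := by
  set Φ : Finset ι × Finset Pt → ℝ := fun z =>
    ∑ x ∈ z.1, (#{t ∈ por x | u t ∈ z.2 ∧ v t ∈ z.2} : ℝ) - α * #z.1 - γ * #z.2 with hΦ
  obtain ⟨⟨T', V'⟩, hm, hmax⟩ := exists_max_image (T.powerset ×ˢ V.powerset) Φ
    ⟨(∅, ∅), by simp⟩
  obtain ⟨hT, hV'⟩ := mem_product.1 hm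
  have hT := mem_powerset.1 hT
  have hV' := mem_powerset.1 hV'
  refine ⟨T', hT, V', hV', fun x hx => ?_, fun q hq => ?_, ?_⟩
  · have h1 := hmax (T'.erase x, V') (mem_product.2
      ⟨mem_powerset.2 ((erase_subset _ _).trans hT), mem_powerset.2 hV'⟩)
    simp only [hΦ] at h1
    have h2 := sum_erase_add T' (fun x => (#{t ∈ por x | u t ∈ V' ∧ v t ∈ V'} : ℝ)) hx
    have h3 : (#(T'.erase x) : ℝ) + 1 = #T' := by exact_mod_cast card_erase_add_one hx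
    rw [← h2, ← h3] at h1
    linarith
  · have h1 := hmax (T', V'.erase q) (mem_product.2
      ⟨mem_powerset.2 hT, mem_powerset.2 ((erase_subset _ _).trans hV')⟩)
    simp only [hΦ] at h1
    have h2 : ∑ x ∈ T', (#{t ∈ por x | u t ∈ V' ∧ v t ∈ V'} : ℝ) ≤
        ∑ x ∈ T', (#{t ∈ por x | u t ∈ V'.erase q ∧ v t ∈ V'.erase q} : ℝ) +
          ∑ x ∈ T', (#{t ∈ por x | u t = q ∨ v t = q} : ℝ) := by
      rw [← sum_add_distrib]
      refine sum_le_sum fun x _ => ?_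
      have : #{t ∈ por x | u t ∈ V' ∧ v t ∈ V'} ≤
          #{t ∈ por x | u t ∈ V'.erase q ∧ v t ∈ V'.erase q} + #{t ∈ por x | u t = q ∨ v t = q} := by
        refine le_trans (card_le_card fun t ht => ?_) (card_union_le _ _)
        obtain ⟨a1, a2, a3⟩ := mem_filter.1 ht
        rw [mem_union, mem_filter, mem_filter, mem_erase, mem_erase]
        tauto
      exact_mod_cast this
    have h3 : (#(V'.erase q) : ℝ) + 1 = #V' := by exact_mod_cast card_erase_add_one hq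
    rw [← h3] at h1
    linarith
  · have h1 := hmax (T, V) (mem_product.2 ⟨mem_powerset.2 Subset.rfl, mem_powerset.2 Subset.rfl⟩)
    simp only [hΦ] at h1
    have h2 : ∑ x ∈ T, (#{t ∈ por x | u t ∈ V ∧ v t ∈ V} : ℝ) = e0 * #T := by
      rw [sum_congr rfl fun x hx => by rw [filter_true_of_mem (hV x hx), hc x hx]]
      rw [sum_const, nsmul_eq_mul, mul_comm]
    have h3 : ∑ x ∈ T', (#{t ∈ por x | u t ∈ V' ∧ v t ∈ V'} : ℝ) ≤ e0 * #T' := by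
      refine (sum_le_card_nsmul _ _ (e0 : ℝ) fun x hx => ?_).trans
        (by rw [nsmul_eq_mul, mul_comm])
      rw [← hc x (hT hx)]
      exact_mod_cast card_filter_le _ _
    have h4 : 0 ≤ γ * #V' := mul_nonneg hγ (Nat.cast_nonneg _)
    rw [h2] at h1
    linarith

/-- Discard the incidences with `NN > 2 k³ M / L` (at most `M L / (2 k)` by `nn_sum`), then
`core_select` with `α = e0 / 4`, `γ = d / (8 k²)`: as `e0 #T1 ≥ ell M / (2 k²) = y d / (2 k²)`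
(`e0_lo`, `ell_M`), one keeps two thirds of `T1`. -/
theorem st6c : ∃ C : ℕ, ∀ (Y : Dat6) (k : ℝ), Y.Fan k → ∃ T' V',
    ({ Y with T := T', V' := V' } : Dat6).Fan (k ^ C) ∧
      ({ Y with T := T', V' := V' } : Dat6).Core (k ^ C) := by
  refine ⟨5, fun Y k h => ?_⟩
  have o := h.ok.ok
  have hk := o.k2
  have hk0 : 0 < k := by linarith
  have hM := o.M_pos
  have hL : 0 < Y.L := zero_lt_one.trans_le o.L1
  have hd : 0 < Y.d := zero_lt_one.trans_le o.d1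
  have hell : 0 < Y.ell := (pow_pos (zero_lt_one.trans_le o.lam1) _).trans_le o.ell_ge
  set T1 := {x ∈ Y.T | (Y.NN x.1 x.2 : ℝ) ≤ 2 * k ^ 3 * Y.M / Y.L} with hT1
  have hΓ : (#Y.Γ : ℝ) ≤ k * Y.M :=
    (Nat.cast_le.2 (card_le_card h.Γ_sub)).trans h.ok.Γ0_card
  have hsum : ∑ x ∈ Y.T, (Y.NN x.1 x.2 : ℝ) ≤ (k * Y.M) ^ 2 := by
    have h1 : ∑ x ∈ Y.T, Y.NN x.1 x.2 ≤ #Y.Γ * #Y.Γ := by
      calc ∑ x ∈ Y.T, Y.NN x.1 x.2 ≤ ∑ x ∈ Y.I ×ˢ Y.Γ, Y.NN x.1 x.2 :=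
            sum_le_sum_of_subset fun x hx => mem_product.2 (h.T_sub x hx).2
        _ = ∑ δ ∈ Y.Γ, ∑ J ∈ Y.I, Y.NN J δ := sum_product_right _ _ _
        _ ≤ #Y.Γ • #Y.Γ := sum_le_card_nsmul _ _ _ fun δ hδ => h.nn_sum hδ
        _ = _ := smul_eq_mul _ _
    have h2 : ∑ x ∈ Y.T, (Y.NN x.1 x.2 : ℝ) ≤ #Y.Γ * #Y.Γ := by exact_mod_cast h1
    refine h2.trans ?_
    rw [sq]
    gcongr
  have hbad : (#{x ∈ Y.T | ¬ (Y.NN x.1 x.2 : ℝ) ≤ 2 * k ^ 3 * Y.M / Y.L} : ℝ) *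
      (2 * k ^ 3 * Y.M / Y.L) ≤ (k * Y.M) ^ 2 := by
    refine le_trans ?_ ((sum_le_sum_of_subset_of_nonneg (filter_subset
      (fun x => ¬ (Y.NN x.1 x.2 : ℝ) ≤ 2 * k ^ 3 * Y.M / Y.L) Y.T)
      fun _ _ _ => Nat.cast_nonneg _).trans hsum)
    rw [← nsmul_eq_mul]
    exact card_nsmul_le_sum _ _ _ fun x hx => (not_le.1 (mem_filter.1 hx).2).le
  have hsplit : (#T1 : ℝ) + #{x ∈ Y.T | ¬ (Y.NN x.1 x.2 : ℝ) ≤ 2 * k ^ 3 * Y.M / Y.L} = #Y.T := by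
    exact_mod_cast card_filter_add_card_filter_not _
  have hT1big : Y.M * Y.L ≤ 2 * k * #T1 := by
    generalize (#{x ∈ Y.T | ¬ (Y.NN x.1 x.2 : ℝ) ≤ 2 * k ^ 3 * Y.M / Y.L} : ℝ) = B at *
    have h1 : 2 * k * B ≤ Y.M * Y.L := by
      rw [← mul_div_assoc, div_le_iff₀ hL] at hbad
      refine le_of_mul_le_mul_right ?_ (show 0 < k ^ 2 * Y.M by positivity)
      calc 2 * k * B * (k ^ 2 * Y.M) = B * (2 * k ^ 3 * Y.M) := by ring
        _ ≤ _ := hbad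
        _ = _ := by ring
    have h2 := h.T_big
    rw [← hsplit] at h2
    linarith
  have hsub : T1 ⊆ Y.T := filter_subset _ _
  obtain ⟨T', hT', V', hV', c1, c2, c3⟩ := core_select T1 Y.VB Y.por Y.Q.u Y.Q.v Y.e0
    (fun x hx => h.ok.por_card x (h.T_sub x (hsub hx)).1)
    (fun x hx t ht => ⟨(h.ok.por_mem x (h.T_sub x (hsub hx)).1 t ht).2.2.1,
      (h.ok.por_mem x (h.T_sub x (hsub hx)).1 t ht).2.2.2.1⟩)
    ((Y.e0 : ℝ) / 4) (Y.d / (8 * k ^ 2)) (by positivity)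
  have he0 : (0 : ℝ) < Y.e0 := by
    have := hell.trans_le h.ok.e0_lo
    exact (mul_pos_iff_of_pos_left (show 0 < k * Y.L by positivity)).1 this
  have h1 : Y.d / (8 * k ^ 2) * #Y.VB ≤ Y.e0 * #T1 / 4 := by
    have a1 : Y.ell * Y.M ≤ 2 * k ^ 2 * (Y.e0 * #T1) := by
      calc Y.ell * Y.M ≤ k * Y.L * Y.e0 * Y.M := by gcongr; exact h.ok.e0_lo
        _ = k * Y.e0 * (Y.M * Y.L) := by ring
        _ ≤ k * Y.e0 * (2 * k * #T1) := by gcongr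
        _ = _ := by ring
    calc Y.d / (8 * k ^ 2) * #Y.VB ≤ Y.d / (8 * k ^ 2) * Y.y := by gcongr; exact h.ok.VB_card
      _ = Y.ell * Y.M / (8 * k ^ 2) := by rw [Dat.ell_M]; ring
      _ ≤ 2 * k ^ 2 * (Y.e0 * #T1) / (8 * k ^ 2) := by gcongr
      _ = _ := by field_simp; ring
  have h2 : 2 * (#T1 : ℝ) ≤ 3 * #T' := by
    refine le_of_mul_le_mul_left ?_ he0
    linarith
  have k2 : 4 ≤ k ^ 2 := by nlinarith
  have k3 : 8 ≤ k ^ 3 := by nlinarith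
  have k4 : 16 ≤ k ^ 4 := by nlinarith
  have hk5 : 3 * k ≤ k ^ 5 := by nlinarith
  have hk5' : 2 * k ^ 3 ≤ k ^ 5 := by nlinarith
  have hk5'' : 8 * k ^ 2 ≤ k ^ 5 := by nlinarith
  have hF := h.mono (show k ≤ k ^ 5 by linarith)
  refine ⟨T', V', { hF with T_sub := ?_, T_big := ?_ }, ⟨?_, hV', ?_, ?_⟩⟩
  · exact fun x hx => h.T_sub x (hsub (hT' hx))
  · change Y.M * Y.L ≤ k ^ 5 * #T'
    calc Y.M * Y.L ≤ k * (2 * #T1) := by linarith
      _ ≤ k * (3 * #T') := by gcongr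
      _ = 3 * k * #T' := by ring
      _ ≤ _ := by gcongr
  · intro x hx
    change (Y.NN x.1 x.2 : ℝ) ≤ k ^ 5 * Y.M / Y.L
    exact (mem_filter.1 (hT' hx)).2.trans (by gcongr)
  · intro x hx
    change Y.e0 ≤ 4 * #{t ∈ Y.por x | Y.Q.u t ∈ V' ∧ Y.Q.v t ∈ V'}
    have := c1 x hx
    rw [div_le_iff₀' (by norm_num)] at this
    exact_mod_cast this
  · intro q hq
    change Y.d ≤ k ^ 5 * ∑ x ∈ T', (#{t ∈ Y.por x | Y.Q.u t = q ∨ Y.Q.v t = q} : ℝ)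
    have := c2 q hq
    rw [div_le_iff₀' (by positivity)] at this
    exact this.trans (mul_le_mul_of_nonneg_right hk5'' (sum_nonneg fun _ _ => Nat.cast_nonneg _))

end Crest.Agent.R051
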