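import Crest.Agent.R051.SBasic

/-! Row 51: total disagreement with the start of the block. -/

set_option autoImplicit false

open Finset
open scoped Classical

namespace Crest.Agent.R051

namespace Dat6

variable {Y : Dat6} {k : ℝ}

theorem Fan.w0_spec (h : Y.Fan k) {δ : ℕ × ℕ} (hδ : δ ∈ Y.Γ) :
    Y.w0 δ ≤ Y.wr δ ∧ ∃ γ ∈ Y.Γ, Y.blk γ = Y.blk δ ∧ Y.wr γ = Y.w0 δ := by
  have _ := h
  have hm : Y.wr δ ∈ Y.wr '' {δ' | δ' ∈ Y.Γ ∧ Y.blk δ' = Y.blk δ} := ⟨δ, ⟨hδ, rfl⟩, rfl⟩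
  obtain ⟨γ, ⟨h1, h2⟩, h3⟩ := Nat.sInf_mem ⟨_, hm⟩
  exact ⟨Nat.sInf_le hm, γ, h1, h2, h3⟩

/-- these pieces are in one block (`blk_mono`, `blk_size`) -/
theorem Fan.blk_at (h : Y.Fan k) (a : ℕ) :
    (#{δ ∈ Y.Γ | Y.w0 δ ≤ a ∧ a < Y.wr δ} : ℝ) ≤ 2 * k * Y.m := by
  have key : ∀ δ ∈ {δ ∈ Y.Γ | Y.w0 δ ≤ a ∧ a < Y.wr δ}, ∀ δ' ∈ {δ ∈ Y.Γ | Y.w0 δ ≤ a ∧ a < Y.wr δ},
      Y.blk δ ≤ Y.blk δ' := by
    intro δ hδ δ' hδ'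
    obtain ⟨h1, h2, -⟩ := mem_filter.1 hδ
    obtain ⟨-, γ, -, h3, h4⟩ := h.w0_spec h1
    rw [← h3]
    exact Y.blk_mono (h4.trans_le (h2.trans (mem_filter.1 hδ').2.2.le))
  rcases ({δ ∈ Y.Γ | Y.w0 δ ≤ a ∧ a < Y.wr δ}).eq_empty_or_nonempty with he | ⟨δ0, h0⟩
  · have := h.ok.ok.k2
    rw [he, card_empty, Nat.cast_zero]
    positivity
  · refine le_trans (Nat.cast_le.2 (card_le_card fun δ hδ => ?_)) (h.blk_size (Y.blk δ0))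
    exact mem_filter.2 ⟨(mem_filter.1 hδ).1, le_antisymm (key δ hδ δ0 h0) (key δ0 h0 δ hδ)⟩

lemma h72_floor {i j : ℕ} (hij : i ≤ j) (t : ℕ) : t / 2 ^ j * 2 ^ j ≤ t / 2 ^ i * 2 ^ i := by
  rw [← win_div hij t]
  have e : 2 ^ j = 2 ^ (j - i) * 2 ^ i := by rw [← pow_add, Nat.sub_add_cancel hij]
  rw [e, ← mul_assoc]
  exact Nat.mul_le_mul_right _ (Nat.div_mul_le_self _ _)

lemma Fan.h72_wr (h : Y.Fan k) {δ : ℕ × ℕ} (hδ : δ ∈ Y.Γ) {J : ℕ} (hJ : J ∈ Y.I) {s : ℝ}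
    (hs : s ∈ Set.Icc (Y.xl J) (Y.xh J)) : Y.et δ s / 2 ^ Y.jr = Y.wr δ := by
  obtain ⟨h1, h2, -⟩ := h.fan δ hδ J hJ s hs
  have := h.wr_eq _ h1 (h2.symm ▸ hδ)
  rwa [h2] at this

lemma Fan.h72_slope (h : Y.Fan k) {δ : ℕ × ℕ} (hδ : δ ∈ Y.Γ) {J : ℕ} (hJ : J ∈ Y.I) {s : ℝ}
    (hs : s ∈ Set.Icc (Y.xl J) (Y.xh J)) {t : ℕ} (h1 : Y.et δ s / 2 ^ Y.jr * 2 ^ Y.jr ≤ t)
    (h2 : t ≤ 2 ^ Y.Q.μ) : s < Y.Q.s t := by
  rw [h.h72_wr hδ hJ hs] at h1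
  exact hs.2.trans_lt ((h.Xs_gt J hJ).trans_le ((h.Xs_le δ hδ).trans (Y.Q.s_le h1 h2)))

/-- the edges `et δ s` are distinct and are counted by `flux` with `g = hh s` in the window `a` of
level `i ≤ jr` (all slopes there exceed `Xs`) -/
theorem Fan.et_card (h : Y.Fan k) {J : ℕ} (hJ : J ∈ Y.I) {s : ℝ}
    (hs : s ∈ Set.Icc (Y.xl J) (Y.xh J)) {i : ℕ} (hi : i ≤ Y.jr) (a : ℕ) :
    #{δ ∈ Y.Γ | Y.et δ s / 2 ^ i = a} ≤ Y.Q.K i a := by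
  rcases ({δ ∈ Y.Γ | Y.et δ s / 2 ^ i = a}).eq_empty_or_nonempty with he | ⟨δ0, h0⟩
  · rw [he, card_empty]
    exact Nat.zero_le _
  obtain ⟨h1, h2⟩ := mem_filter.1 h0
  have hiμ : i ≤ Y.Q.μ := hi.trans h.ok.ok.jr_le
  have hle : (a + 1) * 2 ^ i ≤ 2 ^ Y.Q.μ :=
    win_le hiμ (h2 ▸ win_lt hiμ (h.fan δ0 h1 J hJ s hs).1)
  refine le_trans ?_ (Y.Q.flux (hh s) (hh s Y.p) (Nat.mul_le_mul_right _ (Nat.le_succ a)) hle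
    fun t ht => ?_)
  · refine card_le_card_of_injOn (fun δ => Y.et δ s) (fun δ hδ => ?_) fun δ hδ δ' hδ' e => ?_
    · obtain ⟨b1, b2⟩ := mem_filter.1 (mem_coe.1 hδ)
      exact mem_coe.2 (mem_filter.2 ⟨win_mem.1 b2, (h.fan δ b1 J hJ s hs).2.2.2.2⟩)
    · have b1 := (h.fan δ (mem_filter.1 (mem_coe.1 hδ)).1 J hJ s hs).2.1
      have b2 := (h.fan δ' (mem_filter.1 (mem_coe.1 hδ')).1 J hJ s hs).2.1
      rw [← b1, ← b2]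
      exact congrArg _ e
  · obtain ⟨b1, b2⟩ := mem_Ico.1 ht
    have b3 : t < 2 ^ Y.Q.μ := b2.trans_le hle
    exact (Y.Q.cone t b3).hh_lt (Y.Q.s_lt _ _ (Nat.lt_succ_self t) b3)
      (h.h72_slope h1 hJ hs ((h72_floor hi _).trans (h2 ▸ b1)) b3.le).le

lemma Fan.h72_N1 (h : Y.Fan k) (q : Pt) :
    (#{δ ∈ Y.Γ | q ∈ Y.Q.lens (Y.w0 δ * 2 ^ Y.jr) (Y.wr δ * 2 ^ Y.jr)} : ℝ) ≤
      ∑ a ∈ range (2 ^ (Y.Q.μ - Y.jr)),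
        if q ∈ Y.Q.lens (a * 2 ^ Y.jr) ((a + 1) * 2 ^ Y.jr) then 2 * k * Y.m else 0 := by
  rw [← sum_filter]
  refine le_trans ?_ (sum_le_sum fun a _ => h.blk_at a)
  rw [← Nat.cast_sum]
  refine Nat.cast_le.2 (le_trans (card_le_card fun δ hδ => ?_) card_biUnion_le)
  obtain ⟨h1, h2⟩ := mem_filter.1 hδ
  obtain ⟨a, a1, a2, a3⟩ := Y.Q.lens_chain Y.jr (h.w0_spec h1).1 h2
  exact mem_biUnion.2 ⟨a, mem_filter.2 ⟨mem_range.2 (a2.trans (h.wr_wn h1).2.1), a3⟩,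
    mem_filter.2 ⟨h1, a1, a2⟩⟩

lemma Fan.h72_N2 (h : Y.Fan k) {J : ℕ} (hJ : J ∈ Y.I) {s : ℝ}
    (hs : s ∈ Set.Icc (Y.xl J) (Y.xh J)) (q : Pt) :
    (#{δ ∈ Y.Γ | q ∈ Y.Q.lens (Y.wr δ * 2 ^ Y.jr) (Y.et δ s)} : ℝ) ≤
      ∑ i ∈ range Y.jr, ∑ a ∈ range (2 ^ (Y.Q.μ - i)) with
        (Y.Q.K Y.jr (a / 2 ^ (Y.jr - i)) : ℝ) ≤ Y.D,
        if q ∈ Y.Q.lens (a * 2 ^ i) ((a + 1) * 2 ^ i) then (Y.Q.K (i + 1) (a / 2) : ℝ) else 0 := by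
  have hμ := h.ok.ok.jr_le
  have key : ∀ i ∈ range Y.jr, ∀ a,
      #{δ ∈ Y.Γ | Y.et δ s / 2 ^ i = a + 1 ∧ a % 2 = 0} ≤ Y.Q.K (i + 1) (a / 2) := by
    intro i hi a
    have hi' := mem_range.1 hi
    rcases ({δ ∈ Y.Γ | Y.et δ s / 2 ^ i = a + 1 ∧ a % 2 = 0}).eq_empty_or_nonempty with
      he | ⟨δ0, h0⟩
    · rw [he, card_empty]
      exact Nat.zero_le _
    obtain ⟨h1, h2, h3⟩ := mem_filter.1 h0
    have h4 := Y.Q.K_mono (Nat.le_succ i) (by omega)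
      (h2 ▸ win_lt (by omega) (h.fan δ0 h1 J hJ s hs).1)
    have e : (a + 1) / 2 ^ (i.succ - i) = a / 2 := by
      rw [Nat.succ_sub le_rfl, Nat.sub_self, pow_one]
      omega
    rw [e] at h4
    refine le_trans (card_le_card fun δ hδ => ?_) ((h.et_card hJ hs hi'.le (a + 1)).trans h4)
    exact mem_filter.2 ⟨(mem_filter.1 hδ).1, (mem_filter.1 hδ).2.1⟩
  simp only [← sum_filter]
  refine le_trans ?_ (sum_le_sum fun i hi => sum_le_sum fun a _ => Nat.cast_le.2 (key i hi a))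
  simp only [← Nat.cast_sum]
  refine Nat.cast_le.2 (le_trans (le_trans (card_le_card fun δ hδ => ?_) card_biUnion_le)
    (sum_le_sum fun i _ => card_biUnion_le))
  obtain ⟨h1, h2⟩ := mem_filter.1 hδ
  rw [← h.h72_wr h1 hJ hs] at h2
  obtain ⟨i, a1, a2, a3⟩ := Y.Q.lens_dyadic Y.jr _ h2
  obtain ⟨b1, b2, -⟩ := h.fan δ h1 J hJ s hs
  have b3 := win_lt (a1.le.trans hμ) b1
  have b5 : ∀ x : ℕ, x % 2 = 1 → (x - 1) / 2 = x / 2 ∧ x = x - 1 + 1 ∧ (x - 1) % 2 = 0 := by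
    intro x hx
    omega
  have b4 : (Y.et δ s / 2 ^ i - 1) / 2 ^ (Y.jr - i) = Y.et δ s / 2 ^ Y.jr := by
    rw [← win_div a1.le]
    obtain ⟨m, hm⟩ := Nat.exists_eq_succ_of_ne_zero (Nat.sub_pos_of_lt a1).ne'
    rw [hm, Nat.succ_eq_add_one, pow_succ', ← Nat.div_div_eq_div_mul, ← Nat.div_div_eq_div_mul,
      (b5 _ a2).1]
  refine mem_biUnion.2 ⟨i, mem_range.2 a1, mem_biUnion.2 ⟨Y.et δ s / 2 ^ i - 1,
    mem_filter.2 ⟨mem_filter.2 ⟨mem_range.2 ((Nat.sub_le _ _).trans_lt b3), ?_⟩, a3⟩,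
    mem_filter.2 ⟨h1, (b5 _ a2).2⟩⟩⟩
  rw [b4]
  exact (h.ok.nh _ b1 (b2.symm ▸ h.Γ_sub h1)).2

lemma Fan.h72_q (h : Y.Fan k) (q : Pt) :
    ∑ δ ∈ Y.Γ, ∑ J ∈ Y.I, (if Cone (Y.xl J) (Y.xh J) Y.p q ∧
        q ∈ Y.Q.lens (Y.w0 δ * 2 ^ Y.jr) (Y.et δ (slp Y.p q)) then (1 : ℝ) else 0) ≤
      (∑ a ∈ range (2 ^ (Y.Q.μ - Y.jr)),
        if q ∈ Y.Q.lens (a * 2 ^ Y.jr) ((a + 1) * 2 ^ Y.jr) then 2 * k * Y.m else 0) +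
      ∑ i ∈ range Y.jr, ∑ a ∈ range (2 ^ (Y.Q.μ - i)) with
        (Y.Q.K Y.jr (a / 2 ^ (Y.jr - i)) : ℝ) ≤ Y.D,
        if q ∈ Y.Q.lens (a * 2 ^ i) ((a + 1) * 2 ^ i) then (Y.Q.K (i + 1) (a / 2) : ℝ) else 0 := by
  have hr : ∀ J ∈ Y.I, J < 2 ^ (Y.Q.μ - Y.ja) := fun J hJ => mem_range.1 (h.ok.JJ_sub (h.I_sub hJ))
  by_cases hq : ∃ J ∈ Y.I, Cone (Y.xl J) (Y.xh J) Y.p q
  · obtain ⟨J, hJ, hc⟩ := hq
    have hs := hc.slp_mem (h.ok.ok.xl_lt (hr J hJ))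
    refine le_trans ?_ (add_le_add (h.h72_N1 q) (h.h72_N2 hJ ⟨hs.1.le, hs.2.le⟩ q))
    rw [card_filter, card_filter, Nat.cast_sum, Nat.cast_sum, ← sum_add_distrib]
    refine sum_le_sum fun δ _ => ?_
    rw [sum_eq_single_of_mem J hJ fun J' hJ' hne => if_neg fun hc' =>
      hne (h.ok.ok.sector_eq (hr J' hJ') (hr J hJ) hc'.1 hc)]
    split_ifs with h1 h2 h3 h4 h5 h6 <;> try norm_num
    rcases mem_union.1 (Y.Q.lens_tri _ (Y.wr δ * 2 ^ Y.jr) _ h1.2) with h7 | h7 <;> contradiction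
  · rw [sum_eq_zero fun δ _ => sum_eq_zero fun J hJ => if_neg fun hc => hq ⟨J, hJ, hc.1⟩]
    have := h.ok.ok.k2
    positivity

/-- A vertex `q` determines its sector (`sector_eq`).  With `t = et δ (slp p q)`, `lens_tri` splits
at the time `wr δ 2 ^ jr = t / 2 ^ jr * 2 ^ jr`.  First part: `lens_chain`, `blk_at`, `EB` give
`2 k m · k n b² / rr`, `m ≤ 2 n rr³`.  Second part: `lens_dyadic` gives a level `i < jr` and the even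
window `a = t / 2 ^ i - 1`; for given `(i, a, q)` at most `K i (a+1) ≤ K (i+1) (a/2)` pieces
(`et_card`, `K_mono`), and `a / 2 ^ (jr - i) = wr δ` has `K ≤ D` (`nh`); this is `FB`. -/
theorem Fan.dm_sum (h : Y.Fan k) :
    ∑ δ ∈ Y.Γ, ∑ J ∈ Y.I, (Y.Dm J δ : ℝ) ≤ 5 * k ^ 2 * Y.n ^ 2 * Y.b ^ 2 * Y.rr ^ 2 := by
  have o := h.ok.ok
  have hk := o.k2
  have hr := o.rr_pos
  have hn := o.n_pos
  have hb := o.b_pos
  have e : ∑ δ ∈ Y.Γ, ∑ J ∈ Y.I, (Y.Dm J δ : ℝ) = ∑ q ∈ Y.VB, ∑ δ ∈ Y.Γ, ∑ J ∈ Y.I,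
      (if Cone (Y.xl J) (Y.xh J) Y.p q ∧
        q ∈ Y.Q.lens (Y.w0 δ * 2 ^ Y.jr) (Y.et δ (slp Y.p q)) then (1 : ℝ) else 0) := by
    rw [sum_comm (s := Y.VB)]
    refine sum_congr rfl fun δ _ => ?_
    rw [sum_comm (s := Y.VB)]
    refine sum_congr rfl fun J _ => ?_
    rw [Dm, natCast_card_filter]
  have e1 : ∀ (A : Finset Pt) (c : ℝ), ∑ q ∈ Y.VB, (if q ∈ A then c else 0) = #(A ∩ Y.VB) * c :=
    fun A c => by rw [sum_ite_mem, sum_const, nsmul_eq_mul, inter_comm]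
  rw [e]
  refine (sum_le_sum fun q _ => h.h72_q q).trans ?_
  rw [sum_add_distrib, sum_comm, sum_comm (s := Y.VB)]
  simp only [sum_comm (s := Y.VB), e1]
  have a1 := mul_le_mul h.ok.EB
    (mul_le_mul_of_nonneg_left h.m_bounds.2.1 (by positivity : 0 ≤ 2 * k)) (by positivity)
    (by positivity)
  rw [← o.n_rr, sum_mul] at a1
  refine (add_le_add a1 h.ok.FB).trans ?_
  have e2 : k * Y.n * Y.b ^ 2 / Y.rr * (2 * k * (2 * (Y.n * Y.rr ^ 3))) =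
      4 * k ^ 2 * (Y.n ^ 2 * Y.b ^ 2 * Y.rr ^ 2) := by
    field_simp
    ring
  rw [e2]
  have : 0 ≤ Y.n ^ 2 * Y.b ^ 2 * Y.rr ^ 2 := by positivity
  nlinarith [mul_le_mul_of_nonneg_right (by nlinarith : k ≤ k ^ 2) this]

/-- a point of `P` on the ray of slope `s` strictly before (after) the point of `δ` is strictly
above (below) the line of the edge `et δ s`, whose slope exceeds `s` (`below`, `above`,
`seg_hh_slp`) -/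
theorem Fan.side (h : Y.Fan k) {δ : ℕ × ℕ} (hδ : δ ∈ Y.Γ) {J : ℕ} (hJ : J ∈ Y.I) {s : ℝ}
    (hs : s ∈ Set.Icc (Y.xl J) (Y.xh J)) {q : Pt} (hq : q ∈ Y.Q.P) (hqs : hh s q = hh s Y.p) :
    (q.1 < Y.xi δ s → q ∉ Y.Q.S (Y.et δ s)) ∧ (Y.xi δ s < q.1 → q ∈ Y.Q.S (Y.et δ s)) := by
  obtain ⟨h1, -, h2, -⟩ := h.fan δ hδ J hJ s hs
  have h3 := h.h72_slope hδ hJ hs (Nat.div_mul_le_self _ _) h1.le
  generalize Y.et δ s = t at *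
  have h4 := h3.trans ((Y.Q.cone t h1).slp_mem (Y.Q.s_lt _ _ (Nat.lt_succ_self t) h1)).1
  have h5 := seg_hh_slp (Y.Q.x_lt h1) h2
  have h6 := seg_hh_slp (Y.Q.x_lt h1) (right_mem_segment ℝ _ _)
  have h7 := Y.Q.below t h1 q
  have h8 := Y.Q.above t h1 q hq
  generalize slp (Y.Q.u t) (Y.Q.v t) = σ at *
  have e : hh σ q = hh σ (Y.Q.u t) + (σ - s) * (Y.xi δ s - q.1) := by
    rw [← h5]
    simp only [hh, pt] at hqs ⊢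
    linarith
  refine ⟨fun hlt hS => ?_, fun hlt => by_contra fun hS => ?_⟩
  · have := mul_pos (sub_pos.2 h4) (sub_pos.2 hlt)
    by_cases hu : q = Y.Q.u t
    · rw [← hu] at e
      linarith
    · linarith [h7 hS hu]
  · have := mul_neg_of_pos_of_neg (sub_pos.2 h4) (sub_neg.2 hlt)
    by_cases hv : q = Y.Q.v t
    · rw [← hv] at h6
      linarith
    · linarith [h8 hS hv]

end Dat6

end Crest.Agent.R051
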