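import Crest.Agent.R051.St7b
import Crest.Agent.R051.St7c

/-! Row 51: pieces of one block are rarely far apart. -/

set_option autoImplicit false

open Finset
open scoped Classical

namespace Crest.Agent.R051

namespace Dat6

variable {Y : Dat6} {k : ℝ}

theorem Fan.st7d_mem (h : Y.Fan k) {J : ℕ} {Z : Finset (ℕ × ℕ)} (hZ : ∀ δ ∈ Z, (J, δ) ∈ Y.T)
    {t : ℕ} (ht : t ∈ Y.ces J Z) : t < 2 ^ Y.Q.μ ∧ Y.G.pc Y.c t ∈ Z ∧ Y.Q.u t ∈ Y.VB ∧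
      Y.Q.v t ∈ Y.VB ∧ Cone (Y.xl J) (Y.xh J) Y.p (Y.Q.u t) ∧
      Cone (Y.xl J) (Y.xh J) Y.p (Y.Q.v t) := by
  obtain ⟨δ, hδ, ht⟩ := mem_biUnion.1 ht
  obtain ⟨a1, a2, a3, a4, a5, a6, -⟩ :=
    h.ok.por_mem _ (h.T_sub _ (hZ δ hδ)).1 t (mem_filter.1 ht).1
  exact ⟨a1, a2 ▸ hδ, a3, a4, a5, a6⟩

theorem Fan.st7d_m (h : Y.Fan k) :
    Y.M ≤ Y.L * Y.m ∧ (Y.m : ℝ) ≤ 2 * k * Y.e0 * Y.d ^ 2 ∧ Y.b ^ 2 * Y.M ≤ Y.m ∧ 1 ≤ (Y.m : ℝ) := by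
  have o := h.ok.ok
  have hL := o.L1
  have hL0 : 0 < Y.L := zero_lt_one.trans_le hL
  obtain ⟨m1, m2, m3⟩ := h.m_bounds
  have hM : Y.M = Y.ell * Y.d ^ 2 := by
    rw [Dat.M, Dat.ell, o.n_eq]; ring
  refine ⟨by rwa [div_le_iff₀' hL0] at m1, m2.trans ?_, le_trans ?_ m1, le_trans ?_ m3⟩
  · have : Y.M / Y.L ≤ k * Y.e0 * Y.d ^ 2 := by
      rw [div_le_iff₀ hL0, hM]
      have := mul_le_mul_of_nonneg_right h.ok.e0_lo (sq_nonneg Y.d)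
      linarith
    linarith
  · rw [le_div_iff₀ hL0]
    have h1 : Y.b * Y.L ≤ 1 := by
      rw [o.b_L]; exact inv_le_one_of_one_le₀ (one_le_pow₀ o.lam1)
    have h2 : Y.b * (Y.b * Y.L) ≤ 1 := mul_le_one₀ o.b_le (mul_pos o.b_pos hL0).le h1
    have := mul_le_mul_of_nonneg_left h2 o.M_pos.le
    linarith
  · exact one_le_mul_of_one_le_of_one_le ((one_le_pow₀ o.lam1).trans o.ell_ge) hL

theorem Fan.st7d_pairs (h : Y.Fan k) (f : ℕ × ℕ → ℝ) (hf : ∀ δ, 0 ≤ f δ) :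
    ∑ x ∈ Y.Γ ×ˢ Y.Γ with Y.blk x.1 = Y.blk x.2, (f x.1 + f x.2)
      ≤ 4 * k * Y.m * ∑ δ ∈ Y.Γ, f δ := by
  have h1 : ∑ x ∈ Y.Γ ×ˢ Y.Γ with Y.blk x.1 = Y.blk x.2, f x.1
      ≤ 2 * k * Y.m * ∑ δ ∈ Y.Γ, f δ := by
    rw [sum_filter, sum_product, mul_sum]
    refine sum_le_sum fun δ _ => ?_
    dsimp only
    rw [← sum_filter, sum_const, nsmul_eq_mul]
    refine mul_le_mul_of_nonneg_right (le_trans (le_of_eq ?_) (h.blk_size (Y.blk δ))) (hf δ)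
    congr 2
    exact filter_congr fun _ _ => eq_comm
  have h2 : ∑ x ∈ Y.Γ ×ˢ Y.Γ with Y.blk x.1 = Y.blk x.2, f x.2
      ≤ 2 * k * Y.m * ∑ δ ∈ Y.Γ, f δ := by
    rw [sum_filter, sum_product_right, mul_sum]
    refine sum_le_sum fun δ _ => ?_
    dsimp only
    rw [← sum_filter, sum_const, nsmul_eq_mul]
    exact mul_le_mul_of_nonneg_right (h.blk_size (Y.blk δ)) (hf δ)
  rw [sum_add_distrib]
  linarith

/-- Crossings among the core edges of typical pieces in one sector.  Same level-`jT` window: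
`cb_same` (`jf = 0`) and `lam_le`, `b² M ≤ m`.  Different windows: the pair of edges is determined by
the pair of pieces (`arc_unique`), and the crossing point is in the open sector (`cone_seg`,
`xi_vertex`), so the second piece is counted by `NN` (`nn`, `M / L ≤ m`). -/
theorem Fan.ces_cross (h : Y.Fan k) (hc : Y.Core k) {J : ℕ} {Z : Finset (ℕ × ℕ)}
    (hZ : ∀ δ ∈ Z, (J, δ) ∈ Y.T) :
    (#{x ∈ Y.ces J Z ×ˢ Y.ces J Z | Cross (Y.Q.u x.1) (Y.Q.v x.1) (Y.Q.u x.2) (Y.Q.v x.2)} : ℝ) ≤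
      2 * k * #Z * Y.m := by
  have o := h.ok.ok
  have hk : 0 ≤ k := by linarith [o.k2]
  have hm := fun t (ht : t ∈ Y.ces J Z) => h.st7d_mem hZ ht
  have hsame : (#{x ∈ Y.ces J Z ×ˢ Y.ces J Z |
      Cross (Y.Q.u x.1) (Y.Q.v x.1) (Y.Q.u x.2) (Y.Q.v x.2) ∧
        x.1 / 2 ^ Y.jT = x.2 / 2 ^ Y.jT} : ℝ) ≤ k * #Z * Y.m := by
    have cb := Y.G.cb_same (c := Y.c) (Nat.zero_le Y.jT) o.jT_le h.ok.c_lev
      ((Y.ces J Z).image fun t => (t, t))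
      (fun a ha => by
        obtain ⟨t, ht, rfl⟩ := mem_image.1 ha
        exact Y.G.isArc_edge _ _ (hm t ht).1)
      (fun a ha a' ha' hne => by
        obtain ⟨t, ht, rfl⟩ := mem_image.1 ha
        obtain ⟨t', ht', rfl⟩ := mem_image.1 ha'
        exact Y.G.disj_edge (hm t ht).1 (hm t' ht').1 fun e => hne (by rw [e])) Z
      (fun a ha => by
        obtain ⟨t, ht, rfl⟩ := mem_image.1 ha
        exact (hm t ht).2.1)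
    rw [pow_zero, sub_self, zero_mul, add_zero] at cb
    refine le_trans (Nat.cast_le.2 (card_le_card_of_injOn
      (fun x => ((x.1, x.1), (x.2, x.2))) ?_ ?_)) (cb.trans ?_)
    · intro x hx
      obtain ⟨hx1, hx2⟩ := mem_filter.1 (mem_coe.1 hx)
      obtain ⟨a1, a2⟩ := mem_product.1 hx1
      exact mem_coe.2 (mem_filter.2
        ⟨mem_product.2 ⟨mem_image_of_mem _ a1, mem_image_of_mem _ a2⟩, hx2⟩)
    · intro x _ y _ e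
      simp only [Prod.mk.injEq] at e
      exact Prod.ext e.1.1 e.2.1
    · refine (sum_le_card_nsmul Z _ (k * Y.m) fun δ hδ => ?_).trans (le_of_eq ?_)
      · refine (h.ok.lam_le δ (h.Γ_sub (h.T_sub _ (hZ δ hδ)).2.2)).trans ?_
        rw [mul_assoc]
        exact mul_le_mul_of_nonneg_left h.st7d_m.2.2.1 hk
      · rw [nsmul_eq_mul]; ring
  have hdiff : (#{x ∈ Y.ces J Z ×ˢ Y.ces J Z |
      Cross (Y.Q.u x.1) (Y.Q.v x.1) (Y.Q.u x.2) (Y.Q.v x.2) ∧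
        x.1 / 2 ^ Y.jT ≠ x.2 / 2 ^ Y.jT} : ℝ) ≤ k * #Z * Y.m := by
    have c1 : #{x ∈ Y.ces J Z ×ˢ Y.ces J Z |
        Cross (Y.Q.u x.1) (Y.Q.v x.1) (Y.Q.u x.2) (Y.Q.v x.2) ∧
          x.1 / 2 ^ Y.jT ≠ x.2 / 2 ^ Y.jT} ≤ #(Z.sigma fun δ => {δ' ∈ Y.Γ | Y.wn δ' ≠ Y.wn δ ∧
            ∃ s ∈ Set.Ico (Y.xl J) (Y.xh J), Y.xi δ s = Y.xi δ' s}) := by
      refine card_le_card_of_injOn
        (fun x => (⟨Y.G.pc Y.c x.1, Y.G.pc Y.c x.2⟩ : Σ _ : ℕ × ℕ, ℕ × ℕ)) ?_ ?_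
      · intro x hx
        obtain ⟨hx1, ⟨-, -, -, -, z, hz1, hz2⟩, hw⟩ := mem_filter.1 (mem_coe.1 hx)
        obtain ⟨a1, a2⟩ := mem_product.1 hx1
        obtain ⟨b1, b2, -, -, b5, b6⟩ := hm _ a1
        obtain ⟨b1', b2', -⟩ := hm _ a2
        obtain ⟨-, hJ, g1⟩ := h.T_sub _ (hZ _ b2)
        have g2 := (h.T_sub _ (hZ _ b2')).2.2
        have hcz := cone_seg b5 b6 hz1
        have v1 := h.xi_vertex g1 hJ b1 rfl hz1 hcz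
        have v2 := h.xi_vertex g2 hJ b1' rfl hz2 hcz
        refine mem_coe.2 (mem_sigma.2 ⟨b2, mem_filter.2 ⟨g2, ?_, _, ⟨v1.1.1.le, v1.1.2⟩,
          v1.2.trans v2.2.symm⟩⟩)
        have e1 := h.wn_eq _ b1 g1
        have e2 := h.wn_eq _ b1' g2
        exact fun e => hw (e1.trans (e.symm.trans e2.symm))
      · intro x hx y hy e
        obtain ⟨hx1, hx2, hw⟩ := mem_filter.1 (mem_coe.1 hx)
        obtain ⟨hy1, hy2, -⟩ := mem_filter.1 (mem_coe.1 hy)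
        obtain ⟨a1, a2⟩ := mem_product.1 hx1
        obtain ⟨b1, b2⟩ := mem_product.1 hy1
        simp only [Sigma.mk.injEq, heq_eq_eq] at e
        have dj : ∀ t ∈ Y.ces J Z, ∀ t' ∈ Y.ces J Z,
            (t, t) = (t', t') ∨ Y.G.Disj (t, t) (t', t') := fun t ht t' ht' => by
          by_cases e : t = t'
          · exact Or.inl (by rw [e])
          · exact Or.inr (Y.G.disj_edge (hm t ht).1 (hm t' ht').1 e)
        have := Y.G.arc_unique (c := Y.c) (Nat.zero_le Y.jT) o.jT_le h.ok.c_lev h.ok.c_lev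
          (Y.G.isArc_edge _ _ (hm _ a1).1) (Y.G.isArc_edge _ _ (hm _ b1).1)
          (Y.G.isArc_edge _ _ (hm _ a2).1) (Y.G.isArc_edge _ _ (hm _ b2).1)
          (dj _ a1 _ b1) (dj _ a2 _ b2) e.1 e.2 hw hx2 hy2
        exact Prod.ext (Prod.ext_iff.1 this.1).1 (Prod.ext_iff.1 this.2).1
    rw [card_sigma] at c1
    refine (Nat.cast_le.2 c1).trans ?_
    rw [Nat.cast_sum]
    refine (sum_le_card_nsmul Z _ (k * Y.m) fun δ hδ => ?_).trans (le_of_eq ?_)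
    · refine (hc.nn _ (hZ δ hδ)).trans ?_
      rw [mul_div_assoc]
      exact mul_le_mul_of_nonneg_left h.m_bounds.1 hk
    · rw [nsmul_eq_mul]; ring
  have hsplit := card_filter_add_card_filter_not (s := {x ∈ Y.ces J Z ×ˢ Y.ces J Z |
      Cross (Y.Q.u x.1) (Y.Q.v x.1) (Y.Q.u x.2) (Y.Q.v x.2)})
    (fun x => x.1 / 2 ^ Y.jT = x.2 / 2 ^ Y.jT)
  rw [filter_filter, filter_filter] at hsplit
  rw [← hsplit, Nat.cast_add]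
  linarith

/-- `cl_edges` with `p = 1 / (6 k d)`, `ces_card`, `ces_cross`, `m ≤ 2 k e0 d²` -/
theorem Fan.cv_ge (h : Y.Fan k) (hc : Y.Core k) {J : ℕ} {Z : Finset (ℕ × ℕ)}
    (hZ : ∀ δ ∈ Z, (J, δ) ∈ Y.T) : (#Z : ℝ) * Y.e0 ≤ 144 * k ^ 2 * Y.d * #(Y.cv J Z) := by
  have o := h.ok.ok
  have hk := o.k2
  have hd := o.d1
  have hm := fun t (ht : t ∈ Y.ces J Z) => h.st7d_mem hZ ht
  have hkd : 1 ≤ 6 * k * Y.d := by nlinarith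
  have hkd0 : 0 < 6 * k * Y.d := by linarith
  have cl := o.base.cl_edges (Y.cv J Z) (fun q hq => by
      rcases mem_union.1 hq with e | e
      · obtain ⟨t, ht, rfl⟩ := mem_image.1 e
        exact h.ok.VB_sub (hm t ht).2.2.1
      · obtain ⟨t, ht, rfl⟩ := mem_image.1 e
        exact h.ok.VB_sub (hm t ht).2.2.2.1) (Y.ces J Z)
    (fun t ht => ⟨(hm t ht).1, mem_union_left _ (mem_image_of_mem _ ht),
      mem_union_right _ (mem_image_of_mem _ ht)⟩) (6 * k * Y.d)⁻¹ (inv_pos.2 hkd0)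
    (inv_le_one_of_one_le₀ hkd)
  have c1 : (#Z : ℝ) * Y.e0 ≤ 4 * #(Y.ces J Z) := by exact_mod_cast h.ces_card hc hZ
  have c2 := (h.ces_cross hc hZ).trans
    (mul_le_mul_of_nonneg_left h.st7d_m.2.1 (by positivity : 0 ≤ 2 * k * (#Z : ℝ)))
  have c3 := mul_le_mul_of_nonneg_left c2 (sq_nonneg (6 * k * Y.d)⁻¹)
  have e1 : (6 * k * Y.d)⁻¹ ^ 2 * (2 * k * #Z * (2 * k * Y.e0 * Y.d ^ 2))
      = #Z * Y.e0 / 9 := by
    field_simp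
    ring
  have e2 : 3 * k * (#(Y.cv J Z) : ℝ) / (6 * k * Y.d)⁻¹ = 18 * (k ^ 2 * Y.d * #(Y.cv J Z)) := by
    field_simp
    ring
  rw [e1] at c3
  rw [e2] at cl
  have : 0 ≤ k ^ 2 * Y.d * (#(Y.cv J Z) : ℝ) := by positivity
  linarith

/-- Let `Z` be the typical pieces with rank in `(rk δ + 4 k m, rk δ' - 4 k m)`, `#Z ≥ lam ^ 14 m / 2`
(`rk_card'`).  A vertex `q ∈ cv J Z` with `s = slp p q` has `xi δ' s < q.1 < xi δ s` (`xi_vertex`,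
`order`), so `q ∉ S (et δ s)`, `q ∈ S (et δ' s)` (`side`), and `w0 δ = w0 δ'`: `q` is counted by
`Dm J δ` or `Dm J δ'`.  Finally `m e0 / d ≥ (M / L) (b / (k L)) = y / (k L²)`. -/
theorem Fan.far_vertices (h : Y.Fan k) (hc : Y.Core k) (hl : k ≤ Y.lam) {J : ℕ} {δ δ' : ℕ × ℕ}
    (hδ : (J, δ) ∈ Y.T) (hδ' : (J, δ') ∈ Y.T) (hb : Y.blk δ = Y.blk δ')
    (hr : (Y.ad.rk J δ : ℝ) + Y.lam ^ 14 * Y.m ≤ Y.ad.rk J δ') :
    Y.lam ^ 14 * Y.y ≤ 288 * k ^ 3 * Y.L ^ 2 * (Y.Dm J δ + Y.Dm J δ') := by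
  have o := h.ok.ok
  have hk := o.k2
  have hd := o.d1
  obtain ⟨-, hJ, hΓ⟩ := h.T_sub _ hδ
  have hΓ' := (h.T_sub _ hδ').2.2
  obtain ⟨m1, -, -, m4⟩ := h.st7d_m
  obtain ⟨g, hg1, hg2⟩ : ∃ g : ℕ, (g : ℝ) ≤ 4 * k * Y.m ∧ 4 * k * Y.m < g + 1 :=
    ⟨⌊4 * k * Y.m⌋₊, Nat.floor_le (by positivity), Nat.lt_floor_add_one _⟩
  have hlam : 18 * k ≤ Y.lam ^ 14 := by
    have h1 : (2 : ℝ) ^ 13 ≤ Y.lam ^ 13 := pow_le_pow_left₀ (by norm_num) (hk.trans hl) 13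
    have h2 : Y.lam ^ 14 = Y.lam ^ 13 * Y.lam := by ring
    nlinarith
  have hlm := mul_le_mul_of_nonneg_right hlam (by linarith : (0 : ℝ) ≤ Y.m)
  have hkm : 1 ≤ k * Y.m := by nlinarith
  have hab : Y.ad.rk J δ + g + 1 + g ≤ Y.ad.rk J δ' := by
    have : (Y.ad.rk J δ : ℝ) + g + 1 + g ≤ Y.ad.rk J δ' := by linarith
    exact_mod_cast this
  obtain ⟨Z, hZd⟩ : ∃ Z, Z = {δ'' ∈ Y.ad.ty J | Y.ad.rk J δ + g + 1 ≤ Y.ad.rk J δ'' ∧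
    Y.ad.rk J δ'' < Y.ad.rk J δ' - g} := ⟨_, rfl⟩
  have hZc : Y.ad.rk J δ' - g - (Y.ad.rk J δ + g + 1) ≤ #Z :=
    hZd ▸ h.rk_card' hJ (mem_filter.2 ⟨hΓ', hδ'⟩) (Nat.sub_le _ _)
  have hZc' : Y.lam ^ 14 * Y.m ≤ 2 * #Z := by
    have h1 : Y.ad.rk J δ' ≤ #Z + (Y.ad.rk J δ + g + 1 + g) := by omega
    have h2 : (Y.ad.rk J δ' : ℝ) ≤ #Z + (Y.ad.rk J δ + g + 1 + g) := by exact_mod_cast h1
    linarith
  have hZ : ∀ γ ∈ Z, (J, γ) ∈ Y.T ∧ (Y.ad.rk J δ : ℝ) + 4 * k * Y.m < Y.ad.rk J γ ∧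
      (Y.ad.rk J γ : ℝ) + 4 * k * Y.m < Y.ad.rk J δ' := fun γ hγ => by
    rw [hZd] at hγ
    obtain ⟨a1, a2, a3⟩ := mem_filter.1 hγ
    have b2 : (Y.ad.rk J δ : ℝ) + g + 1 ≤ Y.ad.rk J γ := by exact_mod_cast a2
    have b3 : (Y.ad.rk J γ : ℝ) + g + 1 ≤ Y.ad.rk J δ' := by
      exact_mod_cast (by omega : Y.ad.rk J γ + g + 1 ≤ Y.ad.rk J δ')
    exact ⟨(mem_filter.1 a1).2, by linarith, by linarith⟩
  have hw : Y.w0 δ' = Y.w0 δ := by unfold w0; rw [hb]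
  have hl' := o.xl_lt (mem_range.1 (h.ok.JJ_sub (h.I_sub hJ)))
  have hcv : #(Y.cv J Z) ≤ Y.Dm J δ + Y.Dm J δ' := by
    refine le_trans (card_le_card fun q hq => ?_) (card_union_le _ _)
    obtain ⟨t, ht, hq1, hq2, hq3⟩ : ∃ t ∈ Y.ces J Z, q ∈ Y.Q.seg t ∧ q ∈ Y.VB ∧
        Cone (Y.xl J) (Y.xh J) Y.p q := by
      rcases mem_union.1 hq with e | e
      · obtain ⟨t, ht, rfl⟩ := mem_image.1 e
        have a := h.st7d_mem (fun γ hγ => (hZ γ hγ).1) ht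
        exact ⟨t, ht, left_mem_segment _ _ _, a.2.2.1, a.2.2.2.2.1⟩
      · obtain ⟨t, ht, rfl⟩ := mem_image.1 e
        have a := h.st7d_mem (fun γ hγ => (hZ γ hγ).1) ht
        exact ⟨t, ht, right_mem_segment _ _ _, a.2.2.2.1, a.2.2.2.2.2⟩
    obtain ⟨a1, a2, -⟩ := h.st7d_mem (fun γ hγ => (hZ γ hγ).1) ht
    obtain ⟨b1, b2, b3⟩ := hZ _ a2
    obtain ⟨v1, v2⟩ := h.xi_vertex (h.T_sub _ b1).2.2 hJ a1 rfl hq1 hq3
    have o1 := h.order hc hδ b1 b2 ⟨v1.1.le, v1.2⟩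
    have o2 := h.order hc b1 hδ' b3 ⟨v1.1.le, v1.2⟩
    rw [v2] at o1 o2
    have hqs := seg_hh_slp (hq3.x_lt hl') (right_mem_segment ℝ Y.p q)
    have s1 := (h.side hΓ hJ ⟨v1.1.le, v1.2.le⟩ (h.ok.VB_sub hq2) hqs).1 o1
    have s2 := (h.side hΓ' hJ ⟨v1.1.le, v1.2.le⟩ (h.ok.VB_sub hq2) hqs).2 o2
    by_cases hs : q ∈ Y.Q.S (Y.w0 δ * 2 ^ Y.jr)
    · exact mem_union_left _ (mem_filter.2 ⟨hq2, hq3, mem_union_left _ (mem_sdiff.2 ⟨hs, s1⟩)⟩)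
    · exact mem_union_right _ (mem_filter.2 ⟨hq2, hq3,
        mem_union_right _ (mem_sdiff.2 ⟨s2, hw ▸ hs⟩)⟩)
  have hcv' : (#(Y.cv J Z) : ℝ) ≤ Y.Dm J δ + Y.Dm J δ' := by exact_mod_cast hcv
  have c1 := h.cv_ge hc fun γ hγ => (hZ γ hγ).1
  have hL0 : 0 ≤ Y.L := zero_le_one.trans o.L1
  have c2 : Y.y * Y.d ≤ (k * Y.L * Y.e0) * (Y.L * Y.m) := by
    rw [← Y.ell_M]
    exact mul_le_mul h.ok.e0_lo m1 o.M_pos.le (by positivity)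
  have hl0 : 0 ≤ Y.lam ^ 14 := by linarith
  refine le_of_mul_le_mul_right ?_ (zero_lt_one.trans_le hd)
  calc Y.lam ^ 14 * Y.y * Y.d = Y.lam ^ 14 * (Y.y * Y.d) := by ring
    _ ≤ Y.lam ^ 14 * ((k * Y.L * Y.e0) * (Y.L * Y.m)) := mul_le_mul_of_nonneg_left c2 hl0
    _ = k * Y.L ^ 2 * Y.e0 * (Y.lam ^ 14 * Y.m) := by ring
    _ ≤ k * Y.L ^ 2 * Y.e0 * (2 * #Z) := mul_le_mul_of_nonneg_left hZc' (by positivity)
    _ = 2 * k * Y.L ^ 2 * (#Z * Y.e0) := by ring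
    _ ≤ 2 * k * Y.L ^ 2 * (144 * k ^ 2 * Y.d * (Y.Dm J δ + Y.Dm J δ')) :=
      mul_le_mul_of_nonneg_left (c1.trans (mul_le_mul_of_nonneg_left hcv' (by positivity)))
        (by positivity)
    _ = _ := by ring

/-- sum `far_vertices` over all far pairs; each piece has at most `2 k m` partners (`blk_size`);
`dm_sum`, `n rr² = (M / L) lam ^ 12 ≤ m lam ^ 12` -/
theorem Fan.far_sum (h : Y.Fan k) (hc : Y.Core k) (hl : k ≤ Y.lam) :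
    ∑ i ∈ Y.ad.I, Y.ad.far i ≤ 5760 * k ^ 6 * Y.ad.m ^ 2 * Y.ad.lam ^ 30 := by
  have o := h.ok.ok
  have hk := o.k2
  have hl0 : 0 < Y.lam := zero_lt_one.trans_le o.lam1
  have hL0 : 0 < Y.L := zero_lt_one.trans_le o.L1
  have h1 : ∀ i ∈ Y.I, Y.ad.far i * (Y.lam ^ 14 * Y.y)
      ≤ 288 * k ^ 3 * Y.L ^ 2 * (4 * k * Y.m) * ∑ δ ∈ Y.Γ, (Y.Dm i δ : ℝ) := fun i _ => by
    have a1 := h.st7d_pairs (fun δ => (Y.Dm i δ : ℝ)) fun _ => Nat.cast_nonneg _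
    rw [mul_assoc (288 * k ^ 3 * Y.L ^ 2)]
    refine le_trans ?_ (mul_le_mul_of_nonneg_left a1 (by positivity))
    rw [AD.far, ← nsmul_eq_mul, mul_sum]
    refine (card_nsmul_le_sum _ (fun x : (ℕ × ℕ) × (ℕ × ℕ) =>
      288 * k ^ 3 * Y.L ^ 2 * ((Y.Dm i x.1 : ℝ) + Y.Dm i x.2)) _ fun x hx => ?_).trans
      (sum_le_sum_of_subset_of_nonneg (fun x hx => ?_) fun _ _ _ => by positivity)
    · obtain ⟨b1, b2, b3⟩ := mem_filter.1 hx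
      obtain ⟨b4, b5⟩ := mem_product.1 b1
      exact h.far_vertices hc hl (mem_filter.1 b4).2 (mem_filter.1 b5).2 b2 b3
    · obtain ⟨b1, b2, -⟩ := mem_filter.1 hx
      obtain ⟨b4, b5⟩ := mem_product.1 b1
      exact mem_filter.2 ⟨mem_product.2 ⟨(mem_filter.1 b4).1, (mem_filter.1 b5).1⟩, b2⟩
  have h2 := sum_le_sum h1
  rw [← sum_mul, ← mul_sum, sum_comm] at h2
  have h3 := h2.trans (mul_le_mul_of_nonneg_left h.dm_sum (by positivity))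
  have h4 : Y.n * Y.rr ^ 2 ≤ Y.m * Y.lam ^ 12 := by
    have e : Y.n * Y.rr ^ 2 = Y.n * Y.rr ^ 3 * Y.lam ^ 12 := by
      rw [Dat.rr]; field_simp
    rw [e, o.n_rr]
    exact mul_le_mul_of_nonneg_right h.m_bounds.1 (by positivity)
  have hy := o.y_pos
  refine le_of_mul_le_mul_right (h3.trans ?_) (by positivity : 0 < Y.lam ^ 14 * Y.y)
  calc 288 * k ^ 3 * Y.L ^ 2 * (4 * k * Y.m) * (5 * k ^ 2 * Y.n ^ 2 * Y.b ^ 2 * Y.rr ^ 2)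
      = 5760 * k ^ 6 * Y.L ^ 2 * Y.m * Y.y * (Y.n * Y.rr ^ 2) := by rw [Dat.y]; ring
    _ ≤ 5760 * k ^ 6 * Y.L ^ 2 * Y.m * Y.y * (Y.m * Y.lam ^ 12) :=
      mul_le_mul_of_nonneg_left h4 (by positivity)
    _ = 5760 * k ^ 6 * (Y.m : ℝ) ^ 2 * Y.lam ^ 30 * (Y.lam ^ 14 * Y.y) := by rw [Dat.L]; ring

end Dat6

end Crest.Agent.R051
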