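import Crest.Agent.R051.St6b
import Crest.Agent.R051.St6c
import Crest.Agent.R051.St7d
import Crest.Agent.R051.AMain

/-! Row 51: the fan is impossible. -/

set_option autoImplicit false

open Finset
open scoped Classical

namespace Crest.Agent.R051

/-- collect the fields from `St7a`, `p5`, `far_sum` -/
theorem ad_ok : ∃ C : ℕ, ∀ (Y : Dat6) (k : ℝ), Y.Fan k → Y.Core k → k ≤ Y.lam →
    Y.ad.OK (k ^ C) := by
  obtain ⟨C, hC⟩ := Dat6.p5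
  refine ⟨C + 19, fun Y k h hc hl => ?_⟩
  have hk : 2 ≤ k := h.ok.ok.k2
  have hk1 : (1 : ℝ) ≤ k := by linarith
  have hk0 : (0 : ℝ) ≤ k := by linarith
  have hlam : (1 : ℝ) ≤ Y.lam := h.ok.ok.lam1
  have e1 : k ≤ k ^ (C + 19) := le_self_pow₀ hk1 (by omega)
  have e2 : 2 * k ≤ k ^ (C + 19) :=
    calc 2 * k ≤ k ^ 2 := by nlinarith
      _ ≤ k ^ (C + 19) := pow_le_pow_right₀ hk1 (by omega)
  have e3 : k ^ C ≤ k ^ (C + 19) := pow_le_pow_right₀ hk1 (by omega)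
  have e4 : 5760 * k ^ 6 ≤ k ^ (C + 19) :=
    calc 5760 * k ^ 6 ≤ k ^ 13 * k ^ 6 := by
          gcongr
          calc (5760 : ℝ) ≤ 2 ^ 13 := by norm_num
            _ ≤ k ^ 13 := by gcongr
      _ = k ^ 19 := by ring
      _ ≤ k ^ (C + 19) := pow_le_pow_right₀ hk1 (by omega)
  have hL : (0 : ℝ) ≤ Y.ad.L := by
    have : (0 : ℝ) ≤ Y.lam := by linarith
    show (0 : ℝ) ≤ Y.lam ^ 16
    positivity
  have hm2 : 2 ≤ Y.ad.m := by
    have h1 := h.m_bounds.2.2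
    have h2 := h.ok.ok.ell_ge
    have h3 := h.ok.ok.L1
    have h4 : Y.lam ≤ Y.lam ^ 180 := le_self_pow₀ hlam (by omega)
    have h5 : (2 : ℝ) ≤ Y.m := by nlinarith
    exact_mod_cast h5
  refine ⟨hk.trans e1, hm2, hlam, h.ad_T_sub, h.I_card, h.ad_Γ_card.trans (by gcongr),
    h.ad_T_big.trans (by gcongr), h.ad_X_inj, h.ad_U_pos, h.ad_U_inj, h.ad_X_lt, h.ad_Xs_le,
    h.ad_ord, h.ad_rel, fun x => (h.ad_w_card x).trans (by gcongr), fun g hg Γ' hΓ => ?_,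
    h.ad_blk_mono, h.ad_blk_card.trans (by gcongr), (h.far_sum hc hl).trans (by gcongr)⟩
  refine le_trans (le_of_eq ?_) ((hC Y k h hc g hg Γ' hΓ).trans (by gcongr))
  congr

/-- `prefan`, `Pre.fan`, `st6c`, `ad_ok`, `AD.main` -/
theorem st67 : ∃ C : ℕ, ∀ (W : Dat5) (k : ℝ), W.OK k → k ^ C ≤ W.lam → False := by
  obtain ⟨C1, h1⟩ := prefan
  obtain ⟨C2, h2⟩ := st6c
  obtain ⟨C3, h3⟩ := ad_ok
  obtain ⟨C4, h4⟩ := AD.main
  refine ⟨C1 + C1 * C2 + C1 * C2 * C3 * C4, fun W k hW hl => ?_⟩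
  have hk1 : (1 : ℝ) ≤ k := by linarith [hW.ok.k2]
  obtain ⟨Y, hY, hP⟩ := h1 W k hW ((pow_le_pow_right₀ hk1 (by omega)).trans hl)
  obtain ⟨et, xi, hF⟩ := hP.fan
  obtain ⟨T', V', hF', hC'⟩ := h2 _ _ hF
  have hlam : Y.lam = W.lam := by rw [← hY]
  have hA := h3 _ _ hF' hC' (by
    show (k ^ C1) ^ C2 ≤ Y.lam
    rw [hlam, ← pow_mul]
    exact (pow_le_pow_right₀ hk1 (by omega)).trans hl)
  refine h4 _ _ hA ?_
  show (((k ^ C1) ^ C2) ^ C3) ^ C4 ≤ Y.lam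
  rw [hlam, ← pow_mul, ← pow_mul, ← pow_mul, ← mul_assoc, ← mul_assoc]
  exact (pow_le_pow_right₀ hk1 (by omega)).trans hl

end Crest.Agent.R051
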