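import Crest.Agent.R051.St2
import Crest.Agent.R051.St45
import Crest.Agent.R051.St67
import Crest.Agent.R051.PathsEx

/-! Row 51: no near-extremal process. -/

set_option autoImplicit false

open Finset
open scoped Classical

namespace Crest.Agent.R051

/-- `st2` with `a` the product of the exponents of `st45`, `st67`; `exists_paths` -/
theorem gm : ∃ C : ℕ, ∀ (Q : Proc) (k d : ℝ), Base Q k d → k ^ C ≤ d → False := by
  obtain ⟨C2, h2⟩ := st2
  obtain ⟨C45, h45⟩ := st45
  obtain ⟨C67, h67⟩ := st67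
  obtain ⟨C', hC'⟩ := h2 (C45 * C67 + C45)
  refine ⟨C', fun Q k d hB hk => ?_⟩
  obtain ⟨G⟩ := Q.exists_paths
  obtain ⟨X, hX, hl⟩ := hC' Q G k d hB hk
  have h1 : (1 : ℝ) ≤ k ^ C2 := by linarith [hX.k2]
  obtain ⟨W, hW, hWo⟩ := h45 X _ hX ((pow_le_pow_right₀ h1 (by omega)).trans hl)
  refine h67 W _ hWo ?_
  have : W.lam = X.lam := by rw [← hW]
  rw [this, ← pow_mul]
  exact (pow_le_pow_right₀ h1 (by omega)).trans hl

end Crest.Agent.R051
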