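import Crest.Agent.R051.Basic

/-! Row 51: from a point set with many `κ`-edges to a process. -/

set_option autoImplicit false

open Finset
open scoped Classical

namespace Crest.Agent.R051

/-- `Z ⊆ P` is cut off from below in direction `s` -/
def Sep (P Z : Finset Pt) (s : ℝ) : Prop := ∀ p ∈ Z, ∀ q ∈ P, q ∉ Z → hh s p < hh s q

lemma Sep.unique {P Z Z' : Finset Pt} {s : ℝ} (h : Sep P Z s) (h' : Sep P Z' s) (hZ : Z ⊆ P)
    (hZ' : Z' ⊆ P) (hc : #Z = #Z') : Z = Z' := by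
  by_contra hne
  have h1 : ¬ Z ⊆ Z' := fun hs => hne (eq_of_subset_of_card_le hs hc.ge)
  have h2 : ¬ Z' ⊆ Z := fun hs => hne (eq_of_subset_of_card_le hs hc.le).symm
  obtain ⟨p, hp, hp'⟩ := not_subset.1 h1
  obtain ⟨q, hq, hq'⟩ := not_subset.1 h2
  exact lt_asymm (h p hp q (hZ' hq) hq') (h' q hq p (hZ hp) hp')

/-- three points of the same height are not in general position -/
lemma mk1_col {P : Finset Pt} (hg : GP P) {σ : ℝ} {p q r : Pt} (hp : p ∈ P) (hq : q ∈ P)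
    (hr : r ∈ P) (hpq : p ≠ q) (h1 : hh σ p = hh σ q) (h2 : hh σ r = hh σ p) : r = p ∨ r = q := by
  by_contra hcon
  rw [not_or] at hcon
  refine hg p hp q hq r hr hpq (Ne.symm hcon.1) (Ne.symm hcon.2) ?_
  unfold hh at h1 h2
  have e1 : q.2 - p.2 = σ * (q.1 - p.1) := by linarith
  have e2 : r.2 - p.2 = σ * (r.1 - p.1) := by linarith
  rw [e1, e2]
  ring

/-- the first tie on the way from `s1` to `s0` -/
lemma mk1_tie {P Z : Finset Pt} {s0 s1 : ℝ} (h1 : Sep P Z s1) (h0 : ¬ Sep P Z s0) :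
    ∃ τ : ℝ, 0 ≤ τ ∧ τ < 1 ∧ ∃ p ∈ Z, ∃ q ∈ P, q ∉ Z ∧
      hh (s0 + τ * (s1 - s0)) p = hh (s0 + τ * (s1 - s0)) q ∧
      ∀ p' ∈ Z, ∀ q' ∈ P, q' ∉ Z →
        hh (s0 + τ * (s1 - s0)) p' ≤ hh (s0 + τ * (s1 - s0)) q' := by
  set T : Finset (Pt × Pt) := {e ∈ Z ×ˢ P | e.2 ∉ Z ∧ hh s0 e.2 ≤ hh s0 e.1} with hT
  have hmem : ∀ e : Pt × Pt, e ∈ T ↔ e.1 ∈ Z ∧ e.2 ∈ P ∧ e.2 ∉ Z ∧ hh s0 e.2 ≤ hh s0 e.1 := by
    intro e
    rw [hT, mem_filter, mem_product, and_assoc]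
  have hne : T.Nonempty := by
    by_contra hcon
    refine h0 fun p hp q hq hq' => ?_
    by_contra hlt
    exact hcon ⟨(p, q), (hmem _).2 ⟨hp, hq, hq', not_lt.1 hlt⟩⟩
  set g : Pt × Pt → ℝ := fun e =>
    (hh s0 e.1 - hh s0 e.2) / ((hh s0 e.1 - hh s0 e.2) + (hh s1 e.2 - hh s1 e.1)) with hg
  obtain ⟨e, he, hmax⟩ := T.exists_max_image g hne
  have hlin : ∀ (τ : ℝ) (p q : Pt), hh (s0 + τ * (s1 - s0)) q - hh (s0 + τ * (s1 - s0)) p =
      τ * ((hh s0 p - hh s0 q) + (hh s1 q - hh s1 p)) - (hh s0 p - hh s0 q) := by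
    intro τ p q
    unfold hh
    ring
  have hpos : ∀ e ∈ T, 0 ≤ hh s0 e.1 - hh s0 e.2 ∧ 0 < hh s1 e.2 - hh s1 e.1 := by
    intro e he
    obtain ⟨a, b, c, d⟩ := (hmem e).1 he
    exact ⟨by linarith, by linarith [h1 _ a _ b c]⟩
  have hzero : ∀ e ∈ T, g e * ((hh s0 e.1 - hh s0 e.2) + (hh s1 e.2 - hh s1 e.1)) =
      hh s0 e.1 - hh s0 e.2 := by
    intro e he
    obtain ⟨a, b⟩ := hpos e he
    exact div_mul_cancel₀ _ (by linarith)
  obtain ⟨a, b⟩ := hpos e he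
  obtain ⟨m1, m2, m3, -⟩ := (hmem e).1 he
  have g0 : 0 ≤ g e := div_nonneg a (by linarith)
  have g1 : g e < 1 := (div_lt_one (by linarith)).2 (by linarith)
  refine ⟨g e, g0, g1, e.1, m1, e.2, m2, m3, ?_, fun p' hp' q' hq' hq'' => ?_⟩
  · have := hlin (g e) e.1 e.2
    rw [hzero e he] at this
    linarith
  · have h2 := hlin (g e) p' q'
    have h3 := h1 p' hp' q' hq' hq''
    by_cases hc : hh s0 q' ≤ hh s0 p'
    · have hm : (p', q') ∈ T := (hmem _).2 ⟨hp', hq', hq'', hc⟩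
      have h4 := hzero _ hm
      have h5 := hmax _ hm
      simp only at h4
      have h6 : g (p', q') * ((hh s0 p' - hh s0 q') + (hh s1 q' - hh s1 p')) ≤
          g e * ((hh s0 p' - hh s0 q') + (hh s1 q' - hh s1 p')) :=
        mul_le_mul_of_nonneg_right h5 (by linarith)
      linarith
    · have h4 : 0 ≤ (1 - g e) * (hh s0 q' - hh s0 p') :=
        mul_nonneg (by linarith) (by linarith)
      have h5 : 0 ≤ g e * (hh s1 q' - hh s1 p') := mul_nonneg g0 (by linarith)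
      nlinarith

/-- the points below a tie -/
lemma mk1_set {P Z : Finset Pt} (hg : GP P) (hZ : Z ⊆ P) {σ : ℝ} {p q : Pt} (hp : p ∈ Z)
    (hq : q ∈ P) (hq' : q ∉ Z) (ht : hh σ p = hh σ q)
    (hw : ∀ p' ∈ Z, ∀ q' ∈ P, q' ∉ Z → hh σ p' ≤ hh σ q') :
    {r ∈ P | hh σ r < hh σ p} = Z.erase p := by
  ext r
  rw [mem_filter, mem_erase]
  constructor
  · rintro ⟨h1, h2⟩
    refine ⟨fun h => by rw [h] at h2; exact lt_irrefl _ h2, ?_⟩
    by_contra h3
    exact absurd (hw p hp r h1 h3) (not_le.2 h2)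
  · rintro ⟨h1, h2⟩
    refine ⟨hZ h2, lt_of_le_of_ne (ht ▸ hw r h2 q hq hq') fun h3 => ?_⟩
    have hpq : p ≠ q := fun h => hq' (h ▸ hp)
    rcases mk1_col hg (hZ hp) hq (hZ h2) hpq ht h3 with h | h
    · exact h1 h
    · exact hq' (h ▸ h2)

lemma mk1_slp {σ : ℝ} {p q : Pt} (hx : p.1 < q.1) (ht : hh σ p = hh σ q) : slp p q = σ := by
  unfold slp
  unfold hh at ht
  rw [div_eq_iff (by linarith)]
  linarith

lemma mk1_hh_slp {p q : Pt} (hx : p.1 < q.1) : hh (slp p q) p = hh (slp p q) q := by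
  have h : slp p q * (q.1 - p.1) = q.2 - p.2 := div_mul_cancel₀ _ (by linarith)
  unfold hh
  linarith

/-- If `Z` (with `κ + 1` points) is separated at `s1` and not at `s0 < s1`, take the largest slope
`σ ∈ [s0, s1)` of a pair `p ∈ Z`, `q ∉ Z` with `hh s0 q ≤ hh s0 p`; at `σ` all points of `Z` are
weakly below all other points, `p, q` are tied, and by general position nobody else is on their
line: `p` is the right endpoint of a `κ`-edge and `Z` = points below the edge together with `p`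
(`edge_right` is the mirror statement for `s1 < s0`, where `p` is the left endpoint). -/
lemma Sep.edge_left {P Z : Finset Pt} (hx : XInj P) (hg : GP P) (hZ : Z ⊆ P) {κ : ℕ}
    (hc : #Z = κ + 1) {s0 s1 : ℝ} (hs : s0 < s1) (h1 : Sep P Z s1) (h0 : ¬ Sep P Z s0) :
    ∃ e ∈ kedges P κ, s0 ≤ slp e.1 e.2 ∧ slp e.1 e.2 < s1 ∧
      Z = insert e.2 {r ∈ P | hh (slp e.1 e.2) r < hh (slp e.1 e.2) e.1} := by
  obtain ⟨τ, t0, t1, p, hp, q, hq, hq', ht, hw⟩ := mk1_tie h1 h0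
  set σ := s0 + τ * (s1 - s0) with hσ
  have a1 : s0 ≤ σ := by nlinarith
  have a2 : σ < s1 := by nlinarith
  have hx' : q.1 < p.1 := by
    have h2 := h1 p hp q hq hq'
    unfold hh at h2 ht
    by_contra hc
    have := mul_nonneg (sub_nonneg.2 a2.le) (sub_nonneg.2 (not_lt.1 hc))
    nlinarith
  have hs' : slp q p = σ := mk1_slp hx' ht.symm
  have hset := mk1_set hg hZ hp hq hq' ht hw
  rw [ht] at hset
  refine ⟨(q, p), ?_, ?_, ?_, ?_⟩
  · rw [kedges, mem_filter, mem_product]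
    refine ⟨⟨hq, hZ hp⟩, hx', ?_⟩
    simp only [hs', hset]
    rw [card_erase_of_mem hp, hc, Nat.add_sub_cancel]
  · simpa only [hs'] using a1
  · simpa only [hs'] using a2
  · simp only [hs', hset]
    exact (insert_erase hp).symm

lemma Sep.edge_right {P Z : Finset Pt} (hx : XInj P) (hg : GP P) (hZ : Z ⊆ P) {κ : ℕ}
    (hc : #Z = κ + 1) {s0 s1 : ℝ} (hs : s1 < s0) (h1 : Sep P Z s1) (h0 : ¬ Sep P Z s0) :
    ∃ e ∈ kedges P κ, s1 < slp e.1 e.2 ∧ slp e.1 e.2 ≤ s0 ∧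
      Z = insert e.1 {r ∈ P | hh (slp e.1 e.2) r < hh (slp e.1 e.2) e.1} := by
  obtain ⟨τ, t0, t1, p, hp, q, hq, hq', ht, hw⟩ := mk1_tie h1 h0
  set σ := s0 + τ * (s1 - s0) with hσ
  have a1 : σ ≤ s0 := by nlinarith
  have a2 : s1 < σ := by nlinarith
  have hx' : p.1 < q.1 := by
    have h2 := h1 p hp q hq hq'
    unfold hh at h2 ht
    by_contra hc
    have := mul_nonneg (sub_nonneg.2 a2.le) (sub_nonneg.2 (not_lt.1 hc))
    nlinarith
  have hs' : slp p q = σ := mk1_slp hx' ht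
  have hset := mk1_set hg hZ hp hq hq' ht hw
  refine ⟨(p, q), ?_, ?_, ?_, ?_⟩
  · rw [kedges, mem_filter, mem_product]
    refine ⟨⟨hZ hp, hq⟩, hx', ?_⟩
    simp only [hs', hset]
    rw [card_erase_of_mem hp, hc, Nat.add_sub_cancel]
  · simpa only [hs'] using a2
  · simpa only [hs'] using a1
  · simp only [hs', hset]
    exact (insert_erase hp).symm

/-- different `κ`-edges have different slopes -/
lemma kedges_slp_inj {P : Finset Pt} (hx : XInj P) (hg : GP P) (κ : ℕ) :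
    Set.InjOn (fun e : Pt × Pt => slp e.1 e.2) (kedges P κ) := by
  have key : ∀ e ∈ kedges P κ, ∀ e' ∈ kedges P κ, slp e.1 e.2 = slp e'.1 e'.2 →
      ¬ hh (slp e.1 e.2) e.1 < hh (slp e.1 e.2) e'.1 := by
    intro e he e' he' h hlt
    rw [kedges, mem_filter, mem_product] at he he'
    have hss : ({r ∈ P | hh (slp e.1 e.2) r < hh (slp e.1 e.2) e.1} : Finset Pt) ⊂
        {r ∈ P | hh (slp e'.1 e'.2) r < hh (slp e'.1 e'.2) e'.1} := by
      rw [← h]
      refine (ssubset_iff_of_subset fun r hr => ?_).2 ⟨e.1, ?_, ?_⟩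
      · rw [mem_filter] at hr ⊢
        exact ⟨hr.1, hr.2.trans hlt⟩
      · exact mem_filter.2 ⟨he.1.1, hlt⟩
      · exact fun hr => lt_irrefl _ (mem_filter.1 hr).2
    have := card_lt_card hss
    rw [he.2.2, he'.2.2] at this
    exact lt_irrefl _ this
  intro e he e' he' h
  simp only at h
  rw [mem_coe] at he he'
  have k1 := key e he e' he' h
  have k2 := key e' he' e he h.symm
  rw [← h] at k2
  have k3 : hh (slp e.1 e.2) e'.1 = hh (slp e.1 e.2) e.1 :=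
    le_antisymm (not_lt.1 k1) (not_lt.1 k2)
  rw [kedges, mem_filter, mem_product] at he he'
  have x1 := he.2.1
  have x2 := he'.2.1
  have t1 := mk1_hh_slp x1
  have t2 := mk1_hh_slp x2
  rw [← h] at t2
  have hne : e.1 ≠ e.2 := fun h => by rw [h] at x1; exact lt_irrefl _ x1
  have c1 := mk1_col hg he.1.1 he.1.2 he'.1.1 hne t1 k3
  have c2 := mk1_col hg he.1.1 he.1.2 he'.1.2 hne t1 (t2.symm.trans k3)
  rcases c1 with c1 | c1 <;> rcases c2 with c2 | c2
  · rw [c1, c2] at x2; exact absurd x2 (lt_irrefl _)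
  · exact Prod.ext c1.symm c2.symm
  · rw [c1, c2] at x2; exact absurd x2 (lt_asymm x1)
  · rw [c1, c2] at x2; exact absurd x2 (lt_irrefl _)

end Crest.Agent.R051
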