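import Crest.Agent.R051.Part1

/-! Row 51: partition of the vertices into small parts cutting few edges. -/

set_option autoImplicit false

open Finset
open scoped Classical

namespace Crest.Agent.R051

variable {Q : Proc}

lemma part_shift {a b lam : ℕ} (hl : 1 ≤ lam) (h : a ≤ b) :
    #{σ ∈ range lam | (a + σ) / lam ≠ (b + σ) / lam} ≤ b - a := by
  rw [← Nat.card_Ioc]
  have h1 : ∀ σ, a + σ < ((a + σ) / lam + 1) * lam := fun σ =>
    (Nat.div_lt_iff_lt_mul hl).1 (Nat.lt_succ_self _)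
  refine card_le_card_of_injOn (fun σ => ((a + σ) / lam + 1) * lam - σ) (fun σ hσ => ?_)
    fun σ hσ σ' hσ' e => ?_
  · have h2 : (a + σ) / lam + 1 ≤ (b + σ) / lam := lt_of_le_of_ne
      (Nat.div_le_div_right (by omega)) (mem_filter.1 (mem_coe.1 hσ)).2
    have h3 := (Nat.le_div_iff_mul_le hl).1 h2
    have := h1 σ
    exact mem_coe.2 (mem_Ioc.2 (by beta_reduce; omega))
  · have h2 : σ + ((a + σ') / lam + 1) * lam = σ' + ((a + σ) / lam + 1) * lam := by
      have := h1 σ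
      have := h1 σ'
      simp only at e
      omega
    have h3 := congrArg (· % lam) h2
    simpa only [Nat.add_mul_mod_self_right, Nat.mod_eq_of_lt (mem_range.1 (mem_filter.1
      (mem_coe.1 hσ)).1), Nat.mod_eq_of_lt (mem_range.1 (mem_filter.1 (mem_coe.1 hσ')).1)] using h3

/-- averaging over the shift of a grid of mesh `lam` -/
lemma exists_shift (I : Finset ℕ) (a b w : ℕ → ℕ) (lam : ℕ) (hl : 1 ≤ lam)
    (h : ∀ t ∈ I, a t ≤ b t + w t ∧ b t ≤ a t + w t) :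
    ∃ σ < lam, lam * #{t ∈ I | (a t + σ) / lam ≠ (b t + σ) / lam} ≤ ∑ t ∈ I, w t := by
  have h1 : ∑ σ ∈ range lam, lam * #{t ∈ I | (a t + σ) / lam ≠ (b t + σ) / lam} ≤
      ∑ σ ∈ range lam, ∑ t ∈ I, w t := by
    rw [← mul_sum, sum_const, card_range, smul_eq_mul]
    refine Nat.mul_le_mul_left _ ?_
    simp only [card_filter]
    rw [sum_comm]
    refine sum_le_sum fun t ht => ?_
    rw [← card_filter]
    obtain ⟨h1, h2⟩ := h t ht
    rcases le_total (a t) (b t) with h3 | h3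
    · exact (part_shift hl h3).trans (by omega)
    · simp only [ne_comm (a := (a t + _) / lam)]
      exact (part_shift hl h3).trans (by omega)
  obtain ⟨σ, hσ, h2⟩ := exists_le_of_sum_le (nonempty_range_iff.2 (by omega)) h1
  exact ⟨σ, mem_range.1 hσ, h2⟩

lemma part_rank {P : Finset Pt} (hP : XInj P) (b : Pt → ℕ) {y : ℕ} (hy : 0 < y) :
    ∃ f : Pt → ℕ, (∀ q, f q ≤ b q + #P / y) ∧ (∀ p q, f p = f q → b p = b q) ∧
      (∀ p q, b p = b q → p.1 ≤ q.1 → f p ≤ f q) ∧ ∀ a, #{q ∈ P | f q = a} ≤ y := by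
  let R : Pt → ℕ := fun q => #{p ∈ P | b p < b q ∨ b p = b q ∧ p.1 < q.1}
  have h1 : ∀ p q, b p < b q ∨ b p = b q ∧ p.1 ≤ q.1 → R p ≤ R q := fun p q h =>
    card_le_card (monotone_filter_right _ fun z _ hz => by grind)
  have h2 : ∀ p ∈ P, ∀ q, b p = b q → p.1 < q.1 → R p < R q := fun p hp q h h' =>
    card_lt_card ⟨monotone_filter_right _ fun z _ hz => by grind,
      fun hs => by simpa using hs (mem_filter.2 ⟨hp, Or.inr ⟨h, h'⟩⟩)⟩
  have h3 : ∀ p q, b p + R p / y = b q + R q / y → b p = b q := fun p q h => by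
    rcases lt_trichotomy (b p) (b q) with h' | h' | h'
    · have := Nat.div_le_div_right (c := y) (h1 p q (Or.inl h'))
      omega
    · exact h'
    · have := Nat.div_le_div_right (c := y) (h1 q p (Or.inl h'))
      omega
  refine ⟨fun q => b q + R q / y, fun q => Nat.add_le_add_left
    (Nat.div_le_div_right (card_filter_le _ _)) _, h3, fun p q h h' =>
      Nat.add_le_add h.le (Nat.div_le_div_right (h1 p q (Or.inr ⟨h, h'⟩))), fun a => ?_⟩
  refine le_trans (card_le_card_of_injOn (fun q => R q % y) (fun q _ => mem_coe.2 (mem_range.2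
    (Nat.mod_lt _ hy))) fun p hp q hq e => ?_) (card_range y).le
  obtain ⟨hp, hp'⟩ := mem_filter.1 (mem_coe.1 hp)
  obtain ⟨hq, hq'⟩ := mem_filter.1 (mem_coe.1 hq)
  have h4 := h3 p q (hp'.trans hq'.symm)
  beta_reduce at hp' hq'
  have h5 : R p = R q := by
    rw [← Nat.div_add_mod (R p) y, ← Nat.div_add_mod (R q) y, show R p / y = R q / y by omega]
    exact congrArg _ e
  refine hP p hp q hq (le_antisymm (not_lt.1 fun h => ?_) (not_lt.1 fun h => ?_))
  · exact (h2 q hq p h4.symm h).ne' h5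
  · exact (h2 p hp q h4 h).ne h5

/-- Bands `(lv q + σ) / lam` with `lam = ⌈n β⌉` (at most `3 / β` bands), each cut into groups of
`y = ⌊n β²⌋` vertices consecutive in `x` (group = rank in the band divided by `y`; at most
`5 / β²` groups).  Cut edges: between bands (`exists_shift`, `lv_diff`), cost `> lam` (Markov), or
over the wall at the last vertex of the group of `u t` (`wall`).  Encode with `Nat.pair`. -/
theorem Paths.part (G : Paths Q) {k d : ℝ} (hB : Base Q k d) (β : ℝ) (h0 : 0 < β) (h1 : β ≤ 1)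
    (h2 : 1 ≤ #Q.P * β ^ 2) :
    ∃ f : Pt → ℕ, (∀ a, (#{q ∈ Q.P | f q = a} : ℝ) ≤ #Q.P * β ^ 2) ∧
      (#{t ∈ Q.E | f (Q.u t) ≠ f (Q.v t)} : ℝ) ≤ 100 * k * #Q.P / β := by
  have hk := hB.k2
  obtain ⟨n, hn⟩ : ∃ n : ℝ, n = #Q.P := ⟨_, rfl⟩
  rw [← hn] at h2 ⊢
  have hn0 : 0 < n := (pos_iff_pos_of_mul_pos (by linarith : 0 < n * β ^ 2)).2 (by positivity)
  have h3 : 1 ≤ n * β := by nlinarith [mul_pos hn0 h0]
  obtain ⟨lam, hl1, hl2⟩ : ∃ lam : ℕ, n * β ≤ lam ∧ (lam : ℝ) ≤ 2 * (n * β) :=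
    ⟨⌈n * β⌉₊, Nat.le_ceil _, by linarith [Nat.ceil_lt_add_one (a := n * β) (by linarith)]⟩
  obtain ⟨y, hy0, hy1, hy2⟩ : ∃ y : ℕ, 0 < y ∧ (y : ℝ) ≤ n * β ^ 2 ∧ n * β ^ 2 ≤ 2 * y := by
    have h4 : 0 < ⌊n * β ^ 2⌋₊ := Nat.floor_pos.2 h2
    have h5 : (1 : ℝ) ≤ ⌊n * β ^ 2⌋₊ := Nat.one_le_cast.2 h4
    exact ⟨_, h4, Nat.floor_le (by linarith), by linarith [Nat.lt_floor_add_one (n * β ^ 2)]⟩
  have hl : (1 : ℝ) ≤ lam := h3.trans hl1
  have hl' : 1 ≤ lam := Nat.one_le_cast.1 hl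
  have hW : ∀ m : ℕ, lam * m ≤ ∑ t ∈ Q.E, G.cost t → (m : ℝ) ≤ 3 * k * n / β := fun m hm => by
    have h4 : (lam : ℝ) * m ≤ ∑ t ∈ Q.E, (Q.meet t : ℝ) + 4 * (#Q.P : ℝ) ^ 2 := by
      exact_mod_cast hm.trans G.cost_sum
    have h5 := hB.meet
    rw [← hn] at h4 h5
    have h6 := mul_le_mul_of_nonneg_right hl1 (Nat.cast_nonneg (α := ℝ) m)
    have h7 := mul_le_mul_of_nonneg_right hk (sq_nonneg n)
    rw [le_div_iff₀ h0]
    exact le_of_mul_le_mul_left (by linarith) hn0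
  obtain ⟨σ, hσ, hA⟩ := exists_shift Q.E (fun t => G.lv (Q.u t)) (fun t => G.lv (Q.v t)) G.cost lam
    hl' fun t ht => ⟨G.lv_diff (mem_range.1 ht) (left_mem_segment _ _ _) (right_mem_segment _ _ _),
      G.lv_diff (mem_range.1 ht) (right_mem_segment _ _ _) (left_mem_segment _ _ _)⟩
  obtain ⟨f, f1, f2, f3, f4⟩ := part_rank Q.xinj (fun q => (G.lv q + σ) / lam) hy0
  refine ⟨f, fun a => (Nat.cast_le.2 (f4 a)).trans hy1, ?_⟩
  have hB' : lam * #{t ∈ Q.E | lam < G.cost t} ≤ ∑ t ∈ Q.E, G.cost t := by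
    rw [mul_comm]
    exact (card_nsmul_le_sum _ _ _ fun t ht => (mem_filter.1 ht).2.le).trans
      (sum_le_sum_of_subset (filter_subset _ _))
  let C := {t ∈ Q.E | f (Q.u t) ≠ f (Q.v t) ∧ G.cost t ≤ lam ∧
    (G.lv (Q.u t) + σ) / lam = (G.lv (Q.v t) + σ) / lam}
  have hC : #C ≤ (4 * lam + 1) * #(range ((#Q.P + lam) / lam + #Q.P / y + 1)) := by
    refine card_le_mul_card_image_of_maps_to (f := fun t => f (Q.u t)) (fun t _ => mem_range.2
      (Nat.lt_succ_of_le ((f1 _).trans (Nat.add_le_add_right (Nat.div_le_div_right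
        (Nat.add_le_add (G.lv_le _) hσ.le)) _)))) _ fun g _ => ?_
    rcases eq_empty_or_nonempty {t ∈ C | f (Q.u t) = g} with he | hne
    · simp [he]
    obtain ⟨t0, ht0, hmax⟩ := exists_max_image _ (fun t => (Q.u t).1) hne
    refine G.wall (Q.u t0).1 (((G.lv (Q.u t0) + σ) / lam + 1) * lam - σ) lam _ fun t ht => ?_
    obtain ⟨a1, a2⟩ := mem_filter.1 ht
    obtain ⟨a3, a4, a5, a6⟩ := mem_filter.1 a1
    have a7 : f (Q.u t) = f (Q.u t0) := a2.trans (mem_filter.1 ht0).2.symm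
    have a8 := f2 _ _ a7
    have a9 := (Nat.div_lt_iff_lt_mul hl').1 (Nat.lt_succ_self ((G.lv (Q.u t) + σ) / lam))
    have a10 := Nat.div_mul_le_self (G.lv (Q.u t) + σ) lam
    rw [← a8]
    rw [Nat.succ_mul] at a9 ⊢
    refine ⟨mem_range.1 a3, hmax t ht, not_le.1 fun h => a4 (le_antisymm (f3 _ _ a6
      (Q.x_lt (mem_range.1 a3)).le) (a7 ▸ f3 _ _ (a6.symm.trans a8) h)), a5, by omega, by omega⟩
  have hC' : (#C : ℝ) ≤ 10 * (n * β) * (5 / β ^ 2) := by
    refine (Nat.cast_le.2 hC).trans ?_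
    rw [card_range, Nat.add_div_right _ hl']
    push_cast
    refine mul_le_mul (by linarith) ?_ (by positivity) (by positivity)
    have a1 : ((#Q.P / lam : ℕ) : ℝ) * lam ≤ n := by
      rw [hn]
      exact_mod_cast Nat.div_mul_le_self _ _
    have a2 : ((#Q.P / y : ℕ) : ℝ) * y ≤ n := by
      rw [hn]
      exact_mod_cast Nat.div_mul_le_self _ _
    have a3 := mul_le_mul_of_nonneg_left hl1 (Nat.cast_nonneg (α := ℝ) (#Q.P / lam))
    have a4 := mul_le_mul_of_nonneg_left hy2 (Nat.cast_nonneg (α := ℝ) (#Q.P / y))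
    have a5 : ((#Q.P / lam : ℕ) : ℝ) * β ≤ 1 := le_of_mul_le_mul_left (by linarith) hn0
    have a6 : ((#Q.P / y : ℕ) : ℝ) * β ^ 2 ≤ 2 := le_of_mul_le_mul_left (by linarith) hn0
    rw [le_div_iff₀ (by positivity)]
    nlinarith
  have hU : #{t ∈ Q.E | f (Q.u t) ≠ f (Q.v t)} ≤ #{t ∈ Q.E | (G.lv (Q.u t) + σ) / lam ≠
      (G.lv (Q.v t) + σ) / lam} + #{t ∈ Q.E | lam < G.cost t} + #C := by
    refine le_trans (card_le_card fun t ht => ?_) ((card_union_le _ _).trans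
      (Nat.add_le_add_right (card_union_le _ _) _))
    simp only [C, mem_union, mem_filter] at ht ⊢
    grind
  have e : 10 * (n * β) * (5 / β ^ 2) = 50 * (n / β) := by field_simp; ring
  have h4 := hW _ hA
  have h5 := hW _ hB'
  have h6 := mul_le_mul_of_nonneg_right hk (div_pos hn0 h0).le
  have h7 := div_pos hn0 h0
  have hU' := Nat.cast_le (α := ℝ).2 hU
  push_cast at hU'
  rw [mul_div_assoc] at h4 h5 ⊢
  linarith

end Crest.Agent.R051
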