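import Crest.Agent.R051.Piece

/-! Row 51: partition of the vertices into small parts cutting few edges. -/

set_option autoImplicit false

open Finset
open scoped Classical

namespace Crest.Agent.R051

variable {Q : Proc}

/-- whole paths -/
noncomputable abbrev Paths.top (G : Paths Q) : ℕ → ℕ × ℕ := G.pc fun t => Q.μ < G.lev t

/-- number of whole paths having a point strictly below `z` on the vertical line through `z` -/
noncomputable def Paths.lv (G : Paths Q) (z : Pt) : ℕ :=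
  #({t ∈ Q.E | ∃ z' ∈ Q.seg t, z'.1 = z.1 ∧ z'.2 < z.2}.image G.top)

/-- first edge of its whole path -/
def Paths.First (G : Paths Q) (t : ℕ) : Prop :=
  ∀ t' < 2 ^ Q.μ, G.top t' = G.top t → G.pos t ≤ G.pos t'

/-- cost of an edge: edges meeting it and path ends over its `x`-range -/
noncomputable def Paths.cost (G : Paths Q) (t : ℕ) : ℕ :=
  Q.meet t + #{t' ∈ Q.E | Q.μ < G.lev t' ∧ (Q.u t).1 ≤ (Q.v t').1 ∧ (Q.v t').1 ≤ (Q.v t).1} +
    #{t' ∈ Q.E | G.First t' ∧ (Q.u t).1 ≤ (Q.u t').1 ∧ (Q.u t').1 ≤ (Q.v t).1}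

lemma P1_seg_x {t : ℕ} (ht : t < 2 ^ Q.μ) {z : Pt} (hz : z ∈ Q.seg t) :
    (Q.u t).1 ≤ z.1 ∧ z.1 ≤ (Q.v t).1 := by
  obtain ⟨a, b, ha, hb, hab, rfl⟩ := hz
  have := Q.x_lt ht
  simp only [Prod.fst_add, Prod.smul_fst, smul_eq_mul]
  obtain rfl : a = 1 - b := by linarith
  constructor <;> nlinarith

lemma P1_win {t : ℕ} (ht : t < 2 ^ Q.μ) :
    Q.s (t / 2 ^ Q.μ * 2 ^ Q.μ) < Q.s ((t / 2 ^ Q.μ + 1) * 2 ^ Q.μ) :=
  Q.s_win le_rfl (win_lt le_rfl ht)

lemma P1_cone_lip {lo hi : ℝ} (hl : lo < hi) {z z' : Pt} (h : Cone lo hi z z') :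
    |z'.2 - z.2| ≤ (|lo| + |hi|) * |z'.1 - z.1| := by
  have h0 := h.x_lt hl
  obtain ⟨h1, h2⟩ := h
  unfold hh at h1 h2
  rw [abs_of_pos (sub_pos.2 h0), abs_le]
  have h3 := neg_abs_le lo
  have h4 := le_abs_self hi
  have h5 := abs_nonneg lo
  have h6 := abs_nonneg hi
  constructor <;> nlinarith

lemma P1_lip (G : Paths Q) {t t' : ℕ} (ht : t < 2 ^ Q.μ) (ht' : t' < 2 ^ Q.μ)
    (h : G.top t = G.top t') {z z' : Pt} (hz : z ∈ Q.seg t) (hz' : z' ∈ Q.seg t') :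
    |z'.2 - z.2| ≤ (|Q.s 0| + |Q.s (2 ^ Q.μ)|) * |z'.1 - z.1| := by
  have h1 := G.piece_total le_rfl (fun _ _ h => h) ht ht' h hz hz'
  have h2 := P1_win ht
  rw [Nat.div_eq_of_lt ht, zero_mul, zero_add, one_mul] at h1 h2
  rcases h1 with rfl | h1 | h1
  · simp
  · exact P1_cone_lip h2 h1
  · rw [abs_sub_comm, abs_sub_comm z'.1]; exact P1_cone_lip h2 h1

lemma P1_uniq (G : Paths Q) {t t' : ℕ} (ht : t < 2 ^ Q.μ) (ht' : t' < 2 ^ Q.μ)
    (h : G.top t = G.top t') {z z' : Pt} (hz : z ∈ Q.seg t) (hz' : z' ∈ Q.seg t')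
    (hx : z.1 = z'.1) : z.2 = z'.2 := by
  have := P1_lip G ht ht' h hz hz'
  rw [hx, sub_self, abs_zero, mul_zero] at this
  have := abs_nonpos_iff.1 this
  linarith

lemma P1_lt (G : Paths Q) {t t' : ℕ} (ht : t < 2 ^ Q.μ) (ht' : t' < 2 ^ Q.μ)
    (h : G.top t = G.top t') (hp : G.pos t < G.pos t') {z z' : Pt} (hz : z ∈ Q.seg t)
    (hz' : z' ∈ Q.seg t') : z.1 ≤ z'.1 := by
  rcases G.piece_cone le_rfl (fun _ _ h => h) ht ht' h hp hz hz' with rfl | h1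
  · exact le_rfl
  · exact (h1.x_lt (P1_win ht)).le

lemma P1_le (G : Paths Q) {t t' : ℕ} (ht : t < 2 ^ Q.μ) (ht' : t' < 2 ^ Q.μ)
    (h : G.top t = G.top t') (hp : G.pos t ≤ G.pos t') :
    (∀ z' ∈ Q.seg t', (Q.u t).1 ≤ z'.1) ∧ ∀ z ∈ Q.seg t, z.1 ≤ (Q.v t').1 := by
  rcases hp.lt_or_eq with hp | hp
  · exact ⟨fun z' hz' => P1_lt G ht ht' h hp (left_mem_segment _ _ _) hz',
      fun z hz => P1_lt G ht ht' h hp hz (right_mem_segment _ _ _)⟩
  · obtain rfl := G.inj t ht t' ht' (G.pc_pid h) hp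
    exact ⟨fun z hz => (P1_seg_x ht hz).1, fun z hz => (P1_seg_x ht hz).2⟩

lemma P1_last (G : Paths Q) : #{t ∈ Q.E | Q.μ < G.lev t} ≤ #Q.P := by
  have h1 := G.count_all (j := Q.μ) le_rfl
  rw [Nat.sub_self, pow_zero, sum_range_one] at h1
  exact h1.trans (Q.K_le le_rfl (by simp))

lemma P1_image (G : Paths Q) {Z : Finset ℕ} (hZ : Z ⊆ Q.E) : #(Z.image G.top) ≤ #Q.P := by
  have h1 := G.card_pc (c := fun t => Q.μ < G.lev t) le_rfl (fun _ _ h => h) Z Q.E hZ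
    (fun _ _ t' ht' _ => mem_range.2 ht')
  refine h1.trans (le_trans (le_of_eq ?_) (P1_last G))
  congr

lemma P1_first (G : Paths Q) : #{t ∈ Q.E | G.First t} ≤ #Q.P := by
  refine le_trans (le_of_eq (card_image_of_injOn ?_).symm)
    (P1_image G (filter_subset (fun t => G.First t) Q.E))
  intro t ht t' ht' h
  simp only [coe_filter, mem_range, Set.mem_setOf_eq] at ht ht'
  exact G.inj t ht.1 t' ht'.1 (G.pc_pid h)
    (le_antisymm (ht.2 t' ht'.1 h.symm) (ht'.2 t ht.1 h))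

lemma P1_flux (Q : Proc) (x : ℝ) :
    #{t ∈ Q.E | (Q.u t).1 ≤ x ∧ x ≤ (Q.v t).1} ≤ 2 * #Q.P := by
  have hg : ∀ t ∈ Ico 0 (2 ^ Q.μ), (Q.u t).1 < (Q.v t).1 := fun t ht => Q.x_lt (mem_Ico.1 ht).2
  have h1 := Q.flux Prod.fst x (Nat.zero_le _) le_rfl hg
  have h2 := Q.flux' Prod.fst x (Nat.zero_le _) le_rfl hg
  have h3 : #(Q.S 0 \ Q.S (2 ^ Q.μ)) ≤ #Q.P :=
    card_le_card (sdiff_subset.trans (Q.S_sub 0 (Nat.zero_le _)))
  refine le_trans (card_le_card ?_) ((card_union_le _ _).trans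
    ((add_le_add (h1.trans h3) (h2.trans h3)).trans (by omega)))
  intro t ht
  simp only [mem_filter, mem_range, mem_union, mem_Ico, zero_le, true_and] at ht ⊢
  have := Q.x_lt ht.1
  rcases ht.2.1.lt_or_eq with h | h
  · exact Or.inl ⟨ht.1, h, ht.2.2⟩
  · exact Or.inr ⟨ht.1, h.le, by linarith⟩

lemma P1_sum (Q : Proc) (p : ℕ → Prop) [DecidablePred p] (hp : #{t ∈ Q.E | p t} ≤ #Q.P)
    (x : ℕ → ℝ) [∀ t, DecidablePred fun t' => p t' ∧ (Q.u t).1 ≤ x t' ∧ x t' ≤ (Q.v t).1] :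
    ∑ t ∈ Q.E, #{t' ∈ Q.E | p t' ∧ (Q.u t).1 ≤ x t' ∧ x t' ≤ (Q.v t).1} ≤ 2 * #Q.P ^ 2 := by
  have h1 : ∑ t ∈ Q.E, #{t' ∈ Q.E | p t' ∧ (Q.u t).1 ≤ x t' ∧ x t' ≤ (Q.v t).1} =
      ∑ t' ∈ Q.E with p t', #{t ∈ Q.E | (Q.u t).1 ≤ x t' ∧ x t' ≤ (Q.v t).1} := by
    simp only [card_filter, sum_filter]
    rw [sum_comm]
    refine sum_congr rfl fun t' _ => ?_
    by_cases h : p t' <;> simp [h]
  rw [h1]
  calc _ ≤ ∑ t' ∈ Q.E with p t', 2 * #Q.P := sum_le_sum fun t' _ => P1_flux Q _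
    _ = #{t ∈ Q.E | p t} * (2 * #Q.P) := by rw [sum_const, smul_eq_mul]
    _ ≤ #Q.P * (2 * #Q.P) := Nat.mul_le_mul_right _ hp
    _ = _ := by ring

lemma P1_exists_first (G : Paths Q) {t : ℕ} (ht : t < 2 ^ Q.μ) :
    ∃ f < 2 ^ Q.μ, G.top f = G.top t ∧ G.First f := by
  obtain ⟨f, hf, hm⟩ := exists_min_image {t' ∈ Q.E | G.top t' = G.top t} G.pos
    ⟨t, by simp [ht]⟩
  simp only [mem_filter, mem_range] at hf hm
  exact ⟨f, hf.1, hf.2, fun t' ht' h => hm t' ⟨ht', h.trans hf.2⟩⟩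

/-- there are at most `K μ 0 ≤ n` whole paths (`card_pc`, `count_all`, `K_le`) -/
lemma Paths.lv_le (G : Paths Q) (z : Pt) : G.lv z ≤ #Q.P := by
  exact P1_image G (filter_subset _ _)

/-- at most `n` last edges and `n` first edges; for a fixed abscissa `x` the edges with
`(u t).1 ≤ x ≤ (v t).1` are counted by `flux` and `flux'` with `g = Prod.fst` (at most `2 n`) -/
lemma Paths.cost_sum (G : Paths Q) :
    ∑ t ∈ Q.E, G.cost t ≤ ∑ t ∈ Q.E, Q.meet t + 4 * #Q.P ^ 2 := by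
  have h1 := P1_sum Q (fun t => Q.μ < G.lev t) (P1_last G) fun t => (Q.v t).1
  have h2 := P1_sum Q (fun t => G.First t) (P1_first G) fun t => (Q.u t).1
  simp only [Paths.cost, sum_add_distrib]
  omega

/-- Along an edge the level changes by at most the cost.  A whole path is the graph of a Lipschitz
function over `[(u first).1, (v last).1]` (`piece_total` with `j = μ`, `ivt`, `seg_xlevel`,
`exists_last`).  A path counted at `z` and not at `z'` either has its first or last vertex over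
the range of `t`, or spans the interval between `z.1` and `z'.1` and meets the segment by the
intermediate value theorem, through an edge `≠ t` (the path of `t` is not counted at `z`). -/
lemma Paths.lv_diff (G : Paths Q) {t : ℕ} (ht : t < 2 ^ Q.μ) {z z' : Pt} (hz : z ∈ Q.seg t)
    (hz' : z' ∈ Q.seg t) : G.lv z ≤ G.lv z' + G.cost t := by
  unfold Paths.lv Paths.cost Proc.meet
  refine le_trans (card_le_card ?_) ((card_union_le _ _).trans (add_le_add le_rfl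
    ((card_union_le _ _).trans (add_le_add ((card_union_le _ _).trans
      (add_le_add (card_image_le (f := G.top)) (card_image_le (f := G.top))))
      (card_image_le (f := G.top))))))
  intro γ hγ
  simp only [mem_image, mem_filter, mem_range, mem_union] at hγ ⊢
  obtain ⟨t1, ⟨h1, w, hw, hwx, hwy⟩, rfl⟩ := hγ
  obtain ⟨f, hf, hf1, hf2⟩ := P1_exists_first G h1
  obtain ⟨l, hl, hl1, hl2, hl3⟩ :=
    G.exists_last (c := fun t => Q.μ < G.lev t) le_rfl (fun _ _ h => h) h1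
  have hfw := (P1_le G hf h1 hf1 (hf2 t1 h1 hf1.symm)).1 w hw
  have hwl := (P1_le G h1 hl hl1.symm hl3).2 w hw
  obtain ⟨hz1, hz2⟩ := P1_seg_x ht hz
  obtain ⟨hz1', hz2'⟩ := P1_seg_x ht hz'
  by_cases ha : z'.1 ≤ (Q.u f).1
  · exact Or.inr (Or.inr ⟨f, ⟨hf, hf2, by linarith, by linarith⟩, hf1⟩)
  by_cases hb : (Q.v l).1 ≤ z'.1
  · exact Or.inr (Or.inl (Or.inr ⟨l, ⟨hl, hl2, by linarith, by linarith⟩, hl1⟩))
  have hgr : ∀ x : ℝ, ∃ y : ℝ, x ∈ Set.Icc (Q.u f).1 (Q.v l).1 →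
      ∃ t2 < 2 ^ Q.μ, G.top t2 = G.top t1 ∧ (x, y) ∈ Q.seg t2 := fun x => by
    by_cases hx : x ∈ Set.Icc (Q.u f).1 (Q.v l).1
    · rcases hx.1.lt_or_eq with h | h
      · obtain ⟨t2, h2, h3, -, -, h4, h5⟩ := G.ivt Prod.fst x hf hl (hf1.trans hl1.symm)
          ((hf2 t1 h1 hf1.symm).trans hl3) h hx.2
        obtain ⟨p, hp, rfl⟩ := seg_xlevel h4.le h5
        exact ⟨p.2, fun _ => ⟨t2, h2, h3.trans hf1, hp⟩⟩
      · subst h
        exact ⟨(Q.u f).2, fun _ => ⟨f, hf, hf1, left_mem_segment _ _ _⟩⟩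
    · exact ⟨0, fun h => absurd h hx⟩
  choose y hy using hgr
  have hzI : z.1 ∈ Set.Icc (Q.u f).1 (Q.v l).1 := ⟨by linarith, by linarith⟩
  have hzI' : z'.1 ∈ Set.Icc (Q.u f).1 (Q.v l).1 := ⟨by linarith, by linarith⟩
  by_cases hc : y z'.1 < z'.2
  · obtain ⟨t2, h2, h3, h4⟩ := hy _ hzI'
    exact Or.inl ⟨t2, ⟨h2, _, h4, rfl, hc⟩, h3⟩
  have hcont : ContinuousOn y (Set.Icc (Q.u f).1 (Q.v l).1) := by
    refine LipschitzOnWith.continuousOn (K := ⟨|Q.s 0| + |Q.s (2 ^ Q.μ)|, by positivity⟩)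
      (LipschitzOnWith.of_dist_le_mul fun a ha' b hb' => ?_)
    obtain ⟨t2, h2, h3, h4⟩ := hy _ ha'
    obtain ⟨t3, h5, h6, h7⟩ := hy _ hb'
    exact P1_lip G h5 h2 (h6.trans h3.symm) h7 h4
  have hsub : Set.uIcc z.1 z'.1 ⊆ Set.Icc (Q.u f).1 (Q.v l).1 := Set.uIcc_subset_Icc hzI hzI'
  have hyw : y z.1 = w.2 := by
    obtain ⟨t2, h2, h3, h4⟩ := hy _ hzI
    exact P1_uniq G h2 h1 h3 h4 hw hwx.symm
  have e1 := seg_hh_slp (Q.x_lt ht) hz
  have e2 := seg_hh_slp (Q.x_lt ht) hz'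
  have hc2 : ContinuousOn (fun x => y x - slp (Q.u t) (Q.v t) * x) (Set.uIcc z.1 z'.1) :=
    (hcont.mono hsub).sub (by fun_prop)
  obtain ⟨x, hx, hx2⟩ := intermediate_value_uIcc hc2
    (show hh (slp (Q.u t) (Q.v t)) (Q.u t) ∈ _ from Set.mem_uIcc.2 (Or.inl (by
      unfold hh at e1 e2 ⊢
      constructor <;> linarith [not_lt.1 hc])))
  obtain ⟨t3, h5, h6, h7⟩ := hy _ (hsub hx)
  have hx3 : x ∈ Set.Icc (Q.u t).1 (Q.v t).1 := Set.uIcc_subset_Icc ⟨hz1, hz2⟩ ⟨hz1', hz2'⟩ hx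
  obtain ⟨q, hq, hqx⟩ := seg_xlevel hx3.1 hx3.2
  have e3 := seg_hh_slp (Q.x_lt ht) hq
  have e4 : q = (x, y x) := by
    refine Prod.ext hqx ?_
    simp only at hx2 ⊢
    rw [← hx2] at e3
    unfold hh at e3
    rw [hqx] at e3
    linarith
  refine Or.inr (Or.inl (Or.inl ⟨t3, ⟨h5, ?_, q, hq, e4 ▸ h7⟩, h6⟩))
  rintro rfl
  exact absurd (P1_uniq G h5 h1 h6 hz hw hwx.symm) hwy.ne'

/-- Cheap edges of one band over a vertical wall.  Let `z t` be the point of edge `t` over `x0`.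
The edges of `I` are on different whole paths, and a path has one point over `x0`; so between the
lowest and the highest edge `lv` grows by the number of edges of `I` strictly below the highest
one, while the edges tied with the highest one meet it. -/
lemma Paths.wall (G : Paths Q) (x0 : ℝ) (c lam : ℕ) (I : Finset ℕ)
    (hI : ∀ t ∈ I, t < 2 ^ Q.μ ∧ (Q.u t).1 ≤ x0 ∧ x0 < (Q.v t).1 ∧ G.cost t ≤ lam ∧
      c ≤ G.lv (Q.u t) + lam ∧ G.lv (Q.u t) ≤ c) : #I ≤ 4 * lam + 1 := by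
  rcases I.eq_empty_or_nonempty with rfl | hne
  · simp
  have hz : ∀ t, ∃ z : Pt, t ∈ I → z ∈ Q.seg t ∧ z.1 = x0 := fun t => by
    by_cases ht : t ∈ I
    · obtain ⟨-, h1, h2, -⟩ := hI t ht
      obtain ⟨z, h3, h4⟩ := seg_xlevel h1 h2.le
      exact ⟨z, fun _ => ⟨h3, h4⟩⟩
    · exact ⟨0, fun h => absurd h ht⟩
  choose z hz using hz
  obtain ⟨a, ha, hmin⟩ := exists_min_image I (fun t => (z t).2) hne
  obtain ⟨b, hb, hmax⟩ := exists_max_image I (fun t => (z t).2) hne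
  have h1 := G.lv_diff (hI a ha).1 (left_mem_segment _ _ _) (hz a ha).1
  have h2 := G.lv_diff (hI b hb).1 (hz b hb).1 (left_mem_segment _ _ _)
  have hinj : Set.InjOn G.top (I : Set ℕ) := by
    intro t ht t' ht' h
    obtain ⟨h3, h4, h5, -⟩ := hI t ht
    obtain ⟨h3', h4', h5', -⟩ := hI t' ht'
    rcases lt_trichotomy (G.pos t) (G.pos t') with hp | hp | hp
    · have := P1_lt G h3 h3' h hp (right_mem_segment _ _ _) (left_mem_segment _ _ _)
      linarith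
    · exact G.inj t h3 t' h3' (G.pc_pid h) hp
    · have := P1_lt G h3' h3 h.symm hp (right_mem_segment _ _ _) (left_mem_segment _ _ _)
      linarith
  have h3 : #{t ∈ I | (z t).2 < (z b).2} + G.lv (z a) ≤ G.lv (z b) := by
    rw [← card_image_of_injOn (hinj.mono (coe_subset.2 (filter_subset _ _)))]
    unfold Paths.lv
    rw [← card_union_of_disjoint]
    · refine card_le_card ?_
      intro γ hγ
      simp only [mem_image, mem_filter, mem_range, mem_union] at hγ ⊢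
      rcases hγ with ⟨t, ⟨h3, h4⟩, rfl⟩ | ⟨t, ⟨h3, w, h4, h5, h6⟩, rfl⟩
      · exact ⟨t, ⟨(hI t h3).1, z t, (hz t h3).1, (hz t h3).2.trans (hz b hb).2.symm, h4⟩, rfl⟩
      · exact ⟨t, ⟨h3, w, h4, h5.trans ((hz a ha).2.trans (hz b hb).2.symm),
          h6.trans_le (hmax a ha)⟩, rfl⟩
    · rw [disjoint_left]
      intro γ hγ hγ'
      simp only [mem_image, mem_filter, mem_range] at hγ hγ'
      obtain ⟨t, ⟨h3, -⟩, rfl⟩ := hγ
      obtain ⟨t', ⟨h4, w, h5, h6, h7⟩, h8⟩ := hγ'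
      have h9 := P1_uniq G h4 (hI t h3).1 h8 h5 (hz t h3).1
        (h6.trans ((hz a ha).2.trans (hz t h3).2.symm))
      have := hmin t h3
      linarith
  have h4 : #I ≤ #{t ∈ I | (z t).2 < (z b).2} + Q.meet b + 1 := by
    unfold Proc.meet
    refine le_trans (card_le_card ?_) ((card_union_le _ {b}).trans
      (add_le_add (card_union_le _ _) (card_singleton b).le))
    intro t ht
    simp only [mem_filter, mem_range, mem_union, mem_singleton]
    by_cases htb : t = b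
    · exact Or.inr htb
    rcases (hmax t ht).lt_or_eq with h | h
    · exact Or.inl (Or.inl ⟨ht, h⟩)
    · have e : z t = z b := Prod.ext ((hz t ht).2.trans (hz b hb).2.symm) h
      exact Or.inl (Or.inr ⟨(hI t ht).1, htb, z b, (hz b hb).1, e ▸ (hz t ht).1⟩)
  have h5 : Q.meet b ≤ G.cost b := by unfold Paths.cost; omega
  obtain ⟨-, -, -, a1, a2, a3⟩ := hI a ha
  obtain ⟨-, -, -, b1, b2, b3⟩ := hI b hb
  omega

end Crest.Agent.R051
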