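import Crest.Agent.R051.Basic

/-! Row 51: elementary facts on paths and their pieces. -/

set_option autoImplicit false

open Finset
open scoped Classical

namespace Crest.Agent.R051

variable {Q : Proc} (G : Paths Q)

lemma Paths.exists_pos {t i : ℕ} (ht : t < 2 ^ Q.μ) (hi : i ≤ G.pos t) :
    ∃ t' < 2 ^ Q.μ, G.pid t' = G.pid t ∧ G.pos t' = i := by
  obtain ⟨k, hk⟩ := Nat.exists_eq_add_of_le hi
  induction k generalizing t with
  | zero => exact ⟨t, ht, rfl, hk⟩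
  | succ k ih =>
    obtain ⟨t1, h1, h2, h3⟩ := G.down t ht (i + k) hk
    obtain ⟨t', h4, h5, h6⟩ := ih h1 (by omega) h3
    exact ⟨t', h4, h5.trans h2, h6⟩

lemma Paths.pc_pid {c : ℕ → Prop} {t t' : ℕ} (h : G.pc c t = G.pc c t') : G.pid t = G.pid t' :=
  congrArg Prod.fst h

lemma Paths.piece_sub (c : ℕ → Prop) {t t' : ℕ} (hp : G.pid t = G.pid t')
    (h : G.pos t ≤ G.pos t') :
    {x ∈ Q.E | G.pid x = G.pid t ∧ G.pos x < G.pos t ∧ c x} ⊆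
      {x ∈ Q.E | G.pid x = G.pid t' ∧ G.pos x < G.pos t' ∧ c x} := by
  intro x hx
  rw [mem_filter] at hx ⊢
  exact ⟨hx.1, hx.2.1.trans hp, hx.2.2.1.trans_le h, hx.2.2.2⟩

/-- pieces are intervals of positions, with no cut inside -/
lemma Paths.pc_between {c : ℕ → Prop} {t t' t'' : ℕ} (ht : t < 2 ^ Q.μ) (ht' : t' < 2 ^ Q.μ)
    (ht'' : t'' < 2 ^ Q.μ) (h : G.pc c t = G.pc c t') (hp : G.pid t'' = G.pid t)
    (h1 : G.pos t ≤ G.pos t'') (h2 : G.pos t'' ≤ G.pos t') :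
    G.pc c t'' = G.pc c t ∧ (G.pos t'' < G.pos t' → ¬ c t'') := by
  have hp' := G.pc_pid h
  have a1 := card_le_card (G.piece_sub c hp.symm h1)
  have a2 := G.piece_sub c (hp.trans hp') h2
  have a3 := card_le_card a2
  have a4 : #{x ∈ Q.E | G.pid x = G.pid t ∧ G.pos x < G.pos t ∧ c x} =
      #{x ∈ Q.E | G.pid x = G.pid t' ∧ G.pos x < G.pos t' ∧ c x} := congrArg Prod.snd h
  refine ⟨Prod.ext hp (le_antisymm (a3.trans a4.ge) a1), fun h3 hc => ?_⟩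
  have a5 := eq_of_subset_of_card_le a2 (a4.ge.trans a1)
  have a6 : t'' ∈ {x ∈ Q.E | G.pid x = G.pid t' ∧ G.pos x < G.pos t' ∧ c x} :=
    mem_filter.mpr ⟨mem_range.mpr ht'', hp.trans hp', h3, hc⟩
  rw [← a5] at a6
  exact lt_irrefl _ (mem_filter.mp a6).2.2.1

/-- converse: no cut in between gives the same piece -/
lemma Paths.pc_of_nocut {c : ℕ → Prop} {t t' : ℕ} (hp : G.pid t = G.pid t')
    (h1 : G.pos t ≤ G.pos t')
    (h : ∀ t'' < 2 ^ Q.μ, G.pid t'' = G.pid t → G.pos t ≤ G.pos t'' → G.pos t'' < G.pos t' →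
      ¬ c t'') : G.pc c t = G.pc c t' := by
  refine Prod.ext hp (congrArg card (Subset.antisymm (G.piece_sub c hp h1) fun x hx => ?_))
  rw [mem_filter] at hx ⊢
  refine ⟨hx.1, hx.2.1.trans hp.symm, ?_, hx.2.2.2⟩
  by_contra h2
  exact h x (mem_range.mp hx.1) (hx.2.1.trans hp.symm) (not_lt.mp h2) hx.2.2.1 hx.2.2.2

lemma Paths.pc_mono {c c' : ℕ → Prop} (hc : ∀ t < 2 ^ Q.μ, c t → c' t) {t t' : ℕ}
    (ht : t < 2 ^ Q.μ) (ht' : t' < 2 ^ Q.μ) (h : G.pc c' t = G.pc c' t') :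
    G.pc c t = G.pc c t' := by
  have key : ∀ {t t' : ℕ}, t < 2 ^ Q.μ → t' < 2 ^ Q.μ → G.pc c' t = G.pc c' t' →
      G.pos t ≤ G.pos t' → G.pc c t = G.pc c t' := fun ht ht' h h1 =>
    G.pc_of_nocut (G.pc_pid h) h1 fun x hx a1 a2 a3 a4 =>
      (G.pc_between ht ht' hx h a1 a2 a3.le).2 a3 (hc x hx a4)
  rcases le_total (G.pos t) (G.pos t') with h1 | h1
  · exact key ht ht' h h1
  · exact (key ht' ht h.symm h1).symm

/-- the second coordinate of `pc` orders the pieces of one path -/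
lemma Paths.pos_lt_of_pc {c : ℕ → Prop} {t t' : ℕ} (hp : G.pid t = G.pid t')
    (h : (G.pc c t).2 < (G.pc c t').2) : G.pos t < G.pos t' := by
  by_contra h1
  exact absurd (card_le_card (G.piece_sub c hp.symm (not_lt.mp h1))) (not_le.mpr h)

/-- induction along a piece -/
lemma Paths.piece_ind {c : ℕ → Prop} (R : ℕ → Prop) {t : ℕ} (ht : t < 2 ^ Q.μ) (h0 : R t)
    (hs : ∀ t1 < 2 ^ Q.μ, ∀ t2 < 2 ^ Q.μ, G.pc c t1 = G.pc c t → G.pc c t2 = G.pc c t →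
      G.pos t ≤ G.pos t1 → G.pos t2 = G.pos t1 + 1 → ¬ c t1 → R t1 → R t2)
    {t' : ℕ} (ht' : t' < 2 ^ Q.μ) (h : G.pc c t = G.pc c t') (hp : G.pos t ≤ G.pos t') : R t' := by
  obtain ⟨k, hk⟩ := Nat.exists_eq_add_of_le hp
  induction k generalizing t' with
  | zero => rwa [← G.inj t ht t' ht' (G.pc_pid h) hk.symm]
  | succ k ih =>
    obtain ⟨t1, h1, h2, h3⟩ := G.down t' ht' (G.pos t + k) hk
    obtain ⟨a1, a2⟩ := G.pc_between ht ht' h1 h (h2.trans (G.pc_pid h).symm) (by omega) (by omega)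
    exact hs t1 h1 t' ht' a1 h.symm (by omega) (by omega) (a2 (by omega))
      (ih h1 a1.symm (by omega) h3)

/-- a function that is constant along uncut links is constant on pieces -/
lemma Paths.pc_const {α : Type*} {c : ℕ → Prop} (f : ℕ → α)
    (hf : ∀ t < 2 ^ Q.μ, ∀ t' < 2 ^ Q.μ, G.pid t = G.pid t' → G.pos t' = G.pos t + 1 → ¬ c t →
      f t = f t') {t t' : ℕ} (ht : t < 2 ^ Q.μ) (ht' : t' < 2 ^ Q.μ)
    (h : G.pc c t = G.pc c t') : f t = f t' := by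
  have key : ∀ {t t' : ℕ}, t < 2 ^ Q.μ → t' < 2 ^ Q.μ → G.pc c t = G.pc c t' →
      G.pos t ≤ G.pos t' → f t = f t' := fun {t t'} ht ht' h h1 =>
    G.piece_ind (fun x => f t = f x) ht rfl (fun t1 a1 t2 a2 a3 a4 _ a6 a7 a8 =>
      a8.trans (hf t1 a1 t2 a2 (G.pc_pid (a3.trans a4.symm)) a6 a7)) ht' h h1
  rcases le_total (G.pos t) (G.pos t') with h1 | h1
  · exact key ht ht' h h1
  · exact (key ht' ht h.symm h1).symm

lemma Paths.pc_win {c : ℕ → Prop} {j : ℕ} (hc : ∀ t < 2 ^ Q.μ, j < G.lev t → c t) {t t' : ℕ}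
    (ht : t < 2 ^ Q.μ) (ht' : t' < 2 ^ Q.μ) (h : G.pc c t = G.pc c t') :
    t / 2 ^ j = t' / 2 ^ j := by
  refine G.pc_const (fun x => x / 2 ^ j) (fun t1 a1 t2 a2 a3 a4 a5 => ?_) ht ht' h
  have a6 : G.lev t1 ≤ j := not_lt.mp fun a => a5 (hc t1 a1 a)
  show t1 / 2 ^ j = t2 / 2 ^ j
  rw [← win_div a6 t1, ← win_div a6 t2, (G.link t1 a1 t2 a2 a3 a4).2]

/-- start vertices of one piece have the same label -/
lemma Paths.pc_label {c : ℕ → Prop} (f : Pt → ℕ)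
    (hc : ∀ t < 2 ^ Q.μ, f (Q.u t) ≠ f (Q.v t) → c t) {t t' : ℕ}
    (ht : t < 2 ^ Q.μ) (ht' : t' < 2 ^ Q.μ) (h : G.pc c t = G.pc c t') :
    f (Q.u t) = f (Q.u t') := by
  refine G.pc_const (fun x => f (Q.u x)) (fun t1 a1 t2 a2 a3 a4 a5 => ?_) ht ht' h
  show f (Q.u t1) = f (Q.u t2)
  rw [← (G.link t1 a1 t2 a2 a3 a4).1]
  by_contra a6
  exact a5 (hc t1 a1 a6)

/-- every piece ends with a cut edge -/
lemma Paths.exists_last {c : ℕ → Prop} {j : ℕ} (hj : j ≤ Q.μ)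
    (hc : ∀ t < 2 ^ Q.μ, j < G.lev t → c t) {t : ℕ} (ht : t < 2 ^ Q.μ) :
    ∃ t' < 2 ^ Q.μ, G.pc c t' = G.pc c t ∧ c t' ∧ G.pos t ≤ G.pos t' := by
  obtain ⟨t', h1, h2⟩ := exists_max_image {x ∈ Q.E | G.pc c x = G.pc c t} G.pos
    ⟨t, mem_filter.mpr ⟨mem_range.mpr ht, rfl⟩⟩
  rw [mem_filter, mem_range] at h1
  refine ⟨t', h1.1, h1.2, ?_, h2 t (mem_filter.mpr ⟨mem_range.mpr ht, rfl⟩)⟩
  by_contra h3
  have a6 : G.lev t' ≤ j := not_lt.mp fun a => h3 (hc t' h1.1 a)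
  obtain ⟨t2, b1, b2, b3⟩ := G.last t' h1.1 (a6.trans hj)
  have b4 : G.pc c t' = G.pc c t2 := G.pc_of_nocut b2.symm (by omega) fun x hx c1 c2 c3 => by
    rwa [G.inj x hx t' h1.1 c1 (by omega)]
  have := h2 t2 (mem_filter.mpr ⟨mem_range.mpr b1, b4.symm.trans h1.2⟩)
  omega

/-- the number of pieces met by `Z` is at most the number of cut edges of any set `Z'`
containing these pieces -/
lemma Paths.card_pc {c : ℕ → Prop} {j : ℕ} (hj : j ≤ Q.μ)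
    (hc : ∀ t < 2 ^ Q.μ, j < G.lev t → c t) (Z Z' : Finset ℕ) (hZ : Z ⊆ Q.E)
    (hZ' : ∀ t ∈ Z, ∀ t' < 2 ^ Q.μ, G.pc c t' = G.pc c t → t' ∈ Z') :
    #(Z.image (G.pc c)) ≤ #{t ∈ Z' | c t} := by
  refine le_trans (card_le_card fun γ hγ => ?_) (card_image_le (f := G.pc c))
  obtain ⟨t, ht, rfl⟩ := mem_image.mp hγ
  obtain ⟨t', h1, h2, h3, -⟩ := G.exists_last hj hc (mem_range.mp (hZ ht))
  exact mem_image.mpr ⟨t', mem_filter.mpr ⟨hZ' t ht t' h1 h2, h3⟩, h2⟩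

lemma Paths.count_all {j : ℕ} (hj : j ≤ Q.μ) :
    #{t ∈ Q.E | j < G.lev t} ≤ ∑ a ∈ range (2 ^ (Q.μ - j)), Q.K j a := by
  rw [card_eq_sum_card_fiberwise (f := fun t => t / 2 ^ j) (t := range (2 ^ (Q.μ - j)))]
  · refine sum_le_sum fun a _ => le_trans (card_le_card fun x hx => ?_) (G.count j hj a)
    simp only [mem_filter] at hx ⊢
    exact ⟨hx.1.1, hx.2, hx.1.2⟩
  · intro x hx
    exact mem_coe.mpr (mem_range.mpr (win_lt hj (mem_range.mp (mem_filter.mp (mem_coe.mp hx)).1)))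

lemma Paths.chain_cone {c : ℕ → Prop} {j : ℕ} (hj : j ≤ Q.μ)
    (hc : ∀ t < 2 ^ Q.μ, j < G.lev t → c t) {t t' : ℕ} (ht : t < 2 ^ Q.μ) (ht' : t' < 2 ^ Q.μ)
    (h : G.pc c t = G.pc c t') (hp : G.pos t ≤ G.pos t') :
    Cone (Q.s (t / 2 ^ j * 2 ^ j)) (Q.s ((t / 2 ^ j + 1) * 2 ^ j)) (Q.u t) (Q.v t') ∧
      (G.pos t < G.pos t' → Q.v t = Q.u t' ∨
        Cone (Q.s (t / 2 ^ j * 2 ^ j)) (Q.s ((t / 2 ^ j + 1) * 2 ^ j)) (Q.v t) (Q.u t')) := by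
  refine G.piece_ind (fun x =>
    Cone (Q.s (t / 2 ^ j * 2 ^ j)) (Q.s ((t / 2 ^ j + 1) * 2 ^ j)) (Q.u t) (Q.v x) ∧
      (G.pos t < G.pos x → Q.v t = Q.u x ∨
        Cone (Q.s (t / 2 ^ j * 2 ^ j)) (Q.s ((t / 2 ^ j + 1) * 2 ^ j)) (Q.v t) (Q.u x))) ht
    ⟨Q.cone_win hj ht, fun a => absurd a (lt_irrefl _)⟩
    (fun t1 a1 t2 a2 a3 a4 a5 a6 _ a8 => ?_) ht' h hp
  have b1 := Q.cone_win hj a1
  have b2 := Q.cone_win hj a2
  rw [G.pc_win hc a1 ht a3] at b1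
  rw [G.pc_win hc a2 ht a4] at b2
  have b3 := (G.link t1 a1 t2 a2 (G.pc_pid (a3.trans a4.symm)) a6).1
  refine ⟨a8.1.trans (b3 ▸ b2), fun _ => ?_⟩
  rw [← b3]
  rcases a5.eq_or_lt with e | e
  · left
    rw [G.inj t ht t1 a1 (G.pc_pid a3.symm) e]
  · right
    rcases a8.2 e with e' | e'
    · rwa [e']
    · exact e'.trans b1

lemma Paths.piece_cone {c : ℕ → Prop} {j : ℕ} (hj : j ≤ Q.μ)
    (hc : ∀ t < 2 ^ Q.μ, j < G.lev t → c t) {t t' : ℕ} (ht : t < 2 ^ Q.μ) (ht' : t' < 2 ^ Q.μ)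
    (h : G.pc c t = G.pc c t') (hp : G.pos t < G.pos t') {z z' : Pt} (hz : z ∈ Q.seg t)
    (hz' : z' ∈ Q.seg t') :
    z = z' ∨ Cone (Q.s (t / 2 ^ j * 2 ^ j)) (Q.s ((t / 2 ^ j + 1) * 2 ^ j)) z z' := by
  have b1 := Q.cone_win hj ht
  have b2 := Q.cone_win hj ht'
  rw [← G.pc_win hc ht ht' h] at b2
  have b3 := (G.chain_cone hj hc ht ht' h hp.le).2 hp
  rcases b1.seg_right hz with e1 | e1 <;> rcases b2.seg_left hz' with e2 | e2 <;>
    rcases b3 with e3 | e3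
  · exact Or.inl (by rw [e1, e2, e3])
  · exact Or.inr (by rwa [e1, e2])
  · exact Or.inr (by rwa [e1, e3])
  · exact Or.inr (by rw [e1]; exact e3.trans e2)
  · exact Or.inr (by rwa [e2, ← e3])
  · exact Or.inr (by rw [e2]; exact e1.trans e3)
  · exact Or.inr (e1.trans (e3 ▸ e2))
  · exact Or.inr (e1.trans (e3.trans e2))

/-- the points of a piece are totally ordered by the cone of its window -/
lemma Paths.piece_total {c : ℕ → Prop} {j : ℕ} (hj : j ≤ Q.μ)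
    (hc : ∀ t < 2 ^ Q.μ, j < G.lev t → c t) {t t' : ℕ} (ht : t < 2 ^ Q.μ) (ht' : t' < 2 ^ Q.μ)
    (h : G.pc c t = G.pc c t') {z z' : Pt} (hz : z ∈ Q.seg t) (hz' : z' ∈ Q.seg t') :
    z = z' ∨ Cone (Q.s (t / 2 ^ j * 2 ^ j)) (Q.s ((t / 2 ^ j + 1) * 2 ^ j)) z z' ∨
      Cone (Q.s (t / 2 ^ j * 2 ^ j)) (Q.s ((t / 2 ^ j + 1) * 2 ^ j)) z' z := by
  rcases lt_trichotomy (G.pos t) (G.pos t') with hp | hp | hp
  · rcases G.piece_cone hj hc ht ht' h hp hz hz' with e | e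
    · exact Or.inl e
    · exact Or.inr (Or.inl e)
  · have e := G.inj t ht t' ht' (G.pc_pid h) hp
    subst e
    exact (Q.cone_win hj ht).seg_total hz hz'
  · rcases G.piece_cone hj hc ht' ht h.symm hp hz' hz with e | e
    · exact Or.inl e.symm
    · rw [← G.pc_win hc ht ht' h] at e
      exact Or.inr (Or.inr e)

/-- pieces of different level-`j` windows have at most one common point -/
lemma Paths.meet_unique {c : ℕ → Prop} {j : ℕ} (hj : j ≤ Q.μ)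
    (hc : ∀ t < 2 ^ Q.μ, j < G.lev t → c t) {t1 t2 t1' t2' : ℕ} (h1 : t1 < 2 ^ Q.μ)
    (h2 : t2 < 2 ^ Q.μ) (h1' : t1' < 2 ^ Q.μ) (h2' : t2' < 2 ^ Q.μ)
    (h : G.pc c t1 = G.pc c t2) (h' : G.pc c t1' = G.pc c t2') (hw : t1 / 2 ^ j ≠ t1' / 2 ^ j)
    {z1 z2 : Pt} (hz1 : z1 ∈ Q.seg t1) (hz1' : z1 ∈ Q.seg t1') (hz2 : z2 ∈ Q.seg t2)
    (hz2' : z2 ∈ Q.seg t2') : z1 = z2 := by
  have a := G.piece_total hj hc h1 h2 h hz1 hz2
  have a' := G.piece_total hj hc h1' h2' h' hz1' hz2'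
  have w := win_lt hj h1
  have w' := win_lt hj h1'
  have l := Q.s_win hj w
  have l' := Q.s_win hj w'
  have hs : ∀ {b b' : ℕ}, b < b' → b' < 2 ^ (Q.μ - j) →
      Q.s ((b + 1) * 2 ^ j) ≤ Q.s (b' * 2 ^ j) := fun {b b'} e e' =>
    Q.s_le (Nat.mul_le_mul_right _ e)
      ((Nat.mul_le_mul_right _ (Nat.le_succ _)).trans (win_le hj e'))
  by_contra hne
  rcases a with e | a
  · exact hne e
  rcases a' with e | a'
  · exact hne e
  rcases lt_or_gt_of_ne hw with e | e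
  · have b := hs e w'
    rcases a with a | a <;> rcases a' with a' | a'
    · exact (a.not_both l l' b).1 a'
    · exact (a.not_both l l' b).2 a'
    · exact (a.not_both l l' b).2 a'
    · exact (a.not_both l l' b).1 a'
  · have b := hs e w
    rcases a with a | a <;> rcases a' with a' | a'
    · exact (a'.not_both l' l b).1 a
    · exact (a'.not_both l' l b).2 a
    · exact (a'.not_both l' l b).2 a
    · exact (a'.not_both l' l b).1 a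

/-- discrete intermediate value property along a piece -/
lemma Paths.ivt {c : ℕ → Prop} (g : Pt → ℝ) (c0 : ℝ) {t t' : ℕ} (ht : t < 2 ^ Q.μ)
    (ht' : t' < 2 ^ Q.μ) (h : G.pc c t = G.pc c t') (hp : G.pos t ≤ G.pos t')
    (h1 : g (Q.u t) < c0) (h2 : c0 ≤ g (Q.v t')) :
    ∃ t'' < 2 ^ Q.μ, G.pc c t'' = G.pc c t ∧ G.pos t ≤ G.pos t'' ∧ G.pos t'' ≤ G.pos t' ∧
      g (Q.u t'') < c0 ∧ c0 ≤ g (Q.v t'') := by
  refine G.piece_ind (fun x => c0 ≤ g (Q.v x) →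
    ∃ t'' < 2 ^ Q.μ, G.pc c t'' = G.pc c t ∧ G.pos t ≤ G.pos t'' ∧ G.pos t'' ≤ G.pos x ∧
      g (Q.u t'') < c0 ∧ c0 ≤ g (Q.v t'')) ht (fun a => ⟨t, ht, rfl, le_rfl, le_rfl, h1, a⟩)
    (fun t1 a1 t2 a2 a3 a4 a5 a6 _ a8 a9 => ?_) ht' h hp h2
  have b3 := (G.link t1 a1 t2 a2 (G.pc_pid (a3.trans a4.symm)) a6).1
  by_cases b : c0 ≤ g (Q.v t1)
  · obtain ⟨x, c1, c2, c3, c4, c5⟩ := a8 b
    exact ⟨x, c1, c2, c3, by omega, c5⟩
  · exact ⟨t2, a2, a4, by omega, le_rfl, b3 ▸ not_le.mp b, a9⟩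

end Crest.Agent.R051
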