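import Crest.Agent.R051.SDefs

/-! Row 51: numerical identities and monotonicity of the stages. -/

set_option autoImplicit false

open Finset
open scoped Classical

namespace Crest.Agent.R051

namespace Dat

variable {X : Dat} {k : ℝ}

lemma OK.k2 (h : X.OK k) : 2 ≤ k := h.base.k2
lemma OK.d1 (h : X.OK k) : 1 ≤ X.d := h.base.d1
lemma OK.n_eq (h : X.OK k) : X.n = X.d ^ 3 := h.base.hd.symm
lemma OK.n_pos (h : X.OK k) : 0 < X.n := by
  rw [h.n_eq]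
  exact pow_pos (zero_lt_one.trans_le h.d1) _
lemma OK.L1 (h : X.OK k) : 1 ≤ X.L := one_le_pow₀ h.lam1
lemma OK.b_pos (h : X.OK k) : 0 < X.b := by
  exact inv_pos.2 (pow_pos (zero_lt_one.trans_le h.lam1) _)
lemma OK.b_le (h : X.OK k) : X.b ≤ 1 := by
  exact inv_le_one_of_one_le₀ (one_le_pow₀ h.lam1)
lemma OK.rr_pos (h : X.OK k) : 0 < X.rr := by
  exact inv_pos.2 (pow_pos (zero_lt_one.trans_le h.lam1) _)
lemma OK.ell_ge (h : X.OK k) : X.lam ^ 180 ≤ X.ell := by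
  rw [ell, b, le_inv_mul_iff₀ (pow_pos (zero_lt_one.trans_le h.lam1) _), ← pow_add]
  exact h.big
lemma OK.M_pos (h : X.OK k) : 0 < X.M := by
  exact mul_pos h.n_pos h.b_pos
lemma OK.y_pos (h : X.OK k) : 0 < X.y := by
  exact mul_pos h.n_pos (pow_pos h.b_pos _)
lemma OK.D0_ge (h : X.OK k) : X.lam ^ 184 ≤ X.D0 := by
  refine le_of_mul_le_mul_left ?_ (zero_lt_one.trans_le h.L1)
  rw [h.hL, L, ← pow_add]
  exact h.big
lemma OK.D0_pos (h : X.OK k) : 0 < X.D0 := by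
  exact_mod_cast (pow_pos (zero_lt_one.trans_le h.lam1) 184).trans_le h.D0_ge
lemma OK.jT_le (h : X.OK k) : X.jT ≤ X.Q.μ := h.Ta.trans h.ja_le
lemma OK.js_le (h : X.OK k) : X.js ≤ X.Q.μ := max_le h.ja_le h.jr_le
lemma OK.rho_js (h : X.OK k) : rho X.Q.μ X.js ≤ (X.lam ^ 2)⁻¹ := by
  unfold js
  rcases le_total X.ja X.jr with h1 | h1
  · rw [max_eq_right h1]
    exact h.r_hi.trans (inv_anti₀ (pow_pos (zero_lt_one.trans_le h.lam1) _)
      (pow_le_pow_right₀ h.lam1 (by norm_num)))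
  · rw [max_eq_left h1]
    exact h.a_hi
lemma ell_M (X : Dat) : X.ell * X.M = X.y * X.d := by
  unfold ell M y
  ring
lemma OK.ell_cube (h : X.OK k) : X.ell ^ 3 = X.b ^ 2 * X.M := by
  rw [ell, M, h.n_eq]
  ring
lemma OK.D0_ell (h : X.OK k) : (X.D0 : ℝ) ^ 2 * X.ell * X.L ^ 2 = X.M := by
  have e : (X.D0 : ℝ) ^ 2 * X.ell * X.L ^ 2 = (X.L * X.D0) ^ 2 * X.ell := by ring
  rw [e, h.hL, ell, M, h.n_eq]
  ring
lemma OK.n_rr (h : X.OK k) : X.n * X.rr ^ 3 = X.M / X.L := by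
  have := (zero_lt_one.trans_le h.lam1).ne'
  unfold M b L rr
  field_simp
lemma OK.b_L (h : X.OK k) : X.b * X.L = (X.lam ^ 4)⁻¹ := by
  have := (zero_lt_one.trans_le h.lam1).ne'
  unfold b L
  field_simp
lemma OK.b_rr (h : X.OK k) : X.b = X.L * X.rr ^ 3 := by
  have := (zero_lt_one.trans_le h.lam1).ne'
  unfold b L rr
  field_simp
/-- `ell ≤ M / L²` -/
lemma OK.ell_le (h : X.OK k) : X.ell * X.L ^ 2 ≤ X.M := by
  have h1 : (1 : ℝ) ≤ X.D0 := by exact_mod_cast h.D0_pos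
  have h2 : 0 ≤ X.ell := (pow_nonneg (zero_le_one.trans h.lam1) _).trans h.ell_ge
  rw [← h.D0_ell, mul_assoc]
  exact le_mul_of_one_le_left (mul_nonneg h2 (sq_nonneg _)) (one_le_pow₀ h1)
lemma OK.xl_lt (h : X.OK k) {J : ℕ} (hJ : J < 2 ^ (X.Q.μ - X.ja)) : X.xl J < X.xh J :=
  X.Q.s_win h.ja_le hJ
lemma OK.xh_le (h : X.OK k) {J J' : ℕ} (hJ : J < J') (hJ' : J' < 2 ^ (X.Q.μ - X.ja)) :
    X.xh J ≤ X.xl J' := by
  exact X.Q.s_le (Nat.mul_le_mul_right _ hJ)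
    ((Nat.mul_le_mul_right _ (Nat.le_succ _)).trans (win_le h.ja_le hJ'))
/-- open sectors are disjoint -/
lemma OK.sector_eq (h : X.OK k) {J J' : ℕ} (hJ : J < 2 ^ (X.Q.μ - X.ja))
    (hJ' : J' < 2 ^ (X.Q.μ - X.ja)) {p q : Pt} (h1 : Cone (X.xl J) (X.xh J) p q)
    (h2 : Cone (X.xl J') (X.xh J') p q) : J = J' := by
  rcases lt_trichotomy J J' with e | e | e
  · exact absurd h2 (h1.not_both (h.xl_lt hJ) (h.xl_lt hJ') (h.xh_le e hJ')).1
  · exact e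
  · exact absurd h1 (h2.not_both (h.xl_lt hJ') (h.xl_lt hJ) (h.xh_le e hJ)).1

lemma OK.mono (h : X.OK k) {k' : ℝ} (hk : k ≤ k') : X.OK k' := by
  have hn := h.n_pos.le
  exact { h with
    base := h.base.mono hk
    E2_big := h.E2_big.trans (by gcongr)
    nh := fun t ht j hj => (h.nh t ht j hj).trans (by
      have := rho_pos X.Q.μ j
      gcongr) }

end Dat

lemma Dat3.OK.mono {X : Dat3} {k k' : ℝ} (h : X.OK k) (hk : k ≤ k') : X.OK k' := by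
  have hn := h.ok.n_pos.le
  have hb := h.ok.b_pos.le
  have hβ : 0 ≤ X.beta :=
    (inv_nonneg.2 (pow_nonneg (zero_le_one.trans h.ok.lam1) _)).trans h.beta_lo
  exact { h with
    ok := h.ok.mono hk
    c_card := h.c_card.trans (by gcongr)
    cc_card := h.cc_card.trans (by gcongr) }

lemma Dat4.OK.mono {X : Dat4} {k k' : ℝ} (h : X.OK k) (hk : k ≤ k') : X.OK k' := by
  have hn := h.ok.ok.n_pos.le
  have hM := h.ok.ok.M_pos.le
  have hβ : 0 ≤ X.beta :=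
    (inv_nonneg.2 (pow_nonneg (zero_le_one.trans h.ok.ok.lam1) _)).trans h.ok.beta_lo
  exact { h with
    ok := h.ok.mono hk
    E3_Lam := fun t ht => (h.E3_Lam t ht).trans (by gcongr)
    E3_ball := fun t ht => (h.E3_ball t ht).trans (by gcongr)
    E3_cc := fun t ht => (h.E3_cc t ht).trans (by gcongr)
    E5_long := fun t ht => (h.E5_long t ht).trans (by gcongr)
    E5_pre := fun t ht => (h.E5_pre t ht).trans (by gcongr)
    E5_big := h.E5_big.trans (by gcongr) }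

lemma Dat5.OK.mono {X : Dat5} {k k' : ℝ} (h : X.OK k) (hk : k ≤ k') : X.OK k' := by
  have hn := h.ok.n_pos.le
  have hM := h.ok.M_pos.le
  have hb := h.ok.b_pos.le
  have hr := h.ok.rr_pos.le
  have hL : 0 ≤ X.L := zero_le_one.trans h.ok.L1
  exact { h with
    ok := h.ok.mono hk
    JJ_card := h.JJ_card.trans (by gcongr)
    Γ0_card := h.Γ0_card.trans (by gcongr)
    A_big := h.A_big.trans (by gcongr)
    e0_lo := h.e0_lo.trans (by gcongr)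
    nh := fun t ht hp => ⟨(h.nh t ht hp).1.trans (by gcongr), (h.nh t ht hp).2⟩
    D_le := h.D_le.trans (by gcongr)
    lam_le := fun δ hδ => (h.lam_le δ hδ).trans (by gcongr)
    EB := h.EB.trans (by gcongr)
    FB := h.FB.trans (by gcongr) }

lemma Dat6.Fan.mono {X : Dat6} {k k' : ℝ} (h : X.Fan k) (hk : k ≤ k') : X.Fan k' := by
  have hn := h.ok.ok.n_pos.le
  have hb := h.ok.ok.b_pos.le
  exact { h with
    ok := h.ok.mono hk
    T_big := h.T_big.trans (by gcongr)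
    wn_card := fun w => (h.wn_card w).trans (by gcongr) }

lemma Dat6.Core.mono {X : Dat6} {k k' k0 : ℝ} (h : X.Core k) (h0 : X.Fan k0) (hk : k ≤ k') :
    X.Core k' := by
  have hM := h0.ok.ok.M_pos.le
  have hL : 0 ≤ X.L := zero_le_one.trans h0.ok.ok.L1
  exact { h with
    nn := fun x hx => (h.nn x hx).trans (by gcongr)
    deg := fun q hq => (h.deg q hq).trans
      (mul_le_mul_of_nonneg_right hk (sum_nonneg fun _ _ => Nat.cast_nonneg _)) }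

lemma Dat6.Fan.m_bounds {X : Dat6} {k : ℝ} (h : X.Fan k) :
    X.M / X.L ≤ X.m ∧ (X.m : ℝ) ≤ 2 * (X.M / X.L) ∧ X.ell * X.L ≤ X.m := by
  have o := h.ok.ok
  have hL := o.L1
  have h1 : X.ell * X.L ≤ X.M / X.L := by
    rw [le_div_iff₀ (zero_lt_one.trans_le hL), mul_assoc, ← sq]
    exact o.ell_le
  have h2 : 1 ≤ X.ell * X.L := one_le_mul_of_one_le_of_one_le ((one_le_pow₀ o.lam1).trans o.ell_ge) hL
  have h3 : X.M / X.L ≤ X.m := Nat.le_ceil _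
  have h4 : (X.m : ℝ) < X.M / X.L + 1 := Nat.ceil_lt_add_one (by linarith)
  exact ⟨h3, by linarith, h1.trans h3⟩

/-- a block has at most `m + D ≤ 2 k m` pieces: those below the last level-`jr` window of the block
are at most `m` -/
lemma Dat6.Fan.blk_size {X : Dat6} {k : ℝ} (h : X.Fan k) (a : ℕ) :
    (#{δ ∈ X.Γ | X.blk δ = a} : ℝ) ≤ 2 * k * X.m := by
  have hk := h.ok.ok.k2
  have hm0 : (0 : ℝ) ≤ X.m := Nat.cast_nonneg _
  rcases ({δ ∈ X.Γ | X.blk δ = a}).eq_empty_or_nonempty with he | hne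
  · rw [he, card_empty, Nat.cast_zero]
    positivity
  obtain ⟨δ1, m1, h1⟩ := exists_max_image _ X.wr hne
  obtain ⟨δ0, m0, h0⟩ := exists_min_image _ X.wr hne
  have hm : 0 < X.m := by
    have := (div_pos h.ok.ok.M_pos (zero_lt_one.trans_le h.ok.ok.L1)).trans_le h.m_bounds.1
    exact_mod_cast this
  have a1 : #{δ ∈ X.Γ | X.blk δ = a} + #{δ ∈ X.Γ | X.wr δ < X.wr δ0} ≤
      #{δ ∈ X.Γ | X.wr δ < X.wr δ1} + #{δ ∈ X.Γ | X.wr δ = X.wr δ1} := by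
    rw [← card_union_of_disjoint]
    · refine le_trans (card_le_card fun δ hδ => ?_) (card_union_le _ _)
      rw [mem_union, mem_filter, mem_filter]
      rcases mem_union.1 hδ with e | e
      · exact (h1 δ e).lt_or_eq.imp (fun e' => ⟨(mem_filter.1 e).1, e'⟩)
          fun e' => ⟨(mem_filter.1 e).1, e'⟩
      · exact Or.inl ⟨(mem_filter.1 e).1, (mem_filter.1 e).2.trans_le (h0 δ1 m1)⟩
    · exact disjoint_left.2 fun δ e e' => absurd (h0 δ e) (not_le.2 (mem_filter.1 e').2)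
  have a2 : #{δ ∈ X.Γ | X.wr δ < X.wr δ1} ≤ #{δ ∈ X.Γ | X.wr δ < X.wr δ0} + X.m := by
    have e1 : #{δ ∈ X.Γ | X.wr δ < X.wr δ1} / X.m = a := (mem_filter.1 m1).2
    have e0 : #{δ ∈ X.Γ | X.wr δ < X.wr δ0} / X.m = a := (mem_filter.1 m0).2
    have b1 := Nat.lt_div_mul_add (a := #{δ ∈ X.Γ | X.wr δ < X.wr δ1}) hm
    have b0 := Nat.div_mul_le_self #{δ ∈ X.Γ | X.wr δ < X.wr δ0} X.m
    rw [e1] at b1
    rw [e0] at b0
    omega
  have a3 : #{δ ∈ X.Γ | X.blk δ = a} ≤ X.m + #{δ ∈ X.Γ | X.wr δ = X.wr δ1} := by omega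
  have a4 : (#{δ ∈ X.Γ | X.blk δ = a} : ℝ) ≤ X.m + #{δ ∈ X.Γ | X.wr δ = X.wr δ1} := by
    exact_mod_cast a3
  have a5 := (h.wr_card (X.wr δ1)).trans h.ok.D_le
  rw [mul_assoc, h.ok.ok.n_rr] at a5
  have a6 := mul_le_mul_of_nonneg_left h.m_bounds.1 (by linarith : 0 ≤ k)
  nlinarith

lemma Dat6.blk_mono (X : Dat6) {δ δ' : ℕ × ℕ} (h : X.wr δ ≤ X.wr δ') : X.blk δ ≤ X.blk δ' := by
  exact Nat.div_le_div_right (card_le_card fun x hx =>
    mem_filter.2 ⟨(mem_filter.1 hx).1, (mem_filter.1 hx).2.trans_le h⟩)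

lemma Dat6.Fan.wr_wn {X : Dat6} {k : ℝ} (h : X.Fan k) {δ : ℕ × ℕ} (hδ : δ ∈ X.Γ) :
    X.wn δ < 2 ^ (X.Q.μ - X.jT) ∧ X.wr δ < 2 ^ (X.Q.μ - X.jr) ∧
      X.wr δ = X.wn δ / 2 ^ (X.jr - X.jT) ∧ X.wr δ * 2 ^ X.jr ≤ X.wn δ * 2 ^ X.jT := by
  obtain ⟨t, ht, rfl⟩ := h.edge δ hδ
  have o := h.ok.ok
  rw [← h.wn_eq t ht hδ, ← h.wr_eq t ht hδ]
  refine ⟨win_lt o.jT_le ht, win_lt o.jr_le ht, (win_div o.Tr t).symm, ?_⟩
  rw [← win_div o.Tr t]
  have e : 2 ^ X.jr = 2 ^ (X.jr - X.jT) * 2 ^ X.jT := by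
    rw [← pow_add, Nat.sub_add_cancel o.Tr]
  rw [e, ← mul_assoc]
  exact Nat.mul_le_mul_right _ (Nat.div_mul_le_self _ _)

/-- a vertex `q` of an edge of `δ` in the open sector `J` is the point of `δ` on its ray -/
lemma Dat6.Fan.xi_vertex {X : Dat6} {k : ℝ} (h : X.Fan k) {δ : ℕ × ℕ} (hδ : δ ∈ X.Γ) {J : ℕ}
    (hJ : J ∈ X.I) {t : ℕ} (ht : t < 2 ^ X.Q.μ) (hp : X.G.pc X.c t = δ) {z : Pt}
    (hz : z ∈ X.Q.seg t) (hc : Cone (X.xl J) (X.xh J) X.p z) :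
    slp X.p z ∈ Set.Ioo (X.xl J) (X.xh J) ∧ X.xi δ (slp X.p z) = z.1 := by
  have hl := h.ok.ok.xl_lt (mem_range.1 (h.ok.JJ_sub (h.I_sub hJ)))
  have h1 := hc.slp_mem hl
  exact ⟨h1, (h.uniq δ hδ J hJ _ ⟨h1.1.le, h1.2.le⟩ t ht hp z hz
    (seg_hh_slp (hc.x_lt hl) (right_mem_segment _ _ _))).symm⟩

/-- the open sector is convex -/
lemma cone_seg {lo hi : ℝ} {p a b z : Pt} (ha : Cone lo hi p a) (hb : Cone lo hi p b)
    (hz : z ∈ segment ℝ a b) : Cone lo hi p z := by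
  obtain ⟨α, β, hα, hβ, hs, rfl⟩ := hz
  have e : ∀ s, hh s (α • a + β • b) = α * hh s a + β * hh s b := fun s => by
    simp only [hh, Prod.fst_add, Prod.snd_add, Prod.smul_fst, Prod.smul_snd, smul_eq_mul]
    ring
  have key : ∀ {u v w : ℝ}, w < u → w < v → w < α * u + β * v := fun {u v w} h1 h2 => by
    have e1 : α * u + β * v - w = α * (u - w) + β * (v - w) := by
      linear_combination w * hs
    rcases hα.lt_or_eq with h | h
    · nlinarith [mul_pos h (sub_pos.2 h1), mul_nonneg hβ (sub_pos.2 h2).le]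
    · have : β = 1 := by linarith
      rw [← h, this]
      linarith
  refine ⟨by rw [e]; exact key ha.1 hb.1, ?_⟩
  rw [e]
  have := key (neg_lt_neg ha.2) (neg_lt_neg hb.2)
  linarith

end Crest.Agent.R051
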