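import Crest.Agent.R051.Arcs
import Crest.Agent.R051.CL
import Crest.Agent.R051.ADefs

/-!
Row 51: the successive stages of the geometric argument.  With `n = d³` points, `L = lam ^ 16`
columns, ball radius `b = lam ^ (-20)`, block scale `rr = lam ^ (-12)`: a ball has `y = n b²`
points and `M = n b` pieces of length `ell = b d`.  Useful identities: `L D0 = d`,
`ell * M = y * d`, `ell ^ 3 = b ^ 2 * M`, `D0 ^ 2 * ell * L ^ 2 = M`, `n rr ^ 3 = M / L`.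
-/

set_option autoImplicit false

open Finset
open scoped Classical

namespace Crest.Agent.R051

structure Dat where
  Q : Proc
  G : Paths Q
  d : ℝ
  lam : ℝ
  D0 : ℕ
  ja : ℕ
  jT : ℕ
  jr : ℕ
  E2 : Finset ℕ

namespace Dat

variable (X : Dat)

noncomputable def n : ℝ := #X.Q.P
def L : ℝ := X.lam ^ 16
noncomputable def b : ℝ := (X.lam ^ 20)⁻¹
noncomputable def rr : ℝ := (X.lam ^ 12)⁻¹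
noncomputable def ell : ℝ := X.b * X.d
noncomputable def M : ℝ := X.n * X.b
noncomputable def y : ℝ := X.n * X.b ^ 2
/-- separation level -/
def js : ℕ := max X.ja X.jr
/-- lower and upper slope of the level-`ja` window `J` -/
def xl (J : ℕ) : ℝ := X.Q.s (J * 2 ^ X.ja)
def xh (J : ℕ) : ℝ := X.Q.s ((J + 1) * 2 ^ X.ja)

structure OK (k : ℝ) : Prop where
  base : Base X.Q k X.d
  lam1 : 1 ≤ X.lam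
  big : X.lam ^ 200 ≤ X.d
  sub : X.E2 ⊆ X.Q.E
  E2_big : X.n * X.d ≤ k * #X.E2
  nh : ∀ t ∈ X.E2, ∀ j ≤ X.Q.μ, (X.Q.K j (t / 2 ^ j) : ℝ) ≤ k * X.n * rho X.Q.μ j ^ 3
  deg : ∀ t ∈ X.E2, X.D0 ≤ X.Q.out X.ja t ∧ X.Q.out X.ja t < 2 * X.D0
  hL : X.L * X.D0 = X.d
  ja_le : X.ja ≤ X.Q.μ
  jr_le : X.jr ≤ X.Q.μ
  Ta : X.jT ≤ X.ja
  Tr : X.jT ≤ X.jr
  a_hi : rho X.Q.μ X.ja ≤ (X.lam ^ 2)⁻¹
  T_lo : X.b / 2 ≤ rho X.Q.μ X.jT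
  T_hi : rho X.Q.μ X.jT ≤ X.b
  r_lo : X.rr / 2 ≤ rho X.Q.μ X.jr
  r_hi : rho X.Q.μ X.jr ≤ X.rr

end Dat

/-- balls, cells and the corresponding cut sets -/
structure Dat3 extends Dat where
  ball : Pt → ℕ
  cell : Pt → ℕ
  c : ℕ → Prop
  cc : ℕ → Prop
  beta : ℝ

structure Dat3.OK (X : Dat3) (k : ℝ) : Prop where
  ok : X.toDat.OK k
  beta_lo : (X.lam ^ 40)⁻¹ ≤ X.beta
  beta_hi : X.beta ≤ X.b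
  cb : ∀ p q, X.cell p = X.cell q → X.ball p = X.ball q
  ball_card : ∀ a, (#{q ∈ X.Q.P | X.ball q = a} : ℝ) ≤ X.y
  cell_card : ∀ a, (#{q ∈ X.Q.P | X.cell q = a} : ℝ) ≤ X.n * X.beta ^ 2
  c_lev : ∀ t < 2 ^ X.Q.μ, X.jT < X.G.lev t → X.c t
  c_ball : ∀ t < 2 ^ X.Q.μ, X.ball (X.Q.u t) ≠ X.ball (X.Q.v t) → X.c t
  c_len : ∀ γ, (#{t ∈ X.Q.E | X.G.pc X.c t = γ} : ℝ) ≤ 2 * X.ell
  c_card : (#{t ∈ X.Q.E | X.c t} : ℝ) ≤ k * X.n / X.b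
  cc_c : ∀ t < 2 ^ X.Q.μ, X.c t → X.cc t
  cc_cell : ∀ t < 2 ^ X.Q.μ, X.cell (X.Q.u t) ≠ X.cell (X.Q.v t) → X.cc t
  cc_card : (#{t ∈ X.Q.E | X.cc t} : ℝ) ≤ k * X.n / X.beta

/-- good edges -/
structure Dat4 extends Dat3 where
  E3 : Finset ℕ
  E5 : Finset ℕ
  jf : ℕ
  eta : ℝ

structure Dat4.OK (X : Dat4) (k : ℝ) : Prop where
  ok : X.toDat3.OK k
  jf_le : X.jf ≤ X.jT
  eta_pos : 0 < X.eta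
  E3_sub : X.E3 ⊆ X.E2
  E3_cell : ∀ t ∈ X.E3, X.cell (X.Q.u t) = X.cell (X.Q.v t)
  E3_Phi : ∀ t ∈ X.E3, (X.G.Phi X.c X.jf (X.G.pc X.c t) : ℝ) ≤ X.eta * X.ell
  E3_Lam : ∀ t ∈ X.E3, X.G.Lam X.c X.jT (X.G.pc X.c t) ≤ k * X.b ^ 2 * X.M
  E3_ball : ∀ t ∈ X.E3,
    (#({t' ∈ X.Q.E | X.ball (X.Q.u t') = X.ball (X.Q.u t)}.image (X.G.pc X.c)) : ℝ) ≤ k * X.M
  E3_cc : ∀ t ∈ X.E3,
    (#({t' ∈ X.Q.E | X.cell (X.Q.u t') = X.cell (X.Q.u t)}.image (X.G.pc X.cc)) : ℝ) ≤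
      k * X.n * X.beta
  E5_sub : X.E5 ⊆ X.E3
  E5_long : ∀ t ∈ X.E5, X.beta * X.d ≤ k * #{t' ∈ X.E3 | X.G.pc X.cc t' = X.G.pc X.cc t}
  E5_pre : ∀ t ∈ X.E5,
    X.ell ≤ k * #{t' ∈ X.E2 | X.G.pc X.c t' = X.G.pc X.c t ∧ X.G.pos t' < X.G.pos t}
  E5_big : X.n * X.d ≤ k * #X.E5

namespace Dat4

variable (X : Dat4)

/-- crossing pairs of good edges in one cell, the first one in an earlier window -/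
noncomputable def XX : Finset (ℕ × ℕ) :=
  {x ∈ X.E5 ×ˢ X.E5 | X.cell (X.Q.u x.1) = X.cell (X.Q.u x.2) ∧ x.1 / 2 ^ X.js < x.2 / 2 ^ X.js ∧
    Cross (X.Q.u x.1) (X.Q.v x.1) (X.Q.u x.2) (X.Q.v x.2)}

/-- pieces with a good edge in the cell `a` -/
noncomputable def Gc (a : ℕ) : Finset (ℕ × ℕ) :=
  {e ∈ X.E5 | X.cell (X.Q.u e) = a}.image (X.G.pc X.c)

/-- edges leaving `u τ` in the window of `τ` whose pieces go through the cell `a` -/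
noncomputable def R (τ a : ℕ) : ℝ :=
  #{τ' ∈ X.E2 | τ' / 2 ^ X.ja = τ / 2 ^ X.ja ∧ X.Q.u τ' = X.Q.u τ ∧ X.G.pc X.c τ' ∈ X.Gc a}

noncomputable def richSum (θ : ℝ) : ℝ :=
  ∑ a ∈ X.Q.P.image X.cell, (#{τ ∈ X.E2 | X.G.pc X.c τ ∈ X.Gc a ∧ θ * X.D0 ≤ X.R τ a} : ℝ)

/-- edges leaving `p` in the window `J` whose pieces cross `δ` later, in a cell that is not rich -/
noncomputable def cnt (θ : ℝ) (p : Pt) (J : ℕ) (δ : ℕ × ℕ) : ℕ :=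
  #{τ ∈ X.E2 | X.Q.u τ = p ∧ τ / 2 ^ X.ja = J ∧ ∃ x ∈ X.XX, X.G.pc X.c x.2 = δ ∧
    X.G.pc X.c τ = X.G.pc X.c x.1 ∧ X.G.pos τ < X.G.pos x.1 ∧
    X.R τ (X.cell (X.Q.u x.1)) < θ * X.D0}

noncomputable def AA (θ : ℝ) : Finset (Pt × ℕ × (ℕ × ℕ)) :=
  {z ∈ X.Q.P ×ˢ range (2 ^ (X.Q.μ - X.ja)) ×ˢ X.E5.image (X.G.pc X.c) |
    2 * θ * X.D0 ≤ X.cnt θ z.1 z.2.1 z.2.2}

end Dat4

/-- one ball, one vertex `p`, its sectors `J ∈ JJ` and the portions of pieces inside sectors -/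
structure Dat5 extends Dat where
  c : ℕ → Prop
  VB : Finset Pt
  p : Pt
  JJ : Finset ℕ
  Γ0 : Finset (ℕ × ℕ)
  A : Finset (ℕ × (ℕ × ℕ))
  e0 : ℕ
  por : ℕ × (ℕ × ℕ) → Finset ℕ
  D : ℝ

structure Dat5.OK (X : Dat5) (k : ℝ) : Prop where
  ok : X.toDat.OK k
  c_lev : ∀ t < 2 ^ X.Q.μ, X.jT < X.G.lev t → X.c t
  VB_sub : X.VB ⊆ X.Q.P
  VB_card : (#X.VB : ℝ) ≤ X.y
  p_mem : X.p ∈ X.Q.P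
  JJ_sub : X.JJ ⊆ range (2 ^ (X.Q.μ - X.ja))
  JJ_card : (#X.JJ : ℝ) ≤ k * X.L
  Γ0_card : (#X.Γ0 : ℝ) ≤ k * X.M
  A_sub : X.A ⊆ X.JJ ×ˢ X.Γ0
  A_big : X.M * X.L ≤ k * #X.A
  e0_lo : X.ell ≤ k * X.L * X.e0
  e0_hi : (X.e0 : ℝ) ≤ X.ell
  por_card : ∀ x ∈ X.A, #(X.por x) = X.e0
  por_mem : ∀ x ∈ X.A, ∀ t ∈ X.por x, t < 2 ^ X.Q.μ ∧ X.G.pc X.c t = x.2 ∧
    X.Q.u t ∈ X.VB ∧ X.Q.v t ∈ X.VB ∧ Cone (X.xl x.1) (X.xh x.1) X.p (X.Q.u t) ∧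
    Cone (X.xl x.1) (X.xh x.1) X.p (X.Q.v t) ∧ (x.1 + 1) * 2 ^ X.ja ≤ t / 2 ^ X.jr * 2 ^ X.jr
  nh : ∀ t < 2 ^ X.Q.μ, X.G.pc X.c t ∈ X.Γ0 →
    (X.Q.K X.jT (t / 2 ^ X.jT) : ℝ) ≤ k * X.n * X.b ^ 3 ∧ (X.Q.K X.jr (t / 2 ^ X.jr) : ℝ) ≤ X.D
  D_pos : 0 ≤ X.D
  D_le : X.D ≤ k * X.n * X.rr ^ 3
  lam_le : ∀ δ ∈ X.Γ0, X.G.Lam X.c X.jT δ ≤ k * X.b ^ 2 * X.M
  EB : ∑ a ∈ range (2 ^ (X.Q.μ - X.jr)),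
    (#(X.Q.lens (a * 2 ^ X.jr) ((a + 1) * 2 ^ X.jr) ∩ X.VB) : ℝ) ≤ k * X.n * X.b ^ 2 / X.rr
  FB : ∑ j ∈ range X.jr, ∑ a ∈ range (2 ^ (X.Q.μ - j)) with
      (X.Q.K X.jr (a / 2 ^ (X.jr - j)) : ℝ) ≤ X.D,
      (#(X.Q.lens (a * 2 ^ j) ((a + 1) * 2 ^ j) ∩ X.VB) : ℝ) * X.Q.K (j + 1) (a / 2) ≤
    k * X.n ^ 2 * X.rr ^ 2 * X.b ^ 2

/-- the pieces crossing all rays from `p` in the sectors `J ∈ I`; `xi δ X` is the abscissa of the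
point of `δ` on the ray of slope `X`, lying on the edge `et δ X` -/
structure Dat6 extends Dat5 where
  I : Finset ℕ
  Γ : Finset (ℕ × ℕ)
  T : Finset (ℕ × (ℕ × ℕ))
  V' : Finset Pt
  wn : ℕ × ℕ → ℕ
  wr : ℕ × ℕ → ℕ
  et : ℕ × ℕ → ℝ → ℕ
  xi : ℕ × ℕ → ℝ → ℝ
  Xs : ℝ

namespace Dat6

variable (X : Dat6)

def pt (δ : ℕ × ℕ) (s : ℝ) : Pt := (X.xi δ s, X.p.2 + s * (X.xi δ s - X.p.1))

/-- pieces of other windows meeting `δ` in the sector `J` -/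
noncomputable def NN (J : ℕ) (δ : ℕ × ℕ) : ℕ :=
  #{δ' ∈ X.Γ | X.wn δ' ≠ X.wn δ ∧ ∃ s ∈ Set.Ico (X.xl J) (X.xh J), X.xi δ s = X.xi δ' s}

structure Fan (k : ℝ) : Prop where
  ok : X.toDat5.OK k
  I_sub : X.I ⊆ X.JJ
  I_card : (#X.I : ℝ) ≤ X.L
  Γ_sub : X.Γ ⊆ X.Γ0
  T_sub : ∀ x ∈ X.T, x ∈ X.A ∧ x.1 ∈ X.I ∧ x.2 ∈ X.Γ
  T_big : X.M * X.L ≤ k * #X.T
  wn_eq : ∀ t < 2 ^ X.Q.μ, X.G.pc X.c t ∈ X.Γ → t / 2 ^ X.jT = X.wn (X.G.pc X.c t)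
  wr_eq : ∀ t < 2 ^ X.Q.μ, X.G.pc X.c t ∈ X.Γ → t / 2 ^ X.jr = X.wr (X.G.pc X.c t)
  edge : ∀ δ ∈ X.Γ, ∃ t < 2 ^ X.Q.μ, X.G.pc X.c t = δ
  Xs_gt : ∀ J ∈ X.I, X.xh J < X.Xs
  Xs_le : ∀ δ ∈ X.Γ, X.Xs ≤ X.Q.s (X.wr δ * 2 ^ X.jr)
  fan : ∀ δ ∈ X.Γ, ∀ J ∈ X.I, ∀ s ∈ Set.Icc (X.xl J) (X.xh J), X.et δ s < 2 ^ X.Q.μ ∧
    X.G.pc X.c (X.et δ s) = δ ∧ X.pt δ s ∈ X.Q.seg (X.et δ s) ∧ X.p.1 < X.xi δ s ∧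
    hh s (X.Q.u (X.et δ s)) < hh s X.p ∧ hh s X.p ≤ hh s (X.Q.v (X.et δ s))
  uniq : ∀ δ ∈ X.Γ, ∀ J ∈ X.I, ∀ s ∈ Set.Icc (X.xl J) (X.xh J), ∀ t < 2 ^ X.Q.μ,
    X.G.pc X.c t = δ → ∀ z ∈ X.Q.seg t, hh s z = hh s X.p → z.1 = X.xi δ s
  cont : ∀ δ ∈ X.Γ, ∀ J ∈ X.I, ContinuousOn (X.xi δ) (Set.Icc (X.xl J) (X.xh J))
  inj : ∀ J ∈ X.I, ∀ δ ∈ X.Γ, ∀ δ' ∈ X.Γ, X.xi δ (X.xl J) = X.xi δ' (X.xl J) → δ = δ'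
  wn_card : ∀ w, (#{δ ∈ X.Γ | X.wn δ = w} : ℝ) ≤ k * X.n * X.b ^ 3
  wr_card : ∀ w, (#{δ ∈ X.Γ | X.wr δ = w} : ℝ) ≤ X.D

structure Core (k : ℝ) : Prop where
  nn : ∀ x ∈ X.T, (X.NN x.1 x.2 : ℝ) ≤ k * X.M / X.L
  V_sub : X.V' ⊆ X.VB
  many : ∀ x ∈ X.T, X.e0 ≤ 4 * #{t ∈ X.por x | X.Q.u t ∈ X.V' ∧ X.Q.v t ∈ X.V'}
  deg : ∀ q ∈ X.V', X.d ≤ k * ∑ x ∈ X.T, (#{t ∈ X.por x | X.Q.u t = q ∨ X.Q.v t = q} : ℝ)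

noncomputable def m : ℕ := ⌈X.M / X.L⌉₊

noncomputable def blk (δ : ℕ × ℕ) : ℕ := #{δ' ∈ X.Γ | X.wr δ' < X.wr δ} / X.m

/-- the abstract data, in the projective coordinates `(slope from p, 1 / (x - p.1))` -/
noncomputable def ad : AD where
  I := X.I
  Γ := X.Γ
  T := X.T
  X := X.xl
  U := fun J δ => (X.xi δ (X.xl J) - X.p.1)⁻¹
  w := X.wn
  blk := X.blk
  lo := fun a => X.Q.s (a * 2 ^ X.jT)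
  hi := fun a => X.Q.s ((a + 1) * 2 ^ X.jT)
  Xs := X.Xs
  m := X.m
  lam := X.lam

/-- first level-`jr` window of the block of `δ` -/
noncomputable def w0 (δ : ℕ × ℕ) : ℕ := sInf (X.wr '' {δ' | δ' ∈ X.Γ ∧ X.blk δ' = X.blk δ})

/-- vertices of the sector `J` on which the side of `δ` and the start of its block disagree -/
noncomputable def Dm (J : ℕ) (δ : ℕ × ℕ) : ℕ :=
  #{q ∈ X.VB | Cone (X.xl J) (X.xh J) X.p q ∧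
    q ∈ X.Q.lens (X.w0 δ * 2 ^ X.jr) (X.et δ (slp X.p q))}

end Dat6

end Crest.Agent.R051
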