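import Crest.Agent.R051.St2a

/-! Row 51: choice of the scales. -/

set_option autoImplicit false

open Finset
open scoped Classical

namespace Crest.Agent.R051

/-- dyadic pigeonhole for the out-degrees -/
lemma st2_class (Q : Proc) (ja : ℕ) {Z : Finset ℕ} (hZ : Z ⊆ Q.E) :
    ∃ i : ℕ, #Z ≤ (Q.μ + 1) * #{t ∈ Z | 2 ^ i ≤ Q.out ja t ∧ Q.out ja t < 2 * 2 ^ i} := by
  have h1 : ∀ t ∈ Z, 1 ≤ Q.out ja t := fun t ht =>
    card_pos.2 ⟨t, mem_filter.2 ⟨hZ ht, rfl, rfl⟩⟩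
  have h2 : ∀ t, Q.out ja t ≤ 2 ^ Q.μ := fun t =>
    (card_filter_le _ _).trans (card_range _).le
  obtain ⟨i, -, hi⟩ := exists_max_image (range (Q.μ + 1))
    (fun i => #{t ∈ Z | Nat.log 2 (Q.out ja t) = i}) ⟨0, mem_range.2 (Nat.succ_pos _)⟩
  refine ⟨i, ?_⟩
  rw [card_eq_sum_card_fiberwise (f := fun t => Nat.log 2 (Q.out ja t)) (t := range (Q.μ + 1))]
  · refine (sum_le_card_nsmul _ _ _ hi).trans ?_
    rw [card_range, smul_eq_mul]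
    refine Nat.mul_le_mul_left _ (card_le_card fun t ht => ?_)
    rw [mem_filter] at ht ⊢
    have h0 : Q.out ja t ≠ 0 := by have := h1 t ht.1; omega
    refine ⟨ht.1, ht.2 ▸ Nat.pow_log_le_self 2 h0, ?_⟩
    rw [← ht.2, ← pow_succ']
    exact Nat.lt_pow_succ_log_self (by norm_num) _
  · intro t _
    refine mem_coe.2 (mem_range.2 (Nat.lt_succ_of_le ?_))
    simpa using Nat.log_mono_right (b := 2) (h2 t)

/-- the good edges at level `ja` -/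
lemma st2_edges {Q : Proc} (G : Paths Q) {k d : ℝ} (h : Base Q k d) {ja : ℕ} (hja : ja ≤ Q.μ)
    (hd : k ^ 60 ≤ rho Q.μ ja * d) :
    ∃ (E2 : Finset ℕ) (D0 : ℕ), E2 ⊆ Q.E ∧ (#Q.P : ℝ) * d ≤ k ^ 4 * #E2 ∧
      (∀ t ∈ E2, ∀ j ≤ Q.μ, (Q.K j (t / 2 ^ j) : ℝ) ≤ k ^ 4 * #Q.P * rho Q.μ j ^ 3) ∧
      (∀ t ∈ E2, D0 ≤ Q.out ja t ∧ Q.out ja t < 2 * D0) ∧ 0 < D0 ∧
      (D0 : ℝ) ≤ k ^ 60 * (rho Q.μ ja * d) ∧ rho Q.μ ja ^ 4 * d ≤ k ^ 4 * D0 := by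
  have hk := h.k2
  have hk0 : 0 < k := by linarith
  have hd0 : 0 < d := by linarith [h.d1]
  have hα := rho_pos Q.μ ja
  have hn : (0 : ℝ) < #Q.P := by rw [← h.hd]; positivity
  have hk4 : 4 * k ^ 2 ≤ k ^ 4 := by
    have b1 : (2 : ℝ) ^ 2 ≤ k ^ 2 := pow_le_pow_left₀ (by norm_num) hk 2
    calc 4 * k ^ 2 ≤ k ^ 2 * k ^ 2 := by gcongr; linarith
      _ = _ := by ring
  set D : ℝ := rho Q.μ ja ^ 4 * d / (4 * k) with hD
  set Z1 := {t ∈ Q.E | ∃ j ≤ Q.μ, 4 * k ^ 2 * #Q.P * rho Q.μ j ^ 3 < Q.K j (t / 2 ^ j)} with hZ1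
  set Z2 := {t ∈ Q.E | (Q.K ja (t / 2 ^ ja) : ℝ) ≤ 4 * k ^ 2 * #Q.P * rho Q.μ ja ^ 3 ∧
      k ^ 60 * (rho Q.μ ja * d) ≤ Q.out ja t} with hZ2
  set Z3 := {t ∈ Q.E | (Q.out ja t : ℝ) < D} with hZ3
  set Z := Q.E \ (Z1 ∪ Z2 ∪ Z3) with hZ
  have a1 : 4 * (#Z1 : ℝ) ≤ 2 ^ Q.μ := st2a h
  have a2 : 4 * (#Z2 : ℝ) ≤ 2 ^ Q.μ := st2c h G hja hd
  have a3 : 4 * (#Z3 : ℝ) ≤ 2 ^ Q.μ := by
    have b1 : (#Z3 : ℝ) ≤ #Q.P * D / rho Q.μ ja ^ 4 := st2_low Q hja (by positivity)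
    have b2 : (#Q.P : ℝ) * D / rho Q.μ ja ^ 4 = #Q.P * d / (4 * k) := by
      rw [hD]; field_simp
    rw [b2, le_div_iff₀ (by positivity)] at b1
    have b3 := h.lower
    refine le_of_mul_le_mul_left ?_ hk0
    linarith
  have a4 : (2 : ℝ) ^ Q.μ ≤ #Z + (#Z1 + #Z2 + #Z3) := by
    have b1 : #Q.E ≤ #Z + #(Z1 ∪ Z2 ∪ Z3) := card_le_card_sdiff_add_card
    have b2 : #(Z1 ∪ Z2 ∪ Z3) ≤ #Z1 + #Z2 + #Z3 :=
      (card_union_le _ _).trans (Nat.add_le_add_right (card_union_le _ _) _)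
    rw [card_range] at b1
    exact_mod_cast b1.trans (Nat.add_le_add_left b2 _)
  obtain ⟨i, hi⟩ := st2_class Q ja (Z := Z) sdiff_subset
  set E2 := {t ∈ Z | 2 ^ i ≤ Q.out ja t ∧ Q.out ja t < 2 * 2 ^ i} with hE2
  have a5 : (#Z : ℝ) ≤ k * #E2 := by
    have b1 : (#Z : ℝ) ≤ (Q.μ + 1) * #E2 := by exact_mod_cast hi
    exact b1.trans (mul_le_mul_of_nonneg_right h.mu (Nat.cast_nonneg _))
  have a6 : (#Q.P : ℝ) * d ≤ k ^ 4 * #E2 := by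
    have b1 : (2 : ℝ) ^ Q.μ ≤ 4 * (k * #E2) := by linarith
    calc (#Q.P : ℝ) * d ≤ k * 2 ^ Q.μ := h.lower
      _ ≤ k * (4 * (k * #E2)) := by gcongr
      _ = 4 * k ^ 2 * #E2 := by ring
      _ ≤ _ := by gcongr
  have a7 : ∀ t ∈ E2, (∀ j ≤ Q.μ, (Q.K j (t / 2 ^ j) : ℝ) ≤ 4 * k ^ 2 * #Q.P * rho Q.μ j ^ 3) ∧
      (Q.out ja t : ℝ) < k ^ 60 * (rho Q.μ ja * d) ∧ D ≤ Q.out ja t := by
    intro t ht
    obtain ⟨b1, b2⟩ := mem_sdiff.1 (mem_filter.1 ht).1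
    simp only [mem_union, not_or, hZ1, hZ2, hZ3, mem_filter, b1, true_and, not_exists, not_and,
      not_lt, not_le] at b2
    exact ⟨b2.1.1, b2.1.2 (b2.1.1 ja hja), b2.2⟩
  have a8 : E2.Nonempty := by
    rw [← card_pos]
    have : (0 : ℝ) < k ^ 4 * #E2 := lt_of_lt_of_le (by positivity) a6
    exact_mod_cast (mul_pos_iff_of_pos_left (by positivity)).1 this
  obtain ⟨t0, ht0⟩ := a8
  obtain ⟨c1, c2⟩ := (mem_filter.1 ht0).2
  have c1' : ((2 ^ i : ℕ) : ℝ) ≤ Q.out ja t0 := by exact_mod_cast c1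
  have c2' : (Q.out ja t0 : ℝ) < 2 * ((2 ^ i : ℕ) : ℝ) := by exact_mod_cast c2
  refine ⟨E2, 2 ^ i, (filter_subset _ _).trans sdiff_subset, a6, fun t ht j hj => ?_,
    fun t ht => (mem_filter.1 ht).2, by positivity, c1'.trans (a7 t0 ht0).2.1.le, ?_⟩
  · have := rho_pos Q.μ j
    exact ((a7 t ht).1 j hj).trans (by gcongr)
  · have b1 := ((a7 t0 ht0).2.2.trans c2'.le)
    rw [hD, div_le_iff₀ (by positivity)] at b1
    have b2 : 8 * k ≤ k ^ 4 := by nlinarith [mul_pos hk0 hk0, pow_le_pow_left₀ (by norm_num) hk 3]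
    calc rho Q.μ ja ^ 4 * d ≤ 8 * k * ((2 ^ i : ℕ) : ℝ) := by linarith
      _ ≤ _ := by gcongr

/-- Take `e ≥ 300`, `e ≥ 60 + 16 (C a + 1)`, and `ja` with `α = ρ_ja ∈ [k^(-e) / 2, k^(-e)]`
(`exists_level`).  Remove the heavy edges (`st2a`), those with `out ≥ k ^ 60 α d` (`st2c`) and those
with `out < α⁴ d / (4 k)` (`st2_low`, at most `n d / (4 k) ≤ 2 ^ μ / 4`).  Among the remaining
`≥ 2 ^ μ / 4` edges take the largest class `2 ^ i ≤ out < 2 ^ (i+1)`, `i ≤ μ`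
(`1 ≤ out ≤ 2 ^ μ`); `D0 = 2 ^ i`, `L = d / D0 ∈ (1 / (k ^ 60 α), 8 k / α⁴)`,
`lam = L ^ (1 / 16)`.  Then `lam ^ 16 ≤ α ^ (-8)` gives `a_hi`; `lam ^ 80 = L ^ 5 ≥ α ^ (-4)` gives
`b ≤ α`, hence `Ta` (by `rho_lt`); `jT`, `jr` come from `exists_level`; `b ≤ rr / 2` as `lam ≥ 2`. -/
theorem st2 : ∃ C : ℕ, ∀ a : ℕ, ∃ C' : ℕ, ∀ (Q : Proc) (G : Paths Q) (k d : ℝ), Base Q k d →
    k ^ C' ≤ d → ∃ X : Dat, X.OK (k ^ C) ∧ (k ^ C) ^ a ≤ X.lam := by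
  refine ⟨4, fun a => ⟨13 * (4 * (400 + 64 * a) + 8), fun Q G k d h hd => ?_⟩⟩
  set e : ℕ := 400 + 64 * a with he
  have hk := h.k2
  have hk1 : 1 ≤ k := by linarith
  have hk0 : 0 < k := by linarith
  have hd1 := h.d1
  have hd0 : 0 < d := by linarith
  have hpw : ∀ {i j : ℕ}, i ≤ j → k ^ i ≤ k ^ j := fun hij => pow_le_pow_right₀ hk1 hij
  have hkd : k ≤ d := by simpa using (hpw (i := 1) (by omega)).trans hd
  -- a level for every scale `1 / x` with `x ^ 4 ≤ d`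
  have hlev : ∀ x : ℝ, 1 ≤ x → x ^ 4 ≤ d → ∃ j ≤ Q.μ, x⁻¹ / 2 ≤ rho Q.μ j ∧ rho Q.μ j ≤ x⁻¹ := by
    intro x hx hxd
    have hx0 : 0 < x := by linarith
    refine exists_level Q.μ (inv_pos.2 hx0) (inv_le_one_of_one_le₀ hx) ?_
    rw [inv_pow, ← div_eq_inv_mul, le_div_iff₀ (by positivity), one_mul]
    have b1 := h.lower
    rw [← h.hd] at b1
    refine le_of_mul_le_mul_left ?_ hk0
    calc k * x ^ 4 ≤ d * d := by gcongr
      _ ≤ d ^ 3 * d := by gcongr; exact le_self_pow₀ hd1 (by norm_num)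
      _ ≤ _ := b1
  obtain ⟨ja, hja, hα1, hα2⟩ := hlev (k ^ e) (one_le_pow₀ hk1)
    (by rw [← pow_mul]; exact (hpw (by omega)).trans hd)
  set α := rho Q.μ ja with hα
  have hα0 : 0 < α := rho_pos _ _
  have hke : 0 < k ^ e := by positivity
  have hα3 : α * k ^ e ≤ 1 := by rwa [← one_div, le_div_iff₀ hke] at hα2
  have hα4 : 1 ≤ α * k ^ (e + 1) := by
    rw [← one_div, div_div, div_le_iff₀ (by positivity)] at hα1
    calc (1 : ℝ) ≤ α * (k ^ e * 2) := hα1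
      _ ≤ α * (k ^ e * k) := by gcongr
      _ = _ := by ring
  have hαd : k ^ 60 ≤ α * d :=
    calc k ^ 60 ≤ α * k ^ (e + 1) * k ^ 60 := le_mul_of_one_le_left (by positivity) hα4
      _ = α * k ^ (e + 61) := by ring
      _ ≤ α * d := by gcongr; exact (hpw (by omega)).trans hd
  obtain ⟨E2, D0, e1, e2, e3, e4, e5, e6, e7⟩ := st2_edges G h hja hαd
  rw [← hα] at e6 e7
  have hD0 : (0 : ℝ) < D0 := by exact_mod_cast e5
  set lam : ℝ := (d / D0) ^ ((16 : ℕ) : ℝ)⁻¹ with hlam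
  have hl0 : 0 < lam := by positivity
  have hL : lam ^ 16 = d / D0 := Real.rpow_inv_natCast_pow (by positivity) (by norm_num)
  have hLD : lam ^ 16 * D0 = d := by rw [hL]; field_simp
  have hLlo : k ^ (e - 60) ≤ lam ^ 16 := by
    rw [hL, le_div_iff₀ hD0]
    calc k ^ (e - 60) * D0 ≤ k ^ (e - 60) * (k ^ 60 * (α * d)) := by gcongr
      _ = α * (k ^ (e - 60) * k ^ 60) * d := by ring
      _ = α * k ^ e * d := by rw [← pow_add, Nat.sub_add_cancel (by omega)]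
      _ ≤ 1 * d := by gcongr
      _ = d := one_mul d
  have hLhi : lam ^ 16 ≤ k ^ (4 * e + 8) := by
    rw [hL, div_le_iff₀ hD0]
    calc d ≤ (α * k ^ (e + 1)) ^ 4 * d := le_mul_of_one_le_left hd0.le (one_le_pow₀ hα4)
      _ = k ^ (4 * e + 4) * (α ^ 4 * d) := by ring
      _ ≤ k ^ (4 * e + 4) * (k ^ 4 * D0) := by gcongr
      _ = _ := by ring
  have hla : (k ^ 4) ^ a ≤ lam := by
    refine le_of_pow_le_pow_left₀ (n := 16) (by norm_num) hl0.le (le_trans ?_ hLlo)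
    rw [← pow_mul, ← pow_mul]
    exact hpw (by omega)
  have hl2 : 2 ≤ lam := by
    refine le_of_pow_le_pow_left₀ (n := 16) (by norm_num) hl0.le (le_trans ?_ hLlo)
    exact (pow_le_pow_left₀ (by norm_num) hk 16).trans (hpw (by omega))
  have hl1 : 1 ≤ lam := by linarith
  have hbig : ∀ m : ℕ, m ≤ 208 → lam ^ m ≤ d := fun m hm =>
    calc lam ^ m ≤ lam ^ 208 := pow_le_pow_right₀ hl1 hm
      _ = (lam ^ 16) ^ 13 := by ring
      _ ≤ (k ^ (4 * e + 8)) ^ 13 := by gcongr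
      _ = k ^ (13 * (4 * e + 8)) := by rw [← pow_mul, mul_comm]
      _ ≤ d := hd
  obtain ⟨jT, hjT, hT1, hT2⟩ := hlev (lam ^ 20) (one_le_pow₀ hl1)
    (by rw [← pow_mul]; exact hbig _ (by norm_num))
  obtain ⟨jr, hjr, hr1, hr2⟩ := hlev (lam ^ 12) (one_le_pow₀ hl1)
    (by rw [← pow_mul]; exact hbig _ (by norm_num))
  have hahi : α ≤ (lam ^ 2)⁻¹ := by
    rw [← one_div, le_div_iff₀ (by positivity)]
    refine le_of_pow_le_pow_left₀ (n := 8) (by norm_num) zero_le_one ?_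
    calc (α * lam ^ 2) ^ 8 = α ^ 8 * lam ^ 16 := by ring
      _ ≤ α ^ 8 * k ^ (e * 8) := by gcongr; exact hLhi.trans (hpw (by omega))
      _ = (α * k ^ e) ^ 8 := by rw [mul_pow, ← pow_mul]
      _ ≤ 1 ^ 8 := by gcongr
  have hbα : (lam ^ 20)⁻¹ ≤ α := by
    rw [← one_div, div_le_iff₀ (by positivity)]
    refine le_of_pow_le_pow_left₀ (n := 4) (by norm_num) (by positivity) ?_
    calc (1 : ℝ) ^ 4 ≤ (α * k ^ (e + 1)) ^ 4 := by gcongr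
      _ = α ^ 4 * k ^ ((e + 1) * 4) := by rw [mul_pow, ← pow_mul]
      _ ≤ α ^ 4 * (k ^ (e - 60)) ^ 5 := by
        rw [← pow_mul]
        exact mul_le_mul_of_nonneg_left (hpw (by omega)) (by positivity)
      _ ≤ α ^ 4 * (lam ^ 16) ^ 5 := by gcongr
      _ = _ := by ring
  have hbr : (lam ^ 20)⁻¹ ≤ (lam ^ 12)⁻¹ / 2 := by
    rw [← one_div (lam ^ 12), div_div, one_div]
    refine inv_anti₀ (by positivity) ?_
    calc lam ^ 12 * 2 ≤ lam ^ 12 * lam ^ 8 := by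
          gcongr; exact hl2.trans (le_self_pow₀ hl1 (by norm_num))
      _ = _ := by ring
  refine ⟨⟨Q, G, d, lam, D0, ja, jT, jr, E2⟩, ⟨h.mono (le_self_pow₀ hk1 (by norm_num)), hl1,
    hbig _ (by norm_num), e1, e2, e3, e4, hLD, hja, hjr, ?_, ?_, hahi, hT1, hT2, hr1, hr2⟩, hla⟩
  · by_contra hc
    exact absurd ((rho_lt (not_le.1 hc)).trans_le (hT2.trans hbα)) (lt_irrefl _)
  · by_contra hc
    exact absurd ((rho_lt (not_le.1 hc)).trans_le (hT2.trans (hbr.trans hr1))) (lt_irrefl _)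

end Crest.Agent.R051
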