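import Crest.Agent.R051.SBasic

/-! Row 51: edges in heavy windows and edges of large out-degree are few. -/

set_option autoImplicit false

open Finset
open scoped Classical

namespace Crest.Agent.R051

variable {Q : Proc} {k d : ℝ}

lemma st2a_win (μ j a : ℕ) : #{t ∈ range (2 ^ μ) | t / 2 ^ j = a} ≤ 2 ^ j := by
  have : {t ∈ range (2 ^ μ) | t / 2 ^ j = a} ⊆ Ico (a * 2 ^ j) ((a + 1) * 2 ^ j) :=
    fun t ht => win_mem.1 (mem_filter.1 ht).2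
  refine (card_le_card this).trans ?_
  rw [Nat.card_Ico, add_mul, one_mul, Nat.add_sub_cancel_left]

lemma st2a_n (h : Base Q k d) : (0 : ℝ) < #Q.P := by
  rw [← h.hd]
  have := h.d1
  positivity

lemma st2a_lev (h : Base Q k d) (G : Paths Q) {j : ℕ} (hj : j ≤ Q.μ) :
    (#{t ∈ Q.E | j < G.lev t} : ℝ) ≤ k * #Q.P / rho Q.μ j := by
  refine le_trans ?_ (h.g1a j hj)
  exact_mod_cast G.count_all hj

/-- Markov with `g1a`: at level `j` at most `k / (4 k² ρ⁴)` windows are heavy, each has `2 ^ j`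
edges (`rho_pow`), and there are `μ + 1 ≤ k` levels. -/
theorem st2a (h : Base Q k d) :
    4 * (#{t ∈ Q.E | ∃ j ≤ Q.μ, 4 * k ^ 2 * #Q.P * rho Q.μ j ^ 3 < Q.K j (t / 2 ^ j)} : ℝ) ≤
      2 ^ Q.μ := by
  have hk : 0 < k := by linarith [h.k2]
  have hn := st2a_n h
  have key : ∀ j ∈ range (Q.μ + 1),
      (#{t ∈ Q.E | 4 * k ^ 2 * #Q.P * rho Q.μ j ^ 3 < Q.K j (t / 2 ^ j)} : ℝ) ≤
        2 ^ Q.μ / (4 * k) := by
    intro j hj
    have hj' : j ≤ Q.μ := Nat.lt_succ_iff.1 (mem_range.1 hj)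
    have hρ := rho_pos Q.μ j
    set H := {a ∈ range (2 ^ (Q.μ - j)) | 4 * k ^ 2 * #Q.P * rho Q.μ j ^ 3 < Q.K j a} with hH
    have h1 : (#H : ℝ) * (4 * k ^ 2 * #Q.P * rho Q.μ j ^ 3) ≤ k * #Q.P / rho Q.μ j := by
      refine le_trans ?_ (h.g1a j hj')
      rw [← nsmul_eq_mul]
      refine (card_nsmul_le_sum H (fun a => (Q.K j a : ℝ)) _
        fun a ha => (mem_filter.1 ha).2.le).trans ?_
      exact sum_le_sum_of_subset_of_nonneg (filter_subset _ _) fun _ _ _ => Nat.cast_nonneg _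
    have h2 : #{t ∈ Q.E | 4 * k ^ 2 * #Q.P * rho Q.μ j ^ 3 < Q.K j (t / 2 ^ j)} ≤ 2 ^ j * #H := by
      refine card_le_mul_card_image_of_maps_to (f := fun t => t / 2 ^ j) (fun t ht => ?_) _
        fun a _ => ?_
      · rw [mem_filter] at ht
        exact mem_filter.2 ⟨mem_range.2 (win_lt hj' (mem_range.1 ht.1)), ht.2⟩
      · refine le_trans (card_le_card fun t ht => ?_) (st2a_win Q.μ j a)
        simp only [mem_filter] at ht ⊢
        exact ⟨ht.1.1, ht.2⟩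
    have h3 : (#H : ℝ) * (4 * k) * rho Q.μ j ^ 4 ≤ 1 := by
      rw [le_div_iff₀ hρ] at h1
      have : (k * #Q.P) * ((#H : ℝ) * (4 * k) * rho Q.μ j ^ 4) ≤ (k * #Q.P) * 1 := by
        calc _ = (#H : ℝ) * (4 * k ^ 2 * #Q.P * rho Q.μ j ^ 3) * rho Q.μ j := by ring
          _ ≤ _ := by rw [mul_one]; exact h1
      exact le_of_mul_le_mul_left this (by positivity)
    rw [rho_pow, ← mul_div_assoc, div_le_one (by positivity)] at h3
    rw [le_div_iff₀ (by positivity)]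
    have h4 : (#{t ∈ Q.E | 4 * k ^ 2 * #Q.P * rho Q.μ j ^ 3 < Q.K j (t / 2 ^ j)} : ℝ) ≤
        2 ^ j * #H := by exact_mod_cast h2
    calc _ ≤ 2 ^ j * #H * (4 * k) := by gcongr
      _ = #H * (4 * k) * 2 ^ j := by ring
      _ ≤ _ := h3
  have h1 : #{t ∈ Q.E | ∃ j ≤ Q.μ, 4 * k ^ 2 * #Q.P * rho Q.μ j ^ 3 < Q.K j (t / 2 ^ j)} ≤
      ∑ j ∈ range (Q.μ + 1), #{t ∈ Q.E | 4 * k ^ 2 * #Q.P * rho Q.μ j ^ 3 < Q.K j (t / 2 ^ j)} := by
    refine le_trans (card_le_card fun t ht => ?_) card_biUnion_le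
    rw [mem_filter] at ht
    obtain ⟨ht1, j, hj, ht2⟩ := ht
    exact mem_biUnion.2 ⟨j, mem_range.2 (Nat.lt_succ_of_le hj), mem_filter.2 ⟨ht1, ht2⟩⟩
  have h2 := sum_le_card_nsmul _ _ _ key
  rw [card_range, nsmul_eq_mul] at h2
  have h3 : (#{t ∈ Q.E | ∃ j ≤ Q.μ, 4 * k ^ 2 * #Q.P * rho Q.μ j ^ 3 < Q.K j (t / 2 ^ j)} : ℝ) ≤
      ((Q.μ + 1 : ℕ) : ℝ) * (2 ^ Q.μ / (4 * k)) := le_trans (by exact_mod_cast h1) h2
  have h4 : ((Q.μ + 1 : ℕ) : ℝ) ≤ k := by push_cast; exact h.mu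
  calc _ ≤ 4 * (k * (2 ^ Q.μ / (4 * k))) := by
        gcongr
        exact h3.trans (by gcongr)
    _ = _ := by field_simp

/-- there are `n * 2 ^ (μ - ja) = n / ρ⁴` pairs (vertex, window); each carries fewer than `D`
of the counted edges -/
theorem st2_low (Q : Proc) {ja : ℕ} (hja : ja ≤ Q.μ) {D : ℝ} (hD : 0 ≤ D) :
    (#{t ∈ Q.E | (Q.out ja t : ℝ) < D} : ℝ) ≤ #Q.P * D / rho Q.μ ja ^ 4 := by
  set T := {t ∈ Q.E | (Q.out ja t : ℝ) < D} with hT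
  have hmap : ∀ t ∈ T, (Q.u t, t / 2 ^ ja) ∈ Q.P ×ˢ range (2 ^ (Q.μ - ja)) := by
    intro t ht
    have ht' := mem_range.1 (mem_filter.1 ht).1
    exact mem_product.2 ⟨Q.u_P ht', mem_range.2 (win_lt hja ht')⟩
  have h1 := card_eq_sum_card_fiberwise (f := fun t => (Q.u t, t / 2 ^ ja)) hmap
  have h2 : ∀ b ∈ Q.P ×ˢ range (2 ^ (Q.μ - ja)),
      (#{t ∈ T | (Q.u t, t / 2 ^ ja) = b} : ℝ) ≤ D := by
    intro b _
    rcases ({t ∈ T | (Q.u t, t / 2 ^ ja) = b}).eq_empty_or_nonempty with e | ⟨t0, ht0⟩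
    · rw [e]; simpa using hD
    · rw [mem_filter] at ht0
      refine le_trans (Nat.cast_le.2 (card_le_card fun t ht => ?_)) (mem_filter.1 ht0.1).2.le
      rw [mem_filter] at ht
      have e := ht.2.trans ht0.2.symm
      exact mem_filter.2 ⟨(mem_filter.1 ht.1).1, congrArg Prod.snd e, congrArg Prod.fst e⟩
  have h3 := sum_le_card_nsmul _ _ _ h2
  rw [card_product, card_range, nsmul_eq_mul] at h3
  rw [h1, rho_pow]
  push_cast at h3 ⊢
  refine h3.trans (le_of_eq ?_)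
  rw [pow_sub₀ _ two_ne_zero hja]
  field_simp

/-- Let `I` be the counted set, `c t := ja < lev t`, `Γ = I.image (pc c)`, `A` the chords of
`exists_chords`; `∑ Φ ≤ #{jf < lev} ≤ k n / ρ_jf` (`count_all`, `g1a`).  Apply `Base.cl`
separately to the chords of each level-`ja` window `J` with `V_J = {u t : t ∈ I in J}` (both ends
of a chord are in `V_J` by `pc_win`; `D * ∑ #V_J ≤ 2 ^ μ`; multiplicity `arc_mult`, order of the
endpoints `arc_cone`).  The crossing pairs in a common window are bounded by `cb_same` (with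
`jT := ja`) and `lam_sum` with `σ = κ ρ_ja`, `#{c} ≤ k n / ρ_ja`. -/
theorem st2b (h : Base Q k d) (G : Paths Q) {jf ja : ℕ} (h1 : jf ≤ ja) (hja : ja ≤ Q.μ)
    {κ D p : ℝ} (hκ : 1 ≤ κ) (hD : 0 < D) (hp0 : 0 < p) (hp1 : p ≤ 1) :
    (#{t ∈ Q.E | (Q.K ja (t / 2 ^ ja) : ℝ) ≤ κ * #Q.P * rho Q.μ ja ^ 3 ∧ D ≤ Q.out ja t} : ℝ) ≤
      k * #Q.P / rho Q.μ jf + 2 ^ jf * (3 * k * 2 ^ Q.μ / (D * p) +
        p ^ 2 * (2 * k ^ 2 * κ ^ 3 * (#Q.P : ℝ) ^ 2 * rho Q.μ ja ^ 2 + 2 ^ jf * 2 ^ Q.μ)) := by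
  have hk : 0 < k := by linarith [h.k2]
  have hn := st2a_n h
  have hρ := rho_pos Q.μ ja
  have hjf : jf ≤ Q.μ := h1.trans hja
  set I := {t ∈ Q.E | (Q.K ja (t / 2 ^ ja) : ℝ) ≤ κ * #Q.P * rho Q.μ ja ^ 3 ∧ D ≤ Q.out ja t}
    with hI
  set c : ℕ → Prop := fun t => ja < G.lev t with hc
  have hc' : ∀ t < 2 ^ Q.μ, ja < G.lev t → c t := fun _ _ h => h
  set Γ := I.image (G.pc c) with hΓ
  have hIE : ∀ t ∈ I, t < 2 ^ Q.μ := fun t ht => mem_range.1 (mem_filter.1 ht).1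
  obtain ⟨A, hA, hD', hAI, hIA⟩ := G.exists_chords (c := c) hjf I (filter_subset _ _) Γ
    fun t ht => mem_image_of_mem _ ht
  have hPhi : ((∑ γ ∈ Γ, G.Phi c jf γ : ℕ) : ℝ) ≤ k * #Q.P / rho Q.μ jf := by
    refine le_trans (Nat.cast_le.2 ?_) (st2a_lev h G hjf)
    have e : ∀ γ, G.Phi c jf γ = #{t ∈ {t ∈ Q.E | jf < G.lev t} | G.pc c t = γ} := by
      intro γ
      unfold Paths.Phi
      congr 1
      ext t
      simp only [mem_filter, hc]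
      constructor
      · rintro ⟨a1, a2, a3⟩
        exact ⟨⟨a1, by omega⟩, a2⟩
      · rintro ⟨⟨a1, a2⟩, a3⟩
        exact ⟨a1, a3, Or.inr a2⟩
    simp only [e]
    rw [sum_card_fiberwise_eq_card_filter]
    exact card_le_card (filter_subset _ _)
  set W := range (2 ^ (Q.μ - ja)) with hW
  set V : ℕ → Finset Pt := fun J => {t ∈ I | t / 2 ^ ja = J}.image Q.u with hV
  set X := {x ∈ A ×ˢ A | Q.ACross x.1 x.2 ∧ x.1.1 / 2 ^ ja = x.2.1 / 2 ^ ja} with hX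
  have hJ : ∀ J ∈ W, (#{a ∈ A | a.1 / 2 ^ ja = J} : ℝ) ≤
      2 ^ jf * (3 * k * #(V J) / p + p ^ 2 * #{x ∈ X | x.1.1 / 2 ^ ja = J}) := by
    intro J _
    refine (h.cl (V J) ?_ {a ∈ A | a.1 / 2 ^ ja = J} (fun a => Q.u a.1) (fun a => Q.v a.2) ?_
      (2 ^ jf) (by positivity) ?_ p hp0 hp1).trans ?_
    · intro q hq
      obtain ⟨t, ht, rfl⟩ := mem_image.1 hq
      exact Q.u_P (hIE t (mem_filter.1 ht).1)
    · intro a ha
      rw [mem_filter] at ha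
      obtain ⟨a1, a2, t', a3, a4, a5⟩ := hA a ha.1
      refine ⟨mem_image_of_mem _ (mem_filter.2 ⟨a2, ha.2⟩), ?_, ?_⟩
      · rw [a4]
        exact mem_image_of_mem _ (mem_filter.2 ⟨a3,
          (G.pc_win hc' (hIE _ a3) (hIE _ a2) a5).trans ha.2⟩)
      · exact (G.arc_cone h1 hja a1).x_lt (Q.s_win hja (win_lt hja a1.1))
    · intro a ha
      have := G.arc_mult hjf A (fun a ha => (hA a ha).1) hD' (mem_filter.1 ha).1
      refine le_trans (Nat.cast_le.2 (card_le_card fun a' ha' => ?_)) (by exact_mod_cast this)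
      simp only [mem_filter] at ha' ⊢
      exact ⟨ha'.1.1, ha'.2⟩
    · gcongr
      intro x hx
      simp only [hX, mem_filter, mem_product] at hx ⊢
      exact ⟨⟨⟨hx.1.1.1, hx.1.2.1⟩, hx.2, hx.1.1.2.trans hx.1.2.2.symm⟩, hx.1.1.2⟩
  have hVs : ∑ J ∈ W, (#(V J) : ℝ) ≤ 2 ^ Q.μ / D := by
    rw [le_div_iff₀ hD, sum_mul]
    have e1 : ∀ J ∈ W, (#(V J) : ℝ) * D ≤ #{t ∈ Q.E | t / 2 ^ ja = J} := by
      intro J _
      rw [← nsmul_eq_mul]
      refine (card_nsmul_le_sum (V J)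
        (fun q => (#{t ∈ {t ∈ Q.E | t / 2 ^ ja = J} | Q.u t = q} : ℝ)) _ fun q hq => ?_).trans ?_
      · obtain ⟨t, ht, rfl⟩ := mem_image.1 hq
        rw [mem_filter] at ht
        refine (mem_filter.1 ht.1).2.2.trans (Nat.cast_le.2 (card_le_card fun t' ht' => ?_))
        simp only [mem_filter] at ht' ⊢
        exact ⟨⟨ht'.1, ht'.2.1.trans ht.2⟩, ht'.2.2⟩
      · rw [← Nat.cast_sum, sum_card_fiberwise_eq_card_filter]
        exact Nat.cast_le.2 (card_le_card (filter_subset _ _))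
    refine (sum_le_sum e1).trans ?_
    rw [← Nat.cast_sum, sum_card_fiberwise_eq_card_filter]
    have := card_le_card (filter_subset (fun t => t / 2 ^ ja ∈ W) Q.E)
    rw [card_range] at this
    exact_mod_cast this
  have hXs : ∑ J ∈ W, (#{x ∈ X | x.1.1 / 2 ^ ja = J} : ℝ) ≤ #X := by
    rw [← Nat.cast_sum, sum_card_fiberwise_eq_card_filter]
    exact Nat.cast_le.2 (card_le_card (filter_subset _ _))
  have hAμ : (#A : ℝ) ≤ 2 ^ Q.μ := by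
    have := hAI.trans (card_le_card (filter_subset _ Q.E))
    rw [card_range] at this
    exact_mod_cast this
  have hκ3 : κ ≤ κ ^ 3 := le_self_pow₀ hκ (by norm_num)
  have hκ2 : κ ^ 2 ≤ κ ^ 3 := pow_le_pow_right₀ hκ (by norm_num)
  have hLam := G.lam_sum h hja hc' (κ * rho Q.μ ja) (by positivity) Γ (by
    intro t ht htΓ
    obtain ⟨t0, ht0, e⟩ := mem_image.1 htΓ
    rw [← G.pc_win hc' (hIE _ ht0) ht e]
    refine (mem_filter.1 ht0).2.1.trans ?_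
    calc κ * #Q.P * rho Q.μ ja ^ 3 ≤ κ ^ 3 * #Q.P * rho Q.μ ja ^ 3 := by gcongr
      _ = _ := by ring)
  have hXb : (#X : ℝ) ≤ 2 * k ^ 2 * κ ^ 3 * (#Q.P : ℝ) ^ 2 * rho Q.μ ja ^ 2 + 2 ^ jf * 2 ^ Q.μ := by
    refine (G.cb_same h1 hja hc' A (fun a ha => (hA a ha).1) hD' Γ
      fun a ha => mem_image_of_mem _ (hA a ha).2.1).trans (add_le_add (hLam.trans ?_) ?_)
    · have e1 : (#{t ∈ Q.E | c t} : ℝ) ≤ k * #Q.P / rho Q.μ ja := by
        convert st2a_lev h G hja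
      calc _ ≤ k * (k * #Q.P / rho Q.μ ja * (#Q.P * (κ * rho Q.μ ja) ^ 3) +
            k * (#Q.P : ℝ) ^ 2 * (κ ^ 3 * rho Q.μ ja ^ 2)) := by
            rw [mul_pow κ _ 2]
            gcongr
            exact le_of_eq_of_le (by congr) e1
        _ = _ := by field_simp; ring
    · gcongr
      linarith
  have hAs : (#A : ℝ) = ∑ J ∈ W, (#{a ∈ A | a.1 / 2 ^ ja = J} : ℝ) := by
    rw [card_eq_sum_card_fiberwise (f := fun a : ℕ × ℕ => a.1 / 2 ^ ja) (t := W)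
      fun a ha => mem_range.2 (win_lt hja (hA a ha).1.1)]
    push_cast
    rfl
  have hAb : (#A : ℝ) ≤ 2 ^ jf * (3 * k * 2 ^ Q.μ / (D * p) +
      p ^ 2 * (2 * k ^ 2 * κ ^ 3 * (#Q.P : ℝ) ^ 2 * rho Q.μ ja ^ 2 + 2 ^ jf * 2 ^ Q.μ)) := by
    rw [hAs]
    refine (sum_le_sum hJ).trans ?_
    rw [← mul_sum, sum_add_distrib, ← mul_sum, ← sum_div, ← mul_sum]
    have : 3 * k * 2 ^ Q.μ / (D * p) = 3 * k * (2 ^ Q.μ / D) / p := by field_simp
    rw [this]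
    gcongr
    exact hXs.trans hXb
  have : (#I : ℝ) ≤ #A + ((∑ γ ∈ Γ, G.Phi c jf γ : ℕ) : ℝ) := by exact_mod_cast hIA
  linarith

/-- `st2b` with `B = 2 ^ jf ∈ [k ^ 23, 2 k ^ 23]` (`jf ≤ ja` as `2 ^ ja = ρ⁴ 2 ^ μ ≥ (ρ d)⁴ / k`),
`κ = 4 k²`, `D = k ^ 60 ρ d`, `p = 48 k B / D`; each of the four terms is at most `2 ^ μ / 16`
(first term: compare fourth powers, `ρ_jf ⁴ = B / 2 ^ μ`, `n = d³`, `d⁴ ≤ k 2 ^ μ`). -/
theorem st2c (h : Base Q k d) (G : Paths Q) {ja : ℕ} (hja : ja ≤ Q.μ)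
    (hd : k ^ 60 ≤ rho Q.μ ja * d) :
    4 * (#{t ∈ Q.E | (Q.K ja (t / 2 ^ ja) : ℝ) ≤ 4 * k ^ 2 * #Q.P * rho Q.μ ja ^ 3 ∧
      k ^ 60 * (rho Q.μ ja * d) ≤ Q.out ja t} : ℝ) ≤ 2 ^ Q.μ := by
  have hk2 := h.k2
  have hk : 0 < k := by linarith
  have hk1 : 1 ≤ k := by linarith
  have hd0 : 0 < d := by linarith [h.d1]
  have hρ := rho_pos Q.μ ja
  have hpow : ∀ m : ℕ, (2 : ℝ) ^ m ≤ k ^ m := fun m => pow_le_pow_left₀ (by norm_num) hk2 m
  obtain ⟨j0, hj1, hj2⟩ := exists_nat_pow_near (one_le_pow₀ hk1 (n := 23)) (one_lt_two (α := ℝ))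
  obtain ⟨jf, hB1, hB2⟩ : ∃ jf : ℕ, k ^ 23 ≤ 2 ^ jf ∧ (2 : ℝ) ^ jf ≤ 2 * k ^ 23 :=
    ⟨j0 + 1, hj2.le, by rw [pow_succ]; linarith⟩
  set m : ℝ := 2 ^ Q.μ with hm
  have hm0 : 0 < m := by positivity
  have hdm : d ^ 4 ≤ k * m := by
    have := h.lower
    rw [← h.hd] at this
    calc d ^ 4 = d ^ 3 * d := by ring
      _ ≤ _ := this
  have hjf : jf ≤ ja := by
    have e1 : (2 : ℝ) ^ ja = rho Q.μ ja ^ 4 * m := by rw [rho_pow, ← hm]; field_simp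
    have e2 : (k ^ 60) ^ 4 ≤ k * 2 ^ ja := by
      calc (k ^ 60) ^ 4 ≤ (rho Q.μ ja * d) ^ 4 := by gcongr
        _ = rho Q.μ ja ^ 4 * d ^ 4 := by ring
        _ ≤ rho Q.μ ja ^ 4 * (k * m) := by gcongr
        _ = _ := by rw [e1]; ring
    have e3 : k * (2 * k ^ 23) ≤ (k ^ 60) ^ 4 := by
      calc k * (2 * k ^ 23) ≤ k * (k * k ^ 23) := by gcongr
        _ = k ^ 25 := by ring
        _ ≤ k ^ 240 := pow_le_pow_right₀ hk1 (by norm_num)
        _ = _ := by ring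
    have e4 : (2 : ℝ) ^ jf ≤ 2 ^ ja := hB2.trans (le_of_mul_le_mul_left (e3.trans e2) hk)
    exact (pow_le_pow_iff_right₀ one_lt_two).1 e4
  set B : ℝ := 2 ^ jf with hB
  have hB0 : 0 < B := by positivity
  set D := k ^ 60 * (rho Q.μ ja * d) with hD
  have hD0 : 0 < D := by positivity
  have hD1 : k ^ 120 ≤ D := by
    calc k ^ 120 = k ^ 60 * k ^ 60 := by ring
      _ ≤ _ := by rw [hD]; gcongr
  have hp1 : 48 * k * B / D ≤ 1 := by
    rw [div_le_one hD0]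
    calc 48 * k * B ≤ 48 * k * (2 * k ^ 23) := by gcongr
      _ = 96 * k ^ 24 := by ring
      _ ≤ k ^ 96 * k ^ 24 := by
          gcongr
          exact le_trans (by norm_num) (hpow 96)
      _ = k ^ 120 := by ring
      _ ≤ D := hD1
  have hb := st2b h G hjf hja (κ := 4 * k ^ 2) (D := D) (p := 48 * k * B / D)
    (by nlinarith) hD0 (by positivity) hp1
  rw [← hm, ← hB] at hb
  have T1 : k * #Q.P / rho Q.μ jf ≤ m / 16 := by
    have hρ' := rho_pos Q.μ jf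
    rw [div_le_div_iff₀ hρ' (by norm_num)]
    refine le_of_pow_le_pow_left₀ (n := 4) (by norm_num) (by positivity) ?_
    have e1 : (m * rho Q.μ jf) ^ 4 = m ^ 3 * B := by
      rw [mul_pow, rho_pow, ← hm, ← hB]; field_simp
    rw [e1, ← h.hd]
    calc (k * d ^ 3 * 16) ^ 4 = 2 ^ 16 * k ^ 4 * (d ^ 4) ^ 3 := by ring
      _ ≤ k ^ 16 * k ^ 4 * (k * m) ^ 3 := by gcongr
      _ = m ^ 3 * k ^ 23 := by ring
      _ ≤ _ := by gcongr
  have T2 : B * (3 * k * m / (D * (48 * k * B / D))) = m / 16 := by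
    field_simp; ring
  have T3 : B * ((48 * k * B / D) ^ 2 *
      (2 * k ^ 2 * (4 * k ^ 2) ^ 3 * (#Q.P : ℝ) ^ 2 * rho Q.μ ja ^ 2)) ≤ m / 16 := by
    have e1 : B * ((48 * k * B / D) ^ 2 *
        (2 * k ^ 2 * (4 * k ^ 2) ^ 3 * (#Q.P : ℝ) ^ 2 * rho Q.μ ja ^ 2)) =
        294912 * B ^ 3 * d ^ 4 / k ^ 110 := by
      rw [← h.hd, hD]; field_simp; ring
    rw [e1, div_le_div_iff₀ (by positivity) (by norm_num)]
    calc 294912 * B ^ 3 * d ^ 4 * 16 ≤ 294912 * (2 * k ^ 23) ^ 3 * (k * m) * 16 := by gcongr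
      _ = 37748736 * (k ^ 70 * m) := by ring
      _ ≤ k ^ 40 * (k ^ 70 * m) := by
          gcongr
          exact le_trans (by norm_num) (hpow 40)
      _ = _ := by ring
  have T4 : B * ((48 * k * B / D) ^ 2 * (B * m)) ≤ m / 16 := by
    have e1 : B * ((48 * k * B / D) ^ 2 * (B * m)) = 2304 * k ^ 2 * B ^ 4 * m / D ^ 2 := by
      field_simp; ring
    rw [e1, div_le_div_iff₀ (by positivity) (by norm_num)]
    calc 2304 * k ^ 2 * B ^ 4 * m * 16 ≤ 2304 * k ^ 2 * (2 * k ^ 23) ^ 4 * m * 16 := by gcongr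
      _ = 589824 * (k ^ 94 * m) := by ring
      _ ≤ k ^ 146 * (k ^ 94 * m) := by
          gcongr
          exact le_trans (by norm_num) (hpow 146)
      _ = m * (k ^ 120) ^ 2 := by ring
      _ ≤ _ := by gcongr
  rw [mul_add B, mul_add ((48 * k * B / D) ^ 2), mul_add B] at hb
  linarith

end Crest.Agent.R051
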