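import Crest.Agent.R051.SBasic
import Crest.Agent.R051.Part

/-! Row 51: balls, cells and cut sets. -/

set_option autoImplicit false

open Finset
open scoped Classical

namespace Crest.Agent.R051

/-- each counted edge `t` has `N` edges at the positions `pos t - i`, `i < N`, of its path
(`exists_pos`), and these sets are disjoint -/
theorem Paths.card_mod {Q : Proc} (G : Paths Q) (N : ℕ) (hN : 0 < N) :
    N * #{t ∈ Q.E | (G.pos t + 1) % N = 0} ≤ 2 ^ Q.μ := by
  have h1 : #(range N ×ˢ {t ∈ Q.E | (G.pos t + 1) % N = 0}) ≤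
      #(Q.E.image fun t => (G.pid t, G.pos t)) := by
    refine card_le_card_of_injOn (fun x => (G.pid x.2, G.pos x.2 - x.1)) (fun x hx => ?_)
      fun x hx x' hx' e => ?_
    · obtain ⟨t', a1, a2, a3⟩ := G.exists_pos
        (mem_range.1 (mem_filter.1 (mem_product.1 hx).2).1) (Nat.sub_le (G.pos x.2) x.1)
      exact mem_image.2 ⟨t', mem_range.2 a1, Prod.ext a2 a3⟩
    · obtain ⟨a1, a2⟩ := mem_product.1 hx
      obtain ⟨b1, b2⟩ := mem_product.1 hx'
      rw [mem_filter, mem_range] at a2 b2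
      rw [mem_range] at a1 b1
      obtain ⟨e1, e2⟩ := Prod.mk.inj e
      obtain ⟨a, ha⟩ := Nat.dvd_of_mod_eq_zero a2.2
      obtain ⟨b, hb⟩ := Nat.dvd_of_mod_eq_zero b2.2
      have c1 := Nat.le_of_dvd (Nat.succ_pos _) (Nat.dvd_of_mod_eq_zero a2.2)
      have c2 := Nat.le_of_dvd (Nat.succ_pos _) (Nat.dvd_of_mod_eq_zero b2.2)
      have e3 : G.pos x.2 = G.pos x'.2 := by
        rcases lt_trichotomy a b with h | h | h
        · have := Nat.mul_le_mul_left N (Nat.succ_le_of_lt h)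
          rw [Nat.mul_succ] at this
          omega
        · rw [h] at ha
          omega
        · have := Nat.mul_le_mul_left N (Nat.succ_le_of_lt h)
          rw [Nat.mul_succ] at this
          omega
      exact Prod.ext (by omega) (G.inj _ a2.1 _ b2.1 e1 e3)
  rw [card_product, card_range] at h1
  exact h1.trans (card_image_le.trans (card_range _).le)

/-- `pos / N` is constant on a piece (`pc_const`), and `pos` is injective on a path -/
theorem Paths.len_le {Q : Proc} (G : Paths Q) (N : ℕ) (hN : 0 < N) {c : ℕ → Prop}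
    (hc : ∀ t < 2 ^ Q.μ, (G.pos t + 1) % N = 0 → c t) (γ : ℕ × ℕ) :
    #{t ∈ Q.E | G.pc c t = γ} ≤ N := by
  refine (card_le_card_of_injOn (t := range N) (fun t => G.pos t % N)
    (fun t _ => mem_range.2 (Nat.mod_lt _ hN)) fun t ht t' ht' e => ?_).trans (card_range N).le
  obtain ⟨a1, a2⟩ := mem_filter.1 ht
  obtain ⟨b1, b2⟩ := mem_filter.1 ht'
  rw [mem_range] at a1 b1
  have h1 := a2.trans b2.symm
  have h2 : G.pos t / N = G.pos t' / N := G.pc_const (fun t => G.pos t / N)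
    (fun x hx x' _ _ e1 e2 => by
      show G.pos x / N = G.pos x' / N
      rw [e1, Nat.succ_div_of_not_dvd fun h => e2 (hc x hx (Nat.mod_eq_zero_of_dvd h))]) a1 b1 h1
  refine G.inj t a1 t' b1 (G.pc_pid h1) ?_
  have e' : G.pos t % N = G.pos t' % N := e
  rw [← Nat.div_add_mod (G.pos t) N, h2, e', Nat.div_add_mod]

/-- `Paths.part` at the scales `b` and `β` gives `ball` and `f`; `cell q = Nat.pair (ball q) (f q)`,
`c t := jT < lev t ∨ ball (u t) ≠ ball (v t) ∨ (pos t + 1) % ⌈ell⌉₊ = 0`,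
`cc t := c t ∨ cell (u t) ≠ cell (v t)`; `#{c} ≤ 103 k n / b`, `#{cc} ≤ 203 k n / β`. -/
theorem st3 : ∃ C : ℕ, ∀ (X : Dat) (k β : ℝ), X.OK k → (X.lam ^ 40)⁻¹ ≤ β → β ≤ X.b →
    ∃ Y : Dat3, Y.toDat = X ∧ Y.beta = β ∧ Y.OK (k ^ C) := by
  refine ⟨9, fun X k β h hlo hhi => ?_⟩
  have hk := h.k2
  have hk0 : 0 < k := by linarith
  have hl0 : 0 < X.lam := zero_lt_one.trans_le h.lam1
  have hβ : 0 < β := lt_of_lt_of_le (by positivity) hlo
  have hb := h.b_pos
  have hn := h.n_pos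
  have hd : 0 < X.d := zero_lt_one.trans_le h.d1
  have h1 : 1 ≤ X.n * β ^ 2 := by
    have a1 : (X.lam ^ 40) ^ 2 ≤ X.n := by
      rw [h.n_eq, ← pow_mul]
      exact ((pow_le_pow_right₀ h.lam1 (by norm_num)).trans h.big).trans
        (le_self_pow₀ h.d1 (by norm_num))
    refine le_trans ?_ (mul_le_mul a1 (pow_le_pow_left₀ (by positivity) hlo 2) (by positivity) hn.le)
    rw [← mul_pow, mul_inv_cancel₀ (by positivity), one_pow]
  obtain ⟨ball, hb1, hb2⟩ := X.G.part h.base X.b hb h.b_le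
    (h1.trans (mul_le_mul_of_nonneg_left (pow_le_pow_left₀ hβ.le hhi 2) hn.le))
  obtain ⟨f, hf1, hf2⟩ := X.G.part h.base β hβ (hhi.trans h.b_le) h1
  have he : 1 ≤ X.ell := (one_le_pow₀ h.lam1).trans h.ell_ge
  have hN : 0 < ⌈X.ell⌉₊ := Nat.ceil_pos.2 (by linarith)
  obtain ⟨c, hc⟩ : ∃ c : ℕ → Prop, ∀ t, c t ↔ X.jT < X.G.lev t ∨
      ball (X.Q.u t) ≠ ball (X.Q.v t) ∨ (X.G.pos t + 1) % ⌈X.ell⌉₊ = 0 := ⟨_, fun _ => Iff.rfl⟩
  have h2 : (#{t ∈ X.Q.E | c t} : ℝ) ≤ 103 * (k * X.n / X.b) := by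
    have a1 : #{t ∈ X.Q.E | c t} ≤ #{t ∈ X.Q.E | X.jT < X.G.lev t} +
        (#{t ∈ X.Q.E | ball (X.Q.u t) ≠ ball (X.Q.v t)} +
          #{t ∈ X.Q.E | (X.G.pos t + 1) % ⌈X.ell⌉₊ = 0}) := by
      refine le_trans (card_le_card fun t ht => ?_)
        ((card_union_le _ _).trans (Nat.add_le_add_left (card_union_le _ _) _))
      simp only [mem_union, mem_filter, hc] at ht ⊢
      tauto
    have a2 : (#{t ∈ X.Q.E | X.jT < X.G.lev t} : ℝ) ≤ 2 * (k * X.n / X.b) := by
      have b1 := Nat.cast_le (α := ℝ).2 (X.G.count_all h.jT_le)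
      rw [Nat.cast_sum] at b1
      refine (b1.trans (h.base.g1a _ h.jT_le)).trans ((div_le_div_of_nonneg_left
        (mul_pos hk0 hn).le (half_pos hb) h.T_lo).trans_eq ?_)
      rw [div_div_eq_mul_div, mul_div_right_comm, mul_comm]
    have a3 : (#{t ∈ X.Q.E | (X.G.pos t + 1) % ⌈X.ell⌉₊ = 0} : ℝ) ≤ k * X.n / X.b := by
      have b1 := Nat.cast_le (α := ℝ).2 (X.G.card_mod _ hN)
      push_cast at b1
      have b2 := ((mul_le_mul_of_nonneg_right (Nat.le_ceil X.ell) (Nat.cast_nonneg _)).trans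
        b1).trans h.base.upper
      rw [le_div_iff₀ hb]
      refine le_of_mul_le_mul_right (le_of_eq_of_le ?_ (b2.trans_eq (mul_assoc _ _ _).symm)) hd
      rw [Dat.ell]
      ring
    have a4 := Nat.cast_le (α := ℝ).2 a1
    have a5 : 100 * k * (#X.Q.P : ℝ) / X.b = 100 * (k * X.n / X.b) := by
      rw [Dat.n]
      ring
    push_cast at a4
    linarith
  have h3 : (203 : ℝ) * k ≤ k ^ 9 := by
    rw [pow_succ]
    exact mul_le_mul_of_nonneg_right
      (le_trans (by norm_num) (pow_le_pow_left₀ two_pos.le hk 8)) hk0.le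
  refine ⟨⟨X, ball, fun q => Nat.pair (ball q) (f q), c, fun t => c t ∨
    Nat.pair (ball (X.Q.u t)) (f (X.Q.u t)) ≠ Nat.pair (ball (X.Q.v t)) (f (X.Q.v t)), β⟩, rfl, rfl,
    h.mono (le_self_pow₀ (by linarith) (by norm_num)), hlo, hhi,
    fun p q e => (Nat.pair_eq_pair.1 e).1, hb1, fun a => ?_, fun t _ e => (hc t).2 (Or.inl e),
    fun t _ e => (hc t).2 (Or.inr (Or.inl e)), fun γ => ?_, ?_, fun t _ e => Or.inl e,
    fun t _ e => Or.inr e, ?_⟩
  · refine le_trans (Nat.cast_le.2 (card_le_card fun q hq => ?_)) (hf1 (Nat.unpair a).2)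
    obtain ⟨a1, a2⟩ := mem_filter.1 hq
    refine mem_filter.2 ⟨a1, ?_⟩
    rw [← a2, Nat.unpair_pair]
  · refine (Nat.cast_le.2 (X.G.len_le _ hN (fun t _ e => (hc t).2 (Or.inr (Or.inr e))) γ)).trans ?_
    have := Nat.ceil_lt_add_one (zero_le_one.trans he)
    change _ ≤ 2 * X.ell
    linarith
  · refine h2.trans ?_
    change _ ≤ k ^ 9 * X.n / X.b
    rw [mul_div_assoc, ← mul_assoc, mul_div_assoc]
    exact mul_le_mul_of_nonneg_right (by linarith) (by positivity)
  · have a1 : (#{t ∈ X.Q.E | c t} : ℝ) + #{t ∈ X.Q.E | f (X.Q.u t) ≠ f (X.Q.v t)} ≤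
        k ^ 9 * X.n / β := by
      have a2 : k * X.n / X.b ≤ k * X.n / β := div_le_div_of_nonneg_left (by positivity) hβ hhi
      have a3 : 100 * k * (#X.Q.P : ℝ) / β = 100 * (k * X.n / β) := by
        rw [Dat.n]
        ring
      have a4 := mul_le_mul_of_nonneg_right h3 (by positivity : 0 ≤ X.n / β)
      rw [mul_assoc, ← mul_div_assoc, ← mul_div_assoc (k ^ 9)] at a4
      linarith
    rw [← Nat.cast_add] at a1
    refine le_trans (Nat.cast_le.2 (le_trans (card_le_card fun t ht => ?_) (card_union_le _ _))) a1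
    obtain ⟨b1, b2⟩ := (@mem_filter _ _ (_) _ _).1 ht
    rw [mem_union, mem_filter, mem_filter]
    by_contra hne
    rw [not_or, not_and, not_and, not_not] at hne
    rcases b2 with b2 | b2
    · exact hne.1 b1 b2
    · refine hne.1 b1 ((hc t).2 (Or.inr (Or.inl fun e => b2 ?_)))
      rw [e, hne.2 b1]

end Crest.Agent.R051
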