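import Crest.Agent.R051.SBasic
import Crest.Agent.R051.Meet

/-! Row 51: Markov discards. -/

set_option autoImplicit false

open Finset
open scoped Classical

namespace Crest.Agent.R051

/-- counting along the fibres of `g` -/
lemma st4a1_fib {α β : Type*} [DecidableEq β] {E F : Finset α} (hF : F ⊆ E) (g : α → β) (W : β → ℝ)
    (h : ∀ γ ∈ E.image g, (#{t ∈ F | g t = γ} : ℝ) ≤ W γ) : (#F : ℝ) ≤ ∑ γ ∈ E.image g, W γ := by
  rw [card_eq_sum_card_fiberwise (f := g) (s := F) (t := E.image g)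
    fun t ht => mem_coe.2 (mem_image_of_mem g (hF ht))]
  push_cast
  exact sum_le_sum h

/-- Markov's inequality for a weight of the pieces -/
lemma st4a1_markov {α β : Type*} [DecidableEq β] (E : Finset α) (g : α → β) (W : β → ℝ)
    (hW : ∀ γ, 0 ≤ W γ)
    {θ s : ℝ} (hθ : 0 < θ) (hs0 : 0 ≤ s) (hs : ∀ γ, (#{t ∈ E | g t = γ} : ℝ) ≤ s) :
    (#{t ∈ E | θ < W (g t)} : ℝ) ≤ s * (∑ γ ∈ E.image g, W γ) / θ := by
  rw [mul_sum, sum_div]
  refine st4a1_fib (filter_subset _ _) g _ fun γ _ => ?_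
  by_cases h : θ < W γ
  · have h1 : (#{t ∈ {t ∈ E | θ < W (g t)} | g t = γ} : ℝ) ≤ #{t ∈ E | g t = γ} := by
      exact_mod_cast card_le_card (filter_subset_filter _ (filter_subset _ _))
    refine (h1.trans (hs γ)).trans ?_
    rw [le_div_iff₀ hθ]
    exact mul_le_mul_of_nonneg_left h.le hs0
  · have h1 : {t ∈ {t ∈ E | θ < W (g t)} | g t = γ} = ∅ := by
      refine filter_eq_empty_iff.2 fun t ht e => h ?_
      rw [← e]
      exact (mem_filter.1 ht).2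
    rw [h1]
    simpa using div_nonneg (mul_nonneg hs0 (hW γ)) hθ.le

lemma st4a1_card_pc {Q : Proc} (G : Paths Q) {c : ℕ → Prop} {j : ℕ} (hj : j ≤ Q.μ)
    (hc : ∀ t < 2 ^ Q.μ, j < G.lev t → c t) {Z : Finset ℕ} (hZ : Z ⊆ Q.E) :
    (#(Z.image (G.pc c)) : ℝ) ≤ #{t ∈ Q.E | c t} := by
  exact_mod_cast G.card_pc hj hc Z Q.E hZ fun _ _ t' ht' _ => mem_range.2 ht'


/-- Classes of a labelling `f` with many pieces.  All edges of a piece start in one class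
(`pc_label`), so a class `a` has at most `#{t | f (u t) = a ∧ c t}` pieces (`card_pc`); hence there
are at most `k / (K σ²)` heavy classes, with at most `k n / K` points in total.  Apply `cl_edges` to
their union with `p = 1 / (6 k d)`, `cross_le_meet` and `Base.meet`. -/
theorem heavy_label {Q : Proc} {k d : ℝ} (hB : Base Q k d) (G : Paths Q) {c : ℕ → Prop} {j : ℕ}
    (hj : j ≤ Q.μ) (hc : ∀ t < 2 ^ Q.μ, j < G.lev t → c t) (f : Pt → ℕ)
    (hf : ∀ t < 2 ^ Q.μ, f (Q.u t) ≠ f (Q.v t) → c t) {σ K : ℝ} (hσ : 0 < σ) (hK : 0 < K)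
    (hcard : ∀ a, (#{q ∈ Q.P | f q = a} : ℝ) ≤ #Q.P * σ ^ 2)
    (hcc : (#{t ∈ Q.E | c t} : ℝ) ≤ k * #Q.P / σ) :
    (#{t ∈ Q.E | f (Q.u t) = f (Q.v t) ∧
      K * #Q.P * σ < #({t' ∈ Q.E | f (Q.u t') = f (Q.u t)}.image (G.pc c))} : ℝ) ≤
      18 * k ^ 3 * (#Q.P * d) / K + #Q.P * d / (36 * k) := by
  have hk : 0 < k := by linarith [hB.k2]
  have hd : 0 < d := by linarith [hB.d1]
  have hn : (0 : ℝ) < #Q.P := by rw [← hB.hd]; positivity
  set H : Finset ℕ := {a ∈ Q.P.image f |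
    K * #Q.P * σ < #({t' ∈ Q.E | f (Q.u t') = a}.image (G.pc c))} with hH
  have h1 : (#H : ℝ) * (K * #Q.P * σ) ≤ k * #Q.P / σ := by
    refine le_trans ?_ hcc
    have e : #{t ∈ {t ∈ Q.E | c t} | f (Q.u t) ∈ H} =
        ∑ a ∈ H, #{t ∈ {t ∈ Q.E | c t} | f (Q.u t) = a} := (sum_card_fiberwise_eq_card_filter _ _ _).symm
    calc (#H : ℝ) * (K * #Q.P * σ) = ∑ _a ∈ H, K * #Q.P * σ := by rw [sum_const, nsmul_eq_mul]
      _ ≤ ∑ a ∈ H, (#{t ∈ {t ∈ Q.E | c t} | f (Q.u t) = a} : ℝ) := by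
        refine sum_le_sum fun a ha => (mem_filter.1 ha).2.le.trans ?_
        have := G.card_pc hj hc {t' ∈ Q.E | f (Q.u t') = a} {t' ∈ Q.E | f (Q.u t') = a}
          (filter_subset _ _) fun t ht t' ht' e => by
            obtain ⟨ht1, ht2⟩ := mem_filter.1 ht
            exact mem_filter.2 ⟨mem_range.2 ht',
              (G.pc_label f hf ht' (mem_range.1 ht1) e).trans ht2⟩
        rw [filter_comm] at this
        exact_mod_cast this
      _ = (#{t ∈ {t ∈ Q.E | c t} | f (Q.u t) ∈ H} : ℝ) := by rw [e]; push_cast; rfl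
      _ ≤ _ := by exact_mod_cast card_le_card (filter_subset _ _)
  have h2 : (#{q ∈ Q.P | f q ∈ H} : ℝ) ≤ k * #Q.P / K := by
    have e : #{q ∈ Q.P | f q ∈ H} = ∑ a ∈ H, #{q ∈ Q.P | f q = a} :=
      (sum_card_fiberwise_eq_card_filter _ _ _).symm
    rw [e]
    push_cast
    refine (sum_le_sum fun a _ => hcard a).trans ?_
    rw [sum_const, nsmul_eq_mul, le_div_iff₀ hK]
    rw [le_div_iff₀ hσ] at h1
    nlinarith
  have hp0 : 0 < 1 / (6 * k * d) := by positivity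
  have hp1 : 1 / (6 * k * d) ≤ 1 := by
    rw [div_le_one (by positivity)]
    nlinarith [hB.k2, hB.d1]
  set I : Finset ℕ := {t ∈ Q.E | f (Q.u t) = f (Q.v t) ∧
    K * #Q.P * σ < #({t' ∈ Q.E | f (Q.u t') = f (Q.u t)}.image (G.pc c))} with hI
  have h3 := hB.cl_edges {q ∈ Q.P | f q ∈ H} (filter_subset _ _) I (fun t ht => by
    obtain ⟨ht1, ht2, ht3⟩ := mem_filter.1 ht
    have ht1 := mem_range.1 ht1
    have : f (Q.u t) ∈ H := mem_filter.2 ⟨mem_image_of_mem f (Q.u_P ht1), ht3⟩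
    exact ⟨ht1, mem_filter.2 ⟨Q.u_P ht1, this⟩, mem_filter.2 ⟨Q.v_mem t ht1, ht2 ▸ this⟩⟩) _ hp0 hp1
  have h4 : (#{x ∈ I ×ˢ I | Cross (Q.u x.1) (Q.v x.1) (Q.u x.2) (Q.v x.2)} : ℝ) ≤
      k * (#Q.P : ℝ) ^ 2 := by
    refine le_trans ?_ hB.meet
    exact_mod_cast Q.cross_le_meet I (filter_subset _ _)
  refine h3.trans (add_le_add ?_ ?_)
  · calc 3 * k * (#{q ∈ Q.P | f q ∈ H} : ℝ) / (1 / (6 * k * d))
        ≤ 3 * k * (k * #Q.P / K) / (1 / (6 * k * d)) := by gcongr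
      _ = _ := by field_simp; ring
  · calc (1 / (6 * k * d)) ^ 2 *
          (#{x ∈ I ×ˢ I | Cross (Q.u x.1) (Q.v x.1) (Q.u x.2) (Q.v x.2)} : ℝ)
        ≤ (1 / (6 * k * d)) ^ 2 * (k * (#Q.P : ℝ) ^ 2) := by gcongr
      _ = _ := by rw [← hB.hd]; field_simp; ring

namespace Dat3

variable {Y : Dat3} {k : ℝ}

/-- `∑ Φ ≤ #{c} + #{jf < lev} ≤ k n / b + k n / ρ_jf`, and a piece has at most `2 ell` edges -/
theorem OK.bad_Phi (h : Y.OK k) {jf : ℕ} (hjf : jf ≤ Y.jT) {η : ℝ} (hη : 0 < η) :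
    (#{t ∈ Y.Q.E | η * Y.ell < Y.G.Phi Y.c jf (Y.G.pc Y.c t)} : ℝ) ≤
      2 * (k * Y.n / Y.b + k * Y.n / rho Y.Q.μ jf) / η := by
  have hl : 0 < Y.ell := lt_of_lt_of_le (by have := h.ok.lam1; positivity) h.ok.ell_ge
  have hj : jf ≤ Y.Q.μ := hjf.trans h.ok.jT_le
  have h1 := st4a1_markov Y.Q.E (Y.G.pc Y.c) (fun γ => (Y.G.Phi Y.c jf γ : ℝ))
    (fun _ => Nat.cast_nonneg _) (mul_pos hη hl) (s := 2 * Y.ell) (by positivity) h.c_len
  have h2 : ∑ γ ∈ Y.Q.E.image (Y.G.pc Y.c), (Y.G.Phi Y.c jf γ : ℝ) ≤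
      k * Y.n / Y.b + k * Y.n / rho Y.Q.μ jf := by
    have e : ∑ γ ∈ Y.Q.E.image (Y.G.pc Y.c), Y.G.Phi Y.c jf γ =
        #{t ∈ Y.Q.E | Y.c t ∨ jf < Y.G.lev t} := by
      rw [card_eq_sum_card_fiberwise (f := Y.G.pc Y.c) (t := Y.Q.E.image (Y.G.pc Y.c))
        fun t ht => mem_coe.2 (mem_image_of_mem _ (mem_filter.1 ht).1)]
      refine sum_congr rfl fun γ _ => ?_
      unfold Paths.Phi
      rw [filter_filter]
      exact congrArg card (filter_congr fun t _ => and_comm)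
    have h3 : #{t ∈ Y.Q.E | Y.c t ∨ jf < Y.G.lev t} ≤
        #{t ∈ Y.Q.E | Y.c t} + ∑ a ∈ range (2 ^ (Y.Q.μ - jf)), Y.Q.K jf a := by
      rw [filter_or]
      exact (card_union_le _ _).trans (Nat.add_le_add_left (Y.G.count_all hj) _)
    rw [← e] at h3
    have h4 : ∑ γ ∈ Y.Q.E.image (Y.G.pc Y.c), (Y.G.Phi Y.c jf γ : ℝ) ≤
        (#{t ∈ Y.Q.E | Y.c t} : ℝ) + ∑ a ∈ range (2 ^ (Y.Q.μ - jf)), (Y.Q.K jf a : ℝ) := by
      exact_mod_cast h3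
    exact h4.trans (add_le_add h.c_card (h.ok.base.g1a jf hj))
  refine h1.trans ?_
  calc 2 * Y.ell * (∑ γ ∈ Y.Q.E.image (Y.G.pc Y.c), (Y.G.Phi Y.c jf γ : ℝ)) / (η * Y.ell)
      ≤ 2 * Y.ell * (k * Y.n / Y.b + k * Y.n / rho Y.Q.μ jf) / (η * Y.ell) := by gcongr
    _ = _ := by field_simp

/-- `lam_sum` with `Γ = E2.image (pc c)` and `σ = k b` gives `∑ Λ ≤ 2 k⁵ n² b²` -/
theorem OK.bad_Lam (h : Y.OK k) {K : ℝ} (hK : 0 < K) :
    (#{t ∈ Y.E2 | K * Y.b ^ 2 * Y.M < Y.G.Lam Y.c Y.jT (Y.G.pc Y.c t)} : ℝ) ≤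
      4 * k ^ 5 * (Y.n * Y.d) / K := by
  have hl : 0 < Y.ell := lt_of_lt_of_le (by have := h.ok.lam1; positivity) h.ok.ell_ge
  have hb := h.ok.b_pos
  have hM := h.ok.M_pos
  have hn := h.ok.n_pos
  have hk := h.ok.k2
  have hk0 : 0 < k := by linarith
  have h1 := st4a1_markov Y.E2 (Y.G.pc Y.c) (Y.G.Lam Y.c Y.jT)
    (fun γ => sum_nonneg fun _ _ => sum_nonneg fun _ _ => Nat.cast_nonneg _)
    (θ := K * Y.b ^ 2 * Y.M) (s := 2 * Y.ell) (by positivity) (by positivity) fun γ => by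
      refine le_trans ?_ (h.c_len γ)
      exact_mod_cast card_le_card (filter_subset_filter _ h.ok.sub)
  have h2 := Y.G.lam_sum h.ok.base h.ok.jT_le h.c_lev (k * Y.b) (by positivity)
    (Y.E2.image (Y.G.pc Y.c)) fun t ht hm => by
      obtain ⟨t', ht', e⟩ := mem_image.1 hm
      rw [← Y.G.pc_win h.c_lev (mem_range.1 (h.ok.sub ht')) ht e]
      refine (h.ok.nh t' ht' _ h.ok.jT_le).trans ?_
      have hr := rho_pos Y.Q.μ Y.jT
      have hr' := h.ok.T_hi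
      have hk3 : k ≤ k ^ 3 := le_self_pow₀ (by linarith) (by norm_num)
      calc k * Y.n * rho Y.Q.μ Y.jT ^ 3 ≤ k ^ 3 * Y.n * Y.b ^ 3 := by gcongr
        _ = _ := by unfold Dat.n; ring
  have h3 : ∑ γ ∈ Y.E2.image (Y.G.pc Y.c), Y.G.Lam Y.c Y.jT γ ≤ 2 * k ^ 5 * Y.n ^ 2 * Y.b ^ 2 := by
    refine h2.trans ?_
    have hc := h.c_card
    have hk4 : k ^ 4 ≤ k ^ 5 := pow_le_pow_right₀ (by linarith) (by norm_num)
    change k * (_ * (Y.n * (k * Y.b) ^ 3) + k * Y.n ^ 2 * (k * Y.b) ^ 2) ≤ _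
    calc _ ≤ k * (k * Y.n / Y.b * (Y.n * (k * Y.b) ^ 3) + k * Y.n ^ 2 * (k * Y.b) ^ 2) := by gcongr
      _ = k ^ 5 * (Y.n ^ 2 * Y.b ^ 2) + k ^ 4 * (Y.n ^ 2 * Y.b ^ 2) := by field_simp
      _ ≤ k ^ 5 * (Y.n ^ 2 * Y.b ^ 2) + k ^ 5 * (Y.n ^ 2 * Y.b ^ 2) := by gcongr
      _ = _ := by ring
  refine h1.trans ?_
  calc 2 * Y.ell * (∑ γ ∈ Y.E2.image (Y.G.pc Y.c), Y.G.Lam Y.c Y.jT γ) / (K * Y.b ^ 2 * Y.M)
      ≤ 2 * Y.ell * (2 * k ^ 5 * Y.n ^ 2 * Y.b ^ 2) / (K * Y.b ^ 2 * Y.M) := by gcongr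
    _ = 4 * k ^ 5 * (Y.n * Y.d) / K := by
      unfold Dat.ell Dat.M
      field_simp
      ring

/-- there are at most `#{cc} ≤ k n / β` cell pieces (`card_pc`) -/
theorem OK.bad_long (h : Y.OK k) (E3 : Finset ℕ) (hE : E3 ⊆ Y.E2) {K : ℝ} (hK : 0 < K) :
    (#{t ∈ E3 | K * #{t' ∈ E3 | Y.G.pc Y.cc t' = Y.G.pc Y.cc t} < Y.beta * Y.d} : ℝ) ≤
      k * (Y.n * Y.d) / K := by
  have hβ : 0 < Y.beta := lt_of_lt_of_le (by have := h.ok.lam1; positivity) h.beta_lo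
  have hd : 0 < Y.d := by linarith [h.ok.d1]
  refine (st4a1_fib (filter_subset _ _) (Y.G.pc Y.cc) (fun _ => Y.beta * Y.d / K)
    fun γ _ => ?_).trans ?_
  · rcases eq_empty_or_nonempty {t ∈ {t ∈ E3 | K * #{t' ∈ E3 | Y.G.pc Y.cc t' = Y.G.pc Y.cc t} <
      Y.beta * Y.d} | Y.G.pc Y.cc t = γ} with e | ⟨t, ht⟩
    · rw [e]
      simp only [card_empty, Nat.cast_zero]
      positivity
    · obtain ⟨ht1, ht2⟩ := mem_filter.1 ht
      have h1 := (mem_filter.1 ht1).2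
      rw [ht2] at h1
      have h2 : (#{t ∈ {t ∈ E3 | K * #{t' ∈ E3 | Y.G.pc Y.cc t' = Y.G.pc Y.cc t} <
          Y.beta * Y.d} | Y.G.pc Y.cc t = γ} : ℝ) ≤ #{t' ∈ E3 | Y.G.pc Y.cc t' = γ} := by
        exact_mod_cast card_le_card (filter_subset_filter _ (filter_subset _ _))
      refine h2.trans ?_
      rw [le_div_iff₀ hK]
      linarith
  · rw [sum_const, nsmul_eq_mul]
    have h1 := (st4a1_card_pc Y.G h.ok.jT_le (fun t ht h' => h.cc_c t ht (h.c_lev t ht h'))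
      (hE.trans h.ok.sub)).trans h.cc_card
    calc _ ≤ k * Y.n / Y.beta * (Y.beta * Y.d / K) := by gcongr
      _ = _ := by field_simp

/-- in one piece the number of predecessors in `E2` is an injective function of the edge, so at most
`ell / K + 1` edges of each of the at most `k n / b` pieces are counted -/
theorem OK.bad_pre (h : Y.OK k) {K : ℝ} (hK : 0 < K) :
    (#{t ∈ Y.E2 | K * #{t' ∈ Y.E2 | Y.G.pc Y.c t' = Y.G.pc Y.c t ∧ Y.G.pos t' < Y.G.pos t} <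
      Y.ell} : ℝ) ≤ k * (Y.n * Y.d) / K + k * Y.n / Y.b := by
  have hl : 0 < Y.ell := lt_of_lt_of_le (by have := h.ok.lam1; positivity) h.ok.ell_ge
  have hb := h.ok.b_pos
  refine (st4a1_fib (filter_subset _ _) (Y.G.pc Y.c) (fun _ => Y.ell / K + 1)
    fun γ _ => ?_).trans ?_
  · have key : ∀ t ∈ Y.E2, ∀ t2, Y.G.pc Y.c t = Y.G.pc Y.c t2 → Y.G.pos t < Y.G.pos t2 →
        #{t' ∈ Y.E2 | Y.G.pc Y.c t' = Y.G.pc Y.c t ∧ Y.G.pos t' < Y.G.pos t} <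
          #{t' ∈ Y.E2 | Y.G.pc Y.c t' = Y.G.pc Y.c t2 ∧ Y.G.pos t' < Y.G.pos t2} := by
      intro t ht t2 e hlt
      refine card_lt_card ⟨fun x hx => ?_, fun hs => ?_⟩
      · obtain ⟨h1, h2, h3⟩ := mem_filter.1 hx
        exact mem_filter.2 ⟨h1, h2.trans e, h3.trans hlt⟩
      · exact lt_irrefl _ (mem_filter.1 (hs (mem_filter.2 ⟨ht, e, hlt⟩))).2.2
    have h1 := card_le_card_of_injOn
      (s := {t ∈ {t ∈ Y.E2 | K * #{t' ∈ Y.E2 | Y.G.pc Y.c t' = Y.G.pc Y.c t ∧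
        Y.G.pos t' < Y.G.pos t} < Y.ell} | Y.G.pc Y.c t = γ}) (t := range ⌈Y.ell / K⌉₊)
      (fun t => #{t' ∈ Y.E2 | Y.G.pc Y.c t' = Y.G.pc Y.c t ∧ Y.G.pos t' < Y.G.pos t})
      (fun t ht => by
        have := (mem_filter.1 (mem_filter.1 ht).1).2
        refine mem_coe.2 (mem_range.2 (Nat.lt_ceil.2 ?_))
        rw [lt_div_iff₀ hK]
        linarith)
      (fun t ht t2 ht2 e => by
        obtain ⟨a1, a2⟩ := mem_filter.1 ht
        obtain ⟨b1, b2⟩ := mem_filter.1 ht2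
        have a3 := (mem_filter.1 a1).1
        have b3 := (mem_filter.1 b1).1
        have e' := a2.trans b2.symm
        rcases lt_trichotomy (Y.G.pos t) (Y.G.pos t2) with hlt | heq | hlt
        · exact absurd e (key t a3 t2 e' hlt).ne
        · exact Y.G.inj t (mem_range.1 (h.ok.sub a3)) t2 (mem_range.1 (h.ok.sub b3))
            (Y.G.pc_pid e') heq
        · exact absurd e (key t2 b3 t e'.symm hlt).ne')
    rw [card_range] at h1
    refine le_trans (Nat.cast_le.2 h1) (Nat.ceil_lt_add_one (by positivity)).le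
  · rw [sum_const, nsmul_eq_mul]
    have h1 := (st4a1_card_pc Y.G h.ok.jT_le h.c_lev h.ok.sub).trans h.c_card
    calc _ ≤ k * Y.n / Y.b * (Y.ell / K + 1) := by gcongr
      _ = _ := by unfold Dat.ell; field_simp

end Dat3

end Crest.Agent.R051
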