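import Crest.Agent.R051.SBasic

/-! Row 51: rich cells are rare. -/

set_option autoImplicit false

open Finset
open scoped Classical

namespace Crest.Agent.R051

namespace Dat4

variable {Z : Dat4} {k : ℝ}

/-- pieces of `Gc a` lying in the level-`ja` window `J` -/
noncomputable def GcJ (Z : Dat4) (a J : ℕ) : Finset (ℕ × ℕ) :=
  {e ∈ Z.E5 | Z.cell (Z.Q.u e) = a ∧ e / 2 ^ Z.ja = J}.image (Z.G.pc Z.c)

lemma OK.h72_lt (h : Z.OK k) {t : ℕ} (ht : t ∈ Z.E3) : t < 2 ^ Z.Q.μ :=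
  mem_range.1 (h.ok.ok.sub (h.E3_sub ht))

lemma OK.h72_beta (h : Z.OK k) : 0 < Z.beta :=
  (inv_pos.2 (pow_pos (zero_lt_one.trans_le h.ok.ok.lam1) _)).trans_le h.ok.beta_lo

lemma OK.h72_ca (h : Z.OK k) : ∀ t < 2 ^ Z.Q.μ, Z.ja < Z.G.lev t → Z.c t :=
  fun t ht hl => h.ok.c_lev t ht (h.ok.ok.Ta.trans_lt hl)

lemma OK.h72_cc (h : Z.OK k) {t t' : ℕ} (ht : t < 2 ^ Z.Q.μ) (ht' : t' < 2 ^ Z.Q.μ)
    (e : Z.G.pc Z.cc t = Z.G.pc Z.cc t') :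
    Z.cell (Z.Q.u t) = Z.cell (Z.Q.u t') ∧ t / 2 ^ Z.ja = t' / 2 ^ Z.ja ∧
      Z.G.pc Z.c t = Z.G.pc Z.c t' :=
  ⟨Z.G.pc_label Z.cell h.ok.cc_cell ht ht' e,
    Z.G.pc_win (fun t ht hl => h.ok.cc_c t ht (h.h72_ca t ht hl)) ht ht' e,
    Z.G.pc_mono h.ok.cc_c ht ht' e⟩

/-- `pc c` factors through `pc cc` (`pc_mono`), then `E3_cc` -/
theorem OK.Gc_card (h : Z.OK k) (a : ℕ) : (#(Z.Gc a) : ℝ) ≤ k * Z.n * Z.beta := by
  rcases (Z.Gc a).eq_empty_or_nonempty with he | ⟨γ, hγ⟩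
  · have := h.ok.ok.k2
    have := h.ok.ok.n_pos
    have := h.h72_beta
    rw [he, card_empty, Nat.cast_zero]
    positivity
  obtain ⟨e, he, -⟩ := mem_image.1 hγ
  obtain ⟨he5, hea⟩ := mem_filter.1 he
  refine le_trans (Nat.cast_le.2 ?_) (h.E3_cc e (h.E5_sub he5))
  refine card_le_card_of_forall_subsingleton
    (fun γ δ => ∃ t < 2 ^ Z.Q.μ, Z.G.pc Z.c t = γ ∧ Z.G.pc Z.cc t = δ) (fun γ hγ => ?_) ?_
  · obtain ⟨t, ht, rfl⟩ := mem_image.1 hγ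
    obtain ⟨h5, ha⟩ := mem_filter.1 ht
    have hlt := h.h72_lt (h.E5_sub h5)
    exact ⟨_, mem_image_of_mem _ (mem_filter.2 ⟨mem_range.2 hlt, ha.trans hea.symm⟩), t, hlt,
      rfl, rfl⟩
  · rintro δ - γ ⟨-, t, ht, rfl, e1⟩ γ' ⟨-, t', ht', rfl, e2⟩
    exact (h.h72_cc ht ht' (e1.trans e2.symm)).2.2

/-- a cell piece determines the cell, the window and the piece (`pc_label`, `pc_win`, `pc_mono`);
there are at most `#{cc}` cell pieces -/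
theorem OK.GcJ_sum (h : Z.OK k) :
    ∑ a ∈ Z.Q.P.image Z.cell, ∑ J ∈ range (2 ^ (Z.Q.μ - Z.ja)), (#(Z.GcJ a J) : ℝ) ≤
      k * Z.n / Z.beta := by
  refine le_trans ?_ h.ok.cc_card
  have h1 := Z.G.card_pc h.ok.ok.jT_le (fun t ht hl => h.ok.cc_c t ht (h.ok.c_lev t ht hl))
    Z.Q.E Z.Q.E Subset.rfl (fun _ _ t' ht' _ => mem_range.2 ht')
  have h2 : #((Z.Q.P.image Z.cell).sigma fun a => (range (2 ^ (Z.Q.μ - Z.ja))).sigma fun J =>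
      Z.GcJ a J) ≤ #(Z.Q.E.image (Z.G.pc Z.cc)) := by
    refine card_le_card_of_forall_subsingleton
      (fun x δ => ∃ t < 2 ^ Z.Q.μ, Z.cell (Z.Q.u t) = x.1 ∧ t / 2 ^ Z.ja = x.2.1 ∧
        Z.G.pc Z.c t = x.2.2 ∧ Z.G.pc Z.cc t = δ) (fun x hx => ?_) ?_
    · obtain ⟨t, ht, e⟩ := mem_image.1 (mem_sigma.1 (mem_sigma.1 hx).2).2
      obtain ⟨h5, ha, hJ⟩ := mem_filter.1 ht
      have hlt := h.h72_lt (h.E5_sub h5)
      exact ⟨_, mem_image_of_mem _ (mem_range.2 hlt), t, hlt, ha, hJ, e, rfl⟩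
    · rintro δ - ⟨a, J, γ⟩ ⟨-, t, ht, rfl, rfl, rfl, e1⟩ ⟨a', J', γ'⟩
        ⟨-, t', ht', rfl, rfl, rfl, e2⟩
      obtain ⟨a1, a2, a3⟩ := h.h72_cc ht ht' (e1.trans e2.symm)
      rw [a1, a2, a3]
  simp only [card_sigma] at h2
  exact_mod_cast h2.trans h1

/-- every piece of `GcJ a J` has `β d / k` edges of `E3` starting in the cell `a` and lying in the
window `J` (`E5_long`); each of the `≤ n β²` points of the cell starts fewer than `2 D0` of them -/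
theorem OK.GcJ_card (h : Z.OK k) (a J : ℕ) :
    (#(Z.GcJ a J) : ℝ) ≤ 2 * k * (Z.n * Z.beta / Z.L) := by
  set W := {t ∈ Z.E3 | Z.cell (Z.Q.u t) = a ∧ t / 2 ^ Z.ja = J} with hW
  have hk : 0 ≤ k := by linarith [h.ok.ok.k2]
  have hβ := h.h72_beta
  have hL : 0 < Z.L := zero_lt_one.trans_le h.ok.ok.L1
  have hD : (0 : ℝ) < Z.D0 := by exact_mod_cast h.ok.ok.D0_pos
  have h1 : ∀ γ ∈ Z.GcJ a J, Z.beta * Z.d ≤ k * #{t ∈ W | Z.G.pc Z.c t = γ} := by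
    intro γ hγ
    obtain ⟨e, he, rfl⟩ := mem_image.1 hγ
    obtain ⟨h5, ha, hJ⟩ := mem_filter.1 he
    refine (h.E5_long e h5).trans (mul_le_mul_of_nonneg_left (Nat.cast_le.2
      (card_le_card fun t ht => ?_)) hk)
    obtain ⟨h3, e1⟩ := mem_filter.1 ht
    obtain ⟨a1, a2, a3⟩ := h.h72_cc (h.h72_lt h3) (h.h72_lt (h.E5_sub h5)) e1
    exact mem_filter.2 ⟨mem_filter.2 ⟨h3, a1.trans ha, a2.trans hJ⟩, a3⟩
  have h2 : (#(Z.GcJ a J) : ℝ) * (Z.beta * Z.d) ≤ k * #W := by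
    have a1 := sum_le_sum h1
    rw [sum_const, nsmul_eq_mul, ← mul_sum, ← Nat.cast_sum, sum_card_fiberwise_eq_card_filter] at a1
    exact a1.trans (mul_le_mul_of_nonneg_left (Nat.cast_le.2 (card_filter_le _ _)) hk)
  have h3 : #W ≤ 2 * Z.D0 * #{q ∈ Z.Q.P | Z.cell q = a} := by
    refine card_le_mul_card_image_of_maps_to (f := Z.Q.u) (fun t ht => ?_) _ fun q _ => ?_
    · obtain ⟨h3, ha, -⟩ := mem_filter.1 ht
      exact mem_filter.2 ⟨Z.Q.u_P (h.h72_lt h3), ha⟩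
    · rcases ({t ∈ W | Z.Q.u t = q}).eq_empty_or_nonempty with he | ⟨t0, ht0⟩
      · rw [he, card_empty]
        exact Nat.zero_le _
      obtain ⟨b1, b2⟩ := mem_filter.1 ht0
      obtain ⟨b3, -, b4⟩ := mem_filter.1 b1
      refine le_trans (card_le_card fun t ht => ?_) (h.ok.ok.deg t0 (h.E3_sub b3)).2.le
      obtain ⟨c1, c2⟩ := mem_filter.1 ht
      obtain ⟨c3, -, c4⟩ := mem_filter.1 c1
      exact mem_filter.2 ⟨mem_range.2 (h.h72_lt c3), c4.trans b4.symm, c2.trans b2.symm⟩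
  have h4 : (#W : ℝ) ≤ 2 * Z.D0 * (Z.n * Z.beta ^ 2) := by
    refine le_trans ?_ (mul_le_mul_of_nonneg_left (h.ok.cell_card a) (by positivity))
    exact_mod_cast h3
  refine le_of_mul_le_mul_right (h2.trans ((mul_le_mul_of_nonneg_left h4 hk).trans_eq ?_))
    (mul_pos hβ (zero_lt_one.trans_le h.ok.ok.d1))
  rw [← h.ok.ok.hL]
  field_simp

lemma h72_arith {I A V X x B p T k s w m : ℝ} (hk : 0 < k) (hB : 1 ≤ B) (hT : 0 < T)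
    (hBT : 24 * k * B ^ 2 ≤ T) (hp : p = 12 * k * B / T) (hx : 0 ≤ x) (hA : 0 ≤ A) (hs : 0 ≤ s)
    (hm : 0 ≤ m) (hV : T * V ≤ I) (h1 : I ≤ A + x * s) (h2 : A ≤ B * (3 * k * V / p + p ^ 2 * X))
    (h3 : X ≤ x ^ 2 + x * (k * m) + (B - 1) * A) (h4 : x ≤ 2 * k * w) :
    I ≤ x * (2 * s + 576 * k ^ 3 * B ^ 3 * (w + m) / T ^ 2) := by
  have hB0 : 0 < B := zero_lt_one.trans_le hB
  have e1 : B * (3 * k * V / p) = T * V / 4 := by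
    rw [hp]
    field_simp
    ring
  have e2 : B * p ≤ 1 / 2 := by
    rw [hp, ← mul_div_assoc, div_le_iff₀ hT]
    nlinarith
  have hp0 : 0 < p := by
    rw [hp]
    positivity
  have e3 : B * p ^ 2 * (B - 1) ≤ 1 / 4 := by
    have : (B * p) ^ 2 ≤ (1 / 2) ^ 2 := pow_le_pow_left₀ (by positivity) e2 2
    nlinarith [mul_pos hB0 (pow_pos hp0 2)]
  have e4 : x ^ 2 + x * (k * m) ≤ x * (2 * k * (w + m)) := by
    nlinarith [mul_le_mul_of_nonneg_left h4 hx, mul_nonneg hx (mul_nonneg hk.le hm)]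
  have e5 : B * p ^ 2 * (x * (2 * k * (w + m))) =
      x * (576 * k ^ 3 * B ^ 3 * (w + m) / T ^ 2) / 2 := by
    rw [hp]
    field_simp
    ring
  have e6 : B * p ^ 2 * X ≤ B * p ^ 2 * (x * (2 * k * (w + m))) + B * p ^ 2 * (B - 1) * A := by
    rw [mul_assoc (B * p ^ 2), ← mul_add]
    exact mul_le_mul_of_nonneg_left (by linarith) (by positivity)
  have e7 := mul_le_mul_of_nonneg_right e3 hA
  have e8 := mul_nonneg hx hs
  rw [mul_add, e1, ← mul_assoc] at h2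
  rw [e5] at e6
  rw [mul_add]
  linarith

/-- Let `I` be the counted set, `x = #(GcJ a J)`, `B = 2 ^ jf`.  `R τ a` only depends on
`(u τ, τ / 2 ^ ja)`, so every vertex of `V = I.image u` starts `θ D0` edges of `I`.  Chords of
`exists_chords` (`Γ = GcJ a J`): `#I ≤ #A + x η ell`; `Base.cl` with `p = 12 k B / (θ D0)`,
multiplicity `B`, and `cb_all`: `#A ≤ #I / 4 + B p² (x² + x k b² M) + #A / 4`. -/
theorem OK.rich_one (h : Z.OK k) {θ : ℝ} (hθ : 0 < θ)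
    (hB : 24 * k * ((2 : ℝ) ^ Z.jf) ^ 2 ≤ θ * Z.D0) (a J : ℕ) :
    (#{τ ∈ Z.E2 | τ / 2 ^ Z.ja = J ∧ Z.G.pc Z.c τ ∈ Z.Gc a ∧ θ * Z.D0 ≤ Z.R τ a} : ℝ) ≤
      #(Z.GcJ a J) * (2 * Z.eta * Z.ell + 576 * k ^ 3 * ((2 : ℝ) ^ Z.jf) ^ 3 *
        (Z.n * Z.beta / Z.L + Z.b ^ 2 * Z.M) / (θ * Z.D0) ^ 2) := by
  set I := {τ ∈ Z.E2 | τ / 2 ^ Z.ja = J ∧ Z.G.pc Z.c τ ∈ Z.Gc a ∧ θ * Z.D0 ≤ Z.R τ a} with hI
  have o := h.ok.ok
  have hk : 0 < k := by linarith [o.k2]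
  have hD : (0 : ℝ) < Z.D0 := by exact_mod_cast o.D0_pos
  have hT : 0 < θ * Z.D0 := mul_pos hθ hD
  have hB1 : (1 : ℝ) ≤ 2 ^ Z.jf := one_le_pow₀ one_le_two
  have hjf : Z.jf ≤ Z.Q.μ := h.jf_le.trans o.jT_le
  have hIE : I ⊆ Z.Q.E := fun t ht => o.sub (mem_filter.1 ht).1
  have hΓ : ∀ t ∈ I, Z.G.pc Z.c t ∈ Z.GcJ a J := by
    intro t ht
    obtain ⟨-, hJ, hG, -⟩ := mem_filter.1 ht
    obtain ⟨e, he, e1⟩ := mem_image.1 hG
    obtain ⟨h5, ha⟩ := mem_filter.1 he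
    refine mem_image.2 ⟨e, mem_filter.2 ⟨h5, ha, ?_⟩, e1⟩
    rw [Z.G.pc_win h.h72_ca (h.h72_lt (h.E5_sub h5)) (mem_range.1 (hIE ht)) e1, hJ]
  have hE3 : ∀ γ ∈ Z.GcJ a J, ∃ e ∈ Z.E3, Z.G.pc Z.c e = γ := fun γ hγ => by
    obtain ⟨e, he, e1⟩ := mem_image.1 hγ
    exact ⟨e, h.E5_sub (mem_filter.1 he).1, e1⟩
  have hV : θ * Z.D0 * #(I.image Z.Q.u) ≤ #I := by
    rw [card_eq_sum_card_image Z.Q.u I, Nat.cast_sum, mul_comm, ← nsmul_eq_mul, ← sum_const]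
    refine sum_le_sum fun q hq => ?_
    obtain ⟨τ, hτ, rfl⟩ := mem_image.1 hq
    obtain ⟨-, hJ, -, hR⟩ := mem_filter.1 hτ
    refine hR.trans (Nat.cast_le.2 (card_le_card fun t ht => ?_))
    obtain ⟨b1, b2, b3, b4⟩ := mem_filter.1 ht
    refine mem_filter.2 ⟨mem_filter.2 ⟨b1, b2.trans hJ, b4, ?_⟩, b3⟩
    rw [R, b2, b3]
    exact hR
  obtain ⟨A, hA, hDj, -, hIA⟩ := Z.G.exists_chords (c := Z.c) hjf I hIE _ hΓ
  have h1 : (#I : ℝ) ≤ #A + #(Z.GcJ a J) * (Z.eta * Z.ell) := by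
    refine le_trans (Nat.cast_le.2 hIA) ?_
    rw [Nat.cast_add, Nat.cast_sum, ← nsmul_eq_mul, ← sum_const]
    refine add_le_add le_rfl (sum_le_sum fun γ hγ => ?_)
    obtain ⟨e, he, rfl⟩ := hE3 γ hγ
    exact h.E3_Phi e he
  have hp1 : 12 * k * 2 ^ Z.jf / (θ * Z.D0) ≤ 1 := by
    rw [div_le_one hT]
    nlinarith [mul_le_mul_of_nonneg_left hB1 (by positivity : 0 ≤ k * 2 ^ Z.jf),
      (by positivity : 0 ≤ k * 2 ^ Z.jf)]
  have h2 := o.base.cl (I.image Z.Q.u)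
    (fun q hq => by
      obtain ⟨τ, hτ, rfl⟩ := mem_image.1 hq
      exact Z.Q.u_P (mem_range.1 (hIE hτ)))
    A (fun x => Z.Q.u x.1) (fun x => Z.Q.v x.2)
    (fun x hx => by
      obtain ⟨b1, b2, t', b3, b4, -⟩ := hA x hx
      exact ⟨mem_image_of_mem _ b2, b4 ▸ mem_image_of_mem _ b3,
        (Z.G.arc_cone le_rfl hjf b1).x_lt (Z.Q.s_win hjf (win_lt hjf b1.1))⟩)
    (2 ^ Z.jf) (by positivity)
    (fun x hx => by exact_mod_cast Z.G.arc_mult hjf A (fun x hx => (hA x hx).1) hDj hx)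
    (12 * k * 2 ^ Z.jf / (θ * Z.D0)) (by positivity) hp1
  have h3 := Z.G.cb_all h.jf_le o.jT_le h.ok.c_lev A (fun x hx => (hA x hx).1) hDj _
    fun x hx => hΓ _ (hA x hx).2.1
  have h4 : ∑ γ ∈ Z.GcJ a J, Z.G.Lam Z.c Z.jT γ ≤ #(Z.GcJ a J) * (k * (Z.b ^ 2 * Z.M)) := by
    rw [← nsmul_eq_mul, ← sum_const]
    refine sum_le_sum fun γ hγ => ?_
    obtain ⟨e, he, rfl⟩ := hE3 γ hγ
    rw [← mul_assoc]
    exact h.E3_Lam e he
  have hl : 0 ≤ Z.ell := (pow_nonneg (zero_le_one.trans o.lam1) _).trans o.ell_ge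
  rw [mul_assoc 2 Z.eta]
  exact h72_arith hk hB1 hT hB rfl (Nat.cast_nonneg _) (Nat.cast_nonneg _)
    (mul_nonneg h.eta_pos.le hl) (mul_nonneg (sq_nonneg _) o.M_pos.le) hV h1 h2
    (h3.trans (by linarith)) (h.GcJ_card a J)

theorem OK.rich_le (h : Z.OK k) {θ : ℝ} (hθ : 0 < θ)
    (hB : 24 * k * ((2 : ℝ) ^ Z.jf) ^ 2 ≤ θ * Z.D0) :
    Z.richSum θ ≤ k * Z.n / Z.beta * (2 * Z.eta * Z.ell + 576 * k ^ 3 * ((2 : ℝ) ^ Z.jf) ^ 3 *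
      (Z.n * Z.beta / Z.L + Z.b ^ 2 * Z.M) / (θ * Z.D0) ^ 2) := by
  have o := h.ok.ok
  have hk : 0 < k := by linarith [o.k2]
  have hl : 0 ≤ Z.ell := (pow_nonneg (zero_le_one.trans o.lam1) _).trans o.ell_ge
  have hL : 0 < Z.L := zero_lt_one.trans_le o.L1
  have := h.eta_pos
  have := o.n_pos
  have := o.M_pos
  have := h.h72_beta
  refine le_trans ?_ (mul_le_mul_of_nonneg_right h.GcJ_sum (by positivity))
  rw [richSum, sum_mul]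
  refine sum_le_sum fun a _ => ?_
  rw [sum_mul, card_eq_sum_card_fiberwise (f := fun τ => τ / 2 ^ Z.ja)
    (t := range (2 ^ (Z.Q.μ - Z.ja))) fun τ hτ =>
      mem_coe.2 (mem_range.2 (win_lt o.ja_le (mem_range.1 (o.sub (mem_filter.1 hτ).1)))),
    Nat.cast_sum]
  refine sum_le_sum fun J _ => le_trans (Nat.cast_le.2 (card_le_card fun τ hτ => ?_))
    (h.rich_one hθ hB a J)
  obtain ⟨b1, b2⟩ := mem_filter.1 hτ
  obtain ⟨b3, b4⟩ := mem_filter.1 b1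
  exact mem_filter.2 ⟨b3, b2, b4⟩

end Dat4

end Crest.Agent.R051
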