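import Crest.Agent.R051.St4d

/-! Row 51: many triples (vertex, sector, piece). -/

set_option autoImplicit false

open Finset
open scoped Classical

namespace Crest.Agent.R051

namespace Dat4

variable {Z : Dat4} {k : ℝ}

/-- `arc_unique` for the arcs `(t, t)` with `jf = 0`, `j = jT` (different level-`js` windows give
different level-`jT` windows, `win_div`) -/
theorem OK.XX_inj (h : Z.OK k) {x x' : ℕ × ℕ} (hx : x ∈ Z.XX) (hx' : x' ∈ Z.XX)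
    (h1 : Z.G.pc Z.c x.1 = Z.G.pc Z.c x'.1) (h2 : Z.G.pc Z.c x.2 = Z.G.pc Z.c x'.2) : x = x' := by
  have hE : ∀ t ∈ Z.E5, t < 2 ^ Z.Q.μ := fun t ht =>
    mem_range.1 (h.ok.ok.sub (h.E3_sub (h.E5_sub ht)))
  have hA : ∀ t ∈ Z.E5, Z.G.IsArc Z.c 0 (t, t) := fun t ht => ⟨hE t ht, hE t ht, rfl, le_rfl⟩
  have hD : ∀ t ∈ Z.E5, ∀ t' ∈ Z.E5, (t, t) = (t', t') ∨ Z.G.Disj (t, t) (t', t') := by
    intro t ht t' ht'
    by_cases e : t = t'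
    · exact Or.inl (by rw [e])
    · refine Or.inr fun hp => ?_
      exact lt_or_gt_of_ne fun e' => e (Z.G.inj t (hE t ht) t' (hE t' ht') hp e')
  obtain ⟨m, -, w, cr⟩ := mem_filter.1 hx
  obtain ⟨m', -, -, cr'⟩ := mem_filter.1 hx'
  obtain ⟨m1, m2⟩ := mem_product.1 m
  obtain ⟨m1', m2'⟩ := mem_product.1 m'
  have hT : Z.jT ≤ Z.js := h.ok.ok.Ta.trans (le_max_left _ _)
  have hw : x.1 / 2 ^ Z.jT ≠ x.2 / 2 ^ Z.jT := fun e => by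
    rw [← win_div hT x.1, ← win_div hT x.2, e] at w
    exact lt_irrefl _ w
  have := Z.G.arc_unique (c := Z.c) (c1 := Z.c) (c2 := Z.c) (Nat.zero_le _) h.ok.ok.jT_le
    h.ok.c_lev h.ok.c_lev (hA _ m1) (hA _ m1') (hA _ m2) (hA _ m2') (hD _ m1 _ m1')
    (hD _ m2 _ m2') h1 h2 hw cr cr'
  exact Prod.ext (Prod.mk.inj this.1).1 (Prod.mk.inj this.2).1

/-- each pair (vertex, window) with an edge of `E2` carries `D0` of the `2 ^ μ ≤ k n d` edges -/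
theorem _root_.Crest.Agent.R051.Dat.OK.stars {X : Dat} (h : X.OK k) :
    (#(X.E2.image fun τ => (X.Q.u τ, τ / 2 ^ X.ja)) : ℝ) ≤ k * X.n * X.L := by
  set f : ℕ → Pt × ℕ := fun τ => (X.Q.u τ, τ / 2 ^ X.ja) with hf
  have a1 : #(X.E2.image f) * X.D0 ≤ 2 ^ X.Q.μ := by
    calc #(X.E2.image f) * X.D0 = ∑ _s ∈ X.E2.image f, X.D0 := by rw [sum_const, smul_eq_mul]
      _ ≤ ∑ s ∈ X.E2.image f, #{t ∈ X.Q.E | f t = s} := by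
        refine sum_le_sum fun s hs => ?_
        obtain ⟨τ, hτ, rfl⟩ := mem_image.1 hs
        refine (h.deg τ hτ).1.trans (card_le_card fun t ht => ?_)
        obtain ⟨b1, b2, b3⟩ := mem_filter.1 ht
        exact mem_filter.2 ⟨b1, Prod.ext b3 b2⟩
      _ = #{t ∈ X.Q.E | f t ∈ X.E2.image f} := sum_card_fiberwise_eq_card_filter _ _ _
      _ ≤ #X.Q.E := card_filter_le _ _
      _ = 2 ^ X.Q.μ := card_range _
  have a2 : (#(X.E2.image f) : ℝ) * X.D0 ≤ 2 ^ X.Q.μ := by exact_mod_cast a1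
  have a3 : (0 : ℝ) < X.D0 := by exact_mod_cast h.D0_pos
  refine le_of_mul_le_mul_right (a2.trans (h.base.upper.trans (le_of_eq ?_))) a3
  rw [← h.hL, Dat.n]
  ring

/-- the pairs `(x, τ)` -/
noncomputable def h75P (Z : Dat4) : Finset (Σ _ : ℕ × ℕ, ℕ) :=
  Z.XX.sigma fun x => {t' ∈ Z.E2 | Z.G.pc Z.c t' = Z.G.pc Z.c x.1 ∧ Z.G.pos t' < Z.G.pos x.1}

theorem OK.h75_pairs (h : Z.OK k) : (#Z.XX : ℝ) * Z.ell ≤ k * #Z.h75P := by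
  rw [h75P, card_sigma, Nat.cast_sum, mul_sum, ← nsmul_eq_mul, ← sum_const]
  exact sum_le_sum fun x hx => h.E5_pre _ (mem_product.1 (mem_filter.1 hx).1).1

theorem OK.h75_rich (h : Z.OK k) (θ : ℝ) :
    (#{w ∈ Z.h75P | θ * Z.D0 ≤ Z.R w.2 (Z.cell (Z.Q.u w.1.1))} : ℝ) ≤
      k * Z.n * Z.beta * Z.richSum θ := by
  have hE : ∀ t ∈ Z.E5, t < 2 ^ Z.Q.μ := fun t ht =>
    mem_range.1 (h.ok.ok.sub (h.E3_sub (h.E5_sub ht)))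
  have a1 : #{w ∈ Z.h75P | θ * Z.D0 ≤ Z.R w.2 (Z.cell (Z.Q.u w.1.1))} ≤
      #((Z.Q.P.image Z.cell).sigma fun a =>
        {τ ∈ Z.E2 | Z.G.pc Z.c τ ∈ Z.Gc a ∧ θ * Z.D0 ≤ Z.R τ a} ×ˢ Z.Gc a) := by
    refine card_le_card_of_injOn
      (fun w => ⟨Z.cell (Z.Q.u w.1.1), (w.2, Z.G.pc Z.c w.1.2)⟩) (fun w hw => ?_) ?_
    · obtain ⟨b1, b2⟩ := mem_filter.1 (mem_coe.1 hw)
      obtain ⟨b3, b4⟩ := mem_sigma.1 b1
      obtain ⟨b5, b6, -⟩ := mem_filter.1 b4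
      obtain ⟨m, b7, -⟩ := mem_filter.1 b3
      obtain ⟨m1, m2⟩ := mem_product.1 m
      refine mem_coe.2 (mem_sigma.2 ⟨mem_image_of_mem _ (Z.Q.u_P (hE _ m1)),
        mem_product.2 ⟨mem_filter.2 ⟨b5, ?_, b2⟩, ?_⟩⟩)
      · rw [b6]
        exact mem_image_of_mem _ (mem_filter.2 ⟨m1, rfl⟩)
      · exact mem_image_of_mem _ (mem_filter.2 ⟨m2, b7.symm⟩)
    · rintro ⟨x, τ⟩ hw ⟨x', τ'⟩ hw' e
      obtain ⟨b3, b4⟩ := mem_sigma.1 (mem_filter.1 (mem_coe.1 hw)).1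
      obtain ⟨b3', b4'⟩ := mem_sigma.1 (mem_filter.1 (mem_coe.1 hw')).1
      have e2 : (τ, Z.G.pc Z.c x.2) = (τ', Z.G.pc Z.c x'.2) :=
        congrArg (fun s : (Σ _ : ℕ, ℕ × (ℕ × ℕ)) => s.2) e
      obtain ⟨rfl, e3⟩ := Prod.mk.inj e2
      have := h.XX_inj b3 b3' ((mem_filter.1 b4).2.1.symm.trans (mem_filter.1 b4').2.1) e3
      dsimp only at this
      rw [this]
  rw [card_sigma] at a1
  refine le_trans (Nat.cast_le.2 a1) ?_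
  rw [Nat.cast_sum, richSum, mul_sum]
  refine sum_le_sum fun a _ => ?_
  rw [card_product, Nat.cast_mul, mul_comm]
  exact mul_le_mul_of_nonneg_right (h.Gc_card a) (Nat.cast_nonneg _)

theorem OK.h75_poor (h : Z.OK k) (θ : ℝ) :
    #{w ∈ Z.h75P | ¬ θ * Z.D0 ≤ Z.R w.2 (Z.cell (Z.Q.u w.1.1))} ≤
      ∑ z ∈ Z.Q.P ×ˢ range (2 ^ (Z.Q.μ - Z.ja)) ×ˢ Z.E5.image (Z.G.pc Z.c),
        Z.cnt θ z.1 z.2.1 z.2.2 := by
  unfold cnt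
  rw [← card_sigma]
  refine card_le_card_of_injOn
    (fun w => ⟨(Z.Q.u w.2, w.2 / 2 ^ Z.ja, Z.G.pc Z.c w.1.2), w.2⟩) (fun w hw => ?_) ?_
  · obtain ⟨b1, b2⟩ := mem_filter.1 (mem_coe.1 hw)
    obtain ⟨b3, b4⟩ := mem_sigma.1 b1
    obtain ⟨b5, b6, b8⟩ := mem_filter.1 b4
    obtain ⟨m1, m2⟩ := mem_product.1 (mem_filter.1 b3).1
    have b9 := mem_range.1 (h.ok.ok.sub b5)
    exact mem_coe.2 (mem_sigma.2 ⟨mem_product.2 ⟨Z.Q.u_P b9, mem_product.2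
      ⟨mem_range.2 (win_lt h.ok.ok.ja_le b9), mem_image_of_mem _ m2⟩⟩,
      mem_filter.2 ⟨b5, rfl, rfl, w.1, b3, rfl, b6, b8, not_le.1 b2⟩⟩)
  · rintro ⟨x, τ⟩ hw ⟨x', τ'⟩ hw' e
    obtain ⟨b3, b4⟩ := mem_sigma.1 (mem_filter.1 (mem_coe.1 hw)).1
    obtain ⟨b3', b4'⟩ := mem_sigma.1 (mem_filter.1 (mem_coe.1 hw')).1
    have e2 : τ = τ' := congrArg (fun s : (Σ _ : Pt × ℕ × (ℕ × ℕ), ℕ) => s.2) e
    have e3 : Z.G.pc Z.c x.2 = Z.G.pc Z.c x'.2 :=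
      congrArg (fun s : (Σ _ : Pt × ℕ × (ℕ × ℕ), ℕ) => s.1.2.2) e
    subst e2
    have := h.XX_inj b3 b3' ((mem_filter.1 b4).2.1.symm.trans (mem_filter.1 b4').2.1) e3
    dsimp only at this
    rw [this]

theorem OK.h75_cnt_le (h : Z.OK k) (θ : ℝ) (p : Pt) (J : ℕ) (δ : ℕ × ℕ) :
    Z.cnt θ p J δ ≤ 2 * Z.D0 := by
  rcases Nat.eq_zero_or_pos (Z.cnt θ p J δ) with e | e
  · omega
  obtain ⟨τ, hτ⟩ := card_pos.1 e
  obtain ⟨b1, b2, b3, -⟩ := mem_filter.1 hτ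
  refine le_trans (card_le_card fun t ht => ?_) (h.ok.ok.deg τ b1).2.le
  obtain ⟨c1, c2, c3, -⟩ := mem_filter.1 ht
  exact mem_filter.2 ⟨h.ok.ok.sub c1, c3.trans b3.symm, c2.trans b2.symm⟩

theorem OK.h75_delta (h : Z.OK k) (θ : ℝ) (p : Pt) (J : ℕ) :
    (#{δ ∈ Z.E5.image (Z.G.pc Z.c) | 0 < Z.cnt θ p J δ} : ℝ) ≤ k * Z.M := by
  have hE : ∀ t ∈ Z.E5, t < 2 ^ Z.Q.μ := fun t ht =>
    mem_range.1 (h.ok.ok.sub (h.E3_sub (h.E5_sub ht)))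
  have key : ∀ δ, 0 < Z.cnt θ p J δ → ∃ x ∈ Z.XX, Z.G.pc Z.c x.2 = δ ∧
      Z.ball (Z.Q.u x.1) = Z.ball p := by
    intro δ e
    obtain ⟨τ, hτ⟩ := card_pos.1 e
    obtain ⟨b1, b2, -, x, hx, b4, b5, -⟩ := mem_filter.1 hτ
    refine ⟨x, hx, b4, ?_⟩
    rw [← b2]
    exact (Z.G.pc_label Z.ball h.ok.c_ball (mem_range.1 (h.ok.ok.sub b1))
      (hE _ (mem_product.1 (mem_filter.1 hx).1).1) b5).symm
  rcases ({δ ∈ Z.E5.image (Z.G.pc Z.c) | 0 < Z.cnt θ p J δ}).eq_empty_or_nonempty with e | ⟨δ0, e⟩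
  · rw [e, card_empty, Nat.cast_zero]
    exact mul_nonneg (by linarith [h.ok.ok.k2]) h.ok.ok.M_pos.le
  obtain ⟨x0, hx0, -, b0⟩ := key δ0 (mem_filter.1 e).2
  refine le_trans (Nat.cast_le.2 (card_le_card fun δ hδ => ?_))
    (h.E3_ball x0.1 (h.E5_sub (mem_product.1 (mem_filter.1 hx0).1).1))
  obtain ⟨x, hx, rfl, b⟩ := key δ (mem_filter.1 hδ).2
  obtain ⟨m, b7, -⟩ := mem_filter.1 hx
  refine mem_image_of_mem _ (mem_filter.2 ⟨mem_range.2 (hE _ (mem_product.1 m).2), ?_⟩)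
  rw [← h.ok.cb _ _ b7, b, b0]

theorem OK.h75_pos (h : Z.OK k) (θ : ℝ) :
    (#{z ∈ Z.Q.P ×ˢ range (2 ^ (Z.Q.μ - Z.ja)) ×ˢ Z.E5.image (Z.G.pc Z.c) |
      0 < Z.cnt θ z.1 z.2.1 z.2.2} : ℝ) ≤ k * Z.n * Z.L * (k * Z.M) := by
  have a1 : #{z ∈ Z.Q.P ×ˢ range (2 ^ (Z.Q.μ - Z.ja)) ×ˢ Z.E5.image (Z.G.pc Z.c) |
      0 < Z.cnt θ z.1 z.2.1 z.2.2} ≤ #((Z.E2.image fun τ => (Z.Q.u τ, τ / 2 ^ Z.ja)).sigma
        fun s => {δ ∈ Z.E5.image (Z.G.pc Z.c) | 0 < Z.cnt θ s.1 s.2 δ}) := by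
    refine card_le_card_of_injOn (fun z => ⟨(z.1, z.2.1), z.2.2⟩) (fun z hz => ?_) ?_
    · obtain ⟨b1, b2⟩ := mem_filter.1 (mem_coe.1 hz)
      obtain ⟨τ, hτ⟩ := card_pos.1 b2
      obtain ⟨c1, c2, c3, -⟩ := mem_filter.1 hτ
      exact mem_coe.2 (mem_sigma.2 ⟨mem_image.2 ⟨τ, c1, Prod.ext c2 c3⟩,
        mem_filter.2 ⟨(mem_product.1 (mem_product.1 b1).2).2, b2⟩⟩)
    · rintro ⟨p, J, δ⟩ - ⟨p', J', δ'⟩ - e
      have e1 : p = p' := congrArg (fun s : (Σ _ : Pt × ℕ, ℕ × ℕ) => s.1.1) e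
      have e2 : J = J' := congrArg (fun s : (Σ _ : Pt × ℕ, ℕ × ℕ) => s.1.2) e
      have e3 : δ = δ' := congrArg (fun s : (Σ _ : Pt × ℕ, ℕ × ℕ) => s.2) e
      rw [e1, e2, e3]
  rw [card_sigma] at a1
  refine le_trans (Nat.cast_le.2 a1) ?_
  rw [Nat.cast_sum]
  refine (sum_le_sum fun s _ => h.h75_delta θ s.1 s.2).trans ?_
  rw [sum_const, nsmul_eq_mul]
  exact mul_le_mul_of_nonneg_right h.ok.ok.stars
    (mul_nonneg (by linarith [h.ok.ok.k2]) h.ok.ok.M_pos.le)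

theorem OK.h75_sum (h : Z.OK k) {θ : ℝ} (hθ : 0 < θ) :
    (∑ z ∈ Z.Q.P ×ˢ range (2 ^ (Z.Q.μ - Z.ja)) ×ˢ Z.E5.image (Z.G.pc Z.c),
        (Z.cnt θ z.1 z.2.1 z.2.2 : ℝ)) ≤
      2 * Z.D0 * #(Z.AA θ) + 2 * θ * Z.D0 * (k * Z.n * Z.L * (k * Z.M)) := by
  have hD : (0 : ℝ) ≤ Z.D0 := Nat.cast_nonneg _
  refine le_trans ?_ (add_le_add_right (mul_le_mul_of_nonneg_left (h.h75_pos θ)
    (by positivity : 0 ≤ 2 * θ * Z.D0)) _)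
  unfold AA
  rw [card_filter, card_filter, Nat.cast_sum, Nat.cast_sum, mul_sum, mul_sum, ← sum_add_distrib]
  refine sum_le_sum fun z _ => ?_
  have b1 : (Z.cnt θ z.1 z.2.1 z.2.2 : ℝ) ≤ 2 * Z.D0 := by exact_mod_cast h.h75_cnt_le θ _ _ _
  have b2 : 0 ≤ 2 * θ * Z.D0 := by positivity
  split_ifs with c1 c2 c2
  · push_cast; linarith
  · push_cast; linarith
  · push_cast; linarith [not_le.1 c1]
  · rw [Nat.eq_zero_of_not_pos c2]; simp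

/-- Count the pairs `(τ, x)`, `x ∈ XX`, `τ ∈ E2` before `x.1` on its piece: at least
`#XX ell / k ≥ n² ell / k²` (`E5_pre`).  Those with `θ D0 ≤ R τ (cell (u x.1))` are at most
`k n β richSum` (map to `(cell, τ)`; `x` is determined by `pc x.2 ∈ Gc a`: `XX_inj`, `Gc_card`).  The
others inject into the pairs `(τ, δ)` counted by `∑ cnt`.  Now `cnt < 2 D0` (`deg`), and the triples
with `cnt > 0` are at most `k n L * k M` (`stars`; `δ` is a piece in the ball of `p`: `pc_label`,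
`cb`, `E3_ball`).  Note `n² ell = n M d`, `d = L D0`. -/
theorem OK.AA_big (h : Z.OK k) {θ : ℝ} (hθ : 0 < θ) (hθ' : 8 * k ^ 4 * θ ≤ 1)
    (hX : Z.n ^ 2 ≤ k * #Z.XX)
    (hr : 4 * k ^ 2 * (k * Z.n * Z.beta * Z.richSum θ) ≤ Z.n ^ 2 * Z.ell) :
    Z.n * Z.M * Z.L ≤ 4 * k ^ 2 * #(Z.AA θ) := by
  have o := h.ok.ok
  have hk : 0 ≤ k := by linarith [o.k2]
  have hD : (0 : ℝ) < Z.D0 := by exact_mod_cast o.D0_pos
  have hell : 0 ≤ Z.ell := (pow_nonneg (zero_le_one.trans o.lam1) _).trans o.ell_ge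
  have a1 := h.h75_pairs
  have a2 := h.h75_rich θ
  have a3 : (#{w ∈ Z.h75P | ¬ θ * Z.D0 ≤ Z.R w.2 (Z.cell (Z.Q.u w.1.1))} : ℝ) ≤
      2 * Z.D0 * #(Z.AA θ) + 2 * θ * Z.D0 * (k * Z.n * Z.L * (k * Z.M)) :=
    (Nat.cast_le.2 (h.h75_poor θ)).trans (by rw [Nat.cast_sum]; exact h.h75_sum hθ)
  have a4 : (#Z.h75P : ℝ) = #{w ∈ Z.h75P | θ * Z.D0 ≤ Z.R w.2 (Z.cell (Z.Q.u w.1.1))} +
      #{w ∈ Z.h75P | ¬ θ * Z.D0 ≤ Z.R w.2 (Z.cell (Z.Q.u w.1.1))} := by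
    rw [← Nat.cast_add, card_filter_add_card_filter_not]
  have a5 : Z.n ^ 2 * Z.ell = Z.n * Z.M * Z.L * Z.D0 := by
    rw [mul_assoc (Z.n * Z.M), o.hL, Dat.ell, Dat.M]
    ring
  have a6 : Z.n ^ 2 * Z.ell ≤ k ^ 2 * #Z.h75P := by
    calc Z.n ^ 2 * Z.ell ≤ k * #Z.XX * Z.ell := mul_le_mul_of_nonneg_right hX hell
      _ = k * (#Z.XX * Z.ell) := by ring
      _ ≤ k * (k * #Z.h75P) := mul_le_mul_of_nonneg_left a1 hk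
      _ = _ := by ring
  have a7 : k ^ 2 * (#Z.h75P : ℝ) ≤ k ^ 2 * (k * Z.n * Z.beta * Z.richSum θ +
      (2 * Z.D0 * #(Z.AA θ) + 2 * θ * Z.D0 * (k * Z.n * Z.L * (k * Z.M)))) :=
    mul_le_mul_of_nonneg_left (by rw [a4]; exact add_le_add a2 a3) (sq_nonneg _)
  have a8 : 0 ≤ Z.n * Z.M * Z.L * Z.D0 := by rw [← a5]; positivity
  have a9 := mul_le_mul_of_nonneg_right hθ' a8
  refine le_of_mul_le_mul_right ?_ hD
  rw [a5] at a6 hr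
  nlinarith

end Dat4

end Crest.Agent.R051
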