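import Crest.Agent.R051.SBasic

/-! Row 51: a long portion of the piece inside the sector. -/

set_option autoImplicit false

open Finset
open scoped Classical

namespace Crest.Agent.R051

namespace Dat4

variable {Z : Dat4} {k : ℝ}

lemma st4f_lo {j j' : ℕ} (h : j ≤ j') (t : ℕ) : t / 2 ^ j' * 2 ^ j' ≤ t / 2 ^ j * 2 ^ j := by
  obtain ⟨e, rfl⟩ := Nat.exists_eq_add_of_le h
  rw [pow_add, ← Nat.div_div_eq_div_mul, mul_comm (2 ^ j), ← mul_assoc]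
  exact Nat.mul_le_mul_right _ (Nat.div_mul_le_self _ _)

lemma st4f_hi {j j' : ℕ} (h : j ≤ j') (t : ℕ) :
    (t / 2 ^ j + 1) * 2 ^ j ≤ (t / 2 ^ j' + 1) * 2 ^ j' := by
  obtain ⟨e, rfl⟩ := Nat.exists_eq_add_of_le h
  rw [pow_add, ← Nat.div_div_eq_div_mul, mul_comm (2 ^ j), ← mul_assoc]
  refine Nat.mul_le_mul_right _ ?_
  rw [mul_comm]
  exact Nat.lt_mul_div_succ _ (by positivity)

lemma OK.st4f_E3 (h : Z.OK k) {t : ℕ} (ht : t ∈ Z.E3) : t < 2 ^ Z.Q.μ :=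
  mem_range.1 (h.ok.ok.sub (h.E3_sub ht))

lemma OK.st4f_XX {x : ℕ × ℕ} (hx : x ∈ Z.XX) : (x.1 ∈ Z.E5 ∧ x.2 ∈ Z.E5) ∧
    Z.cell (Z.Q.u x.1) = Z.cell (Z.Q.u x.2) ∧ x.1 / 2 ^ Z.js < x.2 / 2 ^ Z.js ∧
    Cross (Z.Q.u x.1) (Z.Q.v x.1) (Z.Q.u x.2) (Z.Q.v x.2) := by
  simpa only [XX, mem_filter, mem_product] using hx

/-- One crossing: `τ` starts at `p` in the window `J`, and `x.1` comes later on its piece.  The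
crossing point `w` is in the sector (`piece_cone` at level `ja`; `w ≠ p` by abscissae), and the
level-`jr` window of `x.2` starts after `J`. -/
theorem OK.cross_pt (h : Z.OK k) {τ : ℕ} (hτ : τ < 2 ^ Z.Q.μ) {x : ℕ × ℕ} (hx : x ∈ Z.XX)
    (h1 : Z.G.pc Z.c τ = Z.G.pc Z.c x.1) (h2 : Z.G.pos τ < Z.G.pos x.1) :
    (∃ w ∈ Z.Q.seg x.2, Cone (Z.xl (τ / 2 ^ Z.ja)) (Z.xh (τ / 2 ^ Z.ja)) (Z.Q.u τ) w) ∧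
      (τ / 2 ^ Z.ja + 1) * 2 ^ Z.ja ≤ x.2 / 2 ^ Z.jr * 2 ^ Z.jr ∧
      Z.ball (Z.Q.u x.2) = Z.ball (Z.Q.u τ) := by
  obtain ⟨⟨m1, m2⟩, hcell, hjs, -, -, -, -, w, w1, w2⟩ := OK.st4f_XX hx
  have l1 := h.st4f_E3 (h.E5_sub m1)
  have hc : ∀ t < 2 ^ Z.Q.μ, Z.ja < Z.G.lev t → Z.c t := fun t ht hl =>
    h.ok.c_lev t ht (h.ok.ok.Ta.trans_lt hl)
  refine ⟨⟨w, w2, ?_⟩, ?_, ?_⟩
  · obtain ⟨c1, c2⟩ := Z.G.chain_cone h.ok.ok.ja_le hc hτ l1 h1 h2.le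
    have c3 := Z.Q.cone_win h.ok.ok.ja_le hτ
    refine cone_seg ?_ c1 w1
    rcases c2 h2 with c2 | c2
    · exact c2 ▸ c3
    · exact c3.trans c2
  · rw [Z.G.pc_win hc hτ l1 h1]
    exact (st4f_hi (le_max_left Z.ja Z.jr) _).trans
      ((Nat.mul_le_mul_right _ hjs).trans (st4f_lo (le_max_right Z.ja Z.jr) _))
  · rw [Z.G.pc_label Z.ball h.ok.c_ball hτ l1 h1]
    exact (h.ok.cb _ _ hcell).symm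

lemma OK.st4f_mid (h : Z.OK k) {p : Pt} {J : ℕ} {δ : ℕ × ℕ} {τ τ' e : ℕ} {x x' : ℕ × ℕ}
    (hτ : τ < 2 ^ Z.Q.μ) (hτ' : τ' < 2 ^ Z.Q.μ) (hp : Z.Q.u τ = p) (hp' : Z.Q.u τ' = p)
    (hJ : τ / 2 ^ Z.ja = J) (hJ' : τ' / 2 ^ Z.ja = J) (hx : x ∈ Z.XX) (hx' : x' ∈ Z.XX)
    (h1 : Z.G.pc Z.c τ = Z.G.pc Z.c x.1) (h2 : Z.G.pos τ < Z.G.pos x.1)
    (h1' : Z.G.pc Z.c τ' = Z.G.pc Z.c x'.1) (h2' : Z.G.pos τ' < Z.G.pos x'.1)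
    (hδ : Z.G.pc Z.c x.2 = δ) (hδ' : Z.G.pc Z.c x'.2 = δ) (he : e ∈ Z.E5) (hδe : Z.G.pc Z.c e = δ)
    (o1 : (Z.G.pc Z.cc x.2).2 < (Z.G.pc Z.cc e).2) (o2 : (Z.G.pc Z.cc e).2 < (Z.G.pc Z.cc x'.2).2) :
    ∃ por ⊆ Z.E3, Z.beta * Z.d ≤ k * #por ∧ ∀ t ∈ por, Z.G.pc Z.c t = δ ∧
      Z.ball (Z.Q.u t) = Z.ball p ∧ Z.ball (Z.Q.v t) = Z.ball p ∧
      Cone (Z.xl J) (Z.xh J) p (Z.Q.u t) ∧ Cone (Z.xl J) (Z.xh J) p (Z.Q.v t) ∧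
      (J + 1) * 2 ^ Z.ja ≤ t / 2 ^ Z.jr * 2 ^ Z.jr := by
  refine ⟨_, filter_subset _ _, h.E5_long e he, fun t ht => ?_⟩
  obtain ⟨t3, tc⟩ := mem_filter.1 ht
  have lt := h.st4f_E3 t3
  have l2 := h.st4f_E3 (h.E5_sub (OK.st4f_XX hx).1.2)
  have l2' := h.st4f_E3 (h.E5_sub (OK.st4f_XX hx').1.2)
  have tδ : Z.G.pc Z.c t = δ :=
    (Z.G.pc_mono h.ok.cc_c lt (h.st4f_E3 (h.E5_sub he)) tc).trans hδe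
  have q1 : Z.G.pc Z.c x.2 = Z.G.pc Z.c t := hδ.trans tδ.symm
  have q2 : Z.G.pc Z.c t = Z.G.pc Z.c x'.2 := tδ.trans hδ'.symm
  rw [← tc] at o1 o2
  have p1 := Z.G.pos_lt_of_pc (Z.G.pc_pid q1) o1
  have p2 := Z.G.pos_lt_of_pc (Z.G.pc_pid q2) o2
  obtain ⟨⟨w, w1, w2⟩, a2, a3⟩ := h.cross_pt hτ hx h1 h2
  obtain ⟨⟨w', w1', w2'⟩, -, -⟩ := h.cross_pt hτ' hx' h1' h2'
  rw [hp, hJ] at w2
  rw [hp', hJ'] at w2'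
  rw [hp] at a3
  have hc : ∀ t < 2 ^ Z.Q.μ, Z.jr < Z.G.lev t → Z.c t := fun t ht hl =>
    h.ok.c_lev t ht (h.ok.ok.Tr.trans_lt hl)
  have hw := Z.G.pc_win hc l2 lt q1
  rw [hJ, hw] at a2
  have b1 : Z.ball (Z.Q.u t) = Z.ball p :=
    (Z.G.pc_label Z.ball h.ok.c_ball l2 lt q1).symm.trans a3
  have s1 := Z.Q.s_win h.ok.ok.jr_le (win_lt h.ok.ok.jr_le lt)
  have s2 : Z.xh J ≤ Z.Q.s (t / 2 ^ Z.jr * 2 ^ Z.jr) :=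
    Z.Q.s_le a2 ((Nat.div_mul_le_self _ _).trans lt.le)
  have s3 : Z.xl J < Z.xh J := h.ok.ok.xl_lt (hJ ▸ win_lt h.ok.ok.ja_le hτ)
  have key : ∀ q ∈ Z.Q.seg t, Cone (Z.xl J) (Z.xh J) p q := fun q hq => by
    constructor
    · rcases Z.G.piece_cone h.ok.ok.jr_le hc l2 lt q1 p1 w1 hq with c1 | c1
      · exact c1 ▸ w2.1
      · rw [hw] at c1
        exact w2.1.trans (c1.hh_lt s1 (s3.le.trans s2))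
    · rcases Z.G.piece_cone h.ok.ok.jr_le hc lt l2' q2 p2 hq w1' with c1 | c1
      · exact c1 ▸ w2'.2
      · exact (c1.hh_lt s1 s2).trans w2'.2
  exact ⟨tδ, b1, (h.ok.cb _ _ (h.E3_cell t t3)).symm.trans b1, key _ (left_mem_segment _ _ _),
    key _ (right_mem_segment _ _ _), a2⟩

lemma st4f_three {C : Finset ℕ} {a : ℕ → ℕ} {r : ℝ} (hr : 0 < r) (hC : 2 * r ≤ #C)
    (h : ∀ τ ∈ C, (#{τ' ∈ C | a τ' = a τ} : ℝ) < r) :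
    ∃ τ1 ∈ C, ∃ τ2 ∈ C, ∃ τ3 ∈ C, a τ1 ≠ a τ2 ∧ a τ1 ≠ a τ3 ∧ a τ2 ≠ a τ3 := by
  have key : ∀ τ1 ∈ C, ∀ τ2 ∈ C, ∃ τ3 ∈ C, a τ1 ≠ a τ3 ∧ a τ2 ≠ a τ3 := by
    intro τ1 h1 τ2 h2
    by_contra hn
    have : C ⊆ {τ' ∈ C | a τ' = a τ1} ∪ {τ' ∈ C | a τ' = a τ2} := fun τ hτ => by
      simp only [mem_union, mem_filter]
      by_contra hh
      exact hn ⟨τ, hτ, fun e => hh (Or.inl ⟨hτ, e.symm⟩), fun e => hh (Or.inr ⟨hτ, e.symm⟩)⟩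
    have : (#C : ℝ) ≤ #{τ' ∈ C | a τ' = a τ1} + #{τ' ∈ C | a τ' = a τ2} := by
      exact_mod_cast (card_le_card this).trans (card_union_le _ _)
    linarith [h τ1 h1, h τ2 h2]
  obtain ⟨τ1, h1⟩ : C.Nonempty := card_pos.1 (by exact_mod_cast (by linarith : (0 : ℝ) < #C))
  obtain ⟨τ2, h2, e, -⟩ := key τ1 h1 τ1 h1
  obtain ⟨τ3, h3, e'⟩ := key τ1 h1 τ2 h2
  exact ⟨τ1, h1, τ2, h2, τ3, h3, e, e'⟩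

/-- The `≥ 2 θ D0` counted edges `τ` have cells `a τ`, and fewer than `θ D0` of them have a given
cell (they are counted by `R`), so three different cells occur, on three different cell pieces of
`δ` (`pc_label`); these are ordered by `(pc cc ·).2` (`pos_lt_of_pc`).  Take the edges of `E3` of the
middle cell piece (`E5_long`).  Along `δ` both `hh (xl J)` and `hh (xh J)` increase (`piece_cone` at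
level `jr`, `Cone.hh_lt`), so the endpoints of an edge strictly between the first and the last of the
three edges are in the sector (`cross_pt`). -/
theorem OK.AA_por (h : Z.OK k) {θ : ℝ} (hθ : 0 < θ) {z : Pt × ℕ × (ℕ × ℕ)} (hz : z ∈ Z.AA θ) :
    (∃ τ ∈ Z.E2, Z.Q.u τ = z.1 ∧ τ / 2 ^ Z.ja = z.2.1) ∧
    ∃ por ⊆ Z.E3, Z.beta * Z.d ≤ k * #por ∧ ∀ t ∈ por, Z.G.pc Z.c t = z.2.2 ∧
      Z.ball (Z.Q.u t) = Z.ball z.1 ∧ Z.ball (Z.Q.v t) = Z.ball z.1 ∧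
      Cone (Z.xl z.2.1) (Z.xh z.2.1) z.1 (Z.Q.u t) ∧ Cone (Z.xl z.2.1) (Z.xh z.2.1) z.1 (Z.Q.v t) ∧
      (z.2.1 + 1) * 2 ^ Z.ja ≤ t / 2 ^ Z.jr * 2 ^ Z.jr := by
  obtain ⟨p, J, δ⟩ := z
  have hcnt := (mem_filter.1 hz).2
  unfold cnt at hcnt
  simp only at hcnt ⊢
  set C := {τ ∈ Z.E2 | Z.Q.u τ = p ∧ τ / 2 ^ Z.ja = J ∧ ∃ x ∈ Z.XX, Z.G.pc Z.c x.2 = δ ∧
    Z.G.pc Z.c τ = Z.G.pc Z.c x.1 ∧ Z.G.pos τ < Z.G.pos x.1 ∧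
    Z.R τ (Z.cell (Z.Q.u x.1)) < θ * Z.D0} with hC
  have hm : ∀ τ ∈ C, ∃ x, τ ∈ Z.E2 ∧ Z.Q.u τ = p ∧ τ / 2 ^ Z.ja = J ∧ x ∈ Z.XX ∧
      Z.G.pc Z.c x.2 = δ ∧ Z.G.pc Z.c τ = Z.G.pc Z.c x.1 ∧ Z.G.pos τ < Z.G.pos x.1 ∧
      Z.R τ (Z.cell (Z.Q.u x.1)) < θ * Z.D0 := fun τ hτ => by
    obtain ⟨a1, a2, a3, x, a4⟩ := mem_filter.1 hτ
    exact ⟨x, a1, a2, a3, a4⟩
  choose! x x1 x2 x3 x4 x5 x6 x7 x8 using hm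
  have hD : (0 : ℝ) < Z.D0 := by exact_mod_cast h.ok.ok.D0_pos
  obtain ⟨τ1, h1, τ2, h2, τ3, h3, n1, n2, n3⟩ := st4f_three (C := C)
    (a := fun τ => Z.cell (Z.Q.u (x τ).1)) (mul_pos hθ hD) (by linarith) fun τ hτ => by
      refine lt_of_le_of_lt ?_ (x8 τ hτ)
      refine Nat.cast_le.2 (card_le_card fun τ' hτ' => ?_)
      obtain ⟨b1, b2⟩ := mem_filter.1 hτ'
      refine mem_filter.2 ⟨x1 τ' b1, (x3 τ' b1).trans (x3 τ hτ).symm,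
        (x2 τ' b1).trans (x2 τ hτ).symm, ?_⟩
      rw [x6 τ' b1]
      exact mem_image_of_mem _ (mem_filter.2 ⟨(OK.st4f_XX (x4 τ' b1)).1.1, b2⟩)
  refine ⟨⟨τ1, x1 τ1 h1, x2 τ1 h1, x3 τ1 h1⟩, ?_⟩
  have hl : ∀ τ ∈ C, τ < 2 ^ Z.Q.μ := fun τ hτ => mem_range.1 (h.ok.ok.sub (x1 τ hτ))
  have hne : ∀ τ ∈ C, ∀ τ' ∈ C, Z.cell (Z.Q.u (x τ).1) ≠ Z.cell (Z.Q.u (x τ').1) →
      (Z.G.pc Z.cc (x τ).2).2 ≠ (Z.G.pc Z.cc (x τ').2).2 := fun τ hτ τ' hτ' hn e => by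
    have y1 := OK.st4f_XX (x4 τ hτ)
    have y2 := OK.st4f_XX (x4 τ' hτ')
    rw [y1.2.1, y2.2.1] at hn
    exact hn (Z.G.pc_label Z.cell h.ok.cc_cell (h.st4f_E3 (h.E5_sub y1.1.2))
      (h.st4f_E3 (h.E5_sub y2.1.2))
      (Prod.ext (Z.G.pc_pid ((x5 τ hτ).trans (x5 τ' hτ').symm)) e))
  have main := fun τ (hτ : τ ∈ C) τ' (hτ' : τ' ∈ C) τ'' (hτ'' : τ'' ∈ C) =>
    h.st4f_mid (hl τ hτ) (hl τ'' hτ'') (x2 τ hτ) (x2 τ'' hτ'') (x3 τ hτ) (x3 τ'' hτ'') (x4 τ hτ)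
      (x4 τ'' hτ'') (x6 τ hτ) (x7 τ hτ) (x6 τ'' hτ'') (x7 τ'' hτ'') (x5 τ hτ) (x5 τ'' hτ'')
      (OK.st4f_XX (x4 τ' hτ')).1.2 (x5 τ' hτ')
  have m1 := hne τ1 h1 τ2 h2 n1
  have m2 := hne τ1 h1 τ3 h3 n2
  have m3 := hne τ2 h2 τ3 h3 n3
  rcases m1.lt_or_gt with m1 | m1 <;> rcases m2.lt_or_gt with m2 | m2 <;>
    rcases m3.lt_or_gt with m3 | m3
  · exact main τ1 h1 τ2 h2 τ3 h3 m1 m3
  · exact main τ1 h1 τ3 h3 τ2 h2 m2 m3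
  · exact main τ1 h1 τ2 h2 τ3 h3 m1 m3
  · exact main τ3 h3 τ1 h1 τ2 h2 m2 m1
  · exact main τ2 h2 τ1 h1 τ3 h3 m1 m2
  · exact main τ2 h2 τ1 h1 τ3 h3 m1 m2
  · exact main τ2 h2 τ3 h3 τ1 h1 m3 m2
  · exact main τ3 h3 τ2 h2 τ1 h1 m3 m1

end Dat4

end Crest.Agent.R051
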