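import Crest.Agent.R051.St4e
import Crest.Agent.R051.St4f

/-! Row 51: good vertices and the total budgets of the balls. -/

set_option autoImplicit false

open Finset
open scoped Classical

namespace Crest.Agent.R051

namespace Dat4

variable {Z : Dat4} {k : ℝ}

/-- sectors of `p` -/
noncomputable def JJp (Z : Dat4) (p : Pt) : Finset ℕ :=
  {τ ∈ Z.E2 | Z.Q.u τ = p}.image fun τ => τ / 2 ^ Z.ja

/-- pairs (sector, piece) of `p` -/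
noncomputable def Ap (Z : Dat4) (θ : ℝ) (p : Pt) : Finset (ℕ × (ℕ × ℕ)) :=
  {z ∈ Z.AA θ | z.1 = p}.image Prod.snd

theorem OK.st5a_beta (h : Z.OK k) : 0 < Z.beta := by
  have := h.ok.ok.lam1
  exact lt_of_lt_of_le (by positivity) h.ok.beta_lo

theorem OK.st5a_por (h : Z.OK k) {θ : ℝ} (hθ : 0 < θ) {p : Pt} {x : ℕ × (ℕ × ℕ)}
    (hx : x ∈ Z.Ap θ p) : x.1 < 2 ^ (Z.Q.μ - Z.ja) ∧ ∃ por ⊆ Z.E3, Z.beta * Z.d ≤ k * #por ∧
      ∀ t ∈ por, Z.G.pc Z.c t = x.2 ∧ Z.ball (Z.Q.u t) = Z.ball p ∧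
        Cone (Z.xl x.1) (Z.xh x.1) p (Z.Q.u t) := by
  obtain ⟨z, hz, rfl⟩ := mem_image.1 hx
  obtain ⟨hz1, rfl⟩ := mem_filter.1 hz
  obtain ⟨-, por, h1, h2, h3⟩ := h.AA_por hθ hz1
  refine ⟨mem_range.1 (mem_product.1 (mem_product.1 (mem_filter.1 hz1).1).2).1, por, h1, h2,
    fun t ht => ⟨(h3 t ht).1, (h3 t ht).2.1, (h3 t ht).2.2.2.1⟩⟩

/-- all these pieces have an edge of `E3` starting in the ball of `p` (`AA_por`, `E3_ball`) -/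
theorem OK.Ap_snd (h : Z.OK k) {θ : ℝ} (hθ : 0 < θ) (p : Pt) :
    (#((Z.Ap θ p).image Prod.snd) : ℝ) ≤ k * Z.M := by
  have o := h.ok.ok
  have hk : 0 < k := by linarith [o.k2]
  have hd : 0 < Z.d := by linarith [o.d1]
  have key : ∀ δ ∈ (Z.Ap θ p).image Prod.snd, ∃ t ∈ Z.E3, Z.G.pc Z.c t = δ ∧
      Z.ball (Z.Q.u t) = Z.ball p := by
    intro δ hδ
    obtain ⟨x, hx, rfl⟩ := mem_image.1 hδ
    obtain ⟨-, por, h1, h2, h3⟩ := h.st5a_por hθ hx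
    have h4 : (0 : ℝ) < #por :=
      (mul_pos_iff_of_pos_left hk).1 (lt_of_lt_of_le (mul_pos h.st5a_beta hd) h2)
    obtain ⟨t, ht⟩ := card_pos.1 (by exact_mod_cast h4 : 0 < #por)
    exact ⟨t, h1 ht, (h3 t ht).1, (h3 t ht).2.1⟩
  rcases ((Z.Ap θ p).image Prod.snd).eq_empty_or_nonempty with e | ⟨δ₀, hδ₀⟩
  · rw [e]; simpa using (mul_pos hk o.M_pos).le
  obtain ⟨t₀, ht₀, -, hb₀⟩ := key δ₀ hδ₀
  refine le_trans ?_ (h.E3_ball t₀ ht₀)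
  refine Nat.cast_le.2 (card_le_card fun δ hδ => ?_)
  obtain ⟨t, ht, h1, h2⟩ := key δ hδ
  exact mem_image.2 ⟨t, mem_filter.2 ⟨o.sub (h.E3_sub ht), h2.trans hb₀.symm⟩, h1⟩

/-- for a fixed piece `δ` (at most `2 ell` edges) the portions in different sectors are disjoint
(`sector_eq`) and have `β d / k` edges, so at most `2 k b / β = 2 k z L` sectors occur -/
theorem OK.Ap_card (h : Z.OK k) {θ z : ℝ} (hθ : 0 < θ) (hz : Z.beta * z * Z.L = Z.b) (p : Pt) :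
    (#(Z.Ap θ p) : ℝ) ≤ 2 * k ^ 2 * z * (Z.M * Z.L) := by
  have o := h.ok.ok
  have hk : 0 < k := by linarith [o.k2]
  have hd : 0 < Z.d := by linarith [o.d1]
  have hL : 0 < Z.L := by linarith [o.L1]
  have hβ := h.st5a_beta
  have hz0 : 0 < z := by
    have h1 : 0 < Z.beta * z * Z.L := by rw [hz]; exact o.b_pos
    exact (mul_pos_iff_of_pos_left hβ).1 ((mul_pos_iff_of_pos_right hL).1 h1)
  choose! por hp1 hp2 hp3 using fun x (hx : x ∈ Z.Ap θ p) => (h.st5a_por hθ hx).2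
  have fib : ∀ δ, (#{x ∈ Z.Ap θ p | x.2 = δ} : ℝ) ≤ 2 * k * z * Z.L := by
    intro δ
    have a1 : ∑ x ∈ Z.Ap θ p with x.2 = δ, #(por x) ≤ #{t ∈ Z.Q.E | Z.G.pc Z.c t = δ} := by
      rw [← card_biUnion]
      · refine card_le_card fun t ht => ?_
        obtain ⟨x, hx, ht⟩ := mem_biUnion.1 ht
        obtain ⟨hx1, hx2⟩ := mem_filter.1 hx
        exact mem_filter.2 ⟨o.sub (h.E3_sub (hp1 x hx1 ht)), (hp3 x hx1 t ht).1.trans hx2⟩
      · intro x hx x' hx' hne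
        obtain ⟨hx1, hx2⟩ := mem_filter.1 (mem_coe.1 hx)
        obtain ⟨hx1', hx2'⟩ := mem_filter.1 (mem_coe.1 hx')
        refine disjoint_left.2 fun t ht ht' => hne (Prod.ext ?_ (hx2.trans hx2'.symm))
        exact o.sector_eq (h.st5a_por hθ hx1).1 (h.st5a_por hθ hx1').1 (hp3 x hx1 t ht).2.2
          (hp3 x' hx1' t ht').2.2
    have a2 : (#{x ∈ Z.Ap θ p | x.2 = δ} : ℝ) * (Z.beta * Z.d) ≤
        k * ∑ x ∈ Z.Ap θ p with x.2 = δ, (#(por x) : ℝ) := by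
      rw [mul_sum, ← nsmul_eq_mul, ← sum_const]
      exact sum_le_sum fun x hx => hp2 x (mem_filter.1 hx).1
    have a3 : ∑ x ∈ Z.Ap θ p with x.2 = δ, (#(por x) : ℝ) ≤ 2 * Z.ell :=
      le_trans (by exact_mod_cast a1) (h.ok.c_len δ)
    have a4 : k * (2 * Z.ell) = 2 * k * z * Z.L * (Z.beta * Z.d) := by
      rw [Dat.ell, ← hz]; ring
    refine le_of_mul_le_mul_right ?_ (mul_pos hβ hd)
    rw [← a4]
    exact a2.trans (mul_le_mul_of_nonneg_left a3 hk.le)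
  have b1 : (#(Z.Ap θ p) : ℝ) = ∑ δ ∈ (Z.Ap θ p).image Prod.snd, (#{x ∈ Z.Ap θ p | x.2 = δ} : ℝ) := by
    exact_mod_cast card_eq_sum_card_image Prod.snd (Z.Ap θ p)
  rw [b1]
  refine (sum_le_sum fun δ _ => fib δ).trans ?_
  rw [sum_const, nsmul_eq_mul]
  have := mul_le_mul_of_nonneg_right (h.Ap_snd hθ p) (by positivity : 0 ≤ 2 * k * z * Z.L)
  linarith

/-- `∑ #(Ap p) = #AA`, so `n / (16 k⁴ z)` points have `#(Ap p) ≥ M L / (8 k²)`;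
`∑ #(JJp p) ≤ k n L` (`stars`), so at most `n / (32 k⁴ z)` points have `#(JJp p) > 32 k⁵ z L` -/
theorem OK.good_pts (h : Z.OK k) {θ z : ℝ} (hθ : 0 < θ) (hz1 : 1 ≤ z)
    (hz : Z.beta * z * Z.L = Z.b) (hA : Z.n * Z.M * Z.L ≤ 4 * k ^ 2 * #(Z.AA θ)) :
    Z.n ≤ 32 * k ^ 4 * z * #{p ∈ Z.Q.P | Z.M * Z.L ≤ 8 * k ^ 2 * #(Z.Ap θ p) ∧
      (#(Z.JJp p) : ℝ) ≤ 32 * k ^ 5 * z * Z.L} := by
  have o := h.ok.ok
  have hk : 0 < k := by linarith [o.k2]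
  have hL : 0 < Z.L := by linarith [o.L1]
  have hM := o.M_pos
  have hz0 : 0 < z := by linarith
  set big := {p ∈ Z.Q.P | Z.M * Z.L ≤ 8 * k ^ 2 * #(Z.Ap θ p)} with hbig
  set bad := {p ∈ Z.Q.P | ¬(#(Z.JJp p) : ℝ) ≤ 32 * k ^ 5 * z * Z.L} with hbad
  have a1 : (#(Z.AA θ) : ℝ) ≤ ∑ p ∈ Z.Q.P, (#(Z.Ap θ p) : ℝ) := by
    have : #(Z.AA θ) = ∑ p ∈ Z.Q.P, #{x ∈ Z.AA θ | x.1 = p} :=
      card_eq_sum_card_fiberwise fun x hx => (mem_product.1 (mem_filter.1 hx).1).1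
    rw [this]
    push_cast
    refine le_of_eq (sum_congr rfl fun p _ => ?_)
    rw [Ap, card_image_of_injOn]
    intro x hx x' hx' e
    exact Prod.ext ((mem_filter.1 (mem_coe.1 hx)).2.trans (mem_filter.1 (mem_coe.1 hx')).2.symm) e
  have a2 : 8 * k ^ 2 * ∑ p ∈ Z.Q.P, (#(Z.Ap θ p) : ℝ) ≤
      #big * (16 * k ^ 4 * z * (Z.M * Z.L)) + Z.n * (Z.M * Z.L) := by
    have e1 : (#big : ℝ) * (16 * k ^ 4 * z * (Z.M * Z.L)) = ∑ p ∈ Z.Q.P,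
        if Z.M * Z.L ≤ 8 * k ^ 2 * #(Z.Ap θ p) then 16 * k ^ 4 * z * (Z.M * Z.L) else 0 := by
      rw [← sum_filter, sum_const, nsmul_eq_mul]
    have e2 : Z.n * (Z.M * Z.L) = ∑ _p ∈ Z.Q.P, Z.M * Z.L := by
      rw [sum_const, nsmul_eq_mul]; rfl
    rw [e1, e2, ← sum_add_distrib, mul_sum]
    refine sum_le_sum fun p _ => ?_
    have c1 := mul_le_mul_of_nonneg_left (h.Ap_card hθ hz p) (by positivity : 0 ≤ 8 * k ^ 2)
    have c2 := mul_pos hM hL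
    split_ifs with hc
    · linarith
    · linarith
  have a3 : Z.n ≤ #big * (16 * k ^ 4 * z) := by
    refine le_of_mul_le_mul_right ?_ (mul_pos hM hL)
    have := mul_le_mul_of_nonneg_left a1 (by positivity : 0 ≤ 8 * k ^ 2)
    linarith
  have a4 : ∑ p ∈ bad, (#(Z.JJp p) : ℝ) ≤ k * Z.n * Z.L := by
    refine le_trans ?_ o.stars
    have : ∑ p ∈ bad, #(Z.JJp p) ≤ #(Z.E2.image fun τ => (Z.Q.u τ, τ / 2 ^ Z.ja)) := by
      rw [← card_sigma]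
      refine card_le_card_of_injOn (fun x => (x.1, x.2)) (fun x hx => ?_) ?_
      · obtain ⟨τ, hτ, e⟩ := mem_image.1 (mem_sigma.1 (mem_coe.1 hx)).2
        exact mem_coe.2 (mem_image.2 ⟨τ, (mem_filter.1 hτ).1,
          Prod.ext (mem_filter.1 hτ).2 e⟩)
      · rintro ⟨a, b⟩ _ ⟨a', b'⟩ _ e
        obtain ⟨rfl, rfl⟩ := Prod.mk.inj e
        rfl
    exact_mod_cast this
  have a5 : (#bad : ℝ) * (32 * k ^ 5 * z * Z.L) ≤ k * Z.n * Z.L := by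
    refine le_trans ?_ a4
    rw [← nsmul_eq_mul, ← sum_const]
    exact sum_le_sum fun p hp => (not_le.1 (mem_filter.1 hp).2).le
  have a6 : (#bad : ℝ) * (32 * k ^ 4 * z) ≤ Z.n := by
    refine le_of_mul_le_mul_right ?_ (mul_pos hk hL)
    linarith
  have a7 : #big ≤ #{p ∈ Z.Q.P | Z.M * Z.L ≤ 8 * k ^ 2 * #(Z.Ap θ p) ∧
      (#(Z.JJp p) : ℝ) ≤ 32 * k ^ 5 * z * Z.L} + #bad := by
    refine le_trans (card_le_card fun p hp => ?_) (card_union_le _ _)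
    obtain ⟨h1, h2⟩ := mem_filter.1 hp
    by_cases hc : (#(Z.JJp p) : ℝ) ≤ 32 * k ^ 5 * z * Z.L
    · exact mem_union_left _ (mem_filter.2 ⟨h1, h2, hc⟩)
    · exact mem_union_right _ (mem_filter.2 ⟨h1, hc⟩)
  have a8 := mul_le_mul_of_nonneg_right (Nat.cast_le (α := ℝ).2 a7)
    (by positivity : 0 ≤ 32 * k ^ 4 * z)
  push_cast at a8
  linarith

end Dat4

theorem st5a_classes (S P : Finset Pt) (f : Pt → ℕ) (Bs : Finset ℕ) :
    ∑ x ∈ Bs, (#(S ∩ {q ∈ P | f q = x}) : ℝ) ≤ #S := by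
  have : ∑ x ∈ Bs, #(S ∩ {q ∈ P | f q = x}) ≤ #S := by
    rw [← card_biUnion]
    · refine card_le_card fun q hq => ?_
      obtain ⟨x, -, hx⟩ := mem_biUnion.1 hq
      exact (mem_inter.1 hx).1
    · intro x _ x' _ hne
      refine disjoint_left.2 fun q hq hq' => hne ?_
      exact (mem_filter.1 (mem_inter.1 hq).2).2.symm.trans (mem_filter.1 (mem_inter.1 hq').2).2
  exact_mod_cast this

theorem st5a_lens (Q : Proc) {j a : ℕ} (hj : j ≤ Q.μ) (ha : a < 2 ^ (Q.μ - j)) :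
    (#(Q.lens (a * 2 ^ j) ((a + 1) * 2 ^ j)) : ℝ) = 2 * Q.K j a := by
  have h1 : (a + 1) * 2 ^ j ≤ 2 ^ Q.μ := by
    calc (a + 1) * 2 ^ j ≤ 2 ^ (Q.μ - j) * 2 ^ j := Nat.mul_le_mul_right _ ha
      _ = 2 ^ Q.μ := by rw [← pow_add, Nat.sub_add_cancel hj]
  have h2 : a * 2 ^ j ≤ 2 ^ Q.μ := le_trans (Nat.mul_le_mul_right _ (Nat.le_succ a)) h1
  rw [Q.card_lens h2 h1, Proc.K]
  push_cast
  rfl

/-- the classes are disjoint, `card_lens`, `g1a` -/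
theorem Base.EB_tot {Q : Proc} {k d : ℝ} (h : Base Q k d) {j : ℕ} (hj : j ≤ Q.μ) (f : Pt → ℕ)
    (Bs : Finset ℕ) :
    ∑ x ∈ Bs, ∑ a ∈ range (2 ^ (Q.μ - j)),
      (#(Q.lens (a * 2 ^ j) ((a + 1) * 2 ^ j) ∩ {q ∈ Q.P | f q = x}) : ℝ) ≤
      2 * k * #Q.P / rho Q.μ j := by
  rw [sum_comm]
  refine (sum_le_sum fun a ha => (st5a_classes _ _ f Bs).trans
    (st5a_lens Q hj (mem_range.1 ha)).le).trans ?_
  rw [← mul_sum, mul_assoc, mul_div_assoc]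
  exact mul_le_mul_of_nonneg_left (h.g1a j hj) (by norm_num)

/-- `#lens = 2 K j a ≤ 2 K (j+1) (a/2)` and `K (j+1) (a/2) ≤ K jr (..) ≤ D ≤ n σ³` (`K_mono`,
`win_div`-type identities); each window of level `j+1` has two halves; `g1b` at level `j+1` and
`jr ≤ μ ≤ k` -/
theorem Base.FB_tot {Q : Proc} {k d : ℝ} (h : Base Q k d) {jr : ℕ} (hj : jr ≤ Q.μ) (f : Pt → ℕ)
    (Bs : Finset ℕ) {D σ : ℝ} (hσ : 0 < σ) (hD : D ≤ #Q.P * σ ^ 3) :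
    ∑ x ∈ Bs, ∑ j ∈ range jr, ∑ a ∈ range (2 ^ (Q.μ - j)) with
      (Q.K jr (a / 2 ^ (jr - j)) : ℝ) ≤ D,
      (#(Q.lens (a * 2 ^ j) ((a + 1) * 2 ^ j) ∩ {q ∈ Q.P | f q = x}) : ℝ) * Q.K (j + 1) (a / 2) ≤
      4 * k ^ 2 * (#Q.P : ℝ) ^ 2 * σ ^ 2 := by
  have hk : 0 < k := by linarith [h.k2]
  rw [sum_comm]
  have lev : ∀ j ∈ range jr, ∑ x ∈ Bs, ∑ a ∈ range (2 ^ (Q.μ - j)) with
      (Q.K jr (a / 2 ^ (jr - j)) : ℝ) ≤ D,
      (#(Q.lens (a * 2 ^ j) ((a + 1) * 2 ^ j) ∩ {q ∈ Q.P | f q = x}) : ℝ) * Q.K (j + 1) (a / 2) ≤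
      4 * (k * (#Q.P : ℝ) ^ 2 * σ ^ 2) := by
    intro j hjr
    have hj1 : j + 1 ≤ jr := mem_range.1 hjr
    have hpow : 2 ^ (Q.μ - j) = 2 ^ (Q.μ - (j + 1)) * 2 := by
      rw [← pow_succ]; congr 1; omega
    rw [sum_comm]
    have b1 : ∀ a ∈ {a ∈ range (2 ^ (Q.μ - j)) | (Q.K jr (a / 2 ^ (jr - j)) : ℝ) ≤ D},
        ∑ x ∈ Bs, (#(Q.lens (a * 2 ^ j) ((a + 1) * 2 ^ j) ∩ {q ∈ Q.P | f q = x}) : ℝ) *
          Q.K (j + 1) (a / 2) ≤ 2 * (Q.K (j + 1) (a / 2) : ℝ) ^ 2 := by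
      intro a ha
      have ha1 := mem_range.1 (mem_filter.1 ha).1
      have c1 := (st5a_classes _ Q.P f Bs).trans (st5a_lens Q (by omega) ha1).le
      have c2 := Q.K_mono (Nat.le_succ j) (by omega : j + 1 ≤ Q.μ) ha1
      simp only [Nat.succ_eq_add_one, Nat.add_sub_cancel_left, pow_one] at c2
      have c3 : (Q.K j a : ℝ) ≤ Q.K (j + 1) (a / 2) := by exact_mod_cast c2
      rw [← sum_mul]
      have c4 : (0 : ℝ) ≤ Q.K (j + 1) (a / 2) := Nat.cast_nonneg _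
      nlinarith [mul_le_mul_of_nonneg_right c1 c4, mul_le_mul_of_nonneg_right c3 c4]
    refine (sum_le_sum b1).trans ?_
    have b2 : ∀ a ∈ {a ∈ range (2 ^ (Q.μ - j)) | (Q.K jr (a / 2 ^ (jr - j)) : ℝ) ≤ D},
        a / 2 ∈ {a ∈ range (2 ^ (Q.μ - (j + 1))) | (Q.K (j + 1) a : ℝ) ≤ #Q.P * σ ^ 3} := by
      intro a ha
      obtain ⟨ha1, ha2⟩ := mem_filter.1 ha
      have d1 : a / 2 < 2 ^ (Q.μ - (j + 1)) := by
        have := mem_range.1 ha1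
        omega
      have d2 := Q.K_mono hj1 hj d1
      have d3 : a / 2 / 2 ^ (jr - (j + 1)) = a / 2 ^ (jr - j) := by
        rw [Nat.div_div_eq_div_mul, ← pow_succ']; congr 2; omega
      rw [d3] at d2
      exact mem_filter.2 ⟨mem_range.2 d1, le_trans (by exact_mod_cast d2) (ha2.trans hD)⟩
    rw [← sum_fiberwise_of_maps_to b2]
    refine le_trans (sum_le_sum fun a' _ => ?_) (le_trans (le_of_eq (mul_sum _ _ _).symm)
      (mul_le_mul_of_nonneg_left (h.g1b (j + 1) (by omega) σ hσ) (by norm_num)))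
    have e1 : ∑ a ∈ {a ∈ range (2 ^ (Q.μ - j)) | (Q.K jr (a / 2 ^ (jr - j)) : ℝ) ≤ D} with
        a / 2 = a', 2 * (Q.K (j + 1) (a / 2) : ℝ) ^ 2 ≤
        ∑ a ∈ ({2 * a', 2 * a' + 1} : Finset ℕ), 2 * (Q.K (j + 1) (a / 2) : ℝ) ^ 2 := by
      refine sum_le_sum_of_subset_of_nonneg (fun a ha => ?_) fun _ _ _ => by positivity
      have := (mem_filter.1 ha).2
      simp only [mem_insert, mem_singleton]
      omega
    refine e1.trans (le_of_eq ?_)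
    rw [sum_pair (by omega), show 2 * a' / 2 = a' by omega, show (2 * a' + 1) / 2 = a' by omega]
    ring
  refine (sum_le_sum lev).trans ?_
  rw [sum_const, card_range, nsmul_eq_mul]
  have f1 : (jr : ℝ) ≤ k := by
    have : (jr : ℝ) ≤ Q.μ := by exact_mod_cast hj
    linarith [h.mu]
  have := mul_le_mul_of_nonneg_right f1 (by positivity : 0 ≤ 4 * (k * (#Q.P : ℝ) ^ 2 * σ ^ 2))
  linarith

/-- simultaneous averaging -/
theorem exists_two_small {ι : Type*} (S : Finset ι) (hS : S.Nonempty) (f g : ι → ℝ)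
    (hf : ∀ x ∈ S, 0 ≤ f x) (hg : ∀ x ∈ S, 0 ≤ g x) {F G : ℝ} (hF : 0 < F) (hG : 0 < G)
    (h1 : ∑ x ∈ S, f x ≤ F) (h2 : ∑ x ∈ S, g x ≤ G) :
    ∃ x ∈ S, f x * #S ≤ 2 * F ∧ g x * #S ≤ 2 * G := by
  by_contra hc
  push Not at hc
  have hN : (0 : ℝ) < #S := by exact_mod_cast card_pos.2 hS
  have key : ∀ x ∈ S, 2 * F * G < (f x * G + g x * F) * #S := by
    intro x hx
    have a1 := mul_nonneg (mul_nonneg (hf x hx) hG.le) hN.le
    have a2 := mul_nonneg (mul_nonneg (hg x hx) hF.le) hN.le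
    by_cases h : f x * #S ≤ 2 * F
    · have := mul_lt_mul_of_pos_right (hc x hx h) hF
      nlinarith
    · have := mul_lt_mul_of_pos_right (not_le.1 h) hG
      nlinarith
  have h3 := sum_lt_sum_of_nonempty hS key
  rw [sum_const, nsmul_eq_mul, ← sum_mul, sum_add_distrib, ← sum_mul, ← sum_mul] at h3
  have h4 := mul_le_mul_of_nonneg_right h1 hG.le
  have h5 := mul_le_mul_of_nonneg_right h2 hF.le
  have h6 : ((∑ x ∈ S, f x) * G + (∑ x ∈ S, g x) * F) * #S ≤ (2 * F * G) * #S :=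
    mul_le_mul_of_nonneg_right (by linarith) hN.le
  linarith

end Crest.Agent.R051
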