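import Crest.Agent.R051.SBasic

/-! Row 51: a group of consecutive sectors crossed by many pieces. -/

set_option autoImplicit false

open Finset
open scoped Classical

namespace Crest.Agent.R051

lemma s6a_grp (JJ : Finset ℕ) (G : ℕ) (hG : 1 ≤ G) (a : ℕ) :
    #{i ∈ JJ | #{j ∈ JJ | j < i} / G = a} ≤ G := by
  have h : #{i ∈ JJ | #{j ∈ JJ | j < i} / G = a} ≤ #(Ico (a * G) ((a + 1) * G)) := by
    refine card_le_card_of_injOn (fun i => #{j ∈ JJ | j < i}) (fun i hi => ?_) ?_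
    · have e := (mem_filter.1 (mem_coe.1 hi)).2
      rw [coe_Ico, Set.mem_Ico]
      refine ⟨?_, ?_⟩
      · rw [← e]; exact Nat.div_mul_le_self _ _
      · rw [← e]; exact (Nat.div_lt_iff_lt_mul hG).1 (Nat.lt_succ_self _)
    · have m : ∀ i ∈ JJ, ∀ i', i < i' → #{j ∈ JJ | j < i} < #{j ∈ JJ | j < i'} := by
        intro i hi i' hlt
        refine card_lt_card ⟨fun j hj => mem_filter.2 ⟨(mem_filter.1 hj).1,
          (mem_filter.1 hj).2.trans hlt⟩, fun hs => ?_⟩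
        exact lt_irrefl _ (mem_filter.1 (hs (mem_filter.2 ⟨hi, hlt⟩))).2
      intro i hi i' hi' e
      have h1 := (mem_filter.1 (mem_coe.1 hi)).1
      have h2 := (mem_filter.1 (mem_coe.1 hi')).1
      rcases lt_trichotomy i i' with h | h | h
      · exact absurd e (m i h1 i' h).ne
      · exact h
      · exact absurd e (m i' h2 i h).ne'
  rw [Nat.card_Ico, add_mul, one_mul, Nat.add_sub_cancel_left] at h
  exact h

lemma s6a_fib {ι : Type*} (JJ : Finset ℕ) (Γ0 : Finset ι) (F : Finset (ℕ × ι))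
    (hF : F ⊆ JJ ×ˢ Γ0) (G : ℕ) (g : ℕ → ℕ) (hg : ∀ a, #{i ∈ JJ | g i = a} ≤ G)
    (h : ∀ x ∈ F, ∀ y ∈ F, x.2 = y.2 → g x.1 = g y.1) : #F ≤ G * #Γ0 := by
  refine card_le_mul_card_image_of_maps_to (f := Prod.snd)
    (fun x hx => (mem_product.1 (hF hx)).2) G fun δ _ => ?_
  rcases ({x ∈ F | x.2 = δ}).eq_empty_or_nonempty with he | ⟨y, hy⟩
  · rw [he, card_empty]; exact Nat.zero_le _
  refine le_trans (card_le_card_of_injOn Prod.fst (fun x hx => ?_) ?_) (hg (g y.1))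
  · have hx' := mem_filter.1 (mem_coe.1 hx)
    have hy' := mem_filter.1 hy
    exact mem_coe.2 (mem_filter.2 ⟨(mem_product.1 (hF hx'.1)).1,
      h x hx'.1 y hy'.1 (hx'.2.trans hy'.2.symm)⟩)
  · intro x hx x' hx' e
    exact Prod.ext e ((mem_filter.1 (mem_coe.1 hx)).2.trans (mem_filter.1 (mem_coe.1 hx')).2.symm)

lemma s6a_num {k L M a γ jj T : ℝ} {G : ℝ} (hk : 2 ≤ k) (hL : k ^ 9 ≤ L) (hM : 0 < M)
    (hG1 : L / (8 * k ^ 2) ≤ G) (hG2 : G ≤ L / (8 * k ^ 2) + 1) (hT : 0 ≤ T) (hγ0 : 0 ≤ γ)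
    (hA : M * L ≤ k * a) (hγ : γ ≤ k * M) (hj : jj ≤ k * L)
    (h : a ≤ 2 * G * γ + (jj / G + 1) * T) : G ≤ L ∧ M * L ≤ k ^ 9 * T := by
  have k0 : 0 < k := by linarith
  have k7 : (8 : ℝ) ≤ k ^ 7 := le_trans (by norm_num) (pow_le_pow_left₀ (by norm_num) hk 7)
  have k5 : (18 : ℝ) ≤ k ^ 5 := le_trans (by norm_num) (pow_le_pow_left₀ (by norm_num) hk 5)
  have k3 : (1 : ℝ) ≤ k ^ 3 := one_le_pow₀ (by linarith)
  have k2 : (1 : ℝ) ≤ k ^ 2 := one_le_pow₀ (by linarith)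
  have h8 : 8 * k ^ 2 ≤ L := by
    refine le_trans ?_ hL
    calc 8 * k ^ 2 ≤ k ^ 7 * k ^ 2 := by gcongr
      _ = k ^ 9 := by ring
  have L0 : 0 < L := by linarith
  have h1 : 1 ≤ L / (8 * k ^ 2) := (one_le_div (by positivity)).2 h8
  have G0 : 0 < G := by linarith
  have h2 : G ≤ L / (4 * k ^ 2) := by
    have : L / (4 * k ^ 2) = 2 * (L / (8 * k ^ 2)) := by field_simp; ring
    linarith
  have h3 : jj / G ≤ 8 * k ^ 3 := by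
    rw [div_le_iff₀ G0]
    rw [div_le_iff₀ (by positivity)] at hG1
    calc jj ≤ k * L := hj
      _ ≤ k * (G * (8 * k ^ 2)) := by gcongr
      _ = _ := by ring
  refine ⟨h2.trans (div_le_self L0.le (by linarith)), ?_⟩
  have h4 : k * (2 * G * γ) ≤ M * L / 2 := by
    calc k * (2 * G * γ) ≤ k * (2 * (L / (4 * k ^ 2)) * (k * M)) := by gcongr
      _ = M * L / 2 := by field_simp; ring
  have h5 : (jj / G + 1) * T ≤ 9 * k ^ 3 * T := mul_le_mul_of_nonneg_right (by linarith) hT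
  have h6 : k * a ≤ k * (2 * G * γ + 9 * k ^ 3 * T) := by
    refine mul_le_mul_of_nonneg_left ?_ k0.le
    linarith
  have h7 : M * L ≤ 18 * (k ^ 4 * T) := by
    have : k * (2 * G * γ + 9 * k ^ 3 * T) = k * (2 * G * γ) + 9 * (k ^ 4 * T) := by ring
    linarith
  calc M * L ≤ 18 * (k ^ 4 * T) := h7
    _ ≤ k ^ 5 * (k ^ 4 * T) := by gcongr
    _ = _ := by ring

/-- Group the elements of `JJ` by `rank / G`.  For each `δ` drop the incidences in the first and the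
last group met by `δ` (at most `2 G`); take the group with most remaining incidences. -/
theorem group_select {ι : Type*} (JJ : Finset ℕ) (Γ0 : Finset ι) (A : Finset (ℕ × ι))
    (hA : A ⊆ JJ ×ˢ Γ0) (G : ℕ) (hG : 1 ≤ G) :
    ∃ I ⊆ JJ, #I ≤ G ∧ ∃ Γ ⊆ Γ0,
      (∀ δ ∈ Γ, (∃ J, (J, δ) ∈ A ∧ ∀ i ∈ I, J < i) ∧ ∃ J, (J, δ) ∈ A ∧ ∀ i ∈ I, i < J) ∧
      #A ≤ 2 * G * #Γ0 + (#JJ / G + 1) * #{x ∈ A | x.1 ∈ I ∧ x.2 ∈ Γ} := by
  obtain ⟨g, hgdef⟩ : ∃ g : ℕ → ℕ, ∀ i, g i = #{j ∈ JJ | j < i} / G := ⟨_, fun _ => rfl⟩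
  have hg : ∀ a, #{i ∈ JJ | g i = a} ≤ G := fun a => by
    simp only [hgdef]
    exact s6a_grp JJ G hG a
  have hm : ∀ i i', g i < g i' → i < i' := fun i i' h => by
    by_contra hn
    refine absurd h (not_lt.2 ?_)
    rw [hgdef, hgdef]
    exact Nat.div_le_div_right (card_le_card fun j hj =>
      mem_filter.2 ⟨(mem_filter.1 hj).1, (mem_filter.1 hj).2.trans_le (not_lt.1 hn)⟩)
  have hr : ∀ i, g i ∈ range (#JJ / G + 1) := fun i => by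
    rw [mem_range, Nat.lt_succ_iff, hgdef]
    exact Nat.div_le_div_right (card_le_card (filter_subset _ _))
  set F1 := {x ∈ A | ¬ ∃ J, (J, x.2) ∈ A ∧ g J < g x.1} with hF1
  set F2 := {x ∈ A | ¬ ∃ J, (J, x.2) ∈ A ∧ g x.1 < g J} with hF2
  set Mid := {x ∈ A | (∃ J, (J, x.2) ∈ A ∧ g J < g x.1) ∧ ∃ J, (J, x.2) ∈ A ∧ g x.1 < g J}
    with hMid
  have c1 : #F1 ≤ G * #Γ0 := by
    refine s6a_fib JJ Γ0 F1 ((filter_subset _ _).trans hA) G g hg fun x hx y hy e => ?_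
    have hx' := mem_filter.1 hx
    have hy' := mem_filter.1 hy
    refine le_antisymm (not_lt.1 fun h => hx'.2 ⟨y.1, ?_, h⟩) (not_lt.1 fun h => hy'.2 ⟨x.1, ?_, h⟩)
    · rw [e]; exact hy'.1
    · rw [← e]; exact hx'.1
  have c2 : #F2 ≤ G * #Γ0 := by
    refine s6a_fib JJ Γ0 F2 ((filter_subset _ _).trans hA) G g hg fun x hx y hy e => ?_
    have hx' := mem_filter.1 hx
    have hy' := mem_filter.1 hy
    refine le_antisymm (not_lt.1 fun h => hy'.2 ⟨x.1, ?_, h⟩) (not_lt.1 fun h => hx'.2 ⟨y.1, ?_, h⟩)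
    · rw [← e]; exact hx'.1
    · rw [e]; exact hy'.1
  have c3 : #A ≤ #F1 + #F2 + #Mid := by
    refine le_trans (card_le_card (t := F1 ∪ F2 ∪ Mid) fun x hx => ?_)
      ((card_union_le _ _).trans (Nat.add_le_add_right (card_union_le _ _) _))
    rw [mem_union, mem_union]
    by_cases h1 : ∃ J, (J, x.2) ∈ A ∧ g J < g x.1
    · by_cases h2 : ∃ J, (J, x.2) ∈ A ∧ g x.1 < g J
      · exact Or.inr (mem_filter.2 ⟨hx, h1, h2⟩)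
      · exact Or.inl (Or.inr (mem_filter.2 ⟨hx, h2⟩))
    · exact Or.inl (Or.inl (mem_filter.2 ⟨hx, h1⟩))
  obtain ⟨a, -, ha⟩ := exists_max_image (range (#JJ / G + 1)) (fun a => #{x ∈ Mid | g x.1 = a})
    ⟨0, mem_range.2 (Nat.succ_pos _)⟩
  have c4 : #Mid ≤ #{x ∈ Mid | g x.1 = a} * #(range (#JJ / G + 1)) :=
    card_le_mul_card_image_of_maps_to (f := fun x : ℕ × ι => g x.1) (fun x _ => hr x.1) _ ha
  refine ⟨{i ∈ JJ | g i = a}, filter_subset _ _, hg a,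
    {δ ∈ Γ0 | (∃ J, (J, δ) ∈ A ∧ g J < a) ∧ ∃ J, (J, δ) ∈ A ∧ a < g J}, filter_subset _ _,
    fun δ hδ => ?_, ?_⟩
  · obtain ⟨-, ⟨J, h1, h2⟩, J', h3, h4⟩ := mem_filter.1 hδ
    exact ⟨⟨J, h1, fun i hi => hm _ _ (h2.trans_eq (mem_filter.1 hi).2.symm)⟩,
      J', h3, fun i hi => hm _ _ ((mem_filter.1 hi).2.trans_lt h4)⟩
  · rw [card_range, mul_comm] at c4
    refine c3.trans (Nat.add_le_add (by linarith) (c4.trans (Nat.mul_le_mul_left _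
      (card_le_card fun x hx => ?_))))
    obtain ⟨hx1, hx2⟩ := mem_filter.1 hx
    obtain ⟨hx3, hx4⟩ := mem_filter.1 hx1
    have hp := mem_product.1 (hA hx3)
    exact mem_filter.2 ⟨hx3, mem_filter.2 ⟨hp.1, hx2⟩, mem_filter.2 ⟨hp.2, hx2 ▸ hx4⟩⟩

/-- the combinatorial part of `Fan` -/
structure Dat6.Pre (X : Dat6) (k : ℝ) : Prop where
  ok : X.toDat5.OK k
  I_sub : X.I ⊆ X.JJ
  I_card : (#X.I : ℝ) ≤ X.L
  Γ_sub : X.Γ ⊆ X.Γ0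
  T_sub : ∀ x ∈ X.T, x ∈ X.A ∧ x.1 ∈ X.I ∧ x.2 ∈ X.Γ
  T_big : X.M * X.L ≤ k * #X.T
  wn_eq : ∀ t < 2 ^ X.Q.μ, X.G.pc X.c t ∈ X.Γ → t / 2 ^ X.jT = X.wn (X.G.pc X.c t)
  wr_eq : ∀ t < 2 ^ X.Q.μ, X.G.pc X.c t ∈ X.Γ → t / 2 ^ X.jr = X.wr (X.G.pc X.c t)
  Xs_gt : ∀ J ∈ X.I, X.xh J < X.Xs
  Xs_le : ∀ δ ∈ X.Γ, X.Xs ≤ X.Q.s (X.wr δ * 2 ^ X.jr)
  span : ∀ δ ∈ X.Γ, (∃ J, (J, δ) ∈ X.A ∧ ∀ i ∈ X.I, J < i) ∧ ∃ J, (J, δ) ∈ X.A ∧ ∀ i ∈ X.I, i < J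

/-- `group_select` with `G = ⌈L / (8 k²)⌉₊ ≤ L / (4 k²)` gives `#T ≥ M L / (18 k⁴)`.  `wn δ`, `wr δ`
are the windows of a chosen edge of `δ` (`pc_win`), `Xs = s ((max I + 2) 2 ^ ja)`; for `δ ∈ Γ` with
`(J, δ) ∈ A`, `J > max I`, an edge `t ∈ por (J, δ)` (`e0 > 0`) has
`(max I + 2) 2 ^ ja ≤ t / 2 ^ jr * 2 ^ jr`.  The fields `V'`, `et`, `xi` are arbitrary. -/
theorem prefan : ∃ C : ℕ, ∀ (W : Dat5) (k : ℝ), W.OK k → k ^ C ≤ W.lam →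
    ∃ Y : Dat6, Y.toDat5 = W ∧ Y.Pre (k ^ C) := by
  refine ⟨9, fun W k h hl => ?_⟩
  have o := h.ok
  have hk := o.k2
  have hL : k ^ 9 ≤ W.L := hl.trans (le_self_pow₀ o.lam1 (by norm_num))
  have L0 : 0 < W.L := zero_lt_one.trans_le o.L1
  have k0 : 0 < k := by linarith
  have hq : 0 < W.L / (8 * k ^ 2) := by positivity
  obtain ⟨I, hI, hIc, Γ, hΓ, hsp, hc⟩ := group_select W.JJ W.Γ0 W.A h.A_sub ⌈W.L / (8 * k ^ 2)⌉₊
    (Nat.ceil_pos.2 hq)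
  obtain ⟨T, hT, hc⟩ : ∃ T : Finset (ℕ × ℕ × ℕ), (∀ x, x ∈ T ↔ x ∈ W.A ∧ x.1 ∈ I ∧ x.2 ∈ Γ) ∧
      #W.A ≤ 2 * ⌈W.L / (8 * k ^ 2)⌉₊ * #W.Γ0 + (#W.JJ / ⌈W.L / (8 * k ^ 2)⌉₊ + 1) * #T :=
    ⟨_, fun x => @mem_filter _ _ (_) _ _, hc⟩
  have hc' : (#W.A : ℝ) ≤ 2 * (⌈W.L / (8 * k ^ 2)⌉₊ : ℝ) * #W.Γ0 +
      ((#W.JJ : ℝ) / (⌈W.L / (8 * k ^ 2)⌉₊ : ℝ) + 1) * #T := by
    have h1 : (#W.A : ℝ) ≤ 2 * (⌈W.L / (8 * k ^ 2)⌉₊ : ℝ) * #W.Γ0 +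
        (((#W.JJ / ⌈W.L / (8 * k ^ 2)⌉₊ : ℕ) : ℝ) + 1) * #T := by
      exact_mod_cast hc
    refine h1.trans (add_le_add le_rfl (mul_le_mul_of_nonneg_right ?_ (Nat.cast_nonneg _)))
    exact add_le_add Nat.cast_div_le le_rfl
  obtain ⟨n1, n2⟩ := s6a_num hk hL o.M_pos (Nat.le_ceil _) (Nat.ceil_lt_add_one hq.le).le
    (Nat.cast_nonneg _) (Nat.cast_nonneg _) h.A_big h.Γ0_card h.JJ_card hc'
  have hTne : T.Nonempty := by
    rw [← card_pos]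
    by_contra h0
    rw [Nat.eq_zero_of_not_pos h0, Nat.cast_zero, mul_zero] at n2
    exact absurd n2 (not_le.2 (mul_pos o.M_pos L0))
  obtain ⟨x0, hx0⟩ := hTne
  have hx0' := (hT _).1 hx0
  obtain ⟨m, hm, hmax⟩ := exists_max_image I id ⟨_, hx0'.2.1⟩
  obtain ⟨e, he⟩ : ∃ e : ℕ × ℕ → ℕ, ∀ t < 2 ^ W.Q.μ,
      e (W.G.pc W.c t) < 2 ^ W.Q.μ ∧ W.G.pc W.c (e (W.G.pc W.c t)) = W.G.pc W.c t :=
    ⟨fun δ => Classical.epsilon fun t => t < 2 ^ W.Q.μ ∧ W.G.pc W.c t = δ, fun t ht =>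
      Classical.epsilon_spec (p := fun t' => t' < 2 ^ W.Q.μ ∧ W.G.pc W.c t' = W.G.pc W.c t)
        ⟨t, ht, rfl⟩⟩
  have hwr : ∀ t < 2 ^ W.Q.μ, t / 2 ^ W.jr = e (W.G.pc W.c t) / 2 ^ W.jr := fun t ht =>
    W.G.pc_win (fun t ht hl => h.c_lev t ht (o.Tr.trans_lt hl)) ht (he t ht).1 (he t ht).2.symm
  have e0 : 0 < W.e0 := by
    by_contra h0
    have := h.e0_lo
    rw [Nat.eq_zero_of_not_pos h0, Nat.cast_zero, mul_zero] at this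
    exact absurd (o.ell_ge.trans this) (not_le.2 (pow_pos (zero_lt_one.trans_le o.lam1) _))
  refine ⟨{ W with
      I := I, Γ := Γ, T := T, V' := ∅, wn := fun δ => e δ / 2 ^ W.jT,
      wr := fun δ => e δ / 2 ^ W.jr, et := fun _ _ => 0, xi := fun _ _ => 0,
      Xs := W.Q.s ((m + 2) * 2 ^ W.ja) }, rfl, ?_⟩
  refine ⟨h.mono (le_self_pow₀ (by linarith) (by norm_num)), hI, ?_, hΓ,
    fun x hx => (hT x).1 hx, n2, fun t ht _ => ?_, fun t ht _ => hwr t ht,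
    fun J hJ => ?_, fun δ hδ => ?_, hsp⟩
  · exact le_trans (Nat.cast_le.2 hIc) n1
  · exact W.G.pc_win h.c_lev ht (he t ht).1 (he t ht).2.symm
  · obtain ⟨J', h1, h2⟩ := (hsp _ hx0'.2.2).2
    have h3 := win_le o.ja_le (mem_range.1 (h.JJ_sub (mem_product.1 (h.A_sub h1)).1))
    have h4 : J ≤ m := hmax J hJ
    have h5 := h2 m hm
    refine W.Q.s_lt _ _ (Nat.mul_lt_mul_of_pos_right (by omega) (Nat.two_pow_pos _))
      (le_trans (Nat.mul_le_mul_right _ (by omega)) h3)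
  · obtain ⟨J', h1, h2⟩ := (hsp _ hδ).2
    have h5 := h2 m hm
    obtain ⟨t, ht⟩ := card_pos.1 ((h.por_card _ h1).symm ▸ e0)
    obtain ⟨t1, t2, -, -, -, -, t3⟩ := h.por_mem _ h1 t ht
    have t4 := hwr t t1
    rw [t2] at t4
    change W.Q.s ((m + 2) * 2 ^ W.ja) ≤ W.Q.s (e δ / 2 ^ W.jr * 2 ^ W.jr)
    rw [← t4]
    exact W.Q.s_le (le_trans (Nat.mul_le_mul_right _ (by omega)) t3)
      ((Nat.div_mul_le_self _ _).trans t1.le)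

end Crest.Agent.R051
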