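import Crest.Agent.R051.St6a

/-! Row 51: the pieces as graphs over the slopes from the vertex. -/

set_option autoImplicit false

open Finset
open scoped Classical

namespace Crest.Agent.R051

namespace Dat6

variable {Y : Dat6} {k : ℝ}

theorem Pre.st6b_lev (h : Y.Pre k) : ∀ t < 2 ^ Y.Q.μ, Y.jr < Y.G.lev t → Y.c t :=
  fun t ht hl => h.ok.c_lev t ht (h.ok.ok.Tr.trans_lt hl)

theorem Pre.st6b_lo (h : Y.Pre k) {t : ℕ} (ht : t < 2 ^ Y.Q.μ) (hδ : Y.G.pc Y.c t ∈ Y.Γ) :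
    Y.Xs ≤ Y.Q.s (t / 2 ^ Y.jr * 2 ^ Y.jr) := by
  rw [h.wr_eq t ht hδ]
  exact h.Xs_le _ hδ

theorem Pre.st6b_J (h : Y.Pre k) {J : ℕ} (hJ : J ∈ Y.JJ) : J < 2 ^ (Y.Q.μ - Y.ja) :=
  mem_range.1 (h.ok.JJ_sub hJ)

theorem Pre.st6b_por (h : Y.Pre k) {x : ℕ × (ℕ × ℕ)} (hx : x ∈ Y.A) : (Y.por x).Nonempty := by
  rw [← card_pos, h.ok.por_card x hx, Nat.pos_iff_ne_zero]
  intro h0
  have h1 := h.ok.e0_lo
  have h2 := h.ok.ok.ell_ge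
  have h3 : (1 : ℝ) ≤ Y.lam ^ 180 := one_le_pow₀ h.ok.ok.lam1
  rw [h0, Nat.cast_zero, mul_zero] at h1
  linarith

theorem st6b_win {j j' : ℕ} (h : j ≤ j') (t : ℕ) : t / 2 ^ j' * 2 ^ j' ≤ t / 2 ^ j * 2 ^ j := by
  have h1 : 2 ^ j' = 2 ^ (j' - j) * 2 ^ j := by rw [← pow_add, Nat.sub_add_cancel h]
  rw [← win_div h t]
  calc t / 2 ^ j / 2 ^ (j' - j) * 2 ^ j' = t / 2 ^ j / 2 ^ (j' - j) * 2 ^ (j' - j) * 2 ^ j := by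
        rw [mul_assoc, ← h1]
    _ ≤ _ := Nat.mul_le_mul_right _ (Nat.div_mul_le_self _ _)

/-- `hh s` strictly increases along a piece of `Γ` for `s ≤ Xs` (`piece_total` at level `jr`,
`Cone.hh_lt`) -/
theorem Pre.mono_hh (h : Y.Pre k) {δ : ℕ × ℕ} (hδ : δ ∈ Y.Γ) {t t' : ℕ} (ht : t < 2 ^ Y.Q.μ)
    (ht' : t' < 2 ^ Y.Q.μ) (h1 : Y.G.pc Y.c t = δ) (h2 : Y.G.pc Y.c t' = δ) {z z' : Pt}
    (hz : z ∈ Y.Q.seg t) (hz' : z' ∈ Y.Q.seg t') {s : ℝ} (hs : s ≤ Y.Xs) :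
    z = z' ∨ (z.1 < z'.1 ∧ hh s z < hh s z') ∨ (z'.1 < z.1 ∧ hh s z' < hh s z) := by
  have hl := Y.Q.s_win h.ok.ok.jr_le (win_lt h.ok.ok.jr_le ht)
  have hlo := hs.trans (h.st6b_lo ht (h1 ▸ hδ))
  rcases Y.G.piece_total h.ok.ok.jr_le h.st6b_lev ht ht' (h1.trans h2.symm) hz hz' with
    h3 | h3 | h3
  · exact Or.inl h3
  · exact Or.inr (Or.inl ⟨h3.x_lt hl, h3.hh_lt hl hlo⟩)
  · exact Or.inr (Or.inr ⟨h3.x_lt hl, h3.hh_lt hl hlo⟩)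

/-- Edges `t⁻ ∈ por (J⁻, δ)`, `t⁺ ∈ por (J⁺, δ)` from `span` have `hh s (u t⁻) < hh s p < hh s (v t⁺)`
(`Cone.hh_gt`, `Cone.hh_lt`, `xh_le`); `pos t⁻ ≤ pos t⁺` (otherwise `chain_cone`), then `ivt` and
`seg_level`; the point is to the right of `u t⁻` by `mono_hh`. -/
theorem Pre.exists_pt (h : Y.Pre k) {δ : ℕ × ℕ} (hδ : δ ∈ Y.Γ) {J : ℕ} (hJ : J ∈ Y.I) {s : ℝ}
    (hs : s ∈ Set.Icc (Y.xl J) (Y.xh J)) :
    ∃ t < 2 ^ Y.Q.μ, ∃ z ∈ Y.Q.seg t, Y.G.pc Y.c t = δ ∧ hh s z = hh s Y.p ∧ Y.p.1 < z.1 ∧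
      hh s (Y.Q.u t) < hh s Y.p ∧ hh s Y.p ≤ hh s (Y.Q.v t) := by
  obtain ⟨⟨J1, hA1, hJ1⟩, J2, hA2, hJ2⟩ := h.span δ hδ
  have b0 := h.st6b_J (h.I_sub hJ)
  have b1 := h.st6b_J (mem_product.1 (h.ok.A_sub hA1)).1
  have b2 := h.st6b_J (mem_product.1 (h.ok.A_sub hA2)).1
  obtain ⟨t1, ht1⟩ := h.st6b_por hA1
  obtain ⟨t2, ht2⟩ := h.st6b_por hA2
  obtain ⟨l1, p1, -, -, c1, -, -⟩ := h.ok.por_mem _ hA1 t1 ht1
  obtain ⟨l2, p2, -, -, -, c2, -⟩ := h.ok.por_mem _ hA2 t2 ht2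
  have hsX : s ≤ Y.Xs := hs.2.trans (h.Xs_gt J hJ).le
  have e1 : hh s (Y.Q.u t1) < hh s Y.p :=
    c1.hh_gt (h.ok.ok.xl_lt b1) ((h.ok.ok.xh_le (hJ1 J hJ) b0).trans hs.1)
  have e2 : hh s Y.p < hh s (Y.Q.v t2) :=
    c2.hh_lt (h.ok.ok.xl_lt b2) (hs.2.trans (h.ok.ok.xh_le (hJ2 J hJ) b2))
  have hp : Y.G.pos t1 ≤ Y.G.pos t2 := by
    by_contra hlt
    rw [not_le] at hlt
    rcases (Y.G.chain_cone h.ok.ok.jr_le h.st6b_lev l2 l1 (p2.trans p1.symm) hlt.le).2 hlt with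
      h3 | h3
    · rw [h3] at e2
      linarith
    · have := h3.hh_lt (Y.Q.s_win h.ok.ok.jr_le (win_lt h.ok.ok.jr_le l2))
        (hsX.trans (h.st6b_lo l2 (p2 ▸ hδ)))
      linarith
  obtain ⟨t, ht, pt, -, -, g1, g2⟩ :=
    Y.G.ivt (hh s) (hh s Y.p) l1 l2 (p1.trans p2.symm) hp e1 e2.le
  obtain ⟨z, hz, ez⟩ := seg_level g1.le g2
  refine ⟨t, ht, z, hz, pt.trans p1, ez, ?_, g1, g2⟩
  rcases h.mono_hh hδ l1 ht p1 (pt.trans p1) (left_mem_segment ℝ _ _) hz hsX with h3 | h3 | h3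
  · rw [h3] at e1
    linarith
  · exact (c1.x_lt (h.ok.ok.xl_lt b1)).trans h3.1
  · linarith [h3.2]

theorem Pre.st6b_card (h : Y.Pre k) {J : ℕ} (hJ : J ∈ Y.I) {j : ℕ} (hj : j ≤ Y.jr)
    (f : ℕ × ℕ → ℕ) (hf : ∀ t < 2 ^ Y.Q.μ, Y.G.pc Y.c t ∈ Y.Γ → t / 2 ^ j = f (Y.G.pc Y.c t))
    (w : ℕ) {B : ℝ} (hB : 0 ≤ B)
    (hK : ∀ t < 2 ^ Y.Q.μ, Y.G.pc Y.c t ∈ Y.Γ → (Y.Q.K j (t / 2 ^ j) : ℝ) ≤ B) :
    (#{δ ∈ Y.Γ | f δ = w} : ℝ) ≤ B := by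
  rcases ({δ ∈ Y.Γ | f δ = w} : Finset (ℕ × ℕ)).eq_empty_or_nonempty with h0 | ⟨δ0, h0⟩
  · rw [h0, card_empty, Nat.cast_zero]
    exact hB
  have hlt := h.ok.ok.xl_lt (h.st6b_J (h.I_sub hJ))
  have hs : Y.xl J ∈ Set.Icc (Y.xl J) (Y.xh J) := ⟨le_rfl, hlt.le⟩
  have hjμ := hj.trans h.ok.ok.jr_le
  choose! et l z hz pt e1 e2 e3 e4 using fun δ (hδ : δ ∈ Y.Γ) => h.exists_pt hδ hJ hs
  obtain ⟨hδ0, hw⟩ := mem_filter.1 h0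
  have hw0 : et δ0 / 2 ^ j = w := by
    rw [hf _ (l δ0 hδ0) ((pt δ0 hδ0).symm ▸ hδ0), pt δ0 hδ0, hw]
  have hwl : w < 2 ^ (Y.Q.μ - j) := hw0 ▸ win_lt hjμ (l δ0 hδ0)
  have hwle := win_le hjμ hwl
  have hlo : Y.xl J ≤ Y.Q.s (w * 2 ^ j) := by
    refine (hlt.trans (h.Xs_gt J hJ)).le.trans
      ((h.st6b_lo (l δ0 hδ0) ((pt δ0 hδ0).symm ▸ hδ0)).trans (Y.Q.s_le ?_ ?_))
    · exact hw0 ▸ st6b_win hj _
    · exact (Nat.mul_le_mul_right _ (Nat.le_succ w)).trans hwle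
  have hfl := Y.Q.flux (hh (Y.xl J)) (hh (Y.xl J) Y.p)
    (Nat.mul_le_mul_right (2 ^ j) (Nat.le_succ w)) hwle fun t ht => by
      have h1 := Y.Q.cone_win hjμ ((mem_Ico.1 ht).2.trans_le hwle)
      rw [win_mem.2 ht] at h1
      exact h1.hh_lt (Y.Q.s_win hjμ hwl) hlo
  have hK0 := hK _ (l δ0 hδ0) ((pt δ0 hδ0).symm ▸ hδ0)
  rw [hw0] at hK0
  refine le_trans (Nat.cast_le.2 (le_trans ?_ hfl)) hK0
  refine card_le_card_of_injOn et (fun δ hδ => ?_) fun δ hδ δ' hδ' e => ?_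
  · obtain ⟨h1, h2⟩ := mem_filter.1 (mem_coe.1 hδ)
    refine mem_coe.2 (mem_filter.2 ⟨win_mem.1 ?_, e3 δ h1, e4 δ h1⟩)
    rw [hf _ (l δ h1) ((pt δ h1).symm ▸ h1), pt δ h1, h2]
  · rw [← pt δ (mem_filter.1 (mem_coe.1 hδ)).1, e, pt δ' (mem_filter.1 (mem_coe.1 hδ')).1]

/-- Define `et δ s`, `xi δ s` by choice from the statement of `exists_pt` (which does not mention
`J`).  `uniq`: `mono_hh`.  `cont`: `mono_hh` with `s = Xs` gives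
`|xi s' - xi s| (Xs - xh J) ≤ |s' - s| (xi s - p.1)`.  `inj`: `Proc.gen`.  `wn_card`, `wr_card`: the
edges `et δ (xl J)` (fixed `J ∈ I`, which is nonempty by `T_big`) are distinct and counted by `flux`
with `g = hh (xl J)` in the window (`cone_win`, `Xs_le`), then `nh`. -/
theorem Pre.fan (h : Y.Pre k) : ∃ et xi, ({ Y with et := et, xi := xi } : Dat6).Fan k := by
  have hex : ∀ (δ : ℕ × ℕ) (s : ℝ), ∃ (t : ℕ) (x : ℝ), δ ∈ Y.Γ → ∀ J ∈ Y.I,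
      s ∈ Set.Icc (Y.xl J) (Y.xh J) → t < 2 ^ Y.Q.μ ∧ Y.G.pc Y.c t = δ ∧
        ((x, Y.p.2 + s * (x - Y.p.1)) : Pt) ∈ Y.Q.seg t ∧ Y.p.1 < x ∧
        hh s (Y.Q.u t) < hh s Y.p ∧ hh s Y.p ≤ hh s (Y.Q.v t) := fun δ s => by
    by_cases hc : δ ∈ Y.Γ ∧ ∃ J ∈ Y.I, s ∈ Set.Icc (Y.xl J) (Y.xh J)
    · obtain ⟨hδ, J, hJ, hs⟩ := hc
      obtain ⟨t, ht, z, hz, pt, e1, e2, e3, e4⟩ := h.exists_pt hδ hJ hs
      have ez : ((z.1, Y.p.2 + s * (z.1 - Y.p.1)) : Pt) = z := by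
        refine Prod.ext rfl ?_
        simp only [hh] at e1
        simp only
        linarith
      exact ⟨t, z.1, fun _ _ _ _ => ⟨ht, pt, ez.symm ▸ hz, e2, e3, e4⟩⟩
    · exact ⟨0, 0, fun hδ J hJ hs => absurd ⟨hδ, J, hJ, hs⟩ hc⟩
  choose et xi H using hex
  have hlev : ∀ x s : ℝ, hh s ((x, Y.p.2 + s * (x - Y.p.1)) : Pt) = hh s Y.p := fun x s => by
    simp only [hh]
    ring
  obtain ⟨J0, hJ0⟩ : Y.I.Nonempty := by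
    have h1 : 0 < Y.M * Y.L := mul_pos h.ok.ok.M_pos (zero_lt_one.trans_le h.ok.ok.L1)
    rcases Y.T.eq_empty_or_nonempty with h0 | ⟨x, hx⟩
    · have h2 := h.T_big
      rw [h0, card_empty, Nat.cast_zero, mul_zero] at h2
      linarith
    · exact ⟨_, (h.T_sub x hx).2.1⟩
  have hl : ∀ J ∈ Y.I, Y.xl J ∈ Set.Icc (Y.xl J) (Y.xh J) := fun J hJ =>
    ⟨le_rfl, (h.ok.ok.xl_lt (h.st6b_J (h.I_sub hJ))).le⟩
  refine ⟨et, xi, h.ok, h.I_sub, h.I_card, h.Γ_sub, h.T_sub, h.T_big, h.wn_eq, h.wr_eq,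
    fun δ hδ => ⟨_, (H δ _ hδ J0 hJ0 (hl J0 hJ0)).1, (H δ _ hδ J0 hJ0 (hl J0 hJ0)).2.1⟩,
    h.Xs_gt, h.Xs_le, fun δ hδ J hJ s hs => H δ s hδ J hJ hs,
    fun δ hδ J hJ s hs t ht pt z hz ez => ?_, fun δ hδ J hJ s hs => ?_,
    fun J hJ δ hδ δ' hδ' e => ?_, fun w => ?_, fun w => ?_⟩
  · obtain ⟨l, p, hz', -⟩ := H δ s hδ J hJ hs
    have e := hlev (xi δ s) s
    change hh s z = hh s Y.p at ez
    rcases h.mono_hh hδ ht l pt p hz hz' (hs.2.trans (h.Xs_gt J hJ).le) with h3 | h3 | h3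
    · exact congrArg Prod.fst h3
    · linarith [h3.2]
    · linarith [h3.2]
  · change s ∈ Set.Icc (Y.xl J) (Y.xh J) at hs
    change ContinuousWithinAt (xi δ) (Set.Icc (Y.xl J) (Y.xh J)) s
    have hX : 0 < Y.Xs - Y.xh J := sub_pos.2 (h.Xs_gt J hJ)
    obtain ⟨l, p, hz, hx, -⟩ := H δ s hδ J hJ hs
    have hb : ∀ s' ∈ Set.Icc (Y.xl J) (Y.xh J),
        dist (xi δ s') (xi δ s) ≤ |s' - s| * ((xi δ s - Y.p.1) / (Y.Xs - Y.xh J)) := by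
      intro s' hs'
      obtain ⟨l', p', hz', hx', -⟩ := H δ s' hδ J hJ hs'
      have ha : 0 < xi δ s - Y.p.1 := sub_pos.2 hx
      rw [Real.dist_eq, ← mul_div_assoc, le_div_iff₀ hX]
      have a1 := mul_le_mul_of_nonneg_right (le_abs_self (s' - s)) ha.le
      have a2 := mul_le_mul_of_nonneg_right (neg_le_abs (s' - s)) ha.le
      rcases h.mono_hh hδ l l' p p' hz hz' le_rfl with h3 | ⟨h3, h4⟩ | ⟨h3, h4⟩
      · have h4 : xi δ s = xi δ s' := congrArg Prod.fst h3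
        rw [← h4, sub_self, abs_zero, zero_mul]
        positivity
      · simp only [hh] at h3 h4
        rw [abs_of_pos (sub_pos.2 h3)]
        have a3 := mul_le_mul_of_nonneg_left hs'.2 (sub_pos.2 h3).le
        linarith
      · simp only [hh] at h3 h4
        rw [abs_of_neg (sub_neg.2 h3)]
        have a3 := mul_le_mul_of_nonneg_left hs'.2 (sub_pos.2 h3).le
        linarith
    rw [ContinuousWithinAt, tendsto_iff_dist_tendsto_zero]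
    refine squeeze_zero' (Filter.Eventually.of_forall fun _ => dist_nonneg)
      (eventually_nhdsWithin_of_forall hb) (tendsto_nhdsWithin_of_tendsto_nhds ?_)
    have hc : Continuous fun s' : ℝ => |s' - s| * ((xi δ s - Y.p.1) / (Y.Xs - Y.xh J)) := by
      fun_prop
    simpa using hc.tendsto s
  · change xi δ (Y.xl J) = xi δ' (Y.xl J) at e
    obtain ⟨l, p, hz, hx, -⟩ := H δ _ hδ J hJ (hl J hJ)
    obtain ⟨l', p', hz', -⟩ := H δ' _ hδ' J hJ (hl J hJ)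
    rw [← e] at hz'
    by_contra hne
    have hτ : J * 2 ^ Y.ja ≤ 2 ^ Y.Q.μ := (Nat.mul_le_mul_right _ (Nat.le_succ J)).trans
      (win_le h.ok.ok.ja_le (h.st6b_J (h.I_sub hJ)))
    exact Y.Q.gen Y.p h.ok.p_mem _ hτ _ l _ l' (fun e' => hne (by rw [← p, e', p'])) _ hz hz' hx
      (hlev _ _)
  · refine h.st6b_card hJ0 h.ok.ok.Tr Y.wn h.wn_eq w ?_ fun t ht hδ =>
      (h.ok.nh t ht (h.Γ_sub hδ)).1
    have h1 := h.ok.ok.k2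
    have h2 := h.ok.ok.n_pos
    have h3 := h.ok.ok.b_pos
    positivity
  · exact h.st6b_card hJ0 le_rfl Y.wr h.wr_eq w h.ok.D_pos fun t ht hδ =>
      (h.ok.nh t ht (h.Γ_sub hδ)).2

end Dat6

end Crest.Agent.R051
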