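import Crest.Agent.R051.SBasic
import Crest.Agent.R051.ACol

/-! Row 51: the easy properties of the abstract data. -/

set_option autoImplicit false

open Finset
open scoped Classical

namespace Crest.Agent.R051

namespace Dat6

variable {Y : Dat6} {k : ℝ}

lemma Fan.s7a_J (h : Y.Fan k) {J : ℕ} (hJ : J ∈ Y.I) : J < 2 ^ (Y.Q.μ - Y.ja) :=
  mem_range.1 (h.ok.JJ_sub (h.I_sub hJ))

lemma Fan.s7a_lt (h : Y.Fan k) {J : ℕ} (hJ : J ∈ Y.I) : Y.xl J < Y.xh J := h.ok.ok.xl_lt (h.s7a_J hJ)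

lemma Fan.s7a_mem (h : Y.Fan k) {J : ℕ} (hJ : J ∈ Y.I) : Y.xl J ∈ Set.Icc (Y.xl J) (Y.xh J) :=
  ⟨le_rfl, (h.s7a_lt hJ).le⟩

lemma Fan.s7a_pos (h : Y.Fan k) {J : ℕ} (hJ : J ∈ Y.I) {δ : ℕ × ℕ} (hδ : δ ∈ Y.Γ) :
    0 < Y.xi δ (Y.xl J) - Y.p.1 := sub_pos.2 (h.fan δ hδ J hJ _ (h.s7a_mem hJ)).2.2.2.1

lemma Fan.s7a_M (h : Y.Fan k) : Y.M ≤ Y.m * Y.L := by
  have := h.m_bounds.1
  rwa [div_le_iff₀ (by linarith [h.ok.ok.L1])] at this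

lemma Fan.s7a_nb (h : Y.Fan k) : Y.n * Y.b ^ 3 * Y.lam ^ 24 = Y.M / Y.L := by
  have : Y.lam ≠ 0 := by linarith [h.ok.ok.lam1]
  unfold Dat.M Dat.L Dat.b
  field_simp

lemma Fan.s7a_m_pos (h : Y.Fan k) : (0 : ℝ) < Y.m :=
  lt_of_lt_of_le (div_pos h.ok.ok.M_pos (by linarith [h.ok.ok.L1])) h.m_bounds.1

theorem Fan.ad_T_sub (h : Y.Fan k) : Y.ad.T ⊆ Y.ad.I ×ˢ Y.ad.Γ := by
  exact fun x hx => mem_product.2 (h.T_sub x hx).2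

theorem Fan.ad_Γ_card (h : Y.Fan k) : (#Y.ad.Γ : ℝ) ≤ k * Y.ad.m * Y.ad.L := by
  have h1 : (#Y.Γ : ℝ) ≤ #Y.Γ0 := Nat.cast_le.2 (card_le_card h.Γ_sub)
  have h2 := mul_le_mul_of_nonneg_left h.s7a_M (show 0 ≤ k by linarith [h.ok.ok.k2])
  change (#Y.Γ : ℝ) ≤ k * Y.m * Y.L
  linarith [h.ok.Γ0_card]

theorem Fan.ad_T_big (h : Y.Fan k) : Y.ad.m * Y.ad.L ^ 2 ≤ 2 * k * #Y.ad.T := by
  have hL : 0 < Y.L := by linarith [h.ok.ok.L1]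
  have h1 := mul_le_mul_of_nonneg_right h.m_bounds.2.1 (sq_nonneg Y.L)
  have h2 : 2 * (Y.M / Y.L) * Y.L ^ 2 = 2 * (Y.M * Y.L) := by field_simp
  change (Y.m : ℝ) * Y.L ^ 2 ≤ 2 * k * #Y.T
  linarith [h.T_big]

theorem Fan.ad_X_inj (h : Y.Fan k) :
    ∀ i ∈ Y.ad.I, ∀ j ∈ Y.ad.I, Y.ad.X i = Y.ad.X j → i = j := by
  intro i hi j hj e
  change Y.xl i = Y.xl j at e
  rcases lt_trichotomy i j with h1 | h1 | h1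
  · linarith [h.s7a_lt hi, h.ok.ok.xh_le h1 (h.s7a_J hj)]
  · exact h1
  · linarith [h.s7a_lt hj, h.ok.ok.xh_le h1 (h.s7a_J hi)]

theorem Fan.ad_U_pos (h : Y.Fan k) : ∀ i ∈ Y.ad.I, ∀ δ ∈ Y.ad.Γ, 0 < Y.ad.U i δ := by
  exact fun i hi δ hδ => inv_pos.2 (h.s7a_pos hi hδ)

theorem Fan.ad_U_inj (h : Y.Fan k) :
    ∀ i ∈ Y.ad.I, ∀ δ ∈ Y.ad.Γ, ∀ δ' ∈ Y.ad.Γ, Y.ad.U i δ = Y.ad.U i δ' → δ = δ' := by
  exact fun i hi δ hδ δ' hδ' e => h.inj i hi δ hδ δ' hδ' (sub_left_injective (inv_injective e))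

/-- larger height means closer to `p` -/
theorem Fan.ad_U_lt (h : Y.Fan k) {i : ℕ} (hi : i ∈ Y.I) {δ δ' : ℕ × ℕ} (hδ : δ ∈ Y.Γ)
    (hδ' : δ' ∈ Y.Γ) : Y.ad.U i δ < Y.ad.U i δ' ↔ Y.xi δ' (Y.xl i) < Y.xi δ (Y.xl i) := by
  exact (inv_lt_inv₀ (h.s7a_pos hi hδ) (h.s7a_pos hi hδ')).trans (sub_lt_sub_iff_right _)

theorem Fan.ad_X_lt (h : Y.Fan k) : ∀ i ∈ Y.ad.I, Y.ad.X i < Y.ad.Xs := by
  exact fun i hi => (h.s7a_lt hi).trans (h.Xs_gt i hi)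

theorem Fan.ad_Xs_le (h : Y.Fan k) : ∀ δ ∈ Y.ad.Γ, Y.ad.Xs ≤ Y.ad.lo (Y.ad.w δ) := by
  intro δ hδ
  obtain ⟨h1, -, -, h2⟩ := h.wr_wn hδ
  exact (h.Xs_le δ hδ).trans (Y.Q.s_le h2
    ((Nat.mul_le_mul_right _ (Nat.le_succ _)).trans (win_le h.ok.ok.jT_le h1)))

theorem Fan.ad_ord (h : Y.Fan k) : ∀ δ ∈ Y.ad.Γ, ∀ δ' ∈ Y.ad.Γ, Y.ad.w δ < Y.ad.w δ' →
    Y.ad.hi (Y.ad.w δ) ≤ Y.ad.lo (Y.ad.w δ') := by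
  intro δ _ δ' hδ' hlt
  exact Y.Q.s_le (Nat.mul_le_mul_right _ hlt)
    ((Nat.mul_le_mul_right _ (Nat.le_succ _)).trans (win_le h.ok.ok.jT_le (h.wr_wn hδ').1))

/-- for `i ≠ j` take the slope `c` between `pt δ (xl i)` and `pt δ (xl j)` (`piece_total` at level
`jT`, `Cone.slp_mem`); for `i = j` any `c` of the window -/
theorem Fan.ad_rel (h : Y.Fan k) : ∀ δ ∈ Y.ad.Γ, ∀ i ∈ Y.ad.I, ∀ j ∈ Y.ad.I, ∃ c,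
    Y.ad.lo (Y.ad.w δ) < c ∧ c < Y.ad.hi (Y.ad.w δ) ∧
      Y.ad.U j δ * (c - Y.ad.X i) = Y.ad.U i δ * (c - Y.ad.X j) := by
  intro δ hδ i hi j hj
  have hw := Y.Q.s_win h.ok.ok.jT_le (h.wr_wn hδ).1
  change ∃ c, Y.Q.s (Y.wn δ * 2 ^ Y.jT) < c ∧ c < Y.Q.s ((Y.wn δ + 1) * 2 ^ Y.jT) ∧
    (Y.xi δ (Y.xl j) - Y.p.1)⁻¹ * (c - Y.xl i) = (Y.xi δ (Y.xl i) - Y.p.1)⁻¹ * (c - Y.xl j)
  by_cases hij : i = j
  · subst hij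
    obtain ⟨c, h1, h2⟩ := exists_between hw
    exact ⟨c, h1, h2, rfl⟩
  obtain ⟨a1, a2, a3, -⟩ := h.fan δ hδ i hi _ (h.s7a_mem hi)
  obtain ⟨b1, b2, b3, -⟩ := h.fan δ hδ j hj _ (h.s7a_mem hj)
  have pa := h.s7a_pos hi hδ
  have pb := h.s7a_pos hj hδ
  have e := h.wn_eq _ a1 (by rw [a2]; exact hδ)
  rw [a2] at e
  have ht := Y.G.piece_total h.ok.ok.jT_le h.ok.c_lev a1 b1 (a2.trans b2.symm) a3 b3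
  rw [e] at ht
  rcases ht with h1 | h1 | h1
  · obtain ⟨e1, e2⟩ := Prod.ext_iff.1 h1
    simp only [pt] at e1 e2
    rw [e1, add_right_inj] at e2
    exact absurd (h.ad_X_inj i hi j hj (mul_right_cancel₀ pb.ne' e2)) hij
  · refine ⟨_, (h1.slp_mem hw).1, (h1.slp_mem hw).2, ?_⟩
    have h2 := (sub_pos.2 (h1.x_lt hw)).ne'
    simp only [pt, slp] at h2 ⊢
    field_simp
    ring
  · refine ⟨_, (h1.slp_mem hw).1, (h1.slp_mem hw).2, ?_⟩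
    have h2 := (sub_pos.2 (h1.x_lt hw)).ne'
    simp only [pt, slp] at h2 ⊢
    field_simp
    ring

/-- `n b³ lam ^ 24 = M / L` -/
theorem Fan.ad_w_card (h : Y.Fan k) :
    ∀ x, (#{δ ∈ Y.ad.Γ | Y.ad.w δ = x} : ℝ) * Y.ad.lam ^ 24 ≤ k * Y.ad.m := by
  intro x
  have hk : 0 ≤ k := by linarith [h.ok.ok.k2]
  have h1 := mul_le_mul_of_nonneg_right (h.wn_card x) (show 0 ≤ Y.lam ^ 24 by positivity)
  have h2 := mul_le_mul_of_nonneg_left h.m_bounds.1 hk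
  rw [← h.s7a_nb] at h2
  change (#{δ ∈ Y.Γ | Y.wn δ = x} : ℝ) * Y.lam ^ 24 ≤ k * Y.m
  linarith

theorem Fan.ad_blk_mono (h : Y.Fan k) : ∀ δ ∈ Y.ad.Γ, ∀ δ' ∈ Y.ad.Γ, Y.ad.w δ ≤ Y.ad.w δ' →
    Y.ad.blk δ ≤ Y.ad.blk δ' := by
  intro δ hδ δ' hδ' hle
  refine Y.blk_mono ?_
  rw [(h.wr_wn hδ).2.2.1, (h.wr_wn hδ').2.2.1]
  exact Nat.div_le_div_right hle

theorem Fan.ad_blk_card (h : Y.Fan k) : (#(Y.ad.Γ.image Y.ad.blk) : ℝ) ≤ 2 * k * Y.ad.L := by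
  have h1 : Y.Γ.image Y.blk ⊆ range (#Y.Γ / Y.m + 1) := by
    intro x hx
    obtain ⟨δ, -, rfl⟩ := mem_image.1 hx
    exact mem_range.2 (Nat.lt_succ_of_le (Nat.div_le_div_right (card_filter_le _ _)))
  have h2 := card_le_card h1
  rw [card_range] at h2
  have h3 : (#(Y.Γ.image Y.blk) : ℝ) ≤ ((#Y.Γ / Y.m : ℕ) : ℝ) + 1 := by exact_mod_cast h2
  have h4 : ((#Y.Γ / Y.m : ℕ) : ℝ) ≤ k * Y.L := by
    refine Nat.cast_div_le.trans ?_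
    rw [div_le_iff₀ h.s7a_m_pos]
    have : (#Y.Γ : ℝ) ≤ k * Y.m * Y.L := h.ad_Γ_card
    linarith
  have h5 : 1 ≤ k * Y.L := by nlinarith [h.ok.ok.k2, h.ok.ok.L1]
  change (#(Y.Γ.image Y.blk) : ℝ) ≤ 2 * k * Y.L
  linarith

lemma Fan.s7a_ivt (h : Y.Fan k) {J : ℕ} (hJ : J ∈ Y.I) {δ δ' : ℕ × ℕ} (hδ : δ ∈ Y.Γ)
    (hδ' : δ' ∈ Y.Γ) {s : ℝ} (hs : s ∈ Set.Ico (Y.xl J) (Y.xh J))
    (h1 : Y.xi δ (Y.xl J) ≤ Y.xi δ' (Y.xl J)) (h2 : Y.xi δ' s ≤ Y.xi δ s) :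
    ∃ s' ∈ Set.Ico (Y.xl J) (Y.xh J), Y.xi δ s' = Y.xi δ' s' := by
  have hc := ((h.cont δ hδ J hJ).sub (h.cont δ' hδ' J hJ)).mono (Set.Icc_subset_Icc_right hs.2.le)
  obtain ⟨s', a1, a2⟩ := intermediate_value_Icc hs.1 hc
    (show (0 : ℝ) ∈ Set.Icc _ _ from ⟨sub_nonpos.2 h1, sub_nonneg.2 h2⟩)
  exact ⟨s', ⟨a1.1, a1.2.trans_lt hs.2⟩, sub_eq_zero.1 a2⟩

/-- Displacement.  A typical piece `δ''` with `U δ ≤ U δ'' < U δ'` at `xl J` meets `δ` or `δ'` at a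
slope in `[xl J, s]` (intermediate value theorem, `cont`), so it is counted by `NN J δ` or
`NN J δ'`, or it is in the window of `δ` or `δ'` (`wn_card`, `n b³ ≤ M / L ≤ m`). -/
theorem Fan.disp (h : Y.Fan k) (hc : Y.Core k) {J : ℕ} {δ δ' : ℕ × ℕ} (hδ : (J, δ) ∈ Y.T)
    (hδ' : (J, δ') ∈ Y.T) {s : ℝ} (hs : s ∈ Set.Ico (Y.xl J) (Y.xh J))
    (he : Y.xi δ s = Y.xi δ' s) : (Y.ad.rk J δ' : ℝ) ≤ Y.ad.rk J δ + 4 * k * Y.m := by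
  obtain ⟨-, hJ, hΓ⟩ := h.T_sub _ hδ
  obtain ⟨-, -, hΓ'⟩ := h.T_sub _ hδ'
  have hk : 0 ≤ k := by linarith [h.ok.ok.k2]
  have hm := h.s7a_m_pos
  rcases le_total (Y.ad.U J δ') (Y.ad.U J δ) with hU | hU
  · have h1 : (Y.ad.rk J δ' : ℝ) ≤ Y.ad.rk J δ := Nat.cast_le.2 (AD.rk_le hU)
    have : 0 ≤ 4 * k * Y.m := by positivity
    linarith
  rw [AD.rk_sub hU, Nat.cast_add, add_le_add_iff_left]
  have hsub : {δ'' ∈ Y.ad.ty J | Y.ad.U J δ ≤ Y.ad.U J δ'' ∧ Y.ad.U J δ'' < Y.ad.U J δ'} ⊆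
      ({x ∈ Y.Γ | Y.wn x ≠ Y.wn δ ∧ ∃ s ∈ Set.Ico (Y.xl J) (Y.xh J), Y.xi δ s = Y.xi x s} ∪
        {x ∈ Y.Γ | Y.wn x ≠ Y.wn δ' ∧ ∃ s ∈ Set.Ico (Y.xl J) (Y.xh J), Y.xi δ' s = Y.xi x s}) ∪
      ({x ∈ Y.Γ | Y.wn x = Y.wn δ} ∪ {x ∈ Y.Γ | Y.wn x = Y.wn δ'}) := by
    intro x hx
    obtain ⟨hx, a1, a2⟩ := mem_filter.1 hx
    have hxΓ : x ∈ Y.Γ := (AD.mem_ty.1 hx).1
    rw [h.ad_U_lt hJ hxΓ hΓ'] at a2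
    rw [← not_lt, h.ad_U_lt hJ hxΓ hΓ, not_lt] at a1
    simp only [mem_union, mem_filter]
    by_cases w1 : Y.wn x = Y.wn δ
    · exact Or.inr (Or.inl ⟨hxΓ, w1⟩)
    by_cases w2 : Y.wn x = Y.wn δ'
    · exact Or.inr (Or.inr ⟨hxΓ, w2⟩)
    rcases le_total (Y.xi x s) (Y.xi δ' s) with a3 | a3
    · exact Or.inl (Or.inr ⟨hxΓ, w2, h.s7a_ivt hJ hΓ' hxΓ hs a2.le a3⟩)
    · obtain ⟨s', b1, b2⟩ := h.s7a_ivt hJ hxΓ hΓ hs a1 (he.trans_le a3)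
      exact Or.inl (Or.inl ⟨hxΓ, w1, s', b1, b2.symm⟩)
  have h1 := (card_le_card hsub).trans ((card_union_le _ _).trans
    (add_le_add (card_union_le _ _) (card_union_le _ _)))
  have h2 : (#{δ'' ∈ Y.ad.ty J | Y.ad.U J δ ≤ Y.ad.U J δ'' ∧ Y.ad.U J δ'' < Y.ad.U J δ'} : ℝ) ≤
      Y.NN J δ + Y.NN J δ' + (#{x ∈ Y.Γ | Y.wn x = Y.wn δ} + #{x ∈ Y.Γ | Y.wn x = Y.wn δ'}) := by
    exact_mod_cast h1
  have h3 := mul_le_mul_of_nonneg_left h.m_bounds.1 hk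
  have h4 : ∀ x, (#{y ∈ Y.Γ | Y.wn y = x} : ℝ) ≤ k * Y.m := fun x =>
    le_trans (le_mul_of_one_le_right (by positivity) (one_le_pow₀ h.ok.ok.lam1)) (h.ad_w_card x)
  have h5 := hc.nn _ hδ
  have h6 := hc.nn _ hδ'
  rw [mul_div_assoc] at h5 h6
  linarith [h4 (Y.wn δ), h4 (Y.wn δ')]

/-- pieces far apart in rank keep their order in the whole sector -/
theorem Fan.order (h : Y.Fan k) (hc : Y.Core k) {J : ℕ} {δ δ' : ℕ × ℕ} (hδ : (J, δ) ∈ Y.T)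
    (hδ' : (J, δ') ∈ Y.T) (hr : (Y.ad.rk J δ : ℝ) + 4 * k * Y.m < Y.ad.rk J δ') {s : ℝ}
    (hs : s ∈ Set.Ico (Y.xl J) (Y.xh J)) : Y.xi δ' s < Y.xi δ s := by
  obtain ⟨-, hJ, hΓ⟩ := h.T_sub _ hδ
  obtain ⟨-, -, hΓ'⟩ := h.T_sub _ hδ'
  have hk : 0 ≤ k := by linarith [h.ok.ok.k2]
  have h0 : 0 ≤ 4 * k * Y.m := by positivity
  by_contra hn
  have hU : Y.ad.U J δ < Y.ad.U J δ' := by
    by_contra hU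
    have h1 : (Y.ad.rk J δ' : ℝ) ≤ Y.ad.rk J δ := Nat.cast_le.2 (AD.rk_le (not_lt.1 hU))
    linarith
  obtain ⟨s', b1, b2⟩ := h.s7a_ivt hJ hΓ' hΓ hs ((h.ad_U_lt hJ hΓ hΓ').1 hU).le (not_lt.1 hn)
  linarith [h.disp hc hδ hδ' b1 b2.symm]

lemma Fan.s7a_rk_inj (h : Y.Fan k) {i : ℕ} (hi : i ∈ Y.I) {δ δ' : Ln} (hδ : δ ∈ Y.ad.ty i)
    (hδ' : δ' ∈ Y.ad.ty i) (hr : Y.ad.rk i δ = Y.ad.rk i δ') : δ = δ' := by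
  refine h.ad_U_inj i hi δ (AD.mem_ty.1 hδ).1 δ' (AD.mem_ty.1 hδ').1 ?_
  rcases lt_trichotomy (Y.ad.U i δ) (Y.ad.U i δ') with h1 | h1 | h1
  · exact absurd hr (AD.rk_lt hδ h1).ne
  · exact h1
  · exact absurd hr (AD.rk_lt hδ' h1).ne'

/-- the rank is injective on typical pieces -/
theorem Fan.rk_card (h : Y.Fan k) {J : ℕ} (hJ : J ∈ Y.I) (a b : ℕ) :
    #{δ ∈ Y.ad.ty J | a ≤ Y.ad.rk J δ ∧ Y.ad.rk J δ < b} ≤ b - a := by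
  rw [← Nat.card_Ico]
  exact card_le_card_of_injOn (Y.ad.rk J) (fun x hx => mem_Ico.2 (mem_filter.1 hx).2)
    fun x hx y hy hxy => h.s7a_rk_inj hJ (mem_filter.1 hx).1 (mem_filter.1 hy).1 hxy

/-- and takes all values below a rank -/
theorem Fan.rk_card' (h : Y.Fan k) {J : ℕ} (hJ : J ∈ Y.I) {δ' : ℕ × ℕ} (hδ' : δ' ∈ Y.ad.ty J)
    {a b : ℕ} (hb : b ≤ Y.ad.rk J δ') :
    b - a ≤ #{δ ∈ Y.ad.ty J | a ≤ Y.ad.rk J δ ∧ Y.ad.rk J δ < b} := by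
  have h1 : (Y.ad.ty J).image (Y.ad.rk J) = range #(Y.ad.ty J) := by
    refine eq_of_subset_of_card_le (fun x hx => ?_) ?_
    · obtain ⟨δ, hδ, rfl⟩ := mem_image.1 hx
      exact mem_range.2 (AD.rk_lt_card hδ)
    · rw [card_range, card_image_of_injOn fun x hx y hy hxy => h.s7a_rk_inj hJ hx hy hxy]
  rw [← Nat.card_Ico]
  refine le_trans (card_le_card fun n hn => ?_) (card_image_le (f := Y.ad.rk J))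
  have h2 : n ∈ (Y.ad.ty J).image (Y.ad.rk J) := by
    rw [h1]
    exact mem_range.2 (((mem_Ico.1 hn).2.trans_le hb).trans (AD.rk_lt_card hδ'))
  obtain ⟨δ, hδ, rfl⟩ := mem_image.1 h2
  exact mem_image_of_mem _ (mem_filter.2 ⟨hδ, mem_Ico.1 hn⟩)

end Dat6

end Crest.Agent.R051
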