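import Crest.Agent.R051.St7a

/-! Row 51: the cubic bound for cells of pieces. -/

set_option autoImplicit false

open Finset
open scoped Classical

namespace Crest.Agent.R051

namespace Dat6

variable {Y : Dat6} {k : ℝ}

/-- core edges of the portion of `δ` in the sector `J` -/
noncomputable def ce (Y : Dat6) (J : ℕ) (δ : ℕ × ℕ) : Finset ℕ :=
  {t ∈ Y.por (J, δ) | Y.Q.u t ∈ Y.V' ∧ Y.Q.v t ∈ Y.V'}

/-- core edges of a family of pieces -/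
noncomputable def ces (Y : Dat6) (J : ℕ) (Z : Finset (ℕ × ℕ)) : Finset ℕ := Z.biUnion (Y.ce J)

/-- their endpoints -/
noncomputable def cv (Y : Dat6) (J : ℕ) (Z : Finset (ℕ × ℕ)) : Finset Pt :=
  (Y.ces J Z).image Y.Q.u ∪ (Y.ces J Z).image Y.Q.v

/-- portions of different pieces are disjoint; `many` -/
theorem Fan.ces_card (h : Y.Fan k) (hc : Y.Core k) {J : ℕ} {Z : Finset (ℕ × ℕ)}
    (hZ : ∀ δ ∈ Z, (J, δ) ∈ Y.T) : #Z * Y.e0 ≤ 4 * #(Y.ces J Z) := by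
  have hd : (Z : Set (ℕ × ℕ)).PairwiseDisjoint (Y.ce J) := by
    intro δ hδ δ' hδ' hne
    rw [Function.onFun, Finset.disjoint_left]
    intro t ht ht'
    have h1 := (h.ok.por_mem _ (h.T_sub _ (hZ δ hδ)).1 t (mem_filter.1 ht).1).2.1
    have h2 := (h.ok.por_mem _ (h.T_sub _ (hZ δ' hδ')).1 t (mem_filter.1 ht').1).2.1
    exact hne (h1.symm.trans h2)
  rw [ces, card_biUnion hd, mul_sum, ← smul_eq_mul, ← sum_const]
  exact sum_le_sum fun δ hδ => hc.many _ (hZ δ hδ)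

theorem st7b_two_ends (S : Finset ℕ) (V : Finset Pt) (u v : ℕ → Pt) :
    ∑ q ∈ V, #{t ∈ S | u t = q ∨ v t = q} ≤ 2 * #S := by
  have h1 : ∀ f : ℕ → Pt, ∑ q ∈ V, #{t ∈ S | f t = q} ≤ #S := fun f => by
    rw [sum_card_fiberwise_eq_card_filter]
    exact card_filter_le _ _
  calc ∑ q ∈ V, #{t ∈ S | u t = q ∨ v t = q}
      ≤ ∑ q ∈ V, (#{t ∈ S | u t = q} + #{t ∈ S | v t = q}) := by
        refine sum_le_sum fun q _ => ?_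
        rw [filter_or]
        exact card_union_le _ _
    _ ≤ 2 * #S := by
        rw [sum_add_distrib]
        have := h1 u
        have := h1 v
        omega

theorem Fan.st7b_mem (h : Y.Fan k) {J : ℕ} {Z : Finset (ℕ × ℕ)} (hZ : ∀ δ ∈ Z, (J, δ) ∈ Y.T)
    {t : ℕ} (ht : t ∈ Y.ces J Z) :
    t < 2 ^ Y.Q.μ ∧ Y.G.pc Y.c t ∈ Z ∧ Y.Q.u t ∈ Y.V' ∧ Y.Q.v t ∈ Y.V' ∧
      Cone (Y.xl J) (Y.xh J) Y.p (Y.Q.u t) ∧ Cone (Y.xl J) (Y.xh J) Y.p (Y.Q.v t) := by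
  obtain ⟨δ, hδ, ht⟩ := mem_biUnion.1 ht
  obtain ⟨ht, hu, hv⟩ := mem_filter.1 ht
  obtain ⟨t1, t2, -, -, t5, t6, -⟩ := h.ok.por_mem _ (h.T_sub _ (hZ δ hδ)).1 t ht
  exact ⟨t1, t2 ▸ hδ, hu, hv, t5, t6⟩

theorem Fan.st7b_vertex (h : Y.Fan k) {J : ℕ} {Z : Finset (ℕ × ℕ)} (hZ : ∀ δ ∈ Z, (J, δ) ∈ Y.T)
    {q : Pt} (hq : q ∈ Y.cv J Z) :
    ∃ δ ∈ Z, q ∈ Y.V' ∧ Cone (Y.xl J) (Y.xh J) Y.p q ∧ Y.xi δ (slp Y.p q) = q.1 := by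
  rcases mem_union.1 hq with hq | hq
  · obtain ⟨t, ht, rfl⟩ := mem_image.1 hq
    obtain ⟨t1, t2, t3, -, t5, -⟩ := h.st7b_mem hZ ht
    obtain ⟨-, hI, hΓ⟩ := h.T_sub _ (hZ _ t2)
    exact ⟨_, t2, t3, t5, (h.xi_vertex hΓ hI t1 rfl (left_mem_segment _ _ _) t5).2⟩
  · obtain ⟨t, ht, rfl⟩ := mem_image.1 hq
    obtain ⟨t1, t2, -, t4, -, t6⟩ := h.st7b_mem hZ ht
    obtain ⟨-, hI, hΓ⟩ := h.T_sub _ (hZ _ t2)
    exact ⟨_, t2, t4, t6, (h.xi_vertex hΓ hI t1 rfl (right_mem_segment _ _ _) t6).2⟩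

theorem Fan.st7b_e0_pos (h : Y.Fan k) : (0 : ℝ) < Y.e0 := by
  have h1 := h.ok.e0_lo
  have h2 := h.ok.ok.ell_ge
  have h3 : (0 : ℝ) < Y.lam ^ 180 := pow_pos (by linarith [h.ok.ok.lam1]) _
  rcases (Nat.cast_nonneg (α := ℝ) Y.e0).eq_or_lt with h4 | h4
  · rw [← h4, mul_zero] at h1
    linarith
  · exact h4

theorem Fan.st7b_m_pos (h : Y.Fan k) : (0 : ℝ) < Y.m := by
  have h1 := h.m_bounds.1
  have h2 : 0 < Y.M / Y.L := div_pos h.ok.ok.M_pos (by linarith [h.ok.ok.L1])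
  linarith

/-- the crossing lemma for the core edges -/
theorem Fan.st7b_cl (h : Y.Fan k) (hc : Y.Core k) {J : ℕ} {Z : Finset (ℕ × ℕ)}
    (hZ : ∀ δ ∈ Z, (J, δ) ∈ Y.T) (p : ℝ) (hp0 : 0 < p) (hp1 : p ≤ 1) :
    (#(Y.ces J Z) : ℝ) ≤ 3 * k * #(Y.cv J Z) / p + p ^ 2 *
      #{x ∈ Y.ces J Z ×ˢ Y.ces J Z | Cross (Y.Q.u x.1) (Y.Q.v x.1) (Y.Q.u x.2) (Y.Q.v x.2)} := by
  refine h.ok.ok.base.cl_edges (Y.cv J Z) (fun q hq => ?_) (Y.ces J Z) (fun t ht => ?_) p hp0 hp1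
  · obtain ⟨-, -, h1, -⟩ := h.st7b_vertex hZ hq
    exact h.ok.VB_sub (hc.V_sub h1)
  · exact ⟨(h.st7b_mem hZ ht).1, mem_union_left _ (mem_image_of_mem _ ht),
      mem_union_right _ (mem_image_of_mem _ ht)⟩

/-- Each vertex `q` of `cv J Z` has degree `≥ d / k` (`deg`); an edge `t ∈ por (J', δ'')` at `q` has
`J' = J` (`sector_eq`) and `δ''` shares `q` with a piece of `Z` (`xi_vertex`), so its rank is in
`[a - 4 k m, a + h m + 4 k m)` (`disp`): at most `12 k h m` pieces (`rk_card`) with `e0` edges, two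
ends each. -/
theorem Fan.cv_card (h : Y.Fan k) (hc : Y.Core k) {J : ℕ} {Z : Finset (ℕ × ℕ)} {a g : ℕ}
    (hg : 1 ≤ g) (hZ : ∀ δ ∈ Z, (J, δ) ∈ Y.T ∧ a ≤ Y.ad.rk J δ ∧ Y.ad.rk J δ < a + g * Y.m) :
    (#(Y.cv J Z) : ℝ) * Y.d ≤ 24 * k ^ 2 * g * Y.m * Y.e0 := by
  have hk : 2 ≤ k := h.ok.ok.k2
  have hk0 : (0 : ℝ) ≤ k := by linarith
  set N := ⌊4 * k * Y.m⌋₊ with hN
  have hNle : (N : ℝ) ≤ 4 * k * Y.m := Nat.floor_le (by positivity)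
  set W := {δ ∈ Y.ad.ty J | a - N ≤ Y.ad.rk J δ ∧ Y.ad.rk J δ < a + g * Y.m + N} with hW
  by_cases hZe : Z = ∅
  · subst hZe
    simp only [cv, ces, biUnion_empty, image_empty, union_empty, card_empty, Nat.cast_zero, zero_mul]
    positivity
  obtain ⟨δ0, hδ0⟩ := nonempty_iff_ne_empty.2 hZe
  have hJ : J ∈ Y.I := (h.T_sub _ (hZ δ0 hδ0).1).2.1
  have hWc : (#W : ℝ) ≤ 12 * k * g * Y.m := by
    have h1 : #W ≤ g * Y.m + 2 * N := (h.rk_card hJ (a - N) (a + g * Y.m + N)).trans (by omega)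
    have h2 : (#W : ℝ) ≤ g * Y.m + 2 * N := by exact_mod_cast h1
    have h3 : (1 : ℝ) ≤ g := by exact_mod_cast hg
    have h4 : (0 : ℝ) ≤ Y.m := Nat.cast_nonneg _
    have h5 : k * Y.m ≤ k * g * Y.m := by
      have : 0 ≤ k * Y.m * (g - 1) := mul_nonneg (mul_nonneg hk0 h4) (by linarith)
      linarith
    have h6 : (g : ℝ) * Y.m ≤ k * g * Y.m := by
      have : 0 ≤ (k - 1) * (g * Y.m) := mul_nonneg (by linarith) (by positivity)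
      linarith
    have h7 : 0 ≤ k * g * Y.m := by positivity
    linarith
  have key : ∀ q ∈ Y.cv J Z, Y.d ≤
      k * ∑ δ ∈ W, (#{t ∈ Y.por (J, δ) | Y.Q.u t = q ∨ Y.Q.v t = q} : ℝ) := by
    intro q hq
    obtain ⟨δ, hδ, hqV, hcone, hxi⟩ := h.st7b_vertex (fun δ hδ => (hZ δ hδ).1) hq
    refine (hc.deg q hqV).trans (mul_le_mul_of_nonneg_left ?_ hk0)
    have e : ∑ δ ∈ W, (#{t ∈ Y.por (J, δ) | Y.Q.u t = q ∨ Y.Q.v t = q} : ℝ) =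
        ∑ x ∈ W.image (fun δ => (J, δ)), (#{t ∈ Y.por x | Y.Q.u t = q ∨ Y.Q.v t = q} : ℝ) := by
      rw [sum_image fun x _ y _ e => (Prod.ext_iff.1 e).2]
    rw [e]
    rw [← Nat.cast_sum, ← Nat.cast_sum, Nat.cast_le]
    refine sum_le_sum_of_ne_zero fun x hx hne => ?_
    obtain ⟨t, ht⟩ : {t ∈ Y.por x | Y.Q.u t = q ∨ Y.Q.v t = q}.Nonempty := card_ne_zero.1 hne
    obtain ⟨ht, htq⟩ := mem_filter.1 ht
    obtain ⟨hxA, hxI, hxΓ⟩ := h.T_sub x hx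
    obtain ⟨t1, t2, -, -, t5, t6, -⟩ := h.ok.por_mem x hxA t ht
    have hc' : Cone (Y.xl x.1) (Y.xh x.1) Y.p q := by
      rcases htq with rfl | rfl
      exacts [t5, t6]
    have hseg : q ∈ Y.Q.seg t := by
      rcases htq with rfl | rfl
      exacts [left_mem_segment _ _ _, right_mem_segment _ _ _]
    have hxJ : x.1 = J := h.ok.ok.sector_eq (mem_range.1 (h.ok.JJ_sub (h.I_sub hxI)))
      (mem_range.1 (h.ok.JJ_sub (h.I_sub hJ))) hc' hcone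
    obtain ⟨J', δ'⟩ := x
    obtain rfl : J' = J := hxJ
    obtain ⟨hs, hxi'⟩ := h.xi_vertex hxΓ hJ t1 t2 hseg hcone
    have d1 := h.disp hc (hZ δ hδ).1 hx (Set.Ioo_subset_Ico_self hs) (hxi.trans hxi'.symm)
    have d2 := h.disp hc hx (hZ δ hδ).1 (Set.Ioo_subset_Ico_self hs) (hxi'.trans hxi.symm)
    have d3 : Y.ad.rk J' δ' - Y.ad.rk J' δ ≤ N := by
      refine Nat.le_floor ?_
      rcases le_total (Y.ad.rk J' δ') (Y.ad.rk J' δ) with h1 | h1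
      · rw [Nat.sub_eq_zero_of_le h1, Nat.cast_zero]; positivity
      · rw [Nat.cast_sub h1]; linarith
    have d4 : Y.ad.rk J' δ - Y.ad.rk J' δ' ≤ N := by
      refine Nat.le_floor ?_
      rcases le_total (Y.ad.rk J' δ) (Y.ad.rk J' δ') with h1 | h1
      · rw [Nat.sub_eq_zero_of_le h1, Nat.cast_zero]; positivity
      · rw [Nat.cast_sub h1]; linarith
    obtain ⟨-, z1, z2⟩ := hZ δ hδ
    refine mem_image.2 ⟨δ', mem_filter.2 ⟨mem_filter.2 ⟨hxΓ, hx⟩, ?_, ?_⟩, rfl⟩ <;> omega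
  have key2 : ∀ δ ∈ W, ∑ q ∈ Y.cv J Z, (#{t ∈ Y.por (J, δ) | Y.Q.u t = q ∨ Y.Q.v t = q} : ℝ) ≤
      2 * Y.e0 := by
    intro δ hδ
    have hT : (J, δ) ∈ Y.T := (mem_filter.1 (mem_filter.1 hδ).1).2
    rw [← h.ok.por_card _ (h.T_sub _ hT).1]
    exact_mod_cast st7b_two_ends _ _ _ _
  calc (#(Y.cv J Z) : ℝ) * Y.d = ∑ q ∈ Y.cv J Z, Y.d := by rw [sum_const, nsmul_eq_mul]
    _ ≤ ∑ q ∈ Y.cv J Z, k * ∑ δ ∈ W, (#{t ∈ Y.por (J, δ) | Y.Q.u t = q ∨ Y.Q.v t = q} : ℝ) :=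
        sum_le_sum key
    _ = k * ∑ δ ∈ W, ∑ q ∈ Y.cv J Z, (#{t ∈ Y.por (J, δ) | Y.Q.u t = q ∨ Y.Q.v t = q} : ℝ) := by
        rw [← mul_sum, sum_comm]
    _ ≤ k * ∑ δ ∈ W, (2 * Y.e0 : ℝ) := mul_le_mul_of_nonneg_left (sum_le_sum key2) hk0
    _ = k * (#W * (2 * Y.e0)) := by rw [sum_const, nsmul_eq_mul]
    _ ≤ k * (12 * k * g * Y.m * (2 * Y.e0)) := by gcongr
    _ = _ := by ring

/-- `cl_edges` for `ces J Z` in `cv J Z`: with `N = #Z`, `U = 24 k² g m e0 / d`, either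
`N e0 ≤ 24 k U`, or `p = 24 k U / (N e0) ≤ 1` gives `N e0 / 8 ≤ p² X` -/
theorem Fan.cell_cube (h : Y.Fan k) (hc : Y.Core k) {J : ℕ} {Z : Finset (ℕ × ℕ)} {a g : ℕ}
    (hg : 1 ≤ g) (hZ : ∀ δ ∈ Z, (J, δ) ∈ Y.T ∧ a ≤ Y.ad.rk J δ ∧ Y.ad.rk J δ < a + g * Y.m) :
    (#Z : ℝ) ^ 3 ≤ (576 * k ^ 3 * g * Y.m / Y.d) ^ 2 * (#Z + 8 / Y.e0 *
      #{x ∈ Y.ces J Z ×ˢ Y.ces J Z | Cross (Y.Q.u x.1) (Y.Q.v x.1) (Y.Q.u x.2) (Y.Q.v x.2)}) := by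
  have hk : 2 ≤ k := h.ok.ok.k2
  have hk0 : (0 : ℝ) < k := by linarith
  have hd : (0 : ℝ) < Y.d := by linarith [h.ok.ok.d1]
  have he := h.st7b_e0_pos
  have hm := h.st7b_m_pos
  have hg' : (0 : ℝ) < g := by exact_mod_cast hg
  have h1 : (#Z : ℝ) * Y.e0 ≤ 4 * #(Y.ces J Z) := by
    exact_mod_cast h.ces_card hc fun δ hδ => (hZ δ hδ).1
  have h2 := h.cv_card hc hg hZ
  have h3 := h.st7b_cl hc fun δ hδ => (hZ δ hδ).1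
  generalize (#{x ∈ Y.ces J Z ×ˢ Y.ces J Z |
    Cross (Y.Q.u x.1) (Y.Q.v x.1) (Y.Q.u x.2) (Y.Q.v x.2)} : ℕ) = X at h3 ⊢
  generalize (#(Y.ces J Z) : ℝ) = E at h1 h3
  generalize (#(Y.cv J Z) : ℝ) = V at h2 h3
  have hN : (0 : ℝ) ≤ #Z := Nat.cast_nonneg _
  generalize (#Z : ℝ) = N at h1 hN ⊢
  have hX : (0 : ℝ) ≤ X := Nat.cast_nonneg _
  set B := 576 * k ^ 3 * g * Y.m / Y.d with hB
  have hB0 : 0 < B := by positivity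
  have hV : 24 * k * V ≤ B * Y.e0 := by
    rw [hB, div_mul_eq_mul_div, le_div_iff₀ hd]
    calc 24 * k * V * Y.d = 24 * k * (V * Y.d) := by ring
      _ ≤ 24 * k * (24 * k ^ 2 * g * Y.m * Y.e0) := by gcongr
      _ = _ := by ring
  rcases le_or_gt N B with hNB | hNB
  · calc N ^ 3 = N ^ 2 * N := by ring
      _ ≤ B ^ 2 * N := by gcongr
      _ ≤ B ^ 2 * (N + 8 / Y.e0 * X) := by
        gcongr
        exact le_add_of_nonneg_right (by positivity)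
  · have hN0 : 0 < N := hB0.trans hNB
    have h4 := h3 (B / N) (by positivity) ((div_le_one hN0).2 hNB.le)
    have h5 : 3 * k * V / (B / N) ≤ N * Y.e0 / 8 := by
      rw [div_le_iff₀ (by positivity)]
      calc 3 * k * V = 24 * k * V / 8 := by ring
        _ ≤ B * Y.e0 / 8 := by gcongr
        _ = _ := by field_simp
    have h6 : N * Y.e0 / 8 ≤ (B / N) ^ 2 * X := by linarith
    calc N ^ 3 = N ^ 2 * (8 / Y.e0) * (N * Y.e0 / 8) := by field_simp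
      _ ≤ N ^ 2 * (8 / Y.e0) * ((B / N) ^ 2 * X) := by gcongr
      _ = B ^ 2 * (8 / Y.e0 * X) := by field_simp
      _ ≤ _ := by
        gcongr
        exact le_add_of_nonneg_left hN

/-- all crossings between edges of a family of pieces -/
theorem Fan.st7b_cross (h : Y.Fan k) {Γ' : Finset (ℕ × ℕ)} (hΓ : Γ' ⊆ Y.Γ) :
    (#{x ∈ {t ∈ Y.Q.E | Y.G.pc Y.c t ∈ Γ'} ×ˢ {t ∈ Y.Q.E | Y.G.pc Y.c t ∈ Γ'} |
      Cross (Y.Q.u x.1) (Y.Q.v x.1) (Y.Q.u x.2) (Y.Q.v x.2)} : ℝ) ≤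
      (#Γ' : ℝ) ^ 2 + #Γ' * (k * Y.b ^ 2 * Y.M) := by
  set S := {t ∈ Y.Q.E | Y.G.pc Y.c t ∈ Γ'} with hS
  have hlt : ∀ t ∈ S, t < 2 ^ Y.Q.μ := fun t ht => mem_range.1 (mem_filter.1 ht).1
  have h1 := Y.G.cb_all (c := Y.c) (jf := 0) (Nat.zero_le Y.jT) h.ok.ok.jT_le h.ok.c_lev
    (S.image fun t => (t, t)) (fun a ha => by
      obtain ⟨t, ht, rfl⟩ := mem_image.1 ha
      exact Y.G.isArc_edge _ _ (hlt t ht)) (fun a ha a' ha' hne => by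
      obtain ⟨t, ht, rfl⟩ := mem_image.1 ha
      obtain ⟨t', ht', rfl⟩ := mem_image.1 ha'
      exact Y.G.disj_edge (hlt t ht) (hlt t' ht') fun e => hne (by rw [e])) Γ' (fun a ha => by
      obtain ⟨t, ht, rfl⟩ := mem_image.1 ha
      exact (mem_filter.1 ht).2)
  have h2 : ∑ γ ∈ Γ', Y.G.Lam Y.c Y.jT γ ≤ #Γ' * (k * Y.b ^ 2 * Y.M) := by
    rw [← nsmul_eq_mul]
    exact sum_le_card_nsmul _ _ _ fun γ hγ => h.ok.lam_le γ (h.Γ_sub (hΓ hγ))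
  rw [pow_zero, sub_self, zero_mul, add_zero] at h1
  refine le_trans ?_ (h1.trans (by linarith))
  rw [Nat.cast_le]
  refine card_le_card_of_injOn (fun x => ((x.1, x.1), (x.2, x.2))) (fun x hx => ?_)
    fun x _ y _ e => ?_
  · obtain ⟨hx, hcr⟩ := mem_filter.1 (mem_coe.1 hx)
    exact mem_coe.2 (mem_filter.2 ⟨mem_product.2 ⟨mem_image_of_mem _ (mem_product.1 hx).1,
      mem_image_of_mem _ (mem_product.1 hx).2⟩, hcr⟩)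
  · simp only [Prod.mk.injEq] at e
    exact Prod.ext e.1.1 e.2.1

/-- Sum `cell_cube` over `(J, q)`.  The edge sets are disjoint (`sector_eq`), so the crossing pairs
are at most `#Γ'² + #Γ' k b² M` (`cb_all` with `jf = 0` for the arcs `(t, t)`, `lam_le`);
`b² M ≤ m / L`, `m ≤ 2 k e0 d²` (`e0_lo`, `M = ell d²`), `∑ N ≤ L #Γ'`, `L ≤ d`. -/
theorem p5 : ∃ C : ℕ, ∀ (Y : Dat6) (k : ℝ), Y.Fan k → Y.Core k → ∀ g : ℕ, 1 ≤ g → ∀ Γ' ⊆ Y.ad.Γ,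
    ∑ i ∈ Y.ad.I, ∑ q ∈ range (#Y.ad.Γ + 1),
      (#{δ ∈ Γ' | (i, δ) ∈ Y.ad.T ∧ Y.ad.rk i δ / (g * Y.ad.m) = q} : ℝ) ^ 3 ≤
      k ^ C * g ^ 2 * #Γ' * (#Γ' + Y.ad.m / Y.ad.L) * Y.ad.m := by
  refine ⟨31, fun Y k h hc g hg Γ' hΓ => ?_⟩
  have hk : 2 ≤ k := h.ok.ok.k2
  have hk0 : (0 : ℝ) < k := by linarith
  have hd : (0 : ℝ) < Y.d := by linarith [h.ok.ok.d1]
  have he := h.st7b_e0_pos
  have hm := h.st7b_m_pos
  have hL1 := h.ok.ok.L1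
  have hL : 0 < Y.L := by linarith
  have hM := h.ok.ok.M_pos
  have hb := h.ok.ok.b_pos
  have hgm : 0 < g * Y.m := Nat.mul_pos hg (by exact_mod_cast hm)
  set Z : ℕ → ℕ → Finset (ℕ × ℕ) := fun i q =>
    {δ ∈ Γ' | (i, δ) ∈ Y.ad.T ∧ Y.ad.rk i δ / (g * Y.ad.m) = q} with hZ
  have hZT : ∀ i q, ∀ δ ∈ Z i q, (i, δ) ∈ Y.T := fun i q δ hδ => (mem_filter.1 hδ).2.1
  set X : ℕ → ℕ → Finset (ℕ × ℕ) := fun i q => {x ∈ Y.ces i (Z i q) ×ˢ Y.ces i (Z i q) |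
    Cross (Y.Q.u x.1) (Y.Q.v x.1) (Y.Q.u x.2) (Y.Q.v x.2)} with hX
  set B := 576 * k ^ 3 * g * Y.m / Y.d with hB
  have h1 : ∀ i q, (#(Z i q) : ℝ) ^ 3 ≤ B ^ 2 * (#(Z i q) + 8 / Y.e0 * #(X i q)) := by
    intro i q
    refine h.cell_cube hc (a := q * (g * Y.m)) hg fun δ hδ => ⟨hZT i q δ hδ, ?_, ?_⟩
    · have e : Y.ad.rk i δ / (g * Y.m) = q := (mem_filter.1 hδ).2.2
      rw [← e]
      exact Nat.div_mul_le_self _ _
    · have e : Y.ad.rk i δ / (g * Y.m) = q := (mem_filter.1 hδ).2.2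
      rw [← e]
      exact Nat.lt_div_mul_add hgm
  have h2 : ∀ i, ∑ q ∈ range (#Y.ad.Γ + 1), (#(Z i q) : ℝ) ≤ #Γ' := by
    intro i
    rw [← Nat.cast_sum, Nat.cast_le]
    have e : ∀ q, Z i q = {δ ∈ {δ ∈ Γ' | (i, δ) ∈ Y.ad.T} | Y.ad.rk i δ / (g * Y.ad.m) = q} :=
      fun q => by rw [filter_filter]
    simp only [e]
    rw [sum_card_fiberwise_eq_card_filter]
    exact (card_filter_le _ _).trans (card_filter_le _ _)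
  have h3 : ∑ i ∈ Y.ad.I, ∑ q ∈ range (#Y.ad.Γ + 1), (#(X i q) : ℝ) ≤
      (#Γ' : ℝ) ^ 2 + #Γ' * (k * Y.b ^ 2 * Y.M) := by
    refine le_trans ?_ (h.st7b_cross hΓ)
    rw [← sum_product', ← Nat.cast_sum, Nat.cast_le, ← card_biUnion]
    · refine card_le_card fun x hx => ?_
      obtain ⟨z, -, hx⟩ := mem_biUnion.1 hx
      obtain ⟨hx, hcr⟩ := mem_filter.1 hx
      obtain ⟨hx1, hx2⟩ := mem_product.1 hx
      obtain ⟨a1, a2, -⟩ := h.st7b_mem (hZT _ _) hx1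
      obtain ⟨b1, b2, -⟩ := h.st7b_mem (hZT _ _) hx2
      exact mem_filter.2 ⟨mem_product.2 ⟨mem_filter.2 ⟨mem_range.2 a1, (mem_filter.1 a2).1⟩,
        mem_filter.2 ⟨mem_range.2 b1, (mem_filter.1 b2).1⟩⟩, hcr⟩
    · rintro ⟨i, q⟩ hz ⟨i', q'⟩ hz' hne
      rw [Function.onFun, Finset.disjoint_left]
      intro x hx hx'
      obtain ⟨-, a2, -, -, a5, -⟩ := h.st7b_mem (hZT _ _) (mem_product.1 (mem_filter.1 hx).1).1
      obtain ⟨-, b2, -, -, b5, -⟩ := h.st7b_mem (hZT _ _) (mem_product.1 (mem_filter.1 hx').1).1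
      have hi : i ∈ Y.I := (mem_product.1 (mem_coe.1 hz)).1
      have hi' : i' ∈ Y.I := (mem_product.1 (mem_coe.1 hz')).1
      obtain rfl : i = i' := h.ok.ok.sector_eq (mem_range.1 (h.ok.JJ_sub (h.I_sub hi)))
        (mem_range.1 (h.ok.JJ_sub (h.I_sub hi'))) a5 b5
      exact hne (Prod.ext rfl ((mem_filter.1 a2).2.2.symm.trans (mem_filter.1 b2).2.2))
  have hG : (0 : ℝ) ≤ #Γ' := Nat.cast_nonneg _
  have hI : (#Y.ad.I : ℝ) ≤ Y.L := h.I_card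
  have h4 : ∑ i ∈ Y.ad.I, ∑ q ∈ range (#Y.ad.Γ + 1), (#(Z i q) : ℝ) ≤ Y.L * #Γ' :=
    calc _ ≤ ∑ i ∈ Y.ad.I, (#Γ' : ℝ) := sum_le_sum fun i _ => h2 i
      _ = #Y.ad.I * #Γ' := by rw [sum_const, nsmul_eq_mul]
      _ ≤ _ := by gcongr
  have hLd : Y.L ≤ Y.d := by
    have : (1 : ℝ) ≤ Y.D0 := by exact_mod_cast h.ok.ok.D0_pos
    rw [← h.ok.ok.hL]
    exact le_mul_of_one_le_right hL.le this
  have hme : (Y.m : ℝ) ≤ 2 * k * Y.e0 * Y.d ^ 2 := by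
    refine h.m_bounds.2.1.trans ?_
    have e : Y.M = Y.ell * Y.d ^ 2 := by
      simp only [Dat.M, Dat.ell, h.ok.ok.n_eq]
      ring
    rw [e, ← mul_div_assoc, div_le_iff₀ hL]
    calc 2 * (Y.ell * Y.d ^ 2) ≤ 2 * (k * Y.L * Y.e0 * Y.d ^ 2) := by gcongr; exact h.ok.e0_lo
      _ = _ := by ring
  have hbM : Y.b ^ 2 * Y.M ≤ Y.m / Y.L := by
    have h5 : Y.b * Y.L ≤ 1 := by
      rw [h.ok.ok.b_L]
      exact inv_le_one_of_one_le₀ (one_le_pow₀ h.ok.ok.lam1)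
    rw [le_div_iff₀ hL]
    refine le_trans ?_ h.m_bounds.1
    rw [le_div_iff₀ hL]
    calc Y.b ^ 2 * Y.M * Y.L * Y.L = (Y.b * Y.L) ^ 2 * Y.M := by ring
      _ ≤ 1 ^ 2 * Y.M := by gcongr
      _ = _ := by ring
  have hr : 0 < Y.m / Y.L := by positivity
  have a1 : Y.m / Y.d ^ 2 * Y.L ≤ Y.m / Y.L := by
    rw [div_mul_eq_mul_div, div_le_div_iff₀ (by positivity) hL]
    calc Y.m * Y.L * Y.L = Y.m * Y.L ^ 2 := by ring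
      _ ≤ _ := by gcongr
  have a2 : Y.m / Y.d ^ 2 * (8 / Y.e0) ≤ 16 * k := by
    rw [div_mul_div_comm, div_le_iff₀ (by positivity)]
    linarith
  have hfin : ∑ i ∈ Y.ad.I, ∑ q ∈ range (#Y.ad.Γ + 1), (#(Z i q) : ℝ) ^ 3 ≤
      k ^ 31 * g ^ 2 * #Γ' * (#Γ' + Y.m / Y.L) * Y.m := by
    have a3 : Y.m / Y.L + 16 * k * (#Γ' + k * (Y.m / Y.L)) ≤ 17 * k ^ 2 * (#Γ' + Y.m / Y.L) := by
      have b1 : 1 ≤ k ^ 2 := one_le_pow₀ (by linarith)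
      have b2 : 16 * k ≤ 17 * k ^ 2 := by nlinarith
      have b3 := mul_le_mul_of_nonneg_right b1 hr.le
      have b4 := mul_le_mul_of_nonneg_right b2 hG
      nlinarith
    have a4 : (576 : ℝ) ^ 2 * 17 ≤ k ^ 23 :=
      le_trans (by norm_num) (pow_le_pow_left₀ (by norm_num) hk 23)
    calc _ ≤ ∑ i ∈ Y.ad.I, ∑ q ∈ range (#Y.ad.Γ + 1),
            B ^ 2 * (#(Z i q) + 8 / Y.e0 * #(X i q)) :=
          sum_le_sum fun i _ => sum_le_sum fun q _ => h1 i q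
      _ = B ^ 2 * (∑ i ∈ Y.ad.I, ∑ q ∈ range (#Y.ad.Γ + 1), (#(Z i q) : ℝ) +
            8 / Y.e0 * ∑ i ∈ Y.ad.I, ∑ q ∈ range (#Y.ad.Γ + 1), (#(X i q) : ℝ)) := by
          simp only [mul_sum, ← sum_add_distrib]
      _ ≤ B ^ 2 * (Y.L * #Γ' + 8 / Y.e0 * ((#Γ' : ℝ) ^ 2 + #Γ' * (k * Y.b ^ 2 * Y.M))) := by
          gcongr
      _ = 576 ^ 2 * k ^ 6 * g ^ 2 * #Γ' * Y.m * (Y.m / Y.d ^ 2 * Y.L +
            Y.m / Y.d ^ 2 * (8 / Y.e0) * (#Γ' + k * (Y.b ^ 2 * Y.M))) := by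
          rw [hB]
          ring
      _ ≤ 576 ^ 2 * k ^ 6 * g ^ 2 * #Γ' * Y.m * (Y.m / Y.L +
            16 * k * (#Γ' + k * (Y.m / Y.L))) := by
          gcongr
      _ ≤ 576 ^ 2 * k ^ 6 * g ^ 2 * #Γ' * Y.m * (17 * k ^ 2 * (#Γ' + Y.m / Y.L)) := by
          gcongr
      _ = 576 ^ 2 * 17 * (k ^ 8 * g ^ 2 * #Γ' * (#Γ' + Y.m / Y.L) * Y.m) := by ring
      _ ≤ k ^ 23 * (k ^ 8 * g ^ 2 * #Γ' * (#Γ' + Y.m / Y.L) * Y.m) := by gcongr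
      _ = _ := by ring
  exact hfin

end Dat6

end Crest.Agent.R051
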